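import Crest.Agent.R309.Metro

/-!
# Row 302: annealing with learned class weights, for an abstract family of Metropolis chains
-/

set_option autoImplicit false
set_option linter.unusedSectionVars false

namespace Crest.Agent.R302

open Finset Crest.Agent.R309

/-- The data of the annealing scheme. -/
structure AData (X : Type) where
  w : ℕ → X → ℚ
  cl : X → ℕ
  nC : ℕ
  prop : List Bool → X
  Bp : ℕ
  ba : ℕ
  init : List Bool → X
  Bi : ℕ
  Ls : ℕ
  Tn : ℕ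
  Rs : ℕ
  C0 : ℚ

namespace AData

variable {X : Type} [AddCommGroup X] [DecidableEq X] (A : AData X)

/-- The target weight at stage `j` with class weights `t`. -/
def W (j : ℕ) (t : List ℚ) (x : X) : ℚ := A.w j x * t.getD (A.cl x) 0
/-- Bits for a step. -/
def Bs : ℕ := 1 + A.Bp + A.ba
/-- Bits for a sample. -/
def Bsamp : ℕ := A.Bi + (A.Ls + 1) * (A.Tn * A.Bs)
/-- Bits for a stage. -/
def Bstage : ℕ := A.Rs * A.Bsamp
/-- Bits for the estimator. -/
def Btot : ℕ := A.Ls * A.Bstage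

/-- The chain of stage `j` run for `Tn` steps. -/
def run (j : ℕ) (t : List ℚ) (x : X) (u : List Bool) : X :=
  foldT (mstep (A.W j t) A.prop A.Bp A.ba) A.Bs A.Tn x u

/-- A sample: run the chains of the stages `0, …, ts.length - 1` one after the other. -/
def samp (ts : List (List ℚ)) (u : List Bool) : X :=
  (foldT (fun s v => (s.1 + 1, A.run s.1 (ts.getD s.1 []) s.2 v)) (A.Tn * A.Bs) ts.length
    (0, A.init (u.take A.Bi)) (u.drop A.Bi)).2

/-- Number of samples in a class. -/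
def cnt (xs : List X) (c : ℕ) : ℕ := xs.countP fun x => decide (A.cl x = c)

/-- The update of the tables and of the estimate from a list of samples. -/
def upd (s : List (List ℚ) × ℚ) (xs : List X) : List (List ℚ) × ℚ :=
  (s.1 ++ [(List.range A.nC).map fun c =>
      (s.1.getD (s.1.length - 1) []).getD c 0 * A.cnt xs 0 / A.cnt xs c],
    s.2 * (xs.map fun x =>
      if A.cl x = 0 then A.w s.1.length x / A.w (s.1.length - 1) x else 0).sum / A.cnt xs 0)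

/-- One stage of the annealing. -/
def stage (s : List (List ℚ) × ℚ) (u : List Bool) : List (List ℚ) × ℚ :=
  A.upd s (draws (A.samp s.1) A.Bsamp A.Rs u)

/-- The estimator. -/
def est (u : List Bool) : ℚ :=
  (foldT A.stage A.Bstage A.Ls ([List.replicate A.nC 1], A.C0) u).2

/-- Mass of a class. -/
noncomputable def Zc (Ω : Finset X) (j c : ℕ) : ℝ :=
  ∑ x ∈ Ω.filter fun x => A.cl x = c, (A.w j x : ℝ)

/-- The class weights are within a factor `4` of the ideal ones. -/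
def Good (Ω : Finset X) (act : Finset ℕ) (j : ℕ) (t : List ℚ) : Prop :=
  t.getD 0 0 = 1 ∧ ∀ c ∈ act,
    A.Zc Ω j 0 / 4 ≤ t.getD c 0 * A.Zc Ω j c ∧ t.getD c 0 * A.Zc Ω j c ≤ 4 * A.Zc Ω j 0

/-- The hypotheses of the analysis. -/
structure Ok (Ω : Finset X) (act : Finset ℕ) (K η M δ θ ε : ℝ) : Prop where
  pos : ∀ j ≤ A.Ls, ∀ x ∈ Ω, 0 < A.w j x
  zero : ∀ j, ∀ x ∉ Ω, A.w j x = 0
  cl_mem : ∀ x ∈ Ω, A.cl x ∈ act
  act_lt : ∀ c ∈ act, c < A.nC
  zero_mem : 0 ∈ act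
  Zpos : ∀ c ∈ act, ∃ x ∈ Ω, A.cl x = c
  ratio : ∀ j < A.Ls, ∀ x ∈ Ω, A.w j x ≤ 2 * A.w (j + 1) x ∧ A.w (j + 1) x ≤ A.w j x
  symm : ∀ H : X → ℝ, Ex A.Bp (fun u => H (A.prop u)) = Ex A.Bp fun u => H (-A.prop u)
  weak : ∀ j ≤ A.Ls, ∀ t, A.Good Ω act j t → WeakP (A.W j t) Ω A.prop A.Bp K η
  init_mem : ∀ u, A.init u ∈ Ω
  good0 : A.Good Ω act 0 (List.replicate A.nC 1)
  warm : ∀ y ∈ Ω, Pr A.Bi (fun u => A.init u = y) * ∑ x ∈ Ω, (A.w 0 x : ℝ) ≤ M * A.w 0 y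
  C0 : 0 ≤ A.C0
  K1 : 1 ≤ K
  η0 : 0 < η
  M1 : 1024 ≤ M
  hT : 4 * K ≤ η * A.Tn
  δ0 : 0 ≤ δ
  hδ : 2 * η * M ^ 2 ≤ δ ^ 2
  θ0 : 0 < θ
  hθ : (A.Ls + 1) * (δ + A.Tn / 2 ^ A.ba) ≤ θ
  Rs0 : 0 < A.Rs
  hR : A.Ls * ((A.nC + 1) / (A.Rs * θ ^ 2)) ≤ 1 / 32
  hε : 400 * (A.Ls + 1) * A.nC * θ ≤ ε
  ε1 : ε ≤ 1 / 10

variable {A}

theorem est_nonneg (hw : ∀ j x, 0 ≤ A.w j x) (hC : 0 ≤ A.C0) (u : List Bool) : 0 ≤ A.est u := by
  unfold est
  refine foldT_inv (step := A.stage) (fun _ s => 0 ≤ s.2) hC ?_ _ _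
  intro i s v hs
  unfold stage upd
  refine div_nonneg (mul_nonneg hs (List.sum_nonneg ?_)) (by positivity)
  intro a ha
  obtain ⟨x, _, rfl⟩ := List.mem_map.1 ha
  split_ifs
  · exact div_nonneg (hw _ x) (hw _ x)
  · exact le_rfl

/-- Quotient of two approximations. -/
theorem ratio_bounds {a b p q δ : ℝ} (hp : 0 < p) (hq : 0 < q) (hδ0 : 0 ≤ δ) (hδ : δ ≤ 1 / 10)
    (ha : |a - p| ≤ δ * p) (hb : |b - q| ≤ δ * q) :
    (1 - 3 * δ) * (p / q) ≤ a / b ∧ a / b ≤ (1 + 3 * δ) * (p / q) := by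
  obtain ⟨ha1, ha2⟩ := abs_le.1 ha
  obtain ⟨hb1, hb2⟩ := abs_le.1 hb
  have hb0 : 0 < b := by nlinarith
  have hpq : 0 < p * q := mul_pos hp hq
  constructor
  · rw [← mul_div_assoc, div_le_div_iff₀ hq hb0]
    have h1 : (1 - 3 * δ) * p * b ≤ (1 - 3 * δ) * p * ((1 + δ) * q) :=
      mul_le_mul_of_nonneg_left (by linarith) (by nlinarith)
    have h2 : (1 - δ) * p * q ≤ a * q := mul_le_mul_of_nonneg_right (by linarith) hq.le
    nlinarith [mul_nonneg hδ0 hpq.le, mul_nonneg (mul_nonneg hδ0 hδ0) hpq.le]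
  · rw [← mul_div_assoc, div_le_div_iff₀ hb0 hq]
    have h1 : (1 + 3 * δ) * p * ((1 - δ) * q) ≤ (1 + 3 * δ) * p * b :=
      mul_le_mul_of_nonneg_left (by linarith) (by nlinarith)
    have h2 : a * q ≤ (1 + δ) * p * q := mul_le_mul_of_nonneg_right (by linarith) hq.le
    have h3 : 0 ≤ δ * (1 - 3 * δ) * (p * q) :=
      mul_nonneg (mul_nonneg hδ0 (by linarith)) hpq.le
    nlinarith

variable (A) in
/-- Total weight. -/
noncomputable def tot (Ω : Finset X) (j : ℕ) (t : List ℚ) : ℝ := ∑ x ∈ Ω, (A.W j t x : ℝ)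

variable (A) in
/-- Expectation under the target of stage `j`. -/
noncomputable def pi (Ω : Finset X) (j : ℕ) (t : List ℚ) (F : X → ℝ) : ℝ :=
  (∑ x ∈ Ω, (A.W j t x : ℝ) * F x) / A.tot Ω j t

variable (A) in
/-- Indicator of a class. -/
noncomputable def chi (c : ℕ) (x : X) : ℝ := if A.cl x = c then 1 else 0

variable (A) in
/-- The ratio of consecutive weights on the class `0`. -/
noncomputable def rho (j : ℕ) (x : X) : ℝ :=
  if A.cl x = 0 then (A.w (j + 1) x : ℝ) / A.w j x else 0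

variable (A) in
/-- The state after `j` stages of a sample. -/
def st (ts : List (List ℚ)) (j : ℕ) (x : X) (v : List Bool) : ℕ × X :=
  foldT (fun s v => (s.1 + 1, A.run s.1 (ts.getD s.1 []) s.2 v)) (A.Tn * A.Bs) j (0, x) v

theorem Ex_st (ts : List (List ℚ)) {j n : ℕ} (hn : (j + 1) * (A.Tn * A.Bs) ≤ n) (x : X)
    (F : X → ℝ) : Ex n (fun v => F (A.st ts (j + 1) x v).2) = Ex n fun v =>
      (Kop (mstep (A.W j (ts.getD j [])) A.prop A.Bp A.ba) A.Bs)^[A.Tn] F (A.st ts j x v).2 := by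
  refine (Ex_foldT_succ _ hn _ fun s : ℕ × X => F s.2).trans (Ex_congr fun v _ => ?_)
  have h1 : (A.st ts j x v).1 = j := foldT_inv (fun i (s : ℕ × X) => s.1 = i) rfl
    (fun i s u hs => congrArg (· + 1) hs) j v
  refine Eq.trans ?_ (Ex_foldT _ le_rfl _ F)
  change Ex _ (fun u => F (A.run (A.st ts j x v).1 (ts.getD (A.st ts j x v).1 []) _ u)) = _
  rw [h1]
  rfl

omit [AddCommGroup X] [DecidableEq X] in
theorem chi_mem (c : ℕ) (x : X) : 0 ≤ A.chi c x ∧ A.chi c x ≤ 1 := by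
  unfold chi; split_ifs <;> norm_num

omit [AddCommGroup X] [DecidableEq X] in
theorem cnt_eq (xs : List X) (c : ℕ) : (A.cnt xs c : ℝ) = (xs.map (A.chi c)).sum := by
  unfold cnt
  induction xs with
  | nil => simp
  | cons x xs ih =>
    rw [List.countP_cons, List.map_cons, List.sum_cons, Nat.cast_add, ih, add_comm]
    unfold chi
    by_cases hx : A.cl x = c <;> simp [hx]

omit [AddCommGroup X] [DecidableEq X] in
theorem sum_rho_eq (xs : List X) (j : ℕ) :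
    (((xs.map fun x => if A.cl x = 0 then A.w (j + 1) x / A.w j x else 0).sum : ℚ) : ℝ) =
      (xs.map (A.rho j)).sum := by
  induction xs with
  | nil => simp
  | cons x xs ih =>
    rw [List.map_cons, List.sum_cons, List.map_cons, List.sum_cons, Rat.cast_add, ih]
    unfold rho
    by_cases hx : A.cl x = 0 <;> simp [hx]

omit [AddCommGroup X] [DecidableEq X] in
theorem sum_chi (Ω : Finset X) (j : ℕ) (t : List ℚ) (c : ℕ) :
    ∑ x ∈ Ω, (A.W j t x : ℝ) * A.chi c x = t.getD c 0 * A.Zc Ω j c := by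
  unfold Zc chi W
  rw [sum_filter, mul_sum]
  refine sum_congr rfl fun x _ => ?_
  by_cases hx : A.cl x = c
  · simp only [hx, if_true]; push_cast; ring
  · simp [hx]

section ok

variable {Ω : Finset X} {act : Finset ℕ} {K η M δ θ ε : ℝ}

theorem Ok.w_pos (h : A.Ok Ω act K η M δ θ ε) {j : ℕ} (hj : j ≤ A.Ls) {x : X} (hx : x ∈ Ω) :
    (0 : ℝ) < A.w j x := by exact_mod_cast h.pos j hj x hx

theorem Ok.Zc_pos (h : A.Ok Ω act K η M δ θ ε) {j : ℕ} (hj : j ≤ A.Ls) {c : ℕ} (hc : c ∈ act) :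
    0 < A.Zc Ω j c := by
  obtain ⟨x, hx, hxc⟩ := h.Zpos c hc
  exact sum_pos (fun y hy => h.w_pos hj (mem_filter.1 hy).1) ⟨x, mem_filter.2 ⟨hx, hxc⟩⟩

theorem Ok.Zc_succ (h : A.Ok Ω act K η M δ θ ε) {j : ℕ} (hj : j < A.Ls) (c : ℕ) :
    A.Zc Ω j c ≤ 2 * A.Zc Ω (j + 1) c ∧ A.Zc Ω (j + 1) c ≤ A.Zc Ω j c := by
  unfold Zc
  rw [mul_sum]
  constructor
  · refine sum_le_sum fun x hx => ?_
    exact_mod_cast (h.ratio j hj x (mem_filter.1 hx).1).1
  · refine sum_le_sum fun x hx => ?_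
    exact_mod_cast (h.ratio j hj x (mem_filter.1 hx).1).2

theorem Ok.nC_pos (h : A.Ok Ω act K η M δ θ ε) : 0 < A.nC := h.act_lt 0 h.zero_mem

theorem Ok.card_le (h : A.Ok Ω act K η M δ θ ε) : act.card ≤ A.nC := by
  have : act ⊆ range A.nC := fun c hc => mem_range.2 (h.act_lt c hc)
  simpa using card_le_card this

theorem Ok.t_pos (h : A.Ok Ω act K η M δ θ ε) {j : ℕ} (hj : j ≤ A.Ls) {t : List ℚ}
    (ht : A.Good Ω act j t) {c : ℕ} (hc : c ∈ act) : (0 : ℝ) < t.getD c 0 := by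
  have h1 := (ht.2 c hc).1
  have h2 := h.Zc_pos hj h.zero_mem
  exact (mul_pos_iff_of_pos_right (h.Zc_pos hj hc)).1 (by linarith)

theorem Ok.W_pos (h : A.Ok Ω act K η M δ θ ε) {j : ℕ} (hj : j ≤ A.Ls) {t : List ℚ}
    (ht : A.Good Ω act j t) {x : X} (hx : x ∈ Ω) : 0 < A.W j t x := by
  refine mul_pos (h.pos j hj x hx) ?_
  exact_mod_cast h.t_pos hj ht (h.cl_mem x hx)

theorem Ok.W_zero (h : A.Ok Ω act K η M δ θ ε) (j : ℕ) (t : List ℚ) {x : X} (hx : x ∉ Ω) :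
    A.W j t x = 0 := by
  unfold W
  rw [h.zero j x hx, zero_mul]

theorem Ok.tot_eq (h : A.Ok Ω act K η M δ θ ε) (j : ℕ) (t : List ℚ) :
    A.tot Ω j t = ∑ c ∈ act, (t.getD c 0 : ℝ) * A.Zc Ω j c := by
  simp only [← sum_chi]
  rw [sum_comm]
  refine sum_congr rfl fun x hx => ?_
  rw [← mul_sum]
  unfold chi
  rw [sum_ite_eq, if_pos (h.cl_mem x hx), mul_one]

theorem Ok.tot_bounds (h : A.Ok Ω act K η M δ θ ε) {j : ℕ} {t : List ℚ}
    (ht : A.Good Ω act j t) :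
    act.card * (A.Zc Ω j 0 / 4) ≤ A.tot Ω j t ∧ A.tot Ω j t ≤ act.card * (4 * A.Zc Ω j 0) := by
  rw [h.tot_eq, ← nsmul_eq_mul, ← nsmul_eq_mul, ← sum_const, ← sum_const]
  exact ⟨sum_le_sum fun c hc => (ht.2 c hc).1, sum_le_sum fun c hc => (ht.2 c hc).2⟩

theorem Ok.card_pos (h : A.Ok Ω act K η M δ θ ε) : (0 : ℝ) < act.card := by
  exact_mod_cast Finset.card_pos.2 ⟨0, h.zero_mem⟩

theorem Ok.tot_pos (h : A.Ok Ω act K η M δ θ ε) {j : ℕ} (hj : j ≤ A.Ls) {t : List ℚ}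
    (ht : A.Good Ω act j t) : 0 < A.tot Ω j t := by
  have h1 := h.card_pos
  have h2 := h.Zc_pos hj h.zero_mem
  exact lt_of_lt_of_le (by positivity) (h.tot_bounds ht).1

/-- Warm start between consecutive stages. -/
theorem Ok.warm_succ (h : A.Ok Ω act K η M δ θ ε) {j : ℕ} (hj : j < A.Ls) {t t' : List ℚ}
    (ht : A.Good Ω act j t) (ht' : A.Good Ω act (j + 1) t') {x : X} (hx : x ∈ Ω) :
    (A.W j t x : ℝ) / A.tot Ω j t * A.tot Ω (j + 1) t' ≤ M * A.W (j + 1) t' x := by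
  have hc := h.cl_mem x hx
  have hT := h.tot_pos hj.le ht
  have hT' := h.tot_pos hj ht'
  have hN := h.card_pos
  have h1 := (h.tot_bounds ht).1
  have h2 := (h.tot_bounds ht').2
  have h3 := (ht.2 _ hc).2
  have h4 := (ht'.2 _ hc).1
  have h5 := (h.Zc_succ hj (A.cl x)).2
  have h6 : (A.w j x : ℝ) ≤ 2 * A.w (j + 1) x := by exact_mod_cast (h.ratio j hj x hx).1
  have h7 := h.w_pos hj.le hx
  have h8 := h.w_pos hj hx
  have h9 := h.t_pos hj.le ht hc
  have h10 := h.t_pos hj ht' hc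
  have h11 := h.Zc_pos hj.le hc
  have h12 := h.Zc_pos hj.le h.zero_mem
  have h13 := h.Zc_pos hj h.zero_mem
  have hM := h.M1
  unfold W
  push_cast
  generalize (t.getD (A.cl x) 0 : ℝ) = a at *
  generalize (t'.getD (A.cl x) 0 : ℝ) = a' at *
  generalize A.tot Ω j t = T at *
  generalize A.tot Ω (j + 1) t' = T' at *
  generalize (A.w j x : ℝ) = w at *
  generalize (A.w (j + 1) x : ℝ) = w' at *
  generalize A.Zc Ω j 0 = Z at *
  generalize A.Zc Ω (j + 1) 0 = Z' at *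
  generalize A.Zc Ω j (A.cl x) = Y at *
  generalize A.Zc Ω (j + 1) (A.cl x) = Y' at *
  generalize (act.card : ℝ) = N at *
  -- `a * T' ≤ 256 * a' * T`
  have k1 : Z' ≤ 4 * (a' * Y) := by nlinarith
  have k2 : a * T' ≤ 256 * a' * T := by
    refine le_of_mul_le_mul_right ?_ h11
    calc a * T' * Y = (a * Y) * T' := by ring
      _ ≤ (4 * Z) * (N * (4 * Z')) := by
          exact mul_le_mul h3 h2 hT'.le (by positivity)
      _ = 64 * (N * (Z / 4)) * Z' := by ring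
      _ ≤ 64 * T * (4 * (a' * Y)) := by gcongr
      _ = 256 * a' * T * Y := by ring
  rw [div_mul_eq_mul_div, div_le_iff₀ hT]
  calc w * a * T' = w * (a * T') := by ring
    _ ≤ (2 * w') * (256 * a' * T) := by
        exact mul_le_mul h6 k2 (by positivity) (by positivity)
    _ = 512 * (w' * a' * T) := by ring
    _ ≤ M * (w' * a' * T) := by gcongr; linarith
    _ = _ := by ring

/-- One stage from a warm start. -/
theorem Ok.stage_mix (h : A.Ok Ω act K η M δ θ ε) {j : ℕ} (hj : j ≤ A.Ls) {t : List ℚ}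
    (ht : A.Good Ω act j t) {μ : X → ℝ} (hμ0 : ∀ x ∈ Ω, 0 ≤ μ x)
    (hμM : ∀ x ∈ Ω, μ x * A.tot Ω j t ≤ M * A.W j t x) (hμ1 : ∑ x ∈ Ω, μ x = 1)
    (F : X → ℝ) (hF : ∀ x, 0 ≤ F x ∧ F x ≤ 1) :
    |∑ x ∈ Ω, μ x * (Kop (mstep (A.W j t) A.prop A.Bp A.ba) A.Bs)^[A.Tn] F x - A.pi Ω j t F| ≤
      δ + A.Tn / 2 ^ A.ba :=
  metro_mix (fun _ hx => h.W_pos hj ht hx) (fun _ hx => h.W_zero j t hx) h.symm h.K1 h.η0
    (h.weak j hj t ht) hμ0 hμM hμ1 h.hT h.δ0 h.hδ F hF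

theorem Ok.W_zero_eq (h : A.Ok Ω act K η M δ θ ε) {x : X} (hx : x ∈ Ω) :
    A.W 0 (List.replicate A.nC 1) x = A.w 0 x := by
  unfold W
  rw [List.getD_eq_getElem _ _ (by simpa using h.act_lt _ (h.cl_mem x hx)),
    List.getElem_replicate, mul_one]

theorem Ok.close (h : A.Ok Ω act K η M δ θ ε) (ts : List (List ℚ)) {n : ℕ} (j : ℕ)
    (hj : j ≤ A.Ls) (hn : (j + 1) * (A.Tn * A.Bs) ≤ n)
    (h0 : ts.getD 0 [] = List.replicate A.nC 1)
    (hts : ∀ k, k ≤ j → A.Good Ω act k (ts.getD k []))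
    (F : X → ℝ) (hF : ∀ x, 0 ≤ F x ∧ F x ≤ 1) :
    |Ex A.Bi (fun u => Ex n fun v => F (A.st ts (j + 1) (A.init u) v).2) -
        A.pi Ω j (ts.getD j []) F| ≤ (j + 1) * (δ + A.Tn / 2 ^ A.ba) := by
  induction j generalizing F with
  | zero =>
    simp only [Ex_st ts hn]
    simp only [st, foldT_zero, Ex_const, Nat.cast_zero, zero_add, one_mul]
    rw [Ex_law Ω fun u _ => h.init_mem u]
    refine h.stage_mix hj (hts 0 le_rfl) (fun _ _ => Pr_nonneg _ _) (fun x hx => ?_) ?_ F hF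
    · rw [h0, h.W_zero_eq hx]
      unfold tot
      rw [sum_congr rfl fun y hy => by rw [h.W_zero_eq hy]]
      exact h.warm x hx
    · simpa using (Ex_law Ω (n := A.Bi) (fun u _ => h.init_mem u) fun _ => 1).symm
  | succ j ih =>
    have g0 := hts j (Nat.le_succ j)
    have g1 := hts (j + 1) le_rfl
    have hT := h.tot_pos (Nat.le_of_succ_le hj) g0
    have h1 := ih (Nat.le_of_succ_le hj) (le_trans (Nat.mul_le_mul_right _ (by omega)) hn)
      (fun k hk => hts k (by omega)) _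
      (Kop_iter_mem (mstep (A.W (j + 1) (ts.getD (j + 1) [])) A.prop A.Bp A.ba) A.Bs A.Tn hF)
    have h2 := h.stage_mix hj g1
      (μ := fun x => (A.W j (ts.getD j []) x : ℝ) / A.tot Ω j (ts.getD j []))
      (fun x hx => div_nonneg (by exact_mod_cast (h.W_pos (Nat.le_of_succ_le hj) g0 hx).le) hT.le)
      (fun x hx => h.warm_succ hj g0 g1 hx) (by rw [← sum_div]; exact div_self hT.ne') F hF
    simp only [div_mul_eq_mul_div, ← sum_div] at h2
    simp only [Ex_st ts hn]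
    refine (abs_sub_le _ _ _).trans ((add_le_add h1 h2).trans_eq ?_)
    push_cast
    ring

theorem Ok.samp_close (h : A.Ok Ω act K η M δ θ ε) {ts : List (List ℚ)} {i : ℕ}
    (hlen : ts.length = i + 1) (hi : i ≤ A.Ls) (h0 : ts.getD 0 [] = List.replicate A.nC 1)
    (hts : ∀ j, j ≤ i → A.Good Ω act j (ts.getD j [])) (F : X → ℝ)
    (hF : ∀ x, 0 ≤ F x ∧ F x ≤ 1) :
    |Ex A.Bsamp (fun u => F (A.samp ts u)) - A.pi Ω i (ts.getD i []) F| ≤ θ := by
  have e := Ex_split (a := A.Bi) (n := A.Bsamp) (Nat.le_add_right _ _)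
    fun u v => F (A.st ts ts.length (A.init u) v).2
  refine (congrArg (fun a => |a - _|) e).trans_le ?_
  rw [hlen]
  refine (h.close ts i hi ?_ h0 hts F hF).trans (le_trans ?_ h.hθ)
  · rw [Bsamp, Nat.add_sub_cancel_left]
    exact Nat.mul_le_mul_right _ (by omega)
  · have h1 : (i : ℝ) ≤ A.Ls := by exact_mod_cast hi
    have h2 := h.δ0
    gcongr

theorem Ok.draw_close (h : A.Ok Ω act K η M δ θ ε) {ts : List (List ℚ)} {i : ℕ}
    (hlen : ts.length = i + 1) (hi : i ≤ A.Ls) (h0 : ts.getD 0 [] = List.replicate A.nC 1)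
    (hts : ∀ j, j ≤ i → A.Good Ω act j (ts.getD j [])) (F : X → ℝ)
    (hF : ∀ x, 0 ≤ F x ∧ F x ≤ 1) :
    Pr A.Bstage (fun u => 2 * θ <
      |((draws (A.samp ts) A.Bsamp A.Rs u).map F).sum / A.Rs - A.pi Ω i (ts.getD i []) F|) ≤
      1 / (A.Rs * θ ^ 2) := by
  have h1 := h.samp_close hlen hi h0 hts F hF
  have h2 := cheb_draws (A.samp ts) F (c := 1) (θ := θ) (B := A.Bsamp) (R := A.Rs)
    (n := A.Bstage) hF h.Rs0 le_rfl h.θ0
  rw [one_pow] at h2
  refine le_trans (Pr_mono fun u _ hu => ?_) h2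
  by_contra hc
  rw [not_lt] at hc
  have := abs_sub_le (((draws (A.samp ts) A.Bsamp A.Rs u).map F).sum / A.Rs)
    (Ex A.Bsamp fun u => F (A.samp ts u)) (A.pi Ω i (ts.getD i []) F)
  linarith

theorem Ok.rho_mem (h : A.Ok Ω act K η M δ θ ε) {j : ℕ} (hj : j < A.Ls) (x : X) :
    0 ≤ A.rho j x ∧ A.rho j x ≤ 1 := by
  unfold rho
  split_ifs
  · by_cases hx : x ∈ Ω
    · have h0 := h.w_pos hj.le hx
      have h1 := h.w_pos hj hx
      have h2 : (A.w (j + 1) x : ℝ) ≤ A.w j x := by exact_mod_cast (h.ratio j hj x hx).2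
      exact ⟨by positivity, (div_le_one h0).2 h2⟩
    · simp [h.zero _ x hx]
  · norm_num

theorem Ok.pi_rho (h : A.Ok Ω act K η M δ θ ε) {j : ℕ} (hj : j < A.Ls) {t : List ℚ}
    (ht : A.Good Ω act j t) : A.pi Ω j t (A.rho j) = A.Zc Ω (j + 1) 0 / A.tot Ω j t := by
  unfold pi
  congr 1
  unfold Zc rho W
  rw [sum_filter]
  refine sum_congr rfl fun x hx => ?_
  by_cases hc : A.cl x = 0
  · have h0 := (h.w_pos hj.le hx).ne'
    simp only [hc, if_true, ht.1, mul_one]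
    field_simp
  · simp [hc]

theorem Ok.del_le (h : A.Ok Ω act K η M δ θ ε) {i : ℕ} (hi : i ≤ A.Ls) :
    6 * i * (32 * A.nC * θ) ≤ ε ∧ 32 * A.nC * θ ≤ 1 / 10 := by
  have h1 := h.hε
  have h2 := h.ε1
  have h3 : (i : ℝ) ≤ A.Ls := by exact_mod_cast hi
  have h4 : 0 ≤ (A.nC : ℝ) * θ := mul_nonneg (Nat.cast_nonneg _) h.θ0.le
  have h5 : (0 : ℝ) ≤ i := Nat.cast_nonneg _
  have h6 := mul_le_mul_of_nonneg_right h3 h4
  have h7 := mul_nonneg h5 h4
  constructor <;> nlinarith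

theorem Ok.rel_of_abs (h : A.Ok Ω act K η M δ θ ε) {j : ℕ} (hj : j ≤ A.Ls) {t : List ℚ}
    (ht : A.Good Ω act j t) {a p : ℝ} (hp : A.Zc Ω j 0 / 4 ≤ p)
    (ha : |a - p / A.tot Ω j t| ≤ 2 * θ) :
    |a - p / A.tot Ω j t| ≤ 32 * A.nC * θ * (p / A.tot Ω j t) := by
  have hT := h.tot_pos hj ht
  have h1 := (h.tot_bounds ht).2
  have h2 : (act.card : ℝ) ≤ A.nC := by exact_mod_cast h.card_le
  have h3 := h.Zc_pos hj h.zero_mem
  have h4 := h.θ0
  refine ha.trans ?_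
  rw [← mul_div_assoc, le_div_iff₀ hT]
  have h5 : A.tot Ω j t ≤ A.nC * (16 * p) :=
    h1.trans (mul_le_mul h2 (by linarith) (by positivity) (by positivity))
  nlinarith

theorem Ok.zero_rel (h : A.Ok Ω act K η M δ θ ε) {j : ℕ} (hj : j ≤ A.Ls) {t : List ℚ}
    (ht : A.Good Ω act j t) {xs : List X}
    (h0 : |(xs.map (A.chi 0)).sum / A.Rs - A.pi Ω j t (A.chi 0)| ≤ 2 * θ) :
    |(A.cnt xs 0 : ℝ) / A.Rs - A.Zc Ω j 0 / A.tot Ω j t| ≤
      32 * A.nC * θ * (A.Zc Ω j 0 / A.tot Ω j t) := by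
  rw [pi, sum_chi, ht.1, Rat.cast_one, one_mul, ← cnt_eq] at h0
  have := h.Zc_pos hj h.zero_mem
  exact h.rel_of_abs hj ht (by linarith) h0

/-- The new table is good. -/
theorem Ok.new_good (h : A.Ok Ω act K η M δ θ ε) {j : ℕ} (hj : j < A.Ls) {t : List ℚ}
    (ht : A.Good Ω act j t) {xs : List X}
    (hc : ∀ c ∈ act, |(xs.map (A.chi c)).sum / A.Rs - A.pi Ω j t (A.chi c)| ≤ 2 * θ) :
    A.Good Ω act (j + 1)
      ((List.range A.nC).map fun c => t.getD c 0 * A.cnt xs 0 / A.cnt xs c) := by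
  have hget : ∀ c ∈ act, ((List.range A.nC).map fun c =>
      t.getD c 0 * A.cnt xs 0 / A.cnt xs c).getD c 0 = t.getD c 0 * A.cnt xs 0 / A.cnt xs c := by
    intro c hc
    rw [List.getD_eq_getElem _ _ (by simpa using h.act_lt c hc), List.getElem_map,
      List.getElem_range]
  have h0 := h.zero_rel hj.le ht (hc 0 h.zero_mem)
  have hT := h.tot_pos hj.le ht
  have hZ := h.Zc_pos hj.le h.zero_mem
  have hZ' := h.Zc_pos hj h.zero_mem
  have hR : (0 : ℝ) < A.Rs := by exact_mod_cast h.Rs0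
  have hd := (h.del_le hj.le).2
  have hd0 : 0 ≤ 32 * A.nC * θ := by have := h.θ0; positivity
  constructor
  · rw [hget 0 h.zero_mem, ht.1, one_mul]
    refine div_self ?_
    intro hz
    have hz' : (A.cnt xs 0 : ℝ) = 0 := by exact_mod_cast hz
    rw [hz', zero_div, zero_sub, abs_neg, abs_of_pos (by positivity)] at h0
    have : 0 < A.Zc Ω j 0 / A.tot Ω j t := by positivity
    nlinarith
  intro c hca
  rw [hget c hca]
  have h1 := hc c hca
  rw [pi, sum_chi, ← cnt_eq] at h1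
  have h2 := h.rel_of_abs hj.le ht (ht.2 c hca).1 h1
  have hC := h.Zc_pos hj.le hca
  have hC' := h.Zc_pos hj hca
  have htv := h.t_pos hj.le ht hca
  obtain ⟨h3, h4⟩ := ratio_bounds (by positivity) (by positivity) hd0 hd h0 h2
  rw [div_div_div_cancel_right₀ hR.ne', div_div_div_cancel_right₀ hT.ne'] at h3 h4
  push_cast
  rw [mul_div_assoc]
  have hq0 : (0 : ℝ) ≤ (A.cnt xs 0 : ℝ) / A.cnt xs c := by positivity
  generalize (A.cnt xs 0 : ℝ) / A.cnt xs c = q at *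
  obtain ⟨h5, h6⟩ := h.Zc_succ hj c
  obtain ⟨h7, h8⟩ := h.Zc_succ hj 0
  have h9 : 7 / 10 * A.Zc Ω j 0 ≤ t.getD c 0 * q * A.Zc Ω j c := by
    have : 7 / 10 * (A.Zc Ω j 0 / (t.getD c 0 * A.Zc Ω j c)) ≤ q :=
      le_trans (mul_le_mul_of_nonneg_right (by linarith) (by positivity)) h3
    rw [← mul_div_assoc, div_le_iff₀ (by positivity)] at this
    linarith
  have h10 : t.getD c 0 * q * A.Zc Ω j c ≤ 13 / 10 * A.Zc Ω j 0 := by
    have : q ≤ 13 / 10 * (A.Zc Ω j 0 / (t.getD c 0 * A.Zc Ω j c)) :=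
      le_trans h4 (mul_le_mul_of_nonneg_right (by linarith) (by positivity))
    rw [← mul_div_assoc, le_div_iff₀ (by positivity)] at this
    linarith
  have hq : 0 ≤ t.getD c 0 * q := by positivity
  have h11 := mul_le_mul_of_nonneg_left h5 hq
  have h12 := mul_le_mul_of_nonneg_left h6 hq
  constructor <;> linarith

/-- The new factor of the estimate. -/
theorem Ok.new_ratio (h : A.Ok Ω act K η M δ θ ε) {j : ℕ} (hj : j < A.Ls) {t : List ℚ}
    (ht : A.Good Ω act j t) {xs : List X}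
    (h0 : |(xs.map (A.chi 0)).sum / A.Rs - A.pi Ω j t (A.chi 0)| ≤ 2 * θ)
    (h1 : |(xs.map (A.rho j)).sum / A.Rs - A.pi Ω j t (A.rho j)| ≤ 2 * θ) :
    (1 - 3 * (32 * A.nC * θ)) * (A.Zc Ω (j + 1) 0 / A.Zc Ω j 0) ≤
        (xs.map (A.rho j)).sum / A.cnt xs 0 ∧
      (xs.map (A.rho j)).sum / A.cnt xs 0 ≤
        (1 + 3 * (32 * A.nC * θ)) * (A.Zc Ω (j + 1) 0 / A.Zc Ω j 0) := by
  have h0' := h.zero_rel hj.le ht h0
  rw [h.pi_rho hj ht] at h1
  obtain ⟨h7, h8⟩ := h.Zc_succ hj 0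
  have hT := h.tot_pos hj.le ht
  have hZ := h.Zc_pos hj.le h.zero_mem
  have hZ' := h.Zc_pos hj h.zero_mem
  have hR : (0 : ℝ) < A.Rs := by exact_mod_cast h.Rs0
  have hd := (h.del_le hj.le).2
  have hd0 : 0 ≤ 32 * A.nC * θ := by have := h.θ0; positivity
  have h2 := h.rel_of_abs hj.le ht (by linarith) h1
  have h3 := ratio_bounds (by positivity) (by positivity) hd0 hd h2 h0'
  rwa [div_div_div_cancel_right₀ hR.ne', div_div_div_cancel_right₀ hT.ne'] at h3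

variable (A) in
/-- The invariant of the annealing. -/
def Inv (Ω : Finset X) (act : Finset ℕ) (θ : ℝ) (i : ℕ) (s : List (List ℚ) × ℚ) : Prop :=
  s.1.length = i + 1 ∧ s.1.getD 0 [] = List.replicate A.nC 1 ∧
    (∀ j, j ≤ i → A.Good Ω act j (s.1.getD j [])) ∧
    (1 - 6 * i * (32 * A.nC * θ)) * (A.C0 * (A.Zc Ω i 0 / A.Zc Ω 0 0)) ≤ s.2 ∧
    (s.2 : ℝ) ≤ (1 + 6 * i * (32 * A.nC * θ)) * (A.C0 * (A.Zc Ω i 0 / A.Zc Ω 0 0))

theorem Ok.inv_zero (h : A.Ok Ω act K η M δ θ ε) :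
    A.Inv Ω act θ 0 ([List.replicate A.nC 1], A.C0) := by
  have hZ := h.Zc_pos (Nat.zero_le _) h.zero_mem
  refine ⟨rfl, rfl, fun j hj => ?_, ?_, ?_⟩
  · obtain rfl : j = 0 := by omega
    exact h.good0
  · simp [div_self hZ.ne']
  · simp [div_self hZ.ne']

/-- A stage whose empirical means are accurate preserves the invariant. -/
theorem Ok.inv_step (h : A.Ok Ω act K η M δ θ ε) {i : ℕ} (hi : i < A.Ls)
    {s : List (List ℚ) × ℚ} (hs : A.Inv Ω act θ i s) (xs : List X)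
    (hc : ∀ c ∈ act,
      |(xs.map (A.chi c)).sum / A.Rs - A.pi Ω i (s.1.getD i []) (A.chi c)| ≤ 2 * θ)
    (hr : |(xs.map (A.rho i)).sum / A.Rs - A.pi Ω i (s.1.getD i []) (A.rho i)| ≤ 2 * θ) :
    A.Inv Ω act θ (i + 1) (A.upd s xs) := by
  obtain ⟨hlen, h00, hts, hlo, hup⟩ := hs
  have ht := hts i le_rfl
  unfold upd
  simp only [hlen, Nat.add_sub_cancel]
  refine ⟨by simp [hlen], ?_, fun j hj => ?_, ?_⟩
  · rw [List.getD_append _ _ _ _ (by omega)]
    exact h00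
  · rcases Nat.lt_or_ge j (i + 1) with hj' | hj'
    · rw [List.getD_append _ _ _ _ (by omega)]
      exact hts j (by omega)
    · obtain rfl : j = i + 1 := by omega
      rw [List.getD_append_right _ _ _ _ (by omega), hlen, Nat.sub_self, List.getD_cons_zero]
      exact h.new_good hi ht hc
  · obtain ⟨h1, h2⟩ := h.new_ratio hi ht (hc 0 h.zero_mem) hr
    have e : (((s.2 * (xs.map fun x =>
        if A.cl x = 0 then A.w (i + 1) x / A.w i x else 0).sum / A.cnt xs 0 : ℚ)) : ℝ) =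
        s.2 * ((xs.map (A.rho i)).sum / A.cnt xs 0) := by
      rw [Rat.cast_div, Rat.cast_mul, sum_rho_eq, Rat.cast_natCast, mul_div_assoc]
    simp only [e]
    generalize (xs.map (A.rho i)).sum / A.cnt xs 0 = q at *
    have hZ := h.Zc_pos hi.le h.zero_mem
    have hZ' := h.Zc_pos hi h.zero_mem
    have hZ0 := h.Zc_pos (Nat.zero_le _) h.zero_mem
    obtain ⟨hi', hd⟩ := h.del_le hi.le
    have hε := h.ε1
    have hd0 : 0 ≤ 32 * A.nC * θ := by have := h.θ0; positivity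
    have hC : (0 : ℝ) ≤ A.C0 := by exact_mod_cast h.C0
    generalize 32 * A.nC * θ = d at *
    have hi0 : 0 ≤ 6 * i * d := by positivity
    have hX : 0 ≤ A.C0 * (A.Zc Ω i 0 / A.Zc Ω 0 0) := by positivity
    have hX' : 0 ≤ A.C0 * (A.Zc Ω (i + 1) 0 / A.Zc Ω 0 0) := by positivity
    have e2 : A.C0 * (A.Zc Ω i 0 / A.Zc Ω 0 0) * (A.Zc Ω (i + 1) 0 / A.Zc Ω i 0) =
        A.C0 * (A.Zc Ω (i + 1) 0 / A.Zc Ω 0 0) := by
      field_simp
    have hs0 : (0 : ℝ) ≤ s.2 := le_trans (mul_nonneg (by linarith) hX) hlo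
    have hq0 : 0 ≤ q := le_trans (mul_nonneg (by linarith) (by positivity)) h1
    push_cast
    constructor
    · calc _ ≤ ((1 - 6 * i * d) * (1 - 3 * d)) * (A.C0 * (A.Zc Ω (i + 1) 0 / A.Zc Ω 0 0)) :=
            mul_le_mul_of_nonneg_right (by nlinarith) hX'
        _ = (1 - 6 * i * d) * (A.C0 * (A.Zc Ω i 0 / A.Zc Ω 0 0)) *
            ((1 - 3 * d) * (A.Zc Ω (i + 1) 0 / A.Zc Ω i 0)) := by rw [← e2]; ring
        _ ≤ _ := mul_le_mul hlo h1 (mul_nonneg (by linarith) (by positivity)) hs0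
    · calc _ ≤ (1 + 6 * i * d) * (A.C0 * (A.Zc Ω i 0 / A.Zc Ω 0 0)) *
            ((1 + 3 * d) * (A.Zc Ω (i + 1) 0 / A.Zc Ω i 0)) :=
            mul_le_mul hup h2 hq0 (mul_nonneg (by linarith) hX)
        _ = ((1 + 6 * i * d) * (1 + 3 * d)) * (A.C0 * (A.Zc Ω (i + 1) 0 / A.Zc Ω 0 0)) := by
            rw [← e2]; ring
        _ ≤ _ := mul_le_mul_of_nonneg_right (by nlinarith) hX'

/-- A stage preserves the invariant with high probability. -/
theorem Ok.stage_bad (h : A.Ok Ω act K η M δ θ ε) {i : ℕ} (hi : i < A.Ls)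
    {s : List (List ℚ) × ℚ} (hs : A.Inv Ω act θ i s) :
    Pr A.Bstage (fun u => ¬ A.Inv Ω act θ (i + 1) (A.stage s u)) ≤
      (A.nC + 1) / (A.Rs * θ ^ 2) := by
  have hd := fun F hF => h.draw_close hs.1 hi.le hs.2.1 hs.2.2.1 F hF
  calc _ ≤ Pr A.Bstage (fun u =>
        (∃ c ∈ act, 2 * θ <
          |((draws (A.samp s.1) A.Bsamp A.Rs u).map (A.chi c)).sum / A.Rs -
            A.pi Ω i (s.1.getD i []) (A.chi c)|) ∨
        2 * θ < |((draws (A.samp s.1) A.Bsamp A.Rs u).map (A.rho i)).sum / A.Rs -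
            A.pi Ω i (s.1.getD i []) (A.rho i)|) := by
        refine Pr_mono fun u _ hu => ?_
        by_contra hc
        rw [not_or, not_exists, not_lt] at hc
        refine hu (h.inv_step hi hs _ (fun c hca => ?_) hc.2)
        have := hc.1 c
        rw [not_and, not_lt] at this
        exact this hca
    _ ≤ _ := by
        refine (Pr_or_le _ _ _).trans ?_
        rw [add_div]
        refine add_le_add ((Pr_exists_le _ _ _).trans ?_) (hd _ (h.rho_mem hi))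
        refine (sum_le_sum fun c _ => hd _ (chi_mem c)).trans ?_
        rw [sum_const, nsmul_eq_mul, mul_one_div]
        have h2 : (act.card : ℝ) ≤ A.nC := by exact_mod_cast h.card_le
        gcongr

end ok

theorem Ok.est_good {Ω : Finset X} {act : Finset ℕ} {K η M δ θ ε : ℝ}
    (h : A.Ok Ω act K η M δ θ ε) {n : ℕ} (hn : A.Btot ≤ n) :
    31 / 32 ≤ Pr n fun u => |(A.est u : ℝ) - A.C0 * (A.Zc Ω A.Ls 0 / A.Zc Ω 0 0)| ≤
      ε * (A.C0 * (A.Zc Ω A.Ls 0 / A.Zc Ω 0 0)) := by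
  have h1 := Pr_foldT_bad (step := A.stage) (B := A.Bstage) (t := A.Ls) hn (A.Inv Ω act θ)
    h.inv_zero fun i s hi hs => h.stage_bad hi hs
  rw [Pr_not] at h1
  have h2 := h.hR
  refine le_trans (by linarith) (Pr_mono (p := fun u => A.Inv Ω act θ A.Ls
    (foldT A.stage A.Bstage A.Ls ([List.replicate A.nC 1], A.C0) u)) fun u _ hu => ?_)
  obtain ⟨-, -, -, hlo, hup⟩ := hu
  have h3 := (h.del_le le_rfl).1
  have hZ := h.Zc_pos le_rfl h.zero_mem
  have hZ0 := h.Zc_pos (Nat.zero_le _) h.zero_mem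
  have hC : (0 : ℝ) ≤ A.C0 := by exact_mod_cast h.C0
  have hX : 0 ≤ A.C0 * (A.Zc Ω A.Ls 0 / A.Zc Ω 0 0) := by positivity
  have h4 := mul_le_mul_of_nonneg_right h3 hX
  unfold est
  rw [abs_le]
  constructor <;> linarith

end AData

end Crest.Agent.R302
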