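import Mathlib

/-!
# Row 302: box averages and pseudo-marginal chains
-/

set_option autoImplicit false

namespace Crest.Agent.R302

open Finset

section Smooth

variable {Z I X : Type} [AddCommGroup Z] [DecidableEq Z] [Fintype I] [DecidableEq I]

/-- Average of `F` over the box spanned by the directions `L m` with lengths `q m`. -/
noncomputable def sm (L : I → Z) (q : I → ℕ) (F : Z → ℝ) (y : Z) : ℝ :=
  (∑ s ∈ Fintype.piFinset fun m => range (q m), F (y + ∑ m, s m • L m)) / ∏ m, (q m : ℝ)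

/-- Energy of the translation by `v` for the weight `p`. -/
noncomputable def En (Ω : Finset Z) (p F : Z → ℝ) (v : Z) : ℝ :=
  ∑ z ∈ Ω, min (p z) (p (z + v)) * (F (z + v) - F z) ^ 2

namespace AvgAux

/-- The box of shifts. -/
def B (q : I → ℕ) : Finset (I → ℕ) := Fintype.piFinset fun m => range (q m)

/-- The shifts vanishing at `m`. -/
def B0 (q : I → ℕ) (m : I) : Finset (I → ℕ) := (B q).filter fun s => s m = 0

theorem mem_B {q : I → ℕ} {s : I → ℕ} : s ∈ B q ↔ ∀ m, s m < q m := by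
  simp [B]

theorem card_B (q : I → ℕ) : ((B q).card : ℝ) = ∏ m, (q m : ℝ) := by
  simp [B, Fintype.card_piFinset]

theorem card_pos {q : I → ℕ} (hq : ∀ m, 0 < q m) : (0 : ℝ) < (B q).card := by
  exact_mod_cast Finset.card_pos.2 ⟨0, mem_B.2 hq⟩

theorem card0_pos {q : I → ℕ} (hq : ∀ m, 0 < q m) (m : I) : (0 : ℝ) < (B0 q m).card := by
  have : (B0 q m).Nonempty := ⟨0, mem_filter.2 ⟨mem_B.2 hq, rfl⟩⟩
  exact_mod_cast Finset.card_pos.2 this

omit [DecidableEq Z] in
theorem sm_eq (L : I → Z) (q : I → ℕ) (F : Z → ℝ) (y : Z) :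
    sm L q F y = (∑ s ∈ B q, F (y + ∑ m, s m • L m)) / (B q).card := by
  rw [card_B]; rfl

omit [DecidableEq Z] in
theorem S_add (L : I → Z) (s : I → ℕ) (m : I) (k : ℕ) :
    ∑ g, (s + Pi.single m k : I → ℕ) g • L g = ∑ g, s g • L g + k • L m := by
  simp only [Pi.add_apply, add_smul, sum_add_distrib, add_right_inj]
  rw [sum_eq_single m (fun f _ hf => by simp [hf]) (by simp)]
  simp

omit [DecidableEq Z] in
theorem Z_add (L : I → Z) (s : I → ℤ) (m : I) :
    ∑ g, (s + Pi.single m 1 : I → ℤ) g • L g = ∑ g, s g • L g + L m := by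
  simp only [Pi.add_apply, add_smul, sum_add_distrib, add_right_inj]
  rw [sum_eq_single m (fun f _ hf => by simp [hf]) (by simp)]
  simp

theorem sum_B {q : I → ℕ} (hq : ∀ m, 0 < q m) (m : I) (f : (I → ℕ) → ℝ) :
    ∑ s ∈ B q, f s = ∑ s ∈ B0 q m, ∑ k ∈ range (q m), f (s + Pi.single m k) := by
  rw [← sum_product']
  refine sum_nbij' (fun s => (Function.update s m 0, s m)) (fun p => p.1 + Pi.single m p.2)
    (fun s hs => ?_) (fun p hp => ?_) (fun s _ => ?_) (fun p hp => ?_) fun s _ => ?_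
  · have hs' := mem_B.1 hs
    refine mem_product.2 ⟨mem_filter.2 ⟨mem_B.2 fun g => ?_, by simp⟩, mem_range.2 (hs' m)⟩
    by_cases hg : g = m
    · subst hg
      simpa using hq g
    · simpa [hg] using hs' g
  · obtain ⟨h1, h2⟩ := mem_filter.1 (mem_product.1 hp).1
    refine mem_B.2 fun g => ?_
    by_cases hg : g = m
    · subst hg
      simpa [h2] using (mem_product.1 hp).2
    · simpa [hg] using mem_B.1 h1 g
  · funext g
    by_cases hg : g = m
    · subst hg; simp
    · simp [hg]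
  · have h2 := (mem_filter.1 (mem_product.1 hp).1).2
    refine Prod.ext ?_ (by simp [h2])
    funext g
    by_cases hg : g = m
    · subst hg; simp [h2]
    · simp [hg]
  · congr 1
    funext g
    by_cases hg : g = m
    · subst hg; simp
    · simp [hg]

theorem card_B_eq {q : I → ℕ} (hq : ∀ m, 0 < q m) (m : I) :
    ((B q).card : ℝ) = (B0 q m).card * q m := by
  simpa using sum_B hq m fun _ => 1

omit [DecidableEq Z] in
theorem sm_diff {q : I → ℕ} (hq : ∀ m, 0 < q m) (L : I → Z) (F : Z → ℝ) (m : I) (y : Z) :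
    q m * (sm L q F (y + L m) - sm L q F y) =
      (∑ s ∈ B0 q m, (F (y + ∑ g, s g • L g + q m • L m) - F (y + ∑ g, s g • L g))) /
        (B0 q m).card := by
  have h1 : (0 : ℝ) < q m := by exact_mod_cast hq m
  have h2 := card0_pos hq m
  have key : ∑ s ∈ B q, (F (y + L m + ∑ g, s g • L g) - F (y + ∑ g, s g • L g)) =
      ∑ s ∈ B0 q m, (F (y + ∑ g, s g • L g + q m • L m) - F (y + ∑ g, s g • L g)) := by
    rw [sum_B hq m]
    refine sum_congr rfl fun s _ => ?_
    have := sum_range_sub (fun k => F (y + ∑ g, s g • L g + k • L m)) (q m)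
    simp only [zero_smul, add_zero] at this
    rw [← this]
    refine sum_congr rfl fun k _ => ?_
    rw [S_add, add_smul, one_smul]
    congr 2 <;> abel
  rw [← key, sm_eq, sm_eq, ← sub_div, ← sum_sub_distrib, card_B_eq hq m]
  field_simp

/-- Jensen with weights. -/
theorem jensen {Y : Type} (A : Finset X) (T : Finset Y) (a : X → ℝ)
    (ha : ∀ x ∈ A, 0 ≤ a x) (D : X → Y → ℝ) :
    ∑ x ∈ A, a x * ((∑ s ∈ T, D x s) / T.card) ^ 2 ≤
      (∑ s ∈ T, ∑ x ∈ A, a x * D x s ^ 2) / T.card := by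
  rw [sum_comm, sum_div]
  refine sum_le_sum fun x hx => ?_
  rw [← mul_sum, mul_div_assoc]
  exact mul_le_mul_of_nonneg_left sum_div_card_sq_le_sum_sq_div_card (ha x hx)

theorem mink {A : Finset X} {a u w : X → ℝ} (ha : ∀ x ∈ A, 0 ≤ a x) {t P Q : ℝ} (ht : 0 ≤ t)
    (hP : 0 ≤ P) (hu : ∑ x ∈ A, a x * u x ^ 2 ≤ t * P) (hw : ∑ x ∈ A, a x * w x ^ 2 ≤ Q) :
    ∑ x ∈ A, a x * (u x + w x) ^ 2 ≤ (t + 1) * (P + Q) := by
  rcases ht.eq_or_lt with h0 | h0
  · subst h0
    have h1 : ∀ x ∈ A, 0 ≤ a x * u x ^ 2 := fun x hx => mul_nonneg (ha x hx) (sq_nonneg _)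
    have h2 := (sum_eq_zero_iff_of_nonneg h1).1 (le_antisymm (by simpa using hu) (sum_nonneg h1))
    have h3 : ∑ x ∈ A, a x * (u x + w x) ^ 2 = ∑ x ∈ A, a x * w x ^ 2 := by
      refine sum_congr rfl fun x hx => ?_
      rcases mul_eq_zero.1 (h2 x hx) with h | h
      · simp [h]
      · simp [pow_eq_zero_iff (two_ne_zero) |>.1 h]
    rw [h3]
    linarith
  · have h1 : t * ∑ x ∈ A, a x * (u x + w x) ^ 2 ≤
        (t + 1) * ∑ x ∈ A, a x * u x ^ 2 + t * (t + 1) * ∑ x ∈ A, a x * w x ^ 2 := by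
      rw [mul_sum, mul_sum, mul_sum, ← sum_add_distrib]
      refine sum_le_sum fun x hx => ?_
      have := mul_nonneg (ha x hx) (sq_nonneg (u x - t * w x))
      linarith
    have h2 : (t + 1) * ∑ x ∈ A, a x * u x ^ 2 ≤ (t + 1) * (t * P) := by gcongr
    have h3 : t * (t + 1) * ∑ x ∈ A, a x * w x ^ 2 ≤ t * (t + 1) * Q := by gcongr
    refine le_of_mul_le_mul_left ?_ h0
    linarith

variable {Ω : Finset Z} {p F : Z → ℝ} {A : Finset X} {a : X → ℝ} {c : X → Z} {C : ℝ}

omit [DecidableEq Z] in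
theorem En_nonneg (hp : ∀ z, 0 ≤ p z) (v : Z) : 0 ≤ En Ω p F v :=
  sum_nonneg fun _ _ => mul_nonneg (le_min (hp _) (hp _)) (sq_nonneg _)

theorem translate_le (hp : ∀ z, 0 ≤ p z) (hp0 : ∀ z ∉ Ω, p z = 0) (hc : Set.InjOn c A)
    (hC : 0 ≤ C) (d v : Z)
    (h : ∀ x ∈ A, a x ≤ C * p (c x + d) ∧ a x ≤ C * p (c x + d + v)) :
    ∑ x ∈ A, a x * (F (c x + d + v) - F (c x + d)) ^ 2 ≤ C * En Ω p F v := by
  set g : Z → ℝ := fun z => min (p z) (p (z + v)) * (F (z + v) - F z) ^ 2 with hg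
  have hg0 : ∀ z, 0 ≤ g z := fun z => mul_nonneg (le_min (hp _) (hp _)) (sq_nonneg _)
  calc _ ≤ ∑ x ∈ A, C * g (c x + d) := by
        refine sum_le_sum fun x hx => ?_
        rw [hg, ← mul_assoc, mul_min_of_nonneg _ _ hC]
        exact mul_le_mul_of_nonneg_right (le_min (h x hx).1 (h x hx).2) (sq_nonneg _)
    _ = C * ∑ z ∈ A.image (fun x => c x + d), g z := by
        rw [mul_sum, sum_image fun x hx y hy hxy => hc hx hy (add_right_cancel hxy)]
    _ ≤ C * ∑ z ∈ Ω ∪ A.image (fun x => c x + d), g z := by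
        gcongr
        · exact fun z _ _ => hg0 z
        · exact subset_union_right
    _ = _ := by
        rw [En, ← sum_subset subset_union_left fun z _ hz => ?_]
        simp only [hg, hp0 z hz]
        rw [min_eq_left (hp _), zero_mul]

end AvgAux

open AvgAux

theorem sm_mem {L : I → Z} {q : I → ℕ} (hq : ∀ m, 0 < q m) {F : Z → ℝ}
    (hF : ∀ z, 0 ≤ F z ∧ F z ≤ 1) (y : Z) : 0 ≤ sm L q F y ∧ sm L q F y ≤ 1 := by
  have := AvgAux.card_pos hq
  rw [sm_eq]
  refine ⟨div_nonneg (sum_nonneg fun _ _ => (hF _).1) this.le, (div_le_one this).2 ?_⟩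
  simpa using sum_le_card_nsmul (B q) _ 1 fun s _ => (hF _).2

variable {L : I → Z} {q : I → ℕ} {Ω : Finset Z} {p F : Z → ℝ} {A : Finset X} {a : X → ℝ}
  {c : X → Z} {C : ℝ}

/-- A unit step along a smoothing direction costs `1 / q ^ 2`. -/
theorem sm_step (hq : ∀ m, 0 < q m) (hp : ∀ z, 0 ≤ p z) (hp0 : ∀ z ∉ Ω, p z = 0)
    (ha : ∀ x ∈ A, 0 ≤ a x) (hc : Set.InjOn c A) (hC : 0 ≤ C)
    (h : ∀ x ∈ A, ∀ s : I → ℕ, (∀ m, s m ≤ q m) → a x ≤ C * p (c x + ∑ m, s m • L m)) (m : I) :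
    (q m : ℝ) ^ 2 * ∑ x ∈ A, a x * (sm L q F (c x + L m) - sm L q F (c x)) ^ 2 ≤
      C * En Ω p F (q m • L m) := by
  have h2 := card0_pos hq m
  rw [mul_sum]
  simp only [mul_left_comm ((q m : ℝ) ^ 2), ← mul_pow, sm_diff hq]
  refine (jensen _ _ _ ha _).trans ?_
  rw [div_le_iff₀' h2, ← nsmul_eq_mul]
  refine sum_le_card_nsmul _ _ _ fun s hs => ?_
  obtain ⟨h3, h4⟩ := mem_filter.1 hs
  refine translate_le hp hp0 hc hC _ _ fun x hx => ⟨h x hx s fun g => (mem_B.1 h3 g).le, ?_⟩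
  rw [add_assoc, ← S_add]
  refine h x hx _ fun g => ?_
  by_cases hg : g = m
  · subst hg
    simp [h4]
  · simpa [hg] using (mem_B.1 h3 g).le

/-- A translation of the smoothed function costs at most the energy of the translation. -/
theorem sm_shift (hq : ∀ m, 0 < q m) (hp : ∀ z, 0 ≤ p z) (hp0 : ∀ z ∉ Ω, p z = 0)
    (ha : ∀ x ∈ A, 0 ≤ a x) (hc : Set.InjOn c A) (hC : 0 ≤ C) (v : Z)
    (h : ∀ x ∈ A, ∀ s : I → ℕ, (∀ m, s m ≤ q m) →
      a x ≤ C * p (c x + ∑ m, s m • L m) ∧ a x ≤ C * p (c x + ∑ m, s m • L m + v)) :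
    ∑ x ∈ A, a x * (sm L q F (c x + v) - sm L q F (c x)) ^ 2 ≤ C * En Ω p F v := by
  have h2 := AvgAux.card_pos hq
  have e : ∀ y, sm L q F (y + v) - sm L q F y =
      (∑ s ∈ B q, (F (y + ∑ g, s g • L g + v) - F (y + ∑ g, s g • L g))) / (B q).card := by
    intro y
    rw [sm_eq, sm_eq, ← sub_div, ← sum_sub_distrib]
    simp only [add_right_comm y v]
  simp only [e]
  refine (jensen _ _ _ ha _).trans ?_
  rw [div_le_iff₀' h2, ← nsmul_eq_mul]
  refine sum_le_card_nsmul _ _ _ fun s hs => ?_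
  exact translate_le hp hp0 hc hC _ _ fun x hx => h x hx s fun g => (mem_B.1 hs g).le

/-- Distance between a function and its average. -/
theorem sm_sub (hq : ∀ m, 0 < q m) (hp : ∀ z, 0 ≤ p z) (hp0 : ∀ z ∉ Ω, p z = 0)
    (ha : ∀ x ∈ A, 0 ≤ a x) (hc : Set.InjOn c A) (hC : 0 ≤ C)
    (h : ∀ x ∈ A, ∀ s : I → ℕ, (∀ m, s m ≤ q m) → a x ≤ C * p (c x + ∑ m, s m • L m)) :
    ∑ x ∈ A, a x * (F (c x) - sm L q F (c x)) ^ 2 ≤
      C * Fintype.card I * ∑ m, (∑ k ∈ range (q m), En Ω p F (k • L m)) / q m := by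
  have h2 := AvgAux.card_pos hq
  have e2 : ∀ y, (F y - sm L q F y) ^ 2 =
      ((∑ s ∈ B q, (F (y + ∑ g, s g • L g) - F y)) / (B q).card) ^ 2 := by
    intro y
    rw [sm_eq, sum_sub_distrib, sum_const, nsmul_eq_mul, sub_div,
      mul_div_cancel_left₀ _ h2.ne', sub_sq_comm]
  simp only [e2]
  refine (jensen _ _ _ ha _).trans ?_
  have e3 : ∀ s ∈ B q, ∀ T : Finset I,
      ∑ x ∈ A, a x * (F (c x + ∑ g ∈ T, s g • L g) - F (c x)) ^ 2 ≤
        T.card * ∑ g ∈ T, C * En Ω p F (s g • L g) := by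
    intro s hs
    have hT : ∀ T : Finset I, ∀ x ∈ A, a x ≤ C * p (c x + ∑ g ∈ T, s g • L g) := by
      intro T x hx
      have := h x hx (fun g => if g ∈ T then s g else 0) fun g => by
        split_ifs
        · exact (mem_B.1 hs g).le
        · exact Nat.zero_le _
      simpa only [ite_smul, zero_smul, sum_ite_mem, univ_inter] using this
    intro T
    induction T using Finset.induction_on with
    | empty => simp
    | insert m T hm ih =>
      have h3 := translate_le (F := F) hp hp0 hc hC (∑ g ∈ T, s g • L g) (s m • L m)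
        fun x hx => ⟨hT T x hx, by
          have := hT (insert m T) x hx
          rwa [sum_insert hm, add_comm (s m • L m), ← add_assoc] at this⟩
      have h4 := mink ha (Nat.cast_nonneg _)
        (sum_nonneg fun g _ => mul_nonneg hC (En_nonneg hp _)) ih h3
      rw [card_insert_of_notMem hm, sum_insert hm, sum_insert hm, add_comm (s m • L m),
        add_comm (C * En Ω p F (s m • L m))]
      push_cast
      refine le_trans (le_of_eq ?_) h4
      refine sum_congr rfl fun x _ => ?_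
      rw [← add_assoc]
      ring
  refine (div_le_div_of_nonneg_right (sum_le_sum fun s hs => e3 s hs univ) h2.le).trans
    (le_of_eq ?_)
  simp only [← mul_sum]
  rw [card_univ, ← mul_assoc, mul_comm _ C, mul_div_assoc, sum_comm, sum_div]
  refine congrArg _ (sum_congr rfl fun m _ => ?_)
  have h3 := card0_pos hq m
  rw [sum_B hq m, card_B_eq hq m, sum_congr rfl (g := fun _ =>
    ∑ k ∈ range (q m), En Ω p F (k • L m)) fun s hs => sum_congr rfl fun k _ => by
      simp [(mem_filter.1 hs).2], sum_const, nsmul_eq_mul, mul_div_mul_left _ _ h3.ne']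

/-- A translation by an integer combination of smoothing directions of length at least `q₀`. -/
theorem sm_comb (hq : ∀ m, 0 < q m) (hp : ∀ z, 0 ≤ p z) (hp0 : ∀ z ∉ Ω, p z = 0)
    (ha : ∀ x ∈ A, 0 ≤ a x) (hc : Set.InjOn c A) (hC : 0 ≤ C) (k : I → ℤ) {q₀ : ℕ}
    (hk : ∀ m, k m ≠ 0 → q₀ ≤ q m) {E : ℝ} (hE : ∀ m, En Ω p F (q m • L m) ≤ E)
    (h : ∀ x ∈ A, ∀ s : I → ℤ, (∀ m, |s m| ≤ q m + |k m|) → a x ≤ C * p (c x + ∑ m, s m • L m)) :
    (q₀ : ℝ) ^ 2 * ∑ x ∈ A, a x * (sm L q F (c x + ∑ m, k m • L m) - sm L q F (c x)) ^ 2 ≤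
      C * (∑ m, |(k m : ℝ)|) ^ 2 * E := by
  have ha' : ∀ x ∈ A, 0 ≤ (q₀ : ℝ) ^ 2 * a x := fun x hx => mul_nonneg (sq_nonneg _) (ha x hx)
  have step : ∀ j : I → ℤ, (∀ m, |j m| ≤ |k m|) → ∀ m, k m ≠ 0 →
      ∑ x ∈ A, (q₀ : ℝ) ^ 2 * a x * (sm L q F (c x + ∑ g, j g • L g + L m) -
        sm L q F (c x + ∑ g, j g • L g)) ^ 2 ≤ C * E := by
    intro j hj m hm
    have h1 := sm_step (F := F) (c := fun x => c x + ∑ g, j g • L g) hq hp hp0 ha
      (fun x hx y hy hxy => hc hx hy (add_right_cancel hxy)) hC (fun x hx s hs => by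
        have := h x hx (fun g => j g + s g) fun g => by
          have h1 := abs_add_le (j g) (s g)
          have h2 := hj g
          have h3 : (s g : ℤ) ≤ q g := by exact_mod_cast hs g
          rw [Nat.abs_cast] at h1
          linarith
        simpa only [add_smul, sum_add_distrib, natCast_zsmul, add_assoc] using this) m
    have h2 : (q₀ : ℝ) ^ 2 ≤ (q m : ℝ) ^ 2 := by
      have : (q₀ : ℝ) ≤ q m := by exact_mod_cast hk m hm
      gcongr
    simp only [mul_assoc, ← mul_sum]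
    refine le_trans (mul_le_mul_of_nonneg_right h2
      (sum_nonneg fun x hx => mul_nonneg (ha x hx) (sq_nonneg _))) (h1.trans ?_)
    exact mul_le_mul_of_nonneg_left (hE m) hC
  have main : ∀ N : ℕ, ∀ j : I → ℤ, (∀ m, |j m| ≤ |k m|) → ∑ m, (j m).natAbs = N →
      ∑ x ∈ A, (q₀ : ℝ) ^ 2 * a x * (sm L q F (c x + ∑ g, j g • L g) - sm L q F (c x)) ^ 2 ≤
        N * (N * (C * E)) := by
    intro N
    induction N with
    | zero =>
      intro j _ hj
      have : ∀ m, j m = 0 := fun m =>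
        Int.natAbs_eq_zero.1 ((sum_eq_zero_iff.1 hj) m (mem_univ m))
      simp [this]
    | succ N ih =>
      intro j hj hN
      obtain ⟨m, hm⟩ : ∃ m, j m ≠ 0 := by
        by_contra hcon
        have : ∀ m, j m = 0 := fun m => not_not.1 fun h => hcon ⟨m, h⟩
        simp [this] at hN
      have hkm : k m ≠ 0 := by
        intro h0
        have := hj m
        rw [h0, abs_zero, abs_nonpos_iff] at this
        exact hm this
      have hCE : 0 ≤ C * E := mul_nonneg hC ((En_nonneg hp _).trans (hE m))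
      have hsum : ∀ j' : I → ℤ, (∀ g, g ≠ m → j' g = j g) → (j' m).natAbs + 1 = (j m).natAbs →
          (∀ g, |j' g| ≤ |k g|) ∧ ∑ g, (j' g).natAbs = N := by
        intro j' h1 h2
        constructor
        · intro g
          refine le_trans ?_ (hj g)
          by_cases hg : g = m
          · subst hg
            rw [← Int.natCast_natAbs, ← Int.natCast_natAbs]
            omega
          · rw [h1 g hg]
        · rw [← add_sum_erase _ _ (mem_univ m)] at hN ⊢
          rw [sum_congr rfl (g := fun g => (j g).natAbs) fun g hg => by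
            rw [h1 g (ne_of_mem_erase hg)]]
          omega
      have fin : ((N : ℝ) + 1) * (N * (C * E) + C * E) =
          ((N + 1 : ℕ) : ℝ) * (((N + 1 : ℕ) : ℝ) * (C * E)) := by
        push_cast; ring
      rcases lt_or_gt_of_ne hm with hlt | hgt
      · obtain ⟨h1, h2⟩ := hsum (j + Pi.single m 1) (fun g hg => by simp [hg]) (by
          simp only [Pi.add_apply, Pi.single_eq_same]; omega)
        have h3 := ih _ h1 h2
        have h4 := step j hj m hkm
        simp only [sub_sq_comm (sm L q F (c _ + ∑ g, j g • L g + L m))] at h4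
        have h5 := mink ha' (Nat.cast_nonneg N) (by positivity) h3 h4
        rw [fin] at h5
        refine le_trans (le_of_eq (sum_congr rfl fun x _ => ?_)) h5
        rw [Z_add, ← add_assoc]
        ring
      · obtain ⟨h1, h2⟩ := hsum (j - Pi.single m 1) (fun g hg => by simp [hg]) (by
          simp only [Pi.sub_apply, Pi.single_eq_same]; omega)
        have h3 := ih _ h1 h2
        have h4 := step _ h1 m hkm
        have h5 := mink ha' (Nat.cast_nonneg N) (by positivity) h3 h4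
        rw [fin] at h5
        refine le_trans (le_of_eq (sum_congr rfl fun x _ => ?_)) h5
        rw [add_assoc (c x), ← Z_add, sub_add_cancel]
        ring
  have h1 := main _ k (fun _ => le_rfl) rfl
  have h2 : ((∑ m, (k m).natAbs : ℕ) : ℝ) = ∑ m, |(k m : ℝ)| := by
    push_cast
    exact sum_congr rfl fun m _ => by rw [Nat.cast_natAbs, Int.cast_abs]
  rw [h2] at h1
  simp only [mul_assoc, ← mul_sum] at h1
  refine h1.trans (le_of_eq ?_)
  ring

end Smooth

section Pseudo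

variable {U : Type} [Fintype U] [Nonempty U]

/-- Mean weight of the seeds. -/
noncomputable def av (W : U → ℝ) : ℝ := (∑ u, W u) / Fintype.card U

/-- Weighted mean of `F` over the seeds. -/
noncomputable def cm (W F : U → ℝ) : ℝ := (∑ u, W u * F u) / ∑ u, W u

/-- Energy between two states of the extended chain with fresh seeds. -/
noncomputable def ex2 (W W' F F' : U → ℝ) : ℝ :=
  (∑ u, ∑ u', min (W u) (W' u') * (F' u' - F u) ^ 2) / (Fintype.card U : ℝ) ^ 2

namespace AvgAux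

theorem wjensen {Y : Type} (T : Finset Y) (w d : Y → ℝ) (hw : ∀ y, 0 ≤ w y) :
    (∑ y ∈ T, w y * d y) ^ 2 ≤ (∑ y ∈ T, w y) * ∑ y ∈ T, w y * d y ^ 2 := by
  have := sum_mul_sq_le_sq_mul_sq T (fun y => √(w y)) (fun y => √(w y) * d y)
  simpa only [← mul_assoc, Real.mul_self_sqrt (hw _), mul_pow, Real.sq_sqrt (hw _)] using this

theorem point {W W' D M b b' a a' : ℝ} (hW : 0 ≤ W) (hW' : 0 ≤ W') (hD0 : 0 ≤ D) (hD : D ≤ 1)
    (hM : 0 < M) (hb : W ≤ b) (hb' : W' ≤ b') (ha : 0 < a) (ha' : 0 < a') :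
    W * W' * D / max a a' ≤ M * (min W W' * D) + (b + b') / (M * a * a') * (W * W') := by
  have hμ : 0 < max a a' := lt_max_of_lt_left ha
  have h1 : 0 ≤ M * (min W W' * D) := mul_nonneg hM.le (mul_nonneg (le_min hW hW') hD0)
  have h2 : 0 ≤ (b + b') / (M * a * a') * (W * W') :=
    mul_nonneg (div_nonneg (by linarith) (by positivity)) (mul_nonneg hW hW')
  by_cases hc : max W W' ≤ M * max a a'
  · have h3 : W * W' * D / max a a' ≤ M * (min W W' * D) := by
      rw [div_le_iff₀ hμ, ← min_mul_max W W']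
      calc min W W' * max W W' * D ≤ min W W' * (M * max a a') * D := by
            have := le_min hW hW'
            gcongr
        _ = _ := by ring
    linarith
  · have h3 : M * max a a' ≤ b + b' := by
      rcases lt_max_iff.1 (not_le.1 hc) with h | h <;> linarith
    have h4 : 1 / max a a' ≤ (b + b') / (M * a * a') := by
      rw [div_le_div_iff₀ hμ (by positivity)]
      calc 1 * (M * a * a') = M * a * a' := one_mul _
        _ ≤ M * max a a' * max a a' := by
            gcongr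
            · exact le_max_left _ _
            · exact le_max_right _ _
        _ ≤ _ := by gcongr
    have h5 : W * W' * D / max a a' ≤ (b + b') / (M * a * a') * (W * W') := by
      calc W * W' * D / max a a' = 1 / max a a' * (W * W') * D := by ring
        _ ≤ (b + b') / (M * a * a') * (W * W') * 1 := by gcongr
        _ = _ := mul_one _
    linarith

theorem core {W W' F F' : U → ℝ} (hW : ∀ u, 0 ≤ W u) (hW' : ∀ u, 0 ≤ W' u)
    (hF : ∀ u, 0 ≤ F u ∧ F u ≤ 1) (hF' : ∀ u, 0 ≤ F' u ∧ F' u ≤ 1) {M b b' : ℝ} (hM : 0 < M)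
    (hb : ∀ u, W u ≤ b) (hb' : ∀ u, W' u ≤ b') (ha : 0 < av W) (ha' : 0 < av W') :
    (∑ u, ∑ u', W u * W' u' * (F' u' - F u) ^ 2) / max (av W) (av W') / (Fintype.card U : ℝ) ^ 2
      ≤ M * ex2 W W' F F' + (b + b') / M := by
  have hn : (0 : ℝ) < Fintype.card U := by exact_mod_cast Fintype.card_pos
  have h1 : (∑ u, ∑ u', W u * W' u' * (F' u' - F u) ^ 2) / max (av W) (av W') ≤
      ∑ u, ∑ u', (M * (min (W u) (W' u') * (F' u' - F u) ^ 2) +
        (b + b') / (M * av W * av W') * (W u * W' u')) := by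
    rw [sum_div]
    refine sum_le_sum fun u _ => ?_
    rw [sum_div]
    refine sum_le_sum fun u' _ => point (hW u) (hW' u') (sq_nonneg _) ?_ hM (hb u) (hb' u') ha ha'
    rw [sq_le_one_iff_abs_le_one, abs_le]
    constructor <;> linarith [hF u, hF' u']
  simp only [sum_add_distrib, ← mul_sum, ← sum_mul] at h1
  refine (div_le_div_of_nonneg_right h1 (sq_nonneg _)).trans (le_of_eq ?_)
  have e1 : ∑ u, W u = av W * Fintype.card U := by rw [av]; field_simp
  have e2 : ∑ u, W' u = av W' * Fintype.card U := by rw [av]; field_simp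
  rw [e1, e2, ex2]
  field_simp

theorem rhs_nonneg {W W' F F' : U → ℝ} (hW : ∀ u, 0 ≤ W u) (hW' : ∀ u, 0 ≤ W' u) {M b b' : ℝ}
    (hM : 0 < M) (hb : ∀ u, W u ≤ b) (hb' : ∀ u, W' u ≤ b') :
    0 ≤ M * ex2 W W' F F' + (b + b') / M := by
  obtain ⟨u⟩ := ‹Nonempty U›
  refine add_nonneg (mul_nonneg hM.le (div_nonneg (sum_nonneg fun _ _ => sum_nonneg fun _ _ =>
    mul_nonneg (le_min (hW _) (hW' _)) (sq_nonneg _)) (sq_nonneg _))) (div_nonneg ?_ hM.le)
  linarith [hW u, hW' u, hb u, hb' u]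

end AvgAux

open AvgAux

theorem cm_mem {W F : U → ℝ} (hW : ∀ u, 0 ≤ W u) (hF : ∀ u, 0 ≤ F u ∧ F u ≤ 1) :
    0 ≤ cm W F ∧ cm W F ≤ 1 := by
  refine ⟨div_nonneg (sum_nonneg fun u _ => mul_nonneg (hW u) (hF u).1)
    (sum_nonneg fun u _ => hW u), div_le_one_of_le₀ (sum_le_sum fun u _ => ?_)
    (sum_nonneg fun u _ => hW u)⟩
  exact mul_le_of_le_one_right (hW u) (hF u).2

theorem pm_move {W W' F F' : U → ℝ} (hW : ∀ u, 0 ≤ W u) (hW' : ∀ u, 0 ≤ W' u)
    (hF : ∀ u, 0 ≤ F u ∧ F u ≤ 1) (hF' : ∀ u, 0 ≤ F' u ∧ F' u ≤ 1) {M b b' : ℝ} (hM : 0 < M)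
    (hb : ∀ u, W u ≤ b) (hb' : ∀ u, W' u ≤ b') :
    min (av W) (av W') * (cm W' F' - cm W F) ^ 2 ≤ M * ex2 W W' F F' + (b + b') / M := by
  have hn : (0 : ℝ) < Fintype.card U := by exact_mod_cast Fintype.card_pos
  have h0 : 0 ≤ av W := div_nonneg (sum_nonneg fun u _ => hW u) hn.le
  have h0' : 0 ≤ av W' := div_nonneg (sum_nonneg fun u _ => hW' u) hn.le
  rcases (le_min h0 h0').eq_or_lt with hz | hz
  · rw [← hz, zero_mul]
    exact rhs_nonneg hW hW' hM hb hb'
  obtain ⟨ha, ha'⟩ := lt_min_iff.1 hz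
  refine le_trans ?_ (core hW hW' hF hF' hM hb hb' ha ha')
  have e1 : ∑ u, W u = av W * Fintype.card U := by rw [av]; field_simp
  have e2 : ∑ u, W' u = av W' * Fintype.card U := by rw [av]; field_simp
  have hA : 0 < ∑ u, W u := by rw [e1]; positivity
  have hA' : 0 < ∑ u, W' u := by rw [e2]; positivity
  have h1 := wjensen (univ ×ˢ univ) (fun y : U × U => W y.1 * W' y.2)
    (fun y => F' y.2 - F y.1) fun y => mul_nonneg (hW _) (hW' _)
  simp only [sum_product] at h1
  have e3 : ∑ u, ∑ u', W u * W' u' = (∑ u, W u) * ∑ u, W' u := by rw [sum_mul_sum]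
  have e4 : ∑ u, ∑ u', W u * W' u' * (F' u' - F u) =
      (∑ u, W u) * (∑ u, W' u) * (cm W' F' - cm W F) := by
    have : (∑ u, W u) * (∑ u, W' u) * (cm W' F' - cm W F) =
        (∑ u, W u) * (∑ u, W' u * F' u) - (∑ u, W u * F u) * ∑ u, W' u := by
      rw [cm, cm]; field_simp
    rw [this, sum_mul_sum, sum_mul_sum, ← sum_sub_distrib]
    refine sum_congr rfl fun u _ => ?_
    rw [← sum_sub_distrib]
    exact sum_congr rfl fun u' _ => by ring
  rw [e3, e4] at h1
  have hμ : 0 < max (av W) (av W') := lt_max_of_lt_left ha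
  rw [le_div_iff₀ (by positivity), le_div_iff₀ hμ]
  refine le_of_mul_le_mul_left (le_trans (le_of_eq ?_) h1) (mul_pos hA hA')
  have e5 := min_mul_max (av W) (av W')
  rw [e1, e2]
  linear_combination
    (av W * av W' * (Fintype.card U : ℝ) ^ 4 * (cm W' F' - cm W F) ^ 2) * e5

theorem pm_stay {W F : U → ℝ} (hW : ∀ u, 0 ≤ W u) (hF : ∀ u, 0 ≤ F u ∧ F u ≤ 1) {M b : ℝ}
    (hM : 0 < M) (hb : ∀ u, W u ≤ b) :
    av (fun u => W u * (F u - cm W F) ^ 2) ≤ M * ex2 W W F F + 2 * b / M := by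
  have hn : (0 : ℝ) < Fintype.card U := by exact_mod_cast Fintype.card_pos
  have h0 : 0 ≤ ∑ u, W u := sum_nonneg fun u _ => hW u
  rw [two_mul b]
  rcases h0.eq_or_lt with hz | hA
  · have h1 := (sum_eq_zero_iff_of_nonneg fun u _ => hW u).1 hz.symm
    have h2 : av (fun u => W u * (F u - cm W F) ^ 2) = 0 := by
      rw [av, sum_eq_zero fun u hu => by rw [h1 u hu, zero_mul], zero_div]
    rw [h2]
    exact rhs_nonneg hW hW hM hb hb
  have ha : 0 < av W := div_pos hA hn
  refine le_trans ?_ (core hW hW hF hF hM hb hb ha ha)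
  have h1 : ∀ u, (∑ u, W u) * (F u - cm W F) ^ 2 ≤ ∑ u', W u' * (F u' - F u) ^ 2 := by
    intro u
    have h2 := wjensen univ W (fun u' => F u' - F u) hW
    have e : ∑ u', W u' * (F u' - F u) = (∑ u, W u) * (cm W F - F u) := by
      simp only [mul_sub, sum_sub_distrib, ← sum_mul]
      rw [cm]; field_simp
    rw [e] at h2
    refine le_of_mul_le_mul_left (le_trans (le_of_eq ?_) h2) hA
    ring
  have h2 : (∑ u, W u) * ∑ u, W u * (F u - cm W F) ^ 2 ≤
      ∑ u, ∑ u', W u * W u' * (F u' - F u) ^ 2 := by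
    rw [mul_sum]
    refine sum_le_sum fun u _ => ?_
    simp only [mul_assoc, ← mul_sum]
    rw [mul_left_comm]
    exact mul_le_mul_of_nonneg_left (h1 u) (hW u)
  rw [max_self, le_div_iff₀ (by positivity), le_div_iff₀ ha]
  refine le_trans (le_of_eq ?_) h2
  rw [av, av]
  field_simp

end Pseudo

/-- Equation lemmas are realised here once and for all. -/
theorem anchor_Avg : True := by
  have := @sm.eq_1; have := @sm.eq_def; have := @En.eq_1; have := @En.eq_def
  have := @av.eq_1; have := @av.eq_def; have := @cm.eq_1; have := @cm.eq_def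
  have := @ex2.eq_1; have := @ex2.eq_def
  trivial

end Crest.Agent.R302
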