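import Crest.Agent.R302.Geom

/-!
# Row 302: the boundary layer lemma
-/

set_option autoImplicit false

namespace Crest.Agent.R302

open Finset

variable {ι : Type} [Fintype ι] [DecidableEq ι]

theorem BL_chain {β : Type} [DecidableEq β] (f : ℕ → Finset β) (hf : ∀ j, f (j + 1) ⊆ f j)
    (m : ℕ) : ((range m).filter fun j => f j ≠ f (j + 1)).card + (f m).card ≤ (f 0).card := by
  induction m with
  | zero => simp
  | succ m ih =>
    rw [range_add_one, filter_insert]
    split_ifs with h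
    · have h1 : (f (m + 1)).card < (f m).card :=
        card_lt_card (ssubset_of_subset_of_ne (hf m) (Ne.symm h))
      have h2 := card_insert_le m ((range m).filter fun j => f j ≠ f (j + 1))
      omega
    · have h1 := card_le_card (hf m)
      omega

theorem BL_card_le {S : Finset ℕ} {L : ℕ} (h : ∀ a ∈ S, ∀ b ∈ S, a ≤ b → b < a + L) :
    S.card ≤ L := by
  rcases S.eq_empty_or_nonempty with rfl | hne
  · simp
  · have h1 : S ⊆ Ico (S.min' hne) (S.min' hne + L) := fun b hb =>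
      mem_Ico.2 ⟨S.min'_le b hb, h _ (S.min'_mem hne) b hb (S.min'_le b hb)⟩
    simpa using card_le_card h1

/-- The pair of bases with first side `α`. -/
def BL_Y (D α : ι → ℤ) (s : Bool) : ι → ℝ := cv (side (lf D α) s)

theorem BL_Y_add {g : Bool → ι → ι → Prop} {χ : Bool → ι → ι → ℕ} (h : Circ g χ) (D α : ι → ℤ)
    (σ : ℕ) (s : Bool) :
    BL_Y D (α + (σ : ℤ) • mv χ false) s = BL_Y D α s + (σ : ℝ) • cv (mv χ s) := by
  funext i
  cases s
  · simp [BL_Y, side_lf_false, cv]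
  · have h1 : mv χ true i = -mv χ false i := by
      have := congrFun h.mv_add i
      simp only [Pi.add_apply, Pi.zero_apply] at this
      linarith
    simp [BL_Y, side_lf_true, cv, h1]
    ring

theorem BL_slack {g : Bool → ι → ι → Prop} {χ : Bool → ι → ι → ℕ} (h : Circ g χ) (y : ι → ℝ)
    {σ u : ℝ} (hσ : 0 ≤ σ) (hu : 2 * (Fintype.card ι : ℝ) ^ 3 * σ ≤ u) (s : Bool) (A : Finset ι) :
    |∑ i ∈ A, (y + σ • cv (mv χ s)) i - ∑ i ∈ A, y i| ≤ u := by
  have h1 : ∑ i ∈ A, (y + σ • cv (mv χ s)) i - ∑ i ∈ A, y i =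
      σ * ((∑ i ∈ A, mv χ s i : ℤ) : ℝ) := by
    simp [cv, sum_add_distrib, mul_sum]
  have h2 : |((∑ i ∈ A, mv χ s i : ℤ) : ℝ)| ≤ 2 * (Fintype.card ι : ℝ) ^ 3 := by
    exact_mod_cast h.abs_mv s A
  rw [h1, abs_mul, abs_of_nonneg hσ]
  nlinarith

theorem BL_stable {R : Bool → Finset ι → ℝ} {y y' : Bool → ι → ℝ} {τ u : ℝ} (hu : 0 ≤ u)
    (h : ∀ s (A : Finset ι), |∑ i ∈ A, y' s i - ∑ i ∈ A, y s i| ≤ u)
    (he : ∀ s p q, Arc (R s) (y s) (τ - u) p q → Arc (R s) (y s) (τ + u) p q) :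
    XG R y' τ = XG R y τ := by
  funext s p q
  refine propext ⟨fun h1 => (he s p q fun A hp hq => ?_).mono (by linarith), fun h1 A hp hq => ?_⟩
  · have := h1 A hp hq
    linarith [(abs_le.1 (h s A)).1]
  · have := he s p q (Arc.mono h1 (by linarith)) A hp hq
    linarith [(abs_le.1 (h s A)).2]

theorem BL_key {R : Bool → Finset ι → ℝ} (hR : ∀ s, Sub (R s)) {x y y' : Bool → ι → ℝ}
    (hx : ∀ s, InB (R s) (x s)) (hy : ∀ s, InB (R s) (y s)) (hy' : ∀ s, InB (R s) (y' s))
    {τ σ Δ c : ℝ} {χ : Bool → ι → ι → ℕ} (hχ : Circ (XG R y τ) χ)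
    (he : ∀ s, y' s = y s + σ • cv (mv χ s)) (hG : XG R y' τ = XG R y τ) (hσ : 0 ≤ σ)
    (hστ : (2 * (Fintype.card ι : ℝ) ^ 3 + 1) * σ ≤ τ)
    (hΔ : ∑ i, |x false i + x true i - y' false i - y' true i| ≤ Δ) {s : Bool} {p q : ι}
    (hc : Arc (R s) (x s) c p q) (hn : ¬ Arc (R s) (y' s) σ p q) :
    c ≤ (Fintype.card ι : ℝ) ^ 2 * σ + Fintype.card ι * (2 * (Fintype.card ι : ℝ) ^ 2 * τ + Δ) := by
  classical
  set C : Finset ι := univ.filter fun w => Arc (R s) (y' s) σ p w with hC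
  have hm : ∀ w, w ∈ C ↔ Arc (R s) (y' s) σ p w := fun w => by simp [hC]
  have h1 := hc C ((hm p).2 (Arc.refl _ _ _ _)) fun h => hn ((hm q).1 h)
  have h2 := slack_closed (hR s) (hy' s) hσ (S := C) fun a ha b hb h =>
    hb ((hm b).2 (((hm a).1 ha).trans h))
  have hτ : 0 ≤ τ := le_trans (by positivity) hστ
  have h3 := range_le hR hx hy' hτ (Δ := Δ) (fun S _ => (abs_sum_le_sum_abs _ _).trans
    ((sum_le_sum_of_subset_of_nonneg (subset_univ S) fun _ _ _ => abs_nonneg _).trans hΔ))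
    (s := s) (C := C) fun a b hab hba => by
      have hab' : XG R y' τ s a b := hab
      rw [hG] at hab' hba
      have h4 := hχ.sym (hy s) hσ hστ hab' hba
      rw [← he] at h4
      rw [hm, hm]
      exact ⟨fun h => h.trans h4.1, fun h => h.trans h4.2⟩
  linarith [(abs_le.1 h3).1]

open Classical in
/-- If some pair of bases with almost the right pair sums has capacity `c` along an arc, then most
integral pairs of bases with pair sums `D` have capacity `L` along it. -/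
theorem boundary_layer {r : Bool → Finset ι → ℤ} (hr : ∀ s, Sub (r s)) {D : ι → ℤ}
    {K : Finset (ι → ℤ)} (hK : ∀ α, α ∈ K ↔ ∀ s, InB (r s) (side (lf D α) s))
    {x : Bool → ι → ℝ} (hx : ∀ s, InB (cr (r s)) (x s)) {Δ c : ℝ}
    (hΔ : ∑ i, |x false i + x true i - D i| ≤ Δ) {s : Bool} {p q : ι}
    (hc : Arc (cr (r s)) (x s) c p q) {J L : ℕ}
    (hJ : 65 * (Fintype.card ι : ℝ) ^ 8 * J + Fintype.card ι * Δ < c) :
    (K.filter fun α => ¬ Arc (cr (r s)) (cv (side (lf D α) s)) L p q).card * J ≤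
      2 * L * K.card := by
  rcases Nat.eq_zero_or_pos J with rfl | hJ0
  · simp
  have hn0 : 0 < Fintype.card ι := Fintype.card_pos_iff.2 ⟨p⟩
  set n := Fintype.card ι with hn
  have hn1 : (1 : ℝ) ≤ n := by exact_mod_cast hn0
  have hJ1 : (1 : ℝ) ≤ J := by exact_mod_cast hJ0
  set Bad := K.filter fun α => ¬ Arc (cr (r s)) (cv (side (lf D α) s)) L p q with hBad
  set R : Bool → Finset ι → ℝ := fun s => cr (r s) with hR
  set u : ℝ := 2 * (n : ℝ) ^ 3 * J with hu
  have hu0 : 0 ≤ u := by positivity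
  let E : (ι → ℤ) → ℕ → Finset (Bool × ι × ι) := fun α j =>
    univ.filter fun a => Arc (R a.1) (BL_Y D α a.1) ((2 * j + 1) * u) a.2.1 a.2.2
  have hE : ∀ α j, E α (j + 1) ⊆ E α j := fun α j a ha => by
    simp only [E, mem_filter, mem_univ, true_and] at ha ⊢
    exact ha.mono (by push_cast; nlinarith)
  have hcount : ∀ α, 2 * n ^ 2 ≤ ((range (4 * n ^ 2)).filter fun j => E α j = E α (j + 1)).card := by
    intro α
    have h1 := BL_chain (E α) (hE α) (4 * n ^ 2)
    have h2 : (E α 0).card ≤ 2 * n ^ 2 := by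
      refine (card_le_univ _).trans (le_of_eq ?_)
      simp [← hn, sq]
    have h3 := card_filter_add_card_filter_not (s := range (4 * n ^ 2))
      fun j => E α j = E α (j + 1)
    rw [card_range] at h3
    simp only [ne_eq] at h1
    omega
  obtain ⟨j, hj, hjB⟩ : ∃ j ∈ range (4 * n ^ 2),
      Bad.card ≤ 2 * (Bad.filter fun α => E α j = E α (j + 1)).card := by
    refine exists_le_of_sum_le (nonempty_range_iff.2 (by positivity)) ?_
    rw [sum_const, card_range, smul_eq_mul, ← mul_sum]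
    have h1 : ∑ j ∈ range (4 * n ^ 2), (Bad.filter fun α => E α j = E α (j + 1)).card =
        ∑ α ∈ Bad, ((range (4 * n ^ 2)).filter fun j => E α j = E α (j + 1)).card := by
      simp only [card_filter]
      exact sum_comm
    have h2 := sum_le_sum fun α (_ : α ∈ Bad) => hcount α
    rw [sum_const, smul_eq_mul] at h2
    rw [h1]
    nlinarith
  set τ : ℝ := (2 * j + 2) * u with hτ
  have hj0 : (0 : ℝ) ≤ j := by positivity
  have hτu : 2 * u ≤ τ := by nlinarith
  have hn3 : (1 : ℝ) ≤ (n : ℝ) ^ 3 := one_le_pow₀ hn1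
  choose χ hχ using fun g : Bool → ι → ι → Prop => exists_circ g
  set B := Bad.filter fun α => E α j = E α (j + 1) with hB
  let G : (ι → ℤ) → Bool → ι → ι → Prop := fun α => XG R (BL_Y D α) τ
  let Φ : (ι → ℤ) × ℕ → ι → ℤ := fun a => a.1 + (a.2 : ℤ) • mv (χ (G a.1)) false
  have hKY : ∀ α, α ∈ K ↔ ∀ s, InB (R s) (BL_Y D α s) := fun α =>
    (hK α).trans (forall_congr' fun s => inB_cr.symm)
  have hBK : ∀ α ∈ B, α ∈ K := fun α h => (mem_filter.1 (mem_filter.1 h).1).1
  have hσu : ∀ σ : ℕ, σ ≤ J → 2 * (n : ℝ) ^ 3 * σ ≤ u := fun σ h =>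
    mul_le_mul_of_nonneg_left (by exact_mod_cast h) (by positivity)
  have hmaps : ∀ a ∈ B ×ˢ range J, Φ a ∈ K := fun a ha => by
    obtain ⟨h1, h2⟩ := mem_product.1 ha
    refine (hKY _).2 fun s' => ?_
    rw [BL_Y_add (hχ _)]
    exact (hχ _).inB ((hKY _).1 (hBK _ h1) s') (by positivity)
      ((hσu _ (mem_range.1 h2).le).trans (by linarith))
  have hG : ∀ a ∈ B ×ˢ range J, G (Φ a) = G a.1 := fun a ha => by
    obtain ⟨h1, h2⟩ := mem_product.1 ha
    refine BL_stable hu0 (fun s' A => ?_) fun s' p' q' h => ?_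
    · rw [BL_Y_add (hχ _)]
      exact BL_slack (hχ _) _ (by positivity) (hσu _ (mem_range.1 h2).le) s' A
    · have h3 : (s', p', q') ∈ E a.1 j := by
        simp only [E, mem_filter, mem_univ, true_and]
        exact h.mono (le_of_eq (by rw [hτ]; ring))
      rw [(mem_filter.1 h1).2] at h3
      simp only [E, mem_filter, mem_univ, true_and] at h3
      exact h3.mono (le_of_eq (by rw [hτ]; push_cast; ring))
  have hfib : ∀ α' ∈ K, ((B ×ˢ range J).filter fun a => Φ a = α').card ≤ L := by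
    intro α' _
    have hGa : ∀ a ∈ (B ×ˢ range J).filter fun a => Φ a = α', G a.1 = G α' := fun a ha => by
      rw [← (mem_filter.1 ha).2, hG a (mem_filter.1 ha).1]
    have hΦ : ∀ a ∈ (B ×ˢ range J).filter fun a => Φ a = α',
        a.1 + (a.2 : ℤ) • mv (χ (G α')) false = α' := fun a ha => by
      rw [← hGa a ha]; exact (mem_filter.1 ha).2
    rw [← card_image_of_injOn (f := Prod.snd) fun a ha b hb hab => Prod.ext (by
      have h1 := (hΦ a ha).trans (hΦ b hb).symm
      rw [hab] at h1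
      exact add_right_cancel h1) hab]
    refine BL_card_le fun σ1 h1 σ2 h2 h12 => ?_
    obtain ⟨a, ha, rfl⟩ := mem_image.1 h1
    obtain ⟨b, hb, rfl⟩ := mem_image.1 h2
    by_contra hlt
    obtain ⟨σ, hσ⟩ := Nat.exists_eq_add_of_le h12
    have hL : L ≤ σ := by omega
    obtain ⟨ha1, -⟩ := mem_product.1 (mem_filter.1 ha).1
    obtain ⟨hb1, hb2⟩ := mem_product.1 (mem_filter.1 hb).1
    have hσJ : (σ : ℝ) ≤ J := by
      have := mem_range.1 hb2
      exact_mod_cast (by omega : σ ≤ J)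
    have hσ0 : (0 : ℝ) ≤ σ := by positivity
    have e1 : a.1 = b.1 + (σ : ℤ) • mv (χ (G b.1)) false := by
      have h3 := (hΦ a ha).trans (hΦ b hb).symm
      rw [hσ, Nat.cast_add, add_comm (a.2 : ℤ), add_smul, ← add_assoc] at h3
      rw [hGa b hb]
      exact add_right_cancel h3
    have key := BL_key (fun s => (hr s).cr) hx ((hKY _).1 (hBK _ hb1)) ((hKY _).1 (hBK _ ha1))
      (hχ (G b.1)) (σ := σ) (Δ := Δ) (fun s' => by rw [e1, BL_Y_add (hχ _)])
      ((hGa a ha).trans (hGa b hb).symm) hσ0 (by rw [← hn]; nlinarith)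
      (le_of_eq_of_le (sum_congr rfl fun i _ => by
        simp only [BL_Y, side_lf_false, side_lf_true, cv, Pi.sub_apply, Int.cast_sub]
        congr 1
        ring) hΔ) hc
      fun h => (mem_filter.1 (mem_filter.1 ha1).1).2 (Arc.mono h (by exact_mod_cast hL))
    rw [← hn] at key
    have hj' : (j : ℝ) + 1 ≤ 4 * (n : ℝ) ^ 2 := by exact_mod_cast mem_range.1 hj
    have k1 : τ ≤ 8 * (n : ℝ) ^ 2 * u := by rw [hτ]; nlinarith
    have k2 : (n : ℝ) * (2 * (n : ℝ) ^ 2 * τ) ≤ 32 * ((n : ℝ) ^ 8 * J) := by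
      calc (n : ℝ) * (2 * (n : ℝ) ^ 2 * τ) ≤ n * (2 * (n : ℝ) ^ 2 * (8 * (n : ℝ) ^ 2 * u)) := by
            gcongr
        _ = _ := by rw [hu]; ring
    have k3 : (n : ℝ) ^ 2 * σ ≤ (n : ℝ) ^ 8 * J := by
      gcongr
      norm_num
    have k4 : (0 : ℝ) ≤ (n : ℝ) ^ 8 * J := by positivity
    linarith
  have h1 := card_le_mul_card_image_of_maps_to hmaps L hfib
  rw [card_product, card_range] at h1
  nlinarith

end Crest.Agent.R302
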