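import Crest.Agent.R302.BL

/-!
# Row 302: thickened and thinned base polytopes have almost the same number of common points
-/

set_option autoImplicit false

namespace Crest.Agent.R302

open Finset

variable {ι : Type} [Fintype ι] [DecidableEq ι]

/-- A centre with room `c a` along the arcs `(a, par a)` with `J a ≠ 0`. -/
structure Room (r : Bool → Finset ι → ℤ) (x : Bool → ι → ℝ) (par : Bool × ι → Bool × ι)
    (J : Bool × ι → ℕ) (μ Rm : ℕ) : Prop where
  ne : Nonempty ι
  sub : ∀ s, Sub (r s)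
  tot : r false univ + r true univ = 0
  bnd : ∀ s A, |r s A| ≤ Rm
  cen : ∀ s, InB (cr (r s)) (x s)
  dfc : ∑ i, |x false i + x true i| ≤ 2
  par_side : ∀ a, (par a).1 = a.1
  room : ∀ a, J a ≠ 0 → ∃ c : ℝ, Sym (cr (r a.1)) (x a.1) c a.2 (par a).2 ∧
    65 * (Fintype.card ι : ℝ) ^ 8 * (μ * J a) + 4 * Fintype.card ι < c
  μ_pos : 0 < μ

variable {r : Bool → Finset ι → ℤ} {x : Bool → ι → ℝ} {par : Bool × ι → Bool × ι}
  {J : Bool × ι → ℕ} {μ Rm : ℕ}

namespace ThickAux

/-- Total weight of the arcs of side `s` that cross `A`. -/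
def cutF (par : Bool × ι → Bool × ι) (J : Bool × ι → ℕ) (s : Bool) (A : Finset ι) : ℤ :=
  ∑ i, if (i ∈ A ↔ (par (s, i)).2 ∈ A) then 0 else (J (s, i) : ℤ)

theorem cutF_nonneg (s : Bool) (A : Finset ι) : 0 ≤ cutF par J s A :=
  sum_nonneg fun i _ => by split_ifs <;> positivity

theorem cutF_empty (s : Bool) : cutF par J s ∅ = 0 := by simp [cutF]

theorem cutF_univ (s : Bool) : cutF par J s univ = 0 := by simp [cutF]

theorem cutF_le (s : Bool) (A : Finset ι) : cutF par J s A ≤ ∑ a, (J a : ℤ) := by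
  have h1 : cutF par J s A ≤ ∑ i, (J (s, i) : ℤ) :=
    sum_le_sum fun i _ => by split_ifs <;> simp
  refine h1.trans ?_
  rw [Fintype.sum_prod_type]
  exact single_le_sum (f := fun s => ∑ i, (J (s, i) : ℤ))
    (fun s _ => sum_nonneg fun i _ => by positivity) (mem_univ s)

theorem cutF_sub (s : Bool) (A B : Finset ι) :
    cutF par J s (A ∪ B) + cutF par J s (A ∩ B) ≤ cutF par J s A + cutF par J s B := by
  simp only [cutF, ← sum_add_distrib]
  refine sum_le_sum fun i _ => ?_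
  by_cases h1 : i ∈ A <;> by_cases h2 : i ∈ B <;> by_cases h3 : (par (s, i)).2 ∈ A <;>
    by_cases h4 : (par (s, i)).2 ∈ B <;> simp [h1, h2, h3, h4]

omit [Fintype ι] in
theorem sum_ev (a : Bool × ι) (s : Bool) (A : Finset ι) :
    ∑ i ∈ A, ev a (s, i) = if a.1 = s ∧ a.2 ∈ A then 1 else 0 := by
  obtain ⟨s', j⟩ := a
  by_cases h : s' = s
  · subst h
    simp [ev, Pi.single_apply]
  · have h' : ¬ s = s' := fun e => h e.symm
    simp [ev, h, h']

theorem abs_shf_le (hp : ∀ a, (par a).1 = a.1) {ξ : Bool × ι → ℤ} (hξ : ∀ a, |ξ a| ≤ J a)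
    (s : Bool) (A : Finset ι) : |∑ i ∈ A, side (shf par ξ) s i| ≤ cutF par J s A := by
  have h1 : ∑ i ∈ A, side (shf par ξ) s i = ∑ j, ξ (s, j) *
      ((if j ∈ A then 1 else 0) - (if (par (s, j)).2 ∈ A then 1 else 0)) := by
    simp only [side, shf, Finset.sum_apply, Pi.smul_apply, Pi.sub_apply, smul_eq_mul]
    rw [sum_comm]
    simp only [← mul_sum, sum_sub_distrib, sum_ev, hp]
    rw [Fintype.sum_prod_type, sum_eq_single s]
    · simp
    · intro s' _ hs'
      simp [hs']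
    · simp
  rw [h1]
  refine (abs_sum_le_sum_abs _ _).trans (sum_le_sum fun j _ => ?_)
  have := hξ (s, j)
  by_cases h1 : j ∈ A <;> by_cases h2 : (par (s, j)).2 ∈ A <;> simp [h1, h2, this]

theorem exists_cut (s : Bool) (A : Finset ι) (h : cutF par J s A ≠ 0) :
    ∃ i, ¬ (i ∈ A ↔ (par (s, i)).2 ∈ A) ∧ J (s, i) ≠ 0 ∧
      cutF par J s A ≤ Fintype.card ι * J (s, i) := by
  have hne : (univ : Finset ι).Nonempty := by
    by_contra hc
    rw [not_nonempty_iff_eq_empty] at hc
    exact h (by simp [cutF, hc])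
  obtain ⟨i, -, hi⟩ := exists_max_image univ
    (fun i => if (i ∈ A ↔ (par (s, i)).2 ∈ A) then 0 else (J (s, i) : ℤ)) hne
  have h1 := sum_le_card_nsmul _ _ _ hi
  rw [card_univ, nsmul_eq_mul] at h1
  have h2 := lt_of_le_of_ne (cutF_nonneg (par := par) (J := J) s A) (Ne.symm h)
  change cutF par J s A ≤ _ at h1
  by_cases hc : (i ∈ A ↔ (par (s, i)).2 ∈ A)
  · rw [if_pos hc, mul_zero] at h1
    omega
  · rw [if_neg hc] at h1
    refine ⟨i, hc, fun h0 => ?_, h1⟩
    rw [h0] at h1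
    simp at h1
    omega

/-- The correction of a layer. -/
def lay (k m : ℤ) (A : Finset ι) : ℤ := if A = ∅ then 0 else if A = univ then m else k

theorem lay_le {k m : ℤ} (hk : 0 ≤ k) (hm : m ≤ k) (A : Finset ι) : lay k m A ≤ k := by
  unfold lay; split_ifs <;> omega

theorem lay_sub {k m : ℤ} (hk : 0 ≤ k) (hm : m ≤ k) (A B : Finset ι) :
    lay k m (A ∪ B) + lay k m (A ∩ B) ≤ lay k m A + lay k m B := by
  by_cases h1 : A = ∅
  · subst h1; simp [add_comm]
  by_cases h2 : B = ∅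
  · subst h2; simp
  by_cases h3 : A = univ
  · subst h3; rw [univ_inter, union_eq_left.2 (subset_univ _)]
  by_cases h4 : B = univ
  · subst h4; rw [inter_univ, union_eq_right.2 (subset_univ _), add_comm]
  have := lay_le hk hm (A ∪ B)
  have := lay_le hk hm (A ∩ B)
  have hA : lay k m A = k := by simp [lay, h1, h3]
  have hB : lay k m B = k := by simp [lay, h2, h4]
  omega

theorem lay_ge {k m : ℤ} (hk : 0 ≤ k) (hm : m ≤ k) (i : ι) (A : Finset ι) :
    (if i ∈ A then m else 0) ≤ lay k m A := by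
  unfold lay
  by_cases h1 : A = ∅
  · simp [h1]
  by_cases h3 : A = univ
  · subst h3; simp [h1]
  rw [if_neg h1, if_neg h3]
  split_ifs <;> omega

theorem lay_univ [Nonempty ι] (k m : ℤ) : lay k m (univ : Finset ι) = m := by
  simp [lay, univ_nonempty.ne_empty]

/-- thickened polytopes. -/
def Plus (r : Bool → Finset ι → ℤ) (par : Bool × ι → Bool × ι) (J : Bool × ι → ℕ) (D : ι → ℤ)
    (k : Bool → ℕ) (α : ι → ℤ) : Prop :=
  ∀ s A, ∑ i ∈ A, side (lf D α) s i ≤ r s A + cutF par J s A + k s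

/-- thinned polytopes. -/
def Deep (r : Bool → Finset ι → ℤ) (par : Bool × ι → Bool × ι) (J : Bool × ι → ℕ) (D : ι → ℤ)
    (k : Bool → ℕ) (α : ι → ℤ) : Prop :=
  ∀ s A, ∑ i ∈ A, side (lf D α) s i + cutF par J s A ≤ r s A + k s

open Classical in
theorem layer (h : Room r x par J μ Rm) {D : ι → ℤ} (hD : ∑ i, |D i| ≤ 2)
    (hD0 : ∑ i, D i = 0) {Kc : ℕ} {Bx : Finset (ι → ℤ)}
    (hBx : ∀ α : ι → ℤ, (∀ i, |α i| ≤ Rm + ∑ a, J a + Kc + 2) → α ∈ Bx) {k : Bool → ℕ}
    (hk : ∀ s, k s ≤ Kc) (M : ℤ) :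
    (Bx.filter fun α => (Plus r par J D k α ∧ ¬ Deep r par J D k α) ∧ ∑ i, α i = M).card * μ ≤
      16 * Fintype.card ι ^ 2 * (Bx.filter fun α => Plus r par J D k α ∧ ∑ i, α i = M).card := by
  have := h.ne
  obtain ⟨i0⟩ := h.ne
  set K := Bx.filter fun α => Plus r par J D k α ∧ ∑ i, α i = M with hKdef
  rcases K.eq_empty_or_nonempty with hK0 | ⟨α0, hα0⟩
  · have : (Bx.filter fun α => (Plus r par J D k α ∧ ¬ Deep r par J D k α) ∧
        ∑ i, α i = M) = ∅ := by
      rw [← subset_empty, ← hK0]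
      intro α hα
      simp only [hKdef, mem_filter] at hα ⊢
      exact ⟨hα.1, hα.2.1.1, hα.2.2⟩
    simp [this]
  set m : Bool → ℤ := fun s => if s then -(M - r false univ) else M - r false univ with hm
  have hsum : ∀ α : ι → ℤ, ∑ i, α i = M → ∀ s, ∑ i, side (lf D α) s i = r s univ + m s := by
    intro α hα s
    cases s
    · simp [side_lf_false, hα, hm]
    · have := h.tot
      simp only [side_lf_true, Pi.sub_apply, sum_sub_distrib, hD0, hα, hm, if_true]
      omega
  have hmk : ∀ s, m s ≤ k s := by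
    intro s
    have h1 := (mem_filter.1 hα0).2
    have h2 := h1.1 s univ
    rw [hsum α0 h1.2, cutF_univ] at h2
    omega
  have hk0 : ∀ s, (0 : ℤ) ≤ k s := fun s => Int.natCast_nonneg _
  set ρ : Bool → Finset ι → ℤ := fun s A => r s A + cutF par J s A + lay (k s) (m s) A with hρ
  have hρle : ∀ s A, ρ s A ≤ r s A + cutF par J s A + k s := fun s A => by
    have := lay_le (hk0 s) (hmk s) A
    simp only [hρ]; omega
  have hρu : ∀ s, ρ s univ = r s univ + m s := fun s => by simp [hρ, cutF_univ, lay_univ]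
  have hρsub : ∀ s, Sub (ρ s) := by
    intro s
    refine ⟨by simp [hρ, (h.sub s).1, cutF_empty, lay], fun A B => ?_⟩
    have := (h.sub s).2 A B
    have := cutF_sub (par := par) (J := J) s A B
    have := lay_sub (hk0 s) (hmk s) A B
    simp only [hρ]; omega
  have hK : ∀ α, α ∈ K ↔ ∀ s, InB (ρ s) (side (lf D α) s) := by
    intro α
    rw [hKdef, mem_filter]
    constructor
    · rintro ⟨-, h1, h2⟩ s
      refine ⟨fun A => ?_, by rw [hsum α h2, hρu]⟩
      by_cases hA : A = ∅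
      · rw [hA, (hρsub s).1]; simp
      by_cases hA' : A = univ
      · rw [hA', hsum α h2, hρu]
      · have := h1 s A
        simp only [hρ, lay, if_neg hA, if_neg hA']
        exact this
    · intro H
      refine ⟨hBx α fun i => ?_, fun s A => ((H s).1 A).trans (hρle s A), ?_⟩
      · have h1 := ((H false).1 {i}).trans (hρle false {i})
        have h2 := ((H true).1 {i}).trans (hρle true {i})
        have h3 := abs_le.1 (h.bnd false {i})
        have h4 := abs_le.1 (h.bnd true {i})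
        have h5 := cutF_le (par := par) (J := J) false {i}
        have h6 := cutF_le (par := par) (J := J) true {i}
        have h7 := hk false
        have h8 := hk true
        have h9 := abs_le.1 ((single_le_sum (f := fun i => |D i|) (fun i _ => abs_nonneg _)
          (mem_univ i)).trans hD)
        simp only [side_lf_false, side_lf_true, sum_singleton, Pi.sub_apply] at h1 h2
        push_cast
        rw [abs_le]
        constructor <;> omega
      · have := (H false).2
        rw [side_lf_false, hρu] at this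
        simp only [hm] at this
        simpa using this
  set x' : Bool → ι → ℝ := fun s i => x s i + if i = i0 then (m s : ℝ) else 0 with hx'
  have hsl : ∀ s A, cr (r s) A - ∑ i ∈ A, x s i ≤ cr (ρ s) A - ∑ i ∈ A, x' s i := by
    intro s A
    have h1 : ((if i0 ∈ A then m s else 0 : ℤ) : ℝ) ≤ (lay (k s) (m s) A : ℤ) := by
      exact_mod_cast lay_ge (hk0 s) (hmk s) i0 A
    have h2 : (0 : ℝ) ≤ (cutF par J s A : ℤ) := by exact_mod_cast cutF_nonneg s A
    simp only [hx', sum_add_distrib, sum_ite_eq', cr, hρ]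
    push_cast at h1 ⊢
    linarith
  have hx'B : ∀ s, InB (cr (ρ s)) (x' s) := by
    intro s
    refine ⟨fun A => ?_, ?_⟩
    · have := hsl s A
      have := (h.cen s).1 A
      linarith
    · have := (h.cen s).2
      simp only [hx', sum_add_distrib, sum_ite_eq', cr, hρu, mem_univ, if_true] at this ⊢
      push_cast
      rw [this]
  have hΔ : ∑ i, |x' false i + x' true i - D i| ≤ 4 := by
    have h1 : ∀ i, |x' false i + x' true i - D i| ≤ |x false i + x true i| + ((|D i| : ℤ) : ℝ) := by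
      intro i
      have : x' false i + x' true i = x false i + x true i := by
        by_cases hi : i = i0
        · simp only [hx', hm, if_pos hi]
          simp
          ring
        · simp only [hx', if_neg hi, add_zero]
      rw [this]
      push_cast
      exact abs_sub _ _
    refine (sum_le_sum fun i _ => h1 i).trans ?_
    rw [sum_add_distrib]
    have h2 : ∑ i, ((|D i| : ℤ) : ℝ) ≤ 2 := by exact_mod_cast hD
    linarith [h.dfc]
  -- the bad sets
  set bad : (Bool × ι) × Bool → Finset (ι → ℤ) := fun a => K.filter fun α => J a.1 ≠ 0 ∧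
    ¬ Arc (cr (ρ a.1.1)) (cv (side (lf D α) a.1.1)) ((2 * Fintype.card ι * J a.1 : ℕ) : ℝ)
      (if a.2 then a.1.2 else (par a.1).2) (if a.2 then (par a.1).2 else a.1.2) with hbad
  have hbc : ∀ a, (bad a).card * μ ≤ 4 * Fintype.card ι * K.card := by
    rintro ⟨a, d⟩
    by_cases hJ : J a = 0
    · simp [hbad, hJ]
    obtain ⟨c, hc, hc'⟩ := h.room a hJ
    have harc : Arc (cr (ρ a.1)) (x' a.1) c (if d then a.2 else (par a).2)
        (if d then (par a).2 else a.2) := by
      intro A h1 h2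
      refine le_trans ?_ (hsl a.1 A)
      cases d
      · exact hc.2 A h1 h2
      · exact hc.1 A h1 h2
    have key := boundary_layer hρsub hK hx'B hΔ harc (J := μ * J a)
      (L := 2 * Fintype.card ι * J a) (by push_cast; linarith)
    have e : bad (a, d) = K.filter fun α => ¬ Arc (cr (ρ a.1)) (cv (side (lf D α) a.1))
        ((2 * Fintype.card ι * J a : ℕ) : ℝ) (if d then a.2 else (par a).2)
        (if d then (par a).2 else a.2) := by
      simp only [hbad, ne_eq, hJ, not_false_eq_true, true_and]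
    rw [e]
    refine Nat.le_of_mul_le_mul_right ?_ (Nat.pos_of_ne_zero hJ)
    rw [mul_assoc]
    refine key.trans (le_of_eq ?_)
    ring
  have hsub : (Bx.filter fun α => (Plus r par J D k α ∧ ¬ Deep r par J D k α) ∧
      ∑ i, α i = M) ⊆ univ.biUnion bad := by
    intro α hα
    obtain ⟨h1, ⟨h2, h3⟩, h4⟩ := mem_filter.1 hα
    have hαK : α ∈ K := mem_filter.2 ⟨h1, h2, h4⟩
    by_contra hcon
    refine h3 fun s A => ?_
    by_cases hc0 : cutF par J s A = 0
    · have := h2 s A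
      omega
    obtain ⟨i, hi1, hi2, hi3⟩ := exists_cut s A hc0
    have harc : ∀ d : Bool, Arc (cr (ρ s)) (cv (side (lf D α) s))
        ((2 * Fintype.card ι * J (s, i) : ℕ) : ℝ) (if d then i else (par (s, i)).2)
        (if d then (par (s, i)).2 else i) := by
      intro d
      by_contra hn
      exact hcon (mem_biUnion.2 ⟨((s, i), d), mem_univ _, mem_filter.2 ⟨hαK, hi2, hn⟩⟩)
    have h5 : ((2 * Fintype.card ι * J (s, i) : ℕ) : ℝ) ≤
        cr (ρ s) A - ∑ j ∈ A, cv (side (lf D α) s) j := by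
      by_cases hiA : i ∈ A
      · exact harc true A hiA fun h6 => hi1 (iff_of_true hiA h6)
      · refine harc false A ?_ hiA
        by_contra h6
        exact hi1 (iff_of_false hiA h6)
    have h6 : ((2 * Fintype.card ι * J (s, i) : ℕ) : ℤ) ≤ ρ s A - ∑ j ∈ A, side (lf D α) s j := by
      simp only [cr, cv] at h5
      exact_mod_cast h5
    have h7 := hρle s A
    push_cast at h6
    linarith
  calc _ ≤ (∑ a, (bad a).card) * μ :=
        Nat.mul_le_mul_right _ ((card_le_card hsub).trans card_biUnion_le)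
    _ = ∑ a, (bad a).card * μ := sum_mul _ _ _
    _ ≤ ∑ _a : (Bool × ι) × Bool, 4 * Fintype.card ι * K.card := sum_le_sum fun a _ => hbc a
    _ = _ := by simp; ring

open Classical in
theorem plus_deep (h : Room r x par J μ Rm) {D : ι → ℤ} (hD : ∑ i, |D i| ≤ 2)
    (hD0 : ∑ i, D i = 0) {Kc : ℕ} {Bx : Finset (ι → ℤ)}
    (hBx : ∀ α : ι → ℤ, (∀ i, |α i| ≤ Rm + ∑ a, J a + Kc + 2) → α ∈ Bx) {k : Bool → ℕ}
    (hk : ∀ s, k s ≤ Kc) :
    (Bx.filter fun α => Plus r par J D k α ∧ ¬ Deep r par J D k α).card * μ ≤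
      16 * Fintype.card ι ^ 2 * (Bx.filter fun α => Plus r par J D k α).card := by
  have e : ∀ (P : (ι → ℤ) → Prop) [DecidablePred P], (Bx.filter P).card =
      ∑ M ∈ Bx.image fun α => ∑ i, α i, (Bx.filter fun α => P α ∧ ∑ i, α i = M).card := by
    intro P _
    rw [card_eq_sum_card_fiberwise (f := fun α : ι → ℤ => ∑ i, α i)
      (t := Bx.image fun α => ∑ i, α i)]
    · simp only [filter_filter]
    · intro α hα
      exact mem_coe.2 (mem_image_of_mem _ (mem_filter.1 (mem_coe.1 hα)).1)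
  rw [e, e, sum_mul, mul_sum]
  refine sum_le_sum fun M _ => ?_
  convert layer h hD hD0 hBx hk M

omit [DecidableEq ι] in
theorem dp_le_iff {ρ : Finset ι → ℤ} {y : ι → ℤ} {k : ℤ} :
    dp ρ y ≤ k ↔ ∀ A, ∑ i ∈ A, y i - ρ A ≤ k := by
  simp [dp, sup'_le_iff]

omit [Fintype ι] [DecidableEq ι] in
theorem sum_side_sub (z z' : Bool × ι → ℤ) (s : Bool) (A : Finset ι) :
    ∑ i ∈ A, side (z - z') s i = ∑ i ∈ A, side z s i - ∑ i ∈ A, side z' s i := by
  simp [side]

theorem count (h : Room r x par J μ Rm) {D : ι → ℤ} (hD : ∑ i, |D i| ≤ 2)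
    (hD0 : ∑ i, D i = 0) {Kc : ℕ} {Bx : Finset (ι → ℤ)}
    (hBx : ∀ α : ι → ℤ, (∀ i, |α i| ≤ Rm + ∑ a, J a + Kc + 2) → α ∈ Bx)
    {ξ₁ ξ₂ : (ι → ℤ) → Bool × ι → ℤ} (h₁ : ∀ α a, |ξ₁ α a| ≤ J a) (h₂ : ∀ α a, |ξ₂ α a| ≤ J a)
    {k : Bool → ℕ} (hk : ∀ s, k s ≤ Kc) :
    (1 - 16 * (Fintype.card ι : ℝ) ^ 2 / μ) *
        (Bx.filter fun α => ∀ s, dp (r s) (side (lf D α - shf par (ξ₁ α)) s) ≤ k s).card ≤
      (Bx.filter fun α => ∀ s, dp (r s) (side (lf D α - shf par (ξ₂ α)) s) ≤ k s).card := by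
  classical
  by_cases hc : 1 - 16 * (Fintype.card ι : ℝ) ^ 2 / μ < 0
  · exact (mul_nonpos_of_nonpos_of_nonneg hc.le (Nat.cast_nonneg _)).trans (Nat.cast_nonneg _)
  have hμ : (0 : ℝ) < μ := by exact_mod_cast h.μ_pos
  have e1 : (Bx.filter fun α => ∀ s, dp (r s) (side (lf D α - shf par (ξ₁ α)) s) ≤ k s).card ≤
      (Bx.filter fun α => Plus r par J D k α).card := by
    refine card_le_card (monotone_filter_right _ fun α _ hα s A => ?_)
    have h3 := dp_le_iff.1 (hα s) A
    rw [sum_side_sub] at h3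
    have := abs_le.1 (abs_shf_le h.par_side (h₁ α) s A)
    omega
  have e2 : (Bx.filter fun α => Deep r par J D k α).card ≤
      (Bx.filter fun α => ∀ s, dp (r s) (side (lf D α - shf par (ξ₂ α)) s) ≤ k s).card := by
    refine card_le_card (monotone_filter_right _ fun α _ hα s => dp_le_iff.2 fun A => ?_)
    have h3 := hα s A
    rw [sum_side_sub]
    have := abs_le.1 (abs_shf_le h.par_side (h₂ α) s A)
    omega
  have e3 : (Bx.filter fun α => Plus r par J D k α).card ≤
      (Bx.filter fun α => Deep r par J D k α).card +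
        (Bx.filter fun α => Plus r par J D k α ∧ ¬ Deep r par J D k α).card := by
    refine le_trans (card_le_card fun α hα => ?_) (card_union_le _ _)
    simp only [mem_union, mem_filter] at hα ⊢
    tauto
  have e4 := plus_deep h hD hD0 hBx hk
  have e1' := (Nat.cast_le (α := ℝ)).2 e1
  have e2' := (Nat.cast_le (α := ℝ)).2 e2
  have e3' := (Nat.cast_le (α := ℝ)).2 e3
  have e4' := (Nat.cast_le (α := ℝ)).2 e4
  push_cast at e3' e4'
  rw [← le_div_iff₀ hμ, mul_div_right_comm] at e4'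
  have := mul_le_mul_of_nonneg_left e1' (not_lt.1 hc)
  linarith

theorem DD_eq (h : Room r x par J μ Rm) {D : ι → ℤ} (hD0 : ∑ i, D i = 0) {ξ : Bool × ι → ℤ}
    (hξ : ∀ a, |ξ a| ≤ J a) (α : ι → ℤ) :
    DD r (lf D α - shf par ξ) = 2 * (dp (r false) (side (lf D α - shf par ξ) false) +
      dp (r true) (side (lf D α - shf par ξ) true)) := by
  have h1 := abs_le.1 (abs_shf_le h.par_side hξ false univ)
  have h2 := abs_le.1 (abs_shf_le h.par_side hξ true univ)
  rw [cutF_univ] at h1 h2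
  have h3 := h.tot
  simp only [DD, dist, sum_side_sub, side_lf_false, side_lf_true, Pi.sub_apply, sum_sub_distrib,
    hD0]
  omega

theorem weights {l : ℝ} (h0 : 0 ≤ l) (h1 : l ≤ 1) (Kc : ℕ) : ∃ w : ℕ → ℝ, (∀ k, 0 ≤ w k) ∧
    ∀ a : ℕ, ∑ k ∈ range (Kc + 1), (if a ≤ k then w k else 0) =
      if a ≤ Kc then l ^ a else 0 := by
  refine ⟨fun k => if k < Kc then l ^ k - l ^ (k + 1) else l ^ Kc, fun k => ?_, fun a => ?_⟩
  · dsimp only
    split_ifs
    · exact sub_nonneg.2 (pow_le_pow_of_le_one h0 h1 (Nat.le_succ k))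
    · positivity
  · have key : ∀ N : ℕ, ∑ k ∈ range N, (if a ≤ k then l ^ k - l ^ (k + 1) else 0) =
        if a ≤ N then l ^ a - l ^ N else 0 := by
      intro N
      induction N with
      | zero => by_cases ha : a = 0 <;> simp [ha]
      | succ N ih =>
        rw [sum_range_succ, ih]
        by_cases h2 : a ≤ N
        · rw [if_pos h2, if_pos h2, if_pos (by omega)]; ring
        · by_cases h3 : a = N + 1
          · subst h3; simp
          · rw [if_neg h2, if_neg h2, if_neg (by omega)]; ring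
    dsimp only
    rw [sum_range_succ, sum_congr rfl fun k hk => by rw [if_pos (mem_range.1 hk)], key]
    split_ifs <;> simp_all

theorem cake {X : Type} (Bx : Finset X) (a₁ a₂ : X → Bool → ℕ) {l c : ℝ} (h0 : 0 ≤ l) (h1 : l ≤ 1)
    (hc : c ≤ 1) (Kc : ℕ) (h : ∀ k : Bool → ℕ, (∀ s, k s ≤ Kc) →
      c * (Bx.filter fun α => ∀ s, a₁ α s ≤ k s).card ≤
        (Bx.filter fun α => ∀ s, a₂ α s ≤ k s).card) :
    c * ∑ α ∈ Bx, l ^ (a₁ α false + a₁ α true) ≤
      ∑ α ∈ Bx, l ^ (a₂ α false + a₂ α true) + Bx.card * l ^ Kc := by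
  by_cases hc0 : c < 0
  · exact (mul_nonpos_of_nonpos_of_nonneg hc0.le (by positivity)).trans (by positivity)
  obtain ⟨w, hw, hΛ⟩ := weights h0 h1 Kc
  have e : ∀ a : X → Bool → ℕ, ∑ α ∈ Bx, (if a α false ≤ Kc then l ^ a α false else 0) *
      (if a α true ≤ Kc then l ^ a α true else 0) =
      ∑ k0 ∈ range (Kc + 1), ∑ k1 ∈ range (Kc + 1), w k0 * w k1 *
        (Bx.filter fun α => ∀ s, a α s ≤ (if s then k1 else k0)).card := by
    intro a
    simp only [← hΛ, sum_mul_sum]
    rw [sum_comm]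
    refine sum_congr rfl fun k0 _ => ?_
    rw [sum_comm]
    refine sum_congr rfl fun k1 _ => ?_
    rw [card_filter]
    push_cast
    rw [mul_sum]
    refine sum_congr rfl fun α _ => ?_
    by_cases h2 : a α false ≤ k0 <;> by_cases h3 : a α true ≤ k1 <;> simp [h2, h3]
  have e1 : ∑ α ∈ Bx, l ^ (a₁ α false + a₁ α true) ≤
      ∑ α ∈ Bx, (if a₁ α false ≤ Kc then l ^ a₁ α false else 0) *
        (if a₁ α true ≤ Kc then l ^ a₁ α true else 0) + Bx.card * l ^ Kc := by
    rw [← nsmul_eq_mul, ← sum_const, ← sum_add_distrib]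
    refine sum_le_sum fun α _ => ?_
    have : 0 ≤ l ^ Kc := by positivity
    split_ifs with h2 h3 h3
    · rw [pow_add]; linarith
    all_goals
      simp only [mul_zero, zero_mul, zero_add]
      exact pow_le_pow_of_le_one h0 h1 (by omega)
  have e2 : ∑ α ∈ Bx, (if a₂ α false ≤ Kc then l ^ a₂ α false else 0) *
      (if a₂ α true ≤ Kc then l ^ a₂ α true else 0) ≤ ∑ α ∈ Bx, l ^ (a₂ α false + a₂ α true) := by
    refine sum_le_sum fun α _ => ?_
    split_ifs with h2 h3 h3
    · rw [pow_add]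
    all_goals
      simp only [mul_zero, zero_mul]
      positivity
  have e3 : c * ∑ α ∈ Bx, (if a₁ α false ≤ Kc then l ^ a₁ α false else 0) *
      (if a₁ α true ≤ Kc then l ^ a₁ α true else 0) ≤
      ∑ α ∈ Bx, (if a₂ α false ≤ Kc then l ^ a₂ α false else 0) *
        (if a₂ α true ≤ Kc then l ^ a₂ α true else 0) := by
    rw [e, e, mul_sum]
    refine sum_le_sum fun k0 hk0 => ?_
    rw [mul_sum]
    refine sum_le_sum fun k1 hk1 => ?_
    have := h (fun s => if s then k1 else k0) fun s => by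
      have := mem_range.1 hk0
      have := mem_range.1 hk1
      split_ifs <;> omega
    rw [mul_left_comm]
    exact mul_le_mul_of_nonneg_left this (mul_nonneg (hw _) (hw _))
  have e4 := mul_le_mul_of_nonneg_left e1 (not_lt.1 hc0)
  have e5 : c * (Bx.card * l ^ Kc) ≤ Bx.card * l ^ Kc :=
    mul_le_of_le_one_left (by positivity) hc
  rw [mul_add] at e4
  linarith

end ThickAux

open ThickAux

/-- Weighted form: the displacements `ξ₁ α` and `ξ₂ α` are arbitrary small vectors. -/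
theorem Room.thick (h : Room r x par J μ Rm) {D : ι → ℤ} (hD : ∑ i, |D i| ≤ 2)
    (hD0 : ∑ i, D i = 0) {t : ℝ} (ht : 0 ≤ t) (Kc : ℕ) {Bx : Finset (ι → ℤ)}
    (hBx : ∀ α : ι → ℤ, (∀ i, |α i| ≤ Rm + ∑ a, J a + Kc + 2) → α ∈ Bx)
    {ξ₁ ξ₂ : (ι → ℤ) → Bool × ι → ℤ} (h₁ : ∀ α a, |ξ₁ α a| ≤ J a) (h₂ : ∀ α a, |ξ₂ α a| ≤ J a) :
    (1 - 16 * (Fintype.card ι : ℝ) ^ 2 / μ) *
        ∑ α ∈ Bx, Real.exp (-t * (DD r (lf D α - shf par (ξ₁ α)) : ℝ)) ≤
      ∑ α ∈ Bx, Real.exp (-t * (DD r (lf D α - shf par (ξ₂ α)) : ℝ)) +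
        Bx.card * Real.exp (-(2 * t * Kc)) := by
  have e : ∀ {ξ : (ι → ℤ) → Bool × ι → ℤ}, (∀ α a, |ξ α a| ≤ J a) → ∀ α,
      Real.exp (-t * (DD r (lf D α - shf par (ξ α)) : ℝ)) = Real.exp (-(2 * t)) ^
        ((dp (r false) (side (lf D α - shf par (ξ α)) false)).toNat +
          (dp (r true) (side (lf D α - shf par (ξ α)) true)).toNat) := by
    intro ξ hξ α
    rw [← Real.exp_nat_mul, DD_eq h hD0 (hξ α)]
    congr 1
    obtain ⟨a, ha⟩ := Int.eq_ofNat_of_zero_le
      (dp_nonneg (h.sub false) (side (lf D α - shf par (ξ α)) false))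
    obtain ⟨b, hb⟩ := Int.eq_ofNat_of_zero_le
      (dp_nonneg (h.sub true) (side (lf D α - shf par (ξ α)) true))
    rw [ha, hb]
    simp only [Int.toNat_natCast]
    push_cast
    ring
  have e' : Real.exp (-(2 * t * Kc)) = Real.exp (-(2 * t)) ^ Kc := by
    rw [← Real.exp_nat_mul]; congr 1; ring
  simp only [e h₁, e h₂, e']
  refine cake Bx (fun α s => (dp (r s) (side (lf D α - shf par (ξ₁ α)) s)).toNat)
    (fun α s => (dp (r s) (side (lf D α - shf par (ξ₂ α)) s)).toNat) (Real.exp_pos _).le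
    (Real.exp_le_one_iff.2 (by linarith)) (sub_le_self _ (by positivity)) Kc fun k hk => ?_
  simp only [Int.toNat_le]
  exact count h hD hD0 hBx h₁ h₂ hk

/-- Counting form. -/
theorem Room.thick_count (h : Room r x par J μ Rm) {Bx : Finset (ι → ℤ)}
    (hBx : ∀ α : ι → ℤ, (∀ i, |α i| ≤ Rm + ∑ a, J a + 2) → α ∈ Bx)
    {ξ₁ ξ₂ : Bool × ι → ℤ} (h₁ : ∀ a, |ξ₁ a| ≤ J a) (h₂ : ∀ a, |ξ₂ a| ≤ J a) :
    (1 - 16 * (Fintype.card ι : ℝ) ^ 2 / μ) *
        (Bx.filter fun α => DD r (lf 0 α - shf par ξ₁) = 0).card ≤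
      (Bx.filter fun α => DD r (lf 0 α - shf par ξ₂) = 0).card := by
  have e : ∀ {ξ : Bool × ι → ℤ}, (∀ a, |ξ a| ≤ J a) → ∀ α : ι → ℤ,
      DD r (lf 0 α - shf par ξ) = 0 ↔
        ∀ s, dp (r s) (side (lf 0 α - shf par ξ) s) ≤ ((fun _ => 0 : Bool → ℕ) s : ℤ) := by
    intro ξ hξ α
    rw [DD_eq h (by simp) hξ]
    have h1 := dp_nonneg (h.sub false) (side (lf 0 α - shf par ξ) false)
    have h2 := dp_nonneg (h.sub true) (side (lf 0 α - shf par ξ) true)
    simp only [Bool.forall_bool, Nat.cast_zero]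
    omega
  simp only [e h₁, e h₂]
  exact count h (D := 0) (by simp) (by simp) (Kc := 0) (by simpa using hBx)
    (ξ₁ := fun _ => ξ₁) (ξ₂ := fun _ => ξ₂) (fun _ => h₁) (fun _ => h₂) (k := fun _ => 0)
    fun _ => le_rfl

end Crest.Agent.R302
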