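import Crest.Agent.R302.Kern
import Crest.Agent.R302.Thick

/-!
# Row 302: the best seeds carry little more weight than typical seeds; the final count
-/

set_option autoImplicit false

namespace Crest.Agent.R302.Raw

open Finset

variable {R : Raw} {r : Bool → Finset R.E → ℤ} {x : Bool → R.E → ℝ} {Rm κ : ℕ}

theorem Valid.room (h : R.Valid r x Rm κ) : Room r x R.pa R.Jw R.m Rm := by
  refine ⟨⟨⟨0, h.n_pos⟩⟩, h.sub, h.tot, h.bnd, h.cen, h.dfc, fun a => rfl, fun a ha => ?_, h.m_pos⟩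
  have h1 := h.Jw_le a
  have h2 : 1 ≤ R.Jw a := Nat.one_le_iff_ne_zero.2 ha
  have h3 : 65 * R.n ^ 8 + 4 * R.n < R.m := by
    have e1 := h.m_ge
    have e2 : R.n ^ 8 ≤ (R.n + 2) ^ 10 :=
      (Nat.pow_le_pow_left (by omega) 8).trans (Nat.pow_le_pow_right (by omega) (by norm_num))
    have e3 : R.n + 2 ≤ (R.n + 2) ^ 10 := Nat.le_self_pow (by norm_num) _
    omega
  have h4 : 1 ≤ R.m * R.Jw a := Nat.mul_pos h.m_pos h2
  have h5 : 65 * R.n ^ 8 * (R.m * R.Jw a) + 4 * R.n < R.cf a := by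
    calc 65 * R.n ^ 8 * (R.m * R.Jw a) + 4 * R.n
        ≤ 65 * R.n ^ 8 * (R.m * R.Jw a) + 4 * R.n * (R.m * R.Jw a) :=
          Nat.add_le_add_left (Nat.le_mul_of_pos_right _ h4) _
      _ = (65 * R.n ^ 8 + 4 * R.n) * (R.m * R.Jw a) := by ring
      _ < R.m * (R.m * R.Jw a) := Nat.mul_lt_mul_of_pos_right h3 h4
      _ = R.Jw a * R.m ^ 2 := by ring
      _ ≤ R.cf a := h1
  refine ⟨R.cf a, (h.arc a (by omega)).2.1, ?_⟩
  rw [Fintype.card_fin]
  exact_mod_cast h5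

/-- The box contains all points of moderate size. -/
theorem Valid.bad_box (h : R.Valid r x Rm κ) {Kc : ℕ} (hK : Kc ≤ 2 * R.ℓ0 * R.m ^ 6)
    (α : R.E → ℤ) (hα : ∀ i, |α i| ≤ Rm + ∑ a, R.Jw a + Kc + 2) : α ∈ box R.E R.lo R.hi := by
  have h1 := h.sum_Jw
  have h2 := h.Rm_le
  have h3 : 1 ≤ R.m ^ 6 := pow_pos h.m_pos 6
  have h4 : R.ℓ0 ≤ R.ℓ0 * R.m ^ 6 := Nat.le_mul_of_pos_right _ h3
  have h5 : 100 * (R.ℓ0 * R.m ^ 6) ≤ R.ℓ0 * R.G := by
    unfold G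
    calc 100 * (R.ℓ0 * R.m ^ 6) ≤ R.m * (R.ℓ0 * R.m ^ 6) := Nat.mul_le_mul_right _ h.m_big.1
      _ = R.ℓ0 * R.m ^ 7 := by ring
  have h6 : Rm + ∑ a, R.Jw a + Kc + 2 + 1 ≤ R.ℓ0 * R.G := by
    rw [mul_assoc] at hK
    omega
  have h7 : (Rm : ℤ) + ∑ a, (R.Jw a : ℤ) + Kc + 2 + 1 ≤ (R.ℓ0 : ℤ) * R.G := by exact_mod_cast h6
  refine Fintype.mem_piFinset.2 fun i => mem_Icc.2 ?_
  have h8 := abs_le.1 (hα i)
  push_cast at h8
  unfold lo hi
  constructor <;> linarith [h8.1, h8.2]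

theorem Valid.bad_half (h : R.Valid r x Rm κ) :
    3200 * ((R.n : ℝ) ^ 2 + 1) * κ ≤ R.m := by
  refine le_trans (mul_le_mul_of_nonneg_right ?_ (Nat.cast_nonneg _)) h.m_geR
  have h0 : (0 : ℝ) ≤ R.n := Nat.cast_nonneg _
  have h1 : ((R.n : ℝ) + 2) ^ 2 ≤ ((R.n : ℝ) + 2) ^ 10 :=
    pow_le_pow_right₀ (by linarith) (by norm_num)
  nlinarith

/-- Arbitrary seeds carry at most nine times the ideal weight of a class. -/
theorem Valid.bad_class (h : R.Valid r x Rm κ) (j : ℕ) (e d : R.E)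
    {ξ₁ : (R.E → ℤ) → R.V → ℤ} (hξ : ∀ y, ξ₁ y ∈ R.kbox) :
    ∑ y ∈ box R.E R.lo R.hi, (R.hw j (DD r (lf (ev d - ev e) y - R.sh (ξ₁ y))) : ℝ) ≤
      9 * R.N r j (ev d - ev e) := by
  set D : R.E → ℤ := ev d - ev e with hDdef
  have hm := h.mR
  have hm0 : (0 : ℝ) < R.m := by linarith
  have hev : ∀ a : R.E, ∑ i, ev a i = 1 := fun a => by simp [ev, Pi.single_apply]
  have hD0 : ∑ i, D i = 0 := by
    simp only [hDdef, Pi.sub_apply, sum_sub_distrib, hev, sub_self]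
  have hD : ∑ i, |D i| ≤ 2 := by
    calc ∑ i, |D i| ≤ ∑ i, (ev d i + ev e i) := by
          refine sum_le_sum fun i _ => ?_
          rw [hDdef, Pi.sub_apply]
          rcases num_ev_cases d i with h1 | h1 <;> rcases num_ev_cases e i with h2 | h2 <;>
            simp [h1, h2]
      _ = 2 := by rw [sum_add_distrib, hev, hev]; norm_num
  have hτ := h.τ_pos j
  have hτR : (0 : ℝ) < R.τ j := by exact_mod_cast hτ
  obtain ⟨Kc, hK1, hK2⟩ : ∃ Kc : ℕ, Kc ≤ 2 * R.ℓ0 * R.m ^ 6 ∧ (R.m : ℝ) ^ 6 ≤ Kc * R.τ j := by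
    refine ⟨⌈(R.m : ℚ) ^ 6 / R.τ j⌉₊, ?_, ?_⟩
    · rw [Nat.ceil_le, div_le_iff₀ hτ]
      have h0 : (0 : ℚ) < R.ℓ0 := by exact_mod_cast R.ℓ0_pos
      have h1 : 1 ≤ R.τ j * (2 * (R.ℓ0 : ℚ)) := (div_le_iff₀ (by positivity)).1 (h.τ_ge j)
      have h2 : (0 : ℚ) ≤ (R.m : ℚ) ^ 6 := by positivity
      push_cast
      nlinarith
    · have h1 := (div_le_iff₀ hτ).1 (Nat.le_ceil ((R.m : ℚ) ^ 6 / R.τ j))
      exact_mod_cast h1
  have hexp : Real.exp (-(2 * R.tt j * Kc)) ≤ R.thr := by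
    have h1 : ((R.m ^ 5 : ℕ) : ℝ) * 1 ≤ 2 * R.tt j * Kc := by
      have h2 : 1 ≤ Real.log R.ϱ * (2 * (R.m : ℝ)) := (div_le_iff₀ (by positivity)).1 h.log_ϱ.1
      have h3 := h.log_ϱ_nonneg
      have h4 : (0 : ℝ) ≤ (R.m : ℝ) ^ 5 := by positivity
      calc ((R.m ^ 5 : ℕ) : ℝ) * 1 = (R.m : ℝ) ^ 5 * 1 := by push_cast; ring
        _ ≤ (R.m : ℝ) ^ 5 * (Real.log R.ϱ * (2 * (R.m : ℝ))) := mul_le_mul_of_nonneg_left h2 h4
        _ = 2 * Real.log R.ϱ * (R.m : ℝ) ^ 6 := by ring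
        _ ≤ 2 * Real.log R.ϱ * (Kc * R.τ j) := mul_le_mul_of_nonneg_left hK2 (by positivity)
        _ = 2 * R.tt j * Kc := by unfold tt; ring
    unfold thr
    rw [Real.exp_neg, one_div]
    refine inv_anti₀ (by positivity) (le_trans ?_ (Real.exp_le_exp.2 h1))
    rw [Real.exp_nat_mul]
    exact pow_le_pow_left₀ (by norm_num) (by linarith [Real.exp_one_gt_d9]) _
  have hc : (1 : ℝ) / 2 ≤ 1 - 16 * (Fintype.card R.E : ℝ) ^ 2 / R.m := by
    rw [Fintype.card_fin]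
    have h1 := h.bad_half
    have h2 : (1 : ℝ) ≤ κ := by exact_mod_cast h.one_le
    have h3 : (0 : ℝ) ≤ (R.n : ℝ) ^ 2 := by positivity
    have h4 : 16 * (R.n : ℝ) ^ 2 / R.m ≤ 1 / 2 := by
      rw [div_le_iff₀ hm0]
      nlinarith
    linarith
  set S : ℝ := ∑ y ∈ box R.E R.lo R.hi, Real.exp (-R.tt j * (DD r (lf D y - R.sh (ξ₁ y)) : ℝ))
    with hS
  have hS0 : 0 ≤ S := sum_nonneg fun y _ => (Real.exp_pos _).le
  have hcard : (0 : ℝ) ≤ (box R.E R.lo R.hi).card := Nat.cast_nonneg _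
  have hone : ∀ ξ ∈ R.kbox, 1 / 2 * S ≤
      ∑ y ∈ box R.E R.lo R.hi, Real.exp (-R.tt j * (DD r (lf D y - R.sh ξ) : ℝ)) +
        (box R.E R.lo R.hi).card * R.thr := fun ξ hk => by
    have h1 := h.room.thick hD hD0 (h.tt_nonneg j) Kc (h.bad_box hK1) (ξ₁ := ξ₁)
      (ξ₂ := fun _ => ξ) (fun y a => mem_kbox (hξ y) a) (fun _ a => mem_kbox hk a)
    exact ((mul_le_mul_of_nonneg_right hc hS0).trans h1).trans
      (add_le_add_right (mul_le_mul_of_nonneg_left hexp hcard) _)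
  have hw0 : ∀ ξ : R.V → ℤ, 0 ≤ ∏ a, R.ψ a (ξ a) := fun ξ =>
    prod_nonneg fun a _ => (h.ψ_pos a _).le
  have hav : 1 / 2 * S ≤ R.N r j D + (box R.E R.lo R.hi).card * R.thr := by
    calc 1 / 2 * S = ∑ ξ ∈ R.kbox, (∏ a, R.ψ a (ξ a)) * (1 / 2 * S) := by
          rw [← sum_mul, h.sum_ψ, one_mul]
      _ ≤ ∑ ξ ∈ R.kbox, (∏ a, R.ψ a (ξ a)) *
          (∑ y ∈ box R.E R.lo R.hi, Real.exp (-R.tt j * (DD r (lf D y - R.sh ξ) : ℝ)) +
            (box R.E R.lo R.hi).card * R.thr) :=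
          sum_le_sum fun ξ hk => mul_le_mul_of_nonneg_left (hone ξ hk) (hw0 ξ)
      _ = R.N r j D + (box R.E R.lo R.hi).card * R.thr := by
          simp only [mul_add, sum_add_distrib]
          rw [← sum_mul, h.sum_ψ, one_mul]
          congr 1
          simp only [mul_sum]
          rw [sum_comm]
          rfl
  have hthr : 0 < R.thr := by unfold thr; positivity
  have hneg : (box R.E R.lo R.hi).card * R.thr ≤ R.N r j D :=
    le_trans (le_mul_of_one_le_right (by positivity) (one_le_pow₀ (by norm_num))) (h.negl j e d)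
  have hcap : R.cap ≤ R.thr := by
    unfold cap thr
    exact one_div_le_one_div_of_le (by positivity)
      (pow_le_pow_right₀ (by norm_num) (Nat.pow_le_pow_right h.m_pos (by norm_num)))
  have hρ : (R.ϱ : ℝ) ≤ 2 := by exact_mod_cast h.ϱ_le_two
  calc ∑ y ∈ box R.E R.lo R.hi, (R.hw j (DD r (lf D y - R.sh (ξ₁ y))) : ℝ)
      ≤ ∑ y ∈ box R.E R.lo R.hi,
          (2 * Real.exp (-R.tt j * (DD r (lf D y - R.sh (ξ₁ y)) : ℝ)) + R.thr) := by
        refine sum_le_sum fun y _ => (h.hw_bounds j (DD_nonneg h.sub _)).2.trans ?_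
        exact add_le_add (mul_le_mul_of_nonneg_right hρ (Real.exp_pos _).le) hcap
    _ = 2 * S + (box R.E R.lo R.hi).card * R.thr := by
        rw [sum_add_distrib, ← mul_sum, sum_const, nsmul_eq_mul]
    _ ≤ 9 * R.N r j D := by linarith

theorem bad_Wx (j : ℕ) (t : List ℚ) (z : R.V → ℤ) (u : Fin (Bξ R.n R.m) → Bool) :
    R.Wx r j t z u = if R.valid z then
      (R.hw j (DD r (z - R.sh (R.dec (List.ofFn u)))) : ℝ) * (t.getD (R.cls z) 0 : ℝ) else 0 := by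
  unfold Wx AData.W
  change (((R.wt (DD r) j (z, u) * t.getD (R.cls z) 0 : ℚ)) : ℝ) = _
  unfold wt
  split_ifs <;> simp

theorem Valid.bad_tab (h : R.Valid r x Rm κ) {j : ℕ} {t : List ℚ} (ht : R.Good r j t)
    {e d : R.E} (he : R.rt e = e) (hd : R.rt d = d) : (0 : ℝ) ≤ (t.getD (R.cn e d) 0 : ℝ) := by
  by_contra hc
  have h1 := (h.tab_bounds ht he hd).1
  have h2 : 0 < R.N r j 0 := lt_of_lt_of_le (by positivity) (h.N_zero j)
  have h3 : 0 ≤ R.N r j (ev d - ev e) :=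
    le_trans (by unfold thr; positivity) (h.negl j e d)
  have h4 := mul_nonpos_of_nonpos_of_nonneg (not_le.1 hc).le h3
  linarith

theorem Valid.exists_bad (h : R.Valid r x Rm κ) {j : ℕ} {t : List ℚ} (ht : R.Good r j t) :
    ∃ b : (R.V → ℤ) → ℝ, (∀ z u, R.Wx r j t z u ≤ b z) ∧ (∀ z, 0 ≤ b z) ∧
      (∀ z ∉ R.Ωz, b z = 0) ∧ ∑ z ∈ R.Ωz, b z ≤ R.m * R.N r j 0 := by
  choose U hU using fun z : R.V → ℤ => Finite.exists_max (R.Wx r j t z)
  have h0 : ∀ z, 0 ≤ R.Wx r j t z (U z) := fun z => by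
    rw [bad_Wx]
    split_ifs with hz
    · obtain ⟨-, e, d, he, hd, h3⟩ := hz
      rw [cls_eq he hd h3]
      exact mul_nonneg (by exact_mod_cast (h.hw_pos j _).1.le) (h.bad_tab ht he hd)
    · exact le_rfl
  have hN : 0 ≤ R.N r j 0 := le_trans (by positivity) (h.N_zero j)
  refine ⟨fun z => R.Wx r j t z (U z), hU, h0, fun z hz => ?_, ?_⟩
  · exact (bad_Wx j t z _).trans (if_neg fun hv => hz (mem_Ωz.2 hv))
  · refine (sum_Ωz_le h0 (B := 360 * R.N r j 0) (by positivity) fun e d he hd => ?_).trans ?_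
    · have h1 := h.bad_class j e d (ξ₁ := fun y => R.dec (List.ofFn (U (lf (ev d - ev e) y))))
        fun y => h.dec_mem _
      have h2 := (h.tab_bounds ht he hd).2
      have h3 := h.bad_tab ht he hd
      calc ∑ y ∈ box R.E R.lo R.hi, R.Wx r j t (lf (ev d - ev e) y) (U (lf (ev d - ev e) y))
          = (∑ y ∈ box R.E R.lo R.hi, (R.hw j (DD r (lf (ev d - ev e) y -
              R.sh (R.dec (List.ofFn (U (lf (ev d - ev e) y)))))) : ℝ)) *
              (t.getD (R.cn e d) 0 : ℝ) := by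
            rw [sum_mul]
            refine sum_congr rfl fun y hy => ?_
            rw [bad_Wx, if_pos (valid_lf he hd hy), cls_eq he hd (ps_lf _ _)]
        _ ≤ 9 * R.N r j (ev d - ev e) * (t.getD (R.cn e d) 0 : ℝ) :=
            mul_le_mul_of_nonneg_right h1 h3
        _ ≤ 360 * R.N r j 0 := by linarith
    · rw [← mul_assoc]
      refine mul_le_mul_of_nonneg_right ?_ hN
      have h1 := h.bad_half
      have h2 : (1 : ℝ) ≤ κ := by exact_mod_cast h.one_le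
      have h3 : (0 : ℝ) ≤ (R.n : ℝ) ^ 2 := by positivity
      nlinarith

/-- The weights at the last stage. -/
theorem Valid.bad_hw (h : R.Valid r x Rm κ) {k : ℤ} (hk : 0 ≤ k) :
    (if k = 0 then (1 : ℝ) else 0) ≤ R.hw (R.m ^ 9) k ∧
      (R.hw (R.m ^ 9) k : ℝ) ≤ (if k = 0 then (1 : ℝ) else 0) + 1 / 2 ^ R.m ^ 3 := by
  split_ifs with h0
  · have h1 : R.hw (R.m ^ 9) k = 1 := by simp [hw, h0]
    rw [h1]
    refine ⟨by simp, ?_⟩
    have : (0 : ℝ) ≤ 1 / 2 ^ R.m ^ 3 := by positivity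
    push_cast
    linarith
  · refine ⟨by exact_mod_cast (h.hw_pos _ _).1.le, ?_⟩
    have h1 : (1 : ℚ) ≤ k := by exact_mod_cast (by omega : (1 : ℤ) ≤ k)
    have h2 : R.m ^ 4 ≤ min (R.m ^ 8) ⌊R.τ (R.m ^ 9) * k⌋₊ := by
      refine le_min (Nat.pow_le_pow_right h.m_pos (by norm_num)) (Nat.le_floor ?_)
      rw [h.τ_last]
      push_cast
      exact le_mul_of_one_le_right (by positivity) h1
    have h3 := R.one_le_ϱ
    have h4 : R.hw (R.m ^ 9) k ≤ 1 / 2 ^ R.m ^ 3 := by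
      unfold hw
      rw [one_div_pow]
      refine one_div_le_one_div_of_le (by positivity) (le_trans ?_ (pow_le_pow_right₀ h3 h2))
      rw [pow_succ' R.m 3, pow_mul]
      exact pow_le_pow_left₀ (by norm_num) h.two_le_ϱ_pow _
    have h5 := (Rat.cast_le (K := ℝ)).2 h4
    rw [zero_add]
    refine h5.trans (le_of_eq ?_)
    push_cast
    rfl

theorem Valid.bad_cnt (h : R.Valid r x Rm κ) :
    R.cnt r = ((box R.E R.lo R.hi).filter fun α => DD r (lf 0 α - shf R.pa 0) = 0).card := by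
  unfold cnt
  congr 1
  ext α
  have h1 : shf R.pa 0 = 0 := by simp [shf]
  simp only [mem_filter, h1, sub_zero, DD_eq_zero h.sub, Bool.forall_bool, side_lf_false,
    side_lf_true, zero_sub]

theorem Valid.bad_cnt_pos (h : R.Valid r x Rm κ) : 1 ≤ R.cnt r := by
  classical
  obtain ⟨y, hy⟩ := h.ex
  unfold cnt
  refine card_pos.2 ⟨y, mem_filter.2 ⟨h.bad_box (Kc := 0) (Nat.zero_le _) y fun i => ?_, hy⟩⟩
  have h1 : |y i| ≤ ∑ i, |y i| :=
    single_le_sum (f := fun i => |y i|) (fun i _ => abs_nonneg _) (mem_univ i)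
  have h2 := h.l1 false y hy.1
  have h3 : (0 : ℤ) ≤ ∑ a, (R.Jw a : ℤ) := sum_nonneg fun a _ => Nat.cast_nonneg _
  push_cast
  linarith

theorem Valid.bad_small (h : R.Valid r x Rm κ) :
    ((box R.E R.lo R.hi).card : ℝ) * (1 / 2 ^ R.m ^ 3) ≤ 1 / R.m := by
  have hm0 : (0 : ℝ) < R.m := by linarith [h.mR]
  have h1 : R.n + 1 ≤ R.m := by
    have e1 := h.m_ge
    have e3 : R.n + 2 ≤ (R.n + 2) ^ 10 := Nat.le_self_pow (by norm_num) _
    omega
  have h2 : R.m * R.n + R.m ≤ R.m ^ 3 := by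
    calc R.m * R.n + R.m = R.m * (R.n + 1) := by ring
      _ ≤ R.m * R.m := Nat.mul_le_mul_left _ h1
      _ = R.m ^ 2 := by ring
      _ ≤ R.m ^ 3 := Nat.pow_le_pow_right h.m_pos (by norm_num)
  have h3 : (R.m : ℝ) ≤ 2 ^ R.m := by exact_mod_cast (Nat.lt_two_pow_self (n := R.m)).le
  rw [mul_one_div, div_le_div_iff₀ (by positivity) hm0, one_mul]
  calc ((box R.E R.lo R.hi).card : ℝ) * R.m ≤ 2 ^ (R.m * R.n) * 2 ^ R.m :=
        mul_le_mul h.card_box h3 hm0.le (by positivity)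
    _ = 2 ^ (R.m * R.n + R.m) := by rw [pow_add]
    _ ≤ 2 ^ R.m ^ 3 := pow_le_pow_right₀ (by norm_num) h2

theorem Valid.bad_seed (h : R.Valid r x Rm κ) {ξ : R.V → ℤ} (hξ : ξ ∈ R.kbox) :
    |∑ y ∈ box R.E R.lo R.hi, (R.hw (R.m ^ 9) (DD r (lf 0 y - R.sh ξ)) : ℝ) - R.cnt r| ≤
      R.cnt r / (100 * κ) := by
  have hm0 : (0 : ℝ) < R.m := by linarith [h.mR]
  have hκ : (1 : ℝ) ≤ κ := by exact_mod_cast h.one_le
  have hBx : ∀ α : R.E → ℤ, (∀ i, |α i| ≤ Rm + ∑ a, R.Jw a + 2) → α ∈ box R.E R.lo R.hi :=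
    fun α hα => h.bad_box (Kc := 0) (Nat.zero_le _) α fun i => by simpa using hα i
  have hz : ∀ a, |(0 : R.V → ℤ) a| ≤ R.Jw a := fun a => by simp
  have h1 := h.room.thick_count hBx (mem_kbox hξ) hz
  have h2 := h.room.thick_count hBx hz (mem_kbox hξ)
  rw [← h.bad_cnt, Fintype.card_fin] at h1 h2
  set c : ℝ := (((box R.E R.lo R.hi).filter fun α => DD r (lf 0 α - shf R.pa ξ) = 0).card : ℝ)
    with hc
  have h3 : ∑ y ∈ box R.E R.lo R.hi, (if DD r (lf 0 y - R.sh ξ) = 0 then (1 : ℝ) else 0) = c := by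
    rw [hc, sum_boole]
    rfl
  have h4 : c ≤ ∑ y ∈ box R.E R.lo R.hi, (R.hw (R.m ^ 9) (DD r (lf 0 y - R.sh ξ)) : ℝ) := by
    rw [← h3]
    exact sum_le_sum fun y _ => (h.bad_hw (DD_nonneg h.sub _)).1
  have h5 : ∑ y ∈ box R.E R.lo R.hi, (R.hw (R.m ^ 9) (DD r (lf 0 y - R.sh ξ)) : ℝ) ≤
      c + 1 / R.m := by
    refine (sum_le_sum fun y _ => (h.bad_hw (DD_nonneg h.sub _)).2).trans ?_
    rw [sum_add_distrib, h3, sum_const, nsmul_eq_mul]
    linarith [h.bad_small]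
  have h6 : (1 : ℝ) ≤ R.cnt r := by exact_mod_cast h.bad_cnt_pos
  have h7 := h.bad_half
  have hn : (0 : ℝ) ≤ (R.n : ℝ) ^ 2 := by positivity
  set ε : ℝ := 16 * (R.n : ℝ) ^ 2 / R.m with hε
  have hε0 : 0 ≤ ε := by positivity
  have h8 : 2 * ε + 1 / R.m ≤ 1 / (100 * κ) := by
    have : 2 * ε + 1 / R.m = (32 * (R.n : ℝ) ^ 2 + 1) / R.m := by rw [hε]; ring
    rw [this, div_le_div_iff₀ hm0 (by positivity)]
    nlinarith
  have h9 : 1 / (100 * (κ : ℝ)) ≤ 1 / 100 := one_div_le_one_div_of_le (by norm_num) (by linarith)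
  have h10 : (0 : ℝ) < 1 / R.m := by positivity
  have hc0 : 0 ≤ c := Nat.cast_nonneg _
  have h11 : c ≤ (1 + 2 * ε) * R.cnt r := by
    have e1 : 1 ≤ (1 + 2 * ε) * (1 - ε) := by nlinarith
    calc c ≤ (1 + 2 * ε) * (1 - ε) * c := le_mul_of_one_le_left hc0 e1
      _ = (1 + 2 * ε) * ((1 - ε) * c) := by ring
      _ ≤ (1 + 2 * ε) * R.cnt r := mul_le_mul_of_nonneg_left h1 (by positivity)
  have h12 : (2 * ε + 1 / R.m) * R.cnt r ≤ R.cnt r / (100 * κ) := by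
    rw [div_eq_mul_one_div (R.cnt r : ℝ), mul_comm (R.cnt r : ℝ)]
    exact mul_le_mul_of_nonneg_right h8 (by positivity)
  have h13 : 1 / (R.m : ℝ) ≤ 1 / R.m * R.cnt r := le_mul_of_one_le_right h10.le h6
  have h14 : 0 ≤ ε * R.cnt r := by positivity
  rw [abs_le]
  constructor <;> nlinarith

theorem Valid.final (h : R.Valid r x Rm κ) :
    |R.Zz r (R.m ^ 9) 0 - R.cnt r| ≤ R.cnt r / (100 * κ) := by
  have h1 : R.Zz r (R.m ^ 9) 0 = R309.Ex (Bξ R.n R.m) fun u => ∑ y ∈ box R.E R.lo R.hi,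
      (R.hw (R.m ^ 9) (DD r (lf 0 y - R.sh (R.dec u))) : ℝ) := by
    rw [R309.Ex_sum]
    rfl
  rw [h1, ← R309.Ex_const (Bξ R.n R.m) (R.cnt r : ℝ), ← R309.Ex_sub, R309.Ex_const]
  refine (R309.abs_Ex_le _ _).trans ?_
  rw [← R309.Ex_const (Bξ R.n R.m) ((R.cnt r : ℝ) / (100 * κ))]
  exact R309.Ex_mono fun u _ => h.bad_seed (h.dec_mem u)

end Crest.Agent.R302.Raw
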