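import Crest.Agent.R302.Sand

/-!
# Row 302: exchange graphs, circulations and the range lemma
-/

set_option autoImplicit false

namespace Crest.Agent.R302

open Finset

variable {ι : Type} [Fintype ι] [DecidableEq ι]

theorem Arc.refl (r : Finset ι → ℝ) (y : ι → ℝ) (τ : ℝ) (p : ι) : Arc r y τ p p :=
  fun _ h h' => absurd h h'

theorem Arc.trans {r : Finset ι → ℝ} {y : ι → ℝ} {τ : ℝ} {p q v : ι} (h : Arc r y τ p q)
    (h' : Arc r y τ q v) : Arc r y τ p v := fun A hp hv => by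
  by_cases hq : q ∈ A
  · exact h' A hq hv
  · exact h A hp hq

theorem Arc.mono {r : Finset ι → ℝ} {y : ι → ℝ} {τ τ' : ℝ} {p q : ι} (h : Arc r y τ p q)
    (hτ : τ' ≤ τ) : Arc r y τ' p q := fun A hp hq => hτ.trans (h A hp hq)

theorem Sym.equiv (r : Finset ι → ℝ) (y : ι → ℝ) (τ : ℝ) : Equivalence (Sym r y τ) :=
  ⟨fun p => ⟨Arc.refl r y τ p, Arc.refl r y τ p⟩, fun h => ⟨h.2, h.1⟩,
    fun h h' => ⟨h.1.trans h'.1, h'.2.trans h.2⟩⟩

theorem Sym.mono {r : Finset ι → ℝ} {y : ι → ℝ} {τ τ' : ℝ} {p q : ι} (h : Sym r y τ p q)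
    (hτ : τ' ≤ τ) : Sym r y τ' p q := ⟨h.1.mono hτ, h.2.mono hτ⟩

theorem GeomAux.slack_sub {r : Finset ι → ℝ} (hr : Sub r) (y : ι → ℝ) (A B : Finset ι) :
    (r (A ∪ B) - ∑ i ∈ A ∪ B, y i) + (r (A ∩ B) - ∑ i ∈ A ∩ B, y i) ≤
      (r A - ∑ i ∈ A, y i) + (r B - ∑ i ∈ B, y i) := by
  have h1 := hr.2 A B
  have h2 : ∑ i ∈ A ∪ B, y i + ∑ i ∈ A ∩ B, y i = ∑ i ∈ A, y i + ∑ i ∈ B, y i :=
    Finset.sum_union_inter
  linarith

theorem GeomAux.slack_sup {r : Finset ι → ℝ} (hr : Sub r) {y : ι → ℝ} (hy : InB r y)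
    (T : Finset ι) (f : ι → Finset ι) :
    r (T.sup f) - ∑ i ∈ T.sup f, y i ≤ ∑ p ∈ T, (r (f p) - ∑ i ∈ f p, y i) := by
  induction T using Finset.induction_on with
  | empty => simp [hr.1]
  | insert p T hp ih =>
    rw [Finset.sup_insert, Finset.sum_insert hp, Finset.sup_eq_union]
    have h1 := GeomAux.slack_sub hr y (f p) (T.sup f)
    have h2 := hy.1 (f p ∩ T.sup f)
    linarith

theorem GeomAux.slack_inf {r : Finset ι → ℝ} (hr : Sub r) {y : ι → ℝ} (hy : InB r y)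
    (T : Finset ι) (f : ι → Finset ι) :
    r (T.inf f) - ∑ i ∈ T.inf f, y i ≤ ∑ p ∈ T, (r (f p) - ∑ i ∈ f p, y i) := by
  induction T using Finset.induction_on with
  | empty => simp [hy.2]
  | insert p T hp ih =>
    rw [Finset.inf_insert, Finset.sum_insert hp, Finset.inf_eq_inter]
    have h1 := GeomAux.slack_sub hr y (f p) (T.inf f)
    have h2 := hy.1 (f p ∪ T.inf f)
    linarith

/-- A set that no arc leaves is almost tight. -/
theorem slack_closed {r : Finset ι → ℝ} (hr : Sub r) {y : ι → ℝ} (hy : InB r y) {τ : ℝ}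
    (hτ : 0 ≤ τ) {S : Finset ι} (hS : ∀ p ∈ S, ∀ q ∉ S, ¬ Arc r y τ p q) :
    r S - ∑ i ∈ S, y i ≤ (Fintype.card ι : ℝ) ^ 2 * τ := by
  have h1 : ∀ p q : ι, ∃ A : Finset ι, p ∈ S → q ∉ S →
      p ∈ A ∧ q ∉ A ∧ r A - ∑ i ∈ A, y i ≤ τ := by
    intro p q
    by_cases h : p ∈ S ∧ q ∉ S
    · have := hS p h.1 q h.2
      unfold Arc at this
      push Not at this
      obtain ⟨A, h1, h2, h3⟩ := this
      exact ⟨A, fun _ _ => ⟨h1, h2, h3.le⟩⟩
    · exact ⟨∅, fun h1 h2 => absurd ⟨h1, h2⟩ h⟩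
  choose A hA using h1
  have hS' : S = S.sup fun p => Sᶜ.inf (A p) := by
    ext q
    simp only [Finset.mem_sup, Finset.mem_inf, Finset.mem_compl]
    constructor
    · intro hq
      exact ⟨q, hq, fun v hv => (hA q v hq hv).1⟩
    · rintro ⟨p, hp, h⟩
      by_contra hq
      exact (hA p q hp hq).2.1 (h q hq)
  have h2 := GeomAux.slack_sup hr hy S fun p => Sᶜ.inf (A p)
  rw [← hS'] at h2
  refine h2.trans ?_
  have h3 : ∀ p ∈ S, r (Sᶜ.inf (A p)) - ∑ i ∈ Sᶜ.inf (A p), y i ≤ Fintype.card ι * τ := by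
    intro p hp
    refine (GeomAux.slack_inf hr hy Sᶜ (A p)).trans ?_
    refine (Finset.sum_le_card_nsmul _ _ τ fun q hq =>
      (hA p q hp (Finset.mem_compl.1 hq)).2.2).trans ?_
    rw [nsmul_eq_mul]
    exact mul_le_mul_of_nonneg_right (by exact_mod_cast Finset.card_le_univ _) hτ
  refine (Finset.sum_le_card_nsmul _ _ _ h3).trans ?_
  rw [nsmul_eq_mul, sq, mul_assoc]
  exact mul_le_mul_of_nonneg_right (by exact_mod_cast Finset.card_le_univ _) (by positivity)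

/-- a flow of one unit from `a` to `b` supported on `g` with at most `k` arcs -/
private def Wk (g : Bool → ι → ι → Prop) (k : ℕ) (a b : ι) (χ : Bool → ι → ι → ℕ) : Prop :=
  (∀ s p q, χ s p q ≠ 0 → g s p q) ∧
    (∀ v, (∑ s, ∑ q, χ s v q) + (if v = b then 1 else 0) =
      (∑ s, ∑ p, χ s p v) + if v = a then 1 else 0) ∧ ∑ s, ∑ p, ∑ q, χ s p q ≤ k

private theorem Wk.step {g : Bool → ι → ι → Prop} {k : ℕ} {a b c : ι} {χ : Bool → ι → ι → ℕ}
    (h : Wk g k a b χ) {t : Bool} (hg : g t b c) :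
    ∃ χ', Wk g (k + 1) a c χ' ∧ 1 ≤ χ' t b c := by
  refine ⟨fun s p q => χ s p q + if s = t ∧ p = b ∧ q = c then 1 else 0, ⟨?_, ?_, ?_⟩, by simp⟩
  · intro s p q hne
    by_cases he : s = t ∧ p = b ∧ q = c
    · obtain ⟨rfl, rfl, rfl⟩ := he
      exact hg
    · exact h.1 s p q (by simpa [he] using hne)
  · intro v
    have h1 : (∑ s, ∑ q, if s = t ∧ v = b ∧ q = c then 1 else 0 : ℕ) =
        if v = b then 1 else 0 := by
      by_cases hv : v = b <;> simp [hv, ite_and]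
    have h2 : (∑ s, ∑ p, if s = t ∧ p = b ∧ v = c then 1 else 0 : ℕ) =
        if v = c then 1 else 0 := by
      by_cases hv : v = c <;> simp [hv, ite_and]
    simp only [Finset.sum_add_distrib, h1, h2]
    have := h.2.1 v
    omega
  · have h1 : (∑ s, ∑ p, ∑ q, if s = t ∧ p = b ∧ q = c then 1 else 0 : ℕ) = 1 := by
      simp [ite_and]
    simp only [Finset.sum_add_distrib, h1]
    have := h.2.2
    omega

open Classical in
/-- one layer of breadth-first search -/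
private noncomputable def bfs (g : Bool → ι → ι → Prop) (W : Finset ι) : Finset ι :=
  W ∪ univ.filter fun c => ∃ b ∈ W, ∃ s, g s b c

private theorem mem_bfs {g : Bool → ι → ι → Prop} {W : Finset ι} {c : ι} :
    c ∈ bfs g W ↔ c ∈ W ∨ ∃ b ∈ W, ∃ s, g s b c := by
  simp [bfs]

private theorem exists_Wk (g : Bool → ι → ι → Prop) (a : ι) (k : ℕ) :
    ∀ b ∈ (bfs g)^[k] {a}, ∃ χ, Wk g k a b χ := by
  induction k with
  | zero =>
    intro b hb
    obtain rfl : b = a := by simpa using hb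
    exact ⟨0, by simp, by simp, by simp⟩
  | succ k ih =>
    intro c hc
    rw [Function.iterate_succ_apply', mem_bfs] at hc
    rcases hc with hc | ⟨b, hb, s, hg⟩
    · obtain ⟨χ, h⟩ := ih c hc
      exact ⟨χ, h.1, h.2.1, h.2.2.trans (Nat.le_succ k)⟩
    · obtain ⟨χ, h⟩ := ih b hb
      obtain ⟨χ', h', -⟩ := h.step hg
      exact ⟨χ', h'⟩

private theorem bfs_card (g : Bool → ι → ι → Prop) (a : ι) (k : ℕ) :
    a ∈ (bfs g)^[k] {a} ∧ (k + 1 ≤ ((bfs g)^[k] {a}).card ∨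
      bfs g ((bfs g)^[k] {a}) = (bfs g)^[k] {a}) := by
  induction k with
  | zero => simp
  | succ k ih =>
    rw [Function.iterate_succ_apply']
    refine ⟨mem_bfs.2 (Or.inl ih.1), ?_⟩
    by_cases h : bfs g ((bfs g)^[k] {a}) = (bfs g)^[k] {a}
    · right
      rw [h, h]
    · left
      have h1 := ih.2.resolve_right h
      have h2 : (bfs g)^[k] {a} ⊂ bfs g ((bfs g)^[k] {a}) :=
        Finset.ssubset_iff_subset_ne.2 ⟨fun c hc => mem_bfs.2 (Or.inl hc), Ne.symm h⟩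
      have := Finset.card_lt_card h2
      omega

private theorem exists_Wk_of_reach {g : Bool → ι → ι → Prop} {a b : ι} (h : Reach g a b) :
    ∃ χ, Wk g (Fintype.card ι - 1) a b χ := by
  refine exists_Wk g a _ b ?_
  obtain ⟨h1, h2 | h2⟩ := bfs_card g a (Fintype.card ι - 1)
  · have hpos : 0 < Fintype.card ι := Fintype.card_pos_iff.2 ⟨a⟩
    have : (bfs g)^[Fintype.card ι - 1] {a} = univ :=
      Finset.eq_univ_of_card _ (le_antisymm (Finset.card_le_univ _) (by omega))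
    rw [this]
    exact Finset.mem_univ _
  · induction h with
    | refl => exact h1
    | tail _ hg ih =>
      rw [← h2]
      exact mem_bfs.2 (Or.inr ⟨_, ih, hg⟩)

theorem exists_circ (g : Bool → ι → ι → Prop) : ∃ χ, Circ g χ := by
  have h1 : ∀ e : Bool × ι × ι, ∃ χ : Bool → ι → ι → ℕ, (∀ s p q, χ s p q ≠ 0 → g s p q) ∧
      (∀ v, ∑ s, ∑ q, χ s v q = ∑ s, ∑ p, χ s p v) ∧
      ∑ s, ∑ p, ∑ q, χ s p q ≤ Fintype.card ι ∧
      (g e.1 e.2.1 e.2.2 → Reach g e.2.2 e.2.1 → 1 ≤ χ e.1 e.2.1 e.2.2) := by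
    rintro ⟨s, p, q⟩
    by_cases h : g s p q ∧ Reach g q p
    · obtain ⟨χ, hχ⟩ := exists_Wk_of_reach h.2
      obtain ⟨χ', h', h''⟩ := hχ.step h.1
      have hpos : 0 < Fintype.card ι := Fintype.card_pos_iff.2 ⟨p⟩
      exact ⟨χ', h'.1, fun v => Nat.add_right_cancel (h'.2.1 v), h'.2.2.trans (by omega),
        fun _ _ => h''⟩
    · exact ⟨0, by simp, by simp, by simp, fun h1 h2 => absurd ⟨h1, h2⟩ h⟩
  choose χ h1 h2 h3 h4 using h1
  refine ⟨fun s p q => ∑ e, χ e s p q, ?_, ?_, ?_, ?_⟩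
  · intro s p q hne
    obtain ⟨e, -, he⟩ := Finset.exists_ne_zero_of_sum_ne_zero hne
    exact h1 e s p q he
  · intro v
    have e1 : ∑ s, ∑ q, ∑ e, χ e s v q = ∑ e, ∑ s, ∑ q, χ e s v q := by
      rw [Finset.sum_congr rfl fun s _ => Finset.sum_comm, Finset.sum_comm]
    have e2 : ∑ s, ∑ p, ∑ e, χ e s p v = ∑ e, ∑ s, ∑ p, χ e s p v := by
      rw [Finset.sum_congr rfl fun s _ => Finset.sum_comm, Finset.sum_comm]
    rw [e1, e2]
    exact Finset.sum_congr rfl fun e _ => h2 e v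
  · intro s p q hg hr
    exact (h4 (s, p, q) hg hr).trans (Finset.single_le_sum (f := fun e => χ e s p q)
      (fun _ _ => Nat.zero_le _) (Finset.mem_univ (s, p, q)))
  · have e1 : ∑ s, ∑ p, ∑ q, ∑ e, χ e s p q = ∑ e, ∑ s, ∑ p, ∑ q, χ e s p q := by
      rw [Finset.sum_congr rfl fun s _ => Finset.sum_congr rfl fun p _ => Finset.sum_comm,
        Finset.sum_congr rfl fun s _ => Finset.sum_comm, Finset.sum_comm]
    rw [e1]
    refine (Finset.sum_le_card_nsmul _ _ _ fun e _ => h3 e).trans (le_of_eq ?_)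
    simp only [Finset.card_univ, Fintype.card_prod, Fintype.card_bool, smul_eq_mul]
    ring

theorem Circ.mv_add {g : Bool → ι → ι → Prop} {χ : Bool → ι → ι → ℕ} (h : Circ g χ) :
    mv χ false + mv χ true = 0 := by
  funext v
  have h1 : ((∑ s, ∑ q, χ s v q : ℕ) : ℤ) = ((∑ s, ∑ p, χ s p v : ℕ) : ℤ) := by rw [h.bal v]
  simp only [Fintype.sum_bool, Nat.cast_add, Nat.cast_sum] at h1
  simp only [mv, Pi.add_apply, Pi.zero_apply]
  linarith

theorem Circ.abs_mv {g : Bool → ι → ι → Prop} {χ : Bool → ι → ι → ℕ} (h : Circ g χ) (s : Bool)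
    (A : Finset ι) : |∑ i ∈ A, mv χ s i| ≤ 2 * (Fintype.card ι : ℤ) ^ 3 := by
  have htot : ∑ p, ∑ q, (χ s p q : ℤ) ≤ 2 * (Fintype.card ι : ℤ) ^ 3 := by
    have h1 : ∑ p, ∑ q, χ s p q ≤ 2 * Fintype.card ι ^ 3 :=
      (Finset.single_le_sum (f := fun s => ∑ p, ∑ q, χ s p q) (fun _ _ => Nat.zero_le _)
        (Finset.mem_univ s)).trans h.tot
    exact_mod_cast h1
  have h1 : ∑ v ∈ A, ∑ q, (χ s v q : ℤ) ≤ ∑ p, ∑ q, (χ s p q : ℤ) :=
    Finset.sum_le_sum_of_subset_of_nonneg (Finset.subset_univ A) fun _ _ _ => by positivity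
  have h2 : ∑ v ∈ A, ∑ p, (χ s p v : ℤ) ≤ ∑ p, ∑ q, (χ s p q : ℤ) := by
    rw [Finset.sum_comm (s := univ)]
    exact Finset.sum_le_sum_of_subset_of_nonneg (Finset.subset_univ A) fun _ _ _ => by positivity
  have h3 : 0 ≤ ∑ v ∈ A, ∑ q, (χ s v q : ℤ) := by positivity
  have h4 : 0 ≤ ∑ v ∈ A, ∑ p, (χ s p v : ℤ) := by positivity
  simp only [mv, Finset.sum_sub_distrib]
  rw [abs_le]
  constructor <;> linarith

theorem GeomAux.sum_mv (χ : Bool → ι → ι → ℕ) (s : Bool) (A : Finset ι) :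
    ∑ i ∈ A, mv χ s i =
      ∑ p ∈ A, ∑ q ∈ Aᶜ, (χ s p q : ℤ) - ∑ q ∈ A, ∑ p ∈ Aᶜ, (χ s p q : ℤ) := by
  have h1 : ∀ v, ∑ q, (χ s v q : ℤ) = ∑ q ∈ A, (χ s v q : ℤ) + ∑ q ∈ Aᶜ, (χ s v q : ℤ) :=
    fun v => (Finset.sum_add_sum_compl A _).symm
  have h2 : ∀ v, ∑ p, (χ s p v : ℤ) = ∑ p ∈ A, (χ s p v : ℤ) + ∑ p ∈ Aᶜ, (χ s p v : ℤ) :=
    fun v => (Finset.sum_add_sum_compl A _).symm
  have h3 : ∑ v ∈ A, ∑ q ∈ A, (χ s v q : ℤ) = ∑ v ∈ A, ∑ p ∈ A, (χ s p v : ℤ) := Finset.sum_comm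
  simp only [mv, h1, h2, Finset.sum_sub_distrib, Finset.sum_add_distrib]
  linarith

theorem GeomAux.sum_move (y : ι → ℝ) (σ : ℝ) (m : ι → ℤ) (A : Finset ι) :
    ∑ i ∈ A, (y + σ • cv m) i = ∑ i ∈ A, y i + σ * ((∑ i ∈ A, m i : ℤ) : ℝ) := by
  simp [cv, Finset.sum_add_distrib, Finset.mul_sum]

/-- either an arc of side `s` leaves `A`, or the move takes mass out of `A` -/
theorem GeomAux.dich {r : Bool → Finset ι → ℝ} {y : Bool → ι → ℝ} {τ : ℝ}
    {χ : Bool → ι → ι → ℕ} (h : Circ (XG r y τ) χ) (s : Bool) (A : Finset ι) :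
    τ ≤ r s A - ∑ i ∈ A, y s i ∨
      ∑ i ∈ A, mv χ s i = -∑ q ∈ A, ∑ p ∈ Aᶜ, (χ s p q : ℤ) := by
  by_cases h1 : ∃ p ∈ A, ∃ q ∈ Aᶜ, χ s p q ≠ 0
  · obtain ⟨p, hp, q, hq, hne⟩ := h1
    exact Or.inl (h.supp s p q hne A hp (Finset.mem_compl.1 hq))
  · push Not at h1
    right
    rw [GeomAux.sum_mv, Finset.sum_eq_zero fun p hp => Finset.sum_eq_zero fun q hq => by
      rw [h1 p hp q hq, Nat.cast_zero], zero_sub]

theorem GeomAux.mv_le {g : Bool → ι → ι → Prop} {χ : Bool → ι → ι → ℕ} (h : Circ g χ) (s : Bool)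
    (A : Finset ι) {σ : ℝ} (hσ : 0 ≤ σ) :
    σ * ((∑ i ∈ A, mv χ s i : ℤ) : ℝ) ≤ 2 * (Fintype.card ι : ℝ) ^ 3 * σ := by
  rw [mul_comm _ σ]
  refine mul_le_mul_of_nonneg_left ?_ hσ
  exact_mod_cast (le_abs_self _).trans (h.abs_mv s A)

/-- Moving along a circulation keeps both sides in their base polytopes. -/
theorem Circ.inB {r : Bool → Finset ι → ℝ} {y : Bool → ι → ℝ} {τ σ : ℝ} {χ : Bool → ι → ι → ℕ}
    (h : Circ (XG r y τ) χ) {s : Bool} (hy : InB (r s) (y s)) (hσ : 0 ≤ σ)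
    (hστ : 2 * (Fintype.card ι : ℝ) ^ 3 * σ ≤ τ) : InB (r s) (y s + σ • cv (mv χ s)) := by
  constructor
  · intro A
    rw [GeomAux.sum_move]
    rcases GeomAux.dich h s A with h1 | h1
    · have := GeomAux.mv_le h s A hσ
      linarith
    · have h2 : ((∑ i ∈ A, mv χ s i : ℤ) : ℝ) ≤ 0 := by
        have : ∑ i ∈ A, mv χ s i ≤ 0 := by
          rw [h1, neg_nonpos]; positivity
        exact_mod_cast this
      have h3 := mul_nonpos_of_nonneg_of_nonpos hσ h2
      have h4 := hy.1 A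
      linarith
  · rw [GeomAux.sum_move, GeomAux.sum_mv, hy.2]
    simp

/-- After the move every arc on a cycle has symmetric capacity at least the step. -/
theorem Circ.sym {r : Bool → Finset ι → ℝ} {y : Bool → ι → ℝ} {τ σ : ℝ} {χ : Bool → ι → ι → ℕ}
    (h : Circ (XG r y τ) χ) {s : Bool} (hy : InB (r s) (y s)) (hσ : 0 ≤ σ)
    (hστ : (2 * (Fintype.card ι : ℝ) ^ 3 + 1) * σ ≤ τ) {p q : ι} (hpq : Arc (r s) (y s) τ p q)
    (hqp : Reach (XG r y τ) q p) : Sym (r s) (y s + σ • cv (mv χ s)) σ p q := by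
  constructor
  · intro A hp hq
    rw [GeomAux.sum_move]
    have h1 := hpq A hp hq
    have := GeomAux.mv_le h s A hσ
    linarith
  · intro A hq hp
    rw [GeomAux.sum_move]
    rcases GeomAux.dich h s A with h1 | h1
    · have := GeomAux.mv_le h s A hσ
      linarith
    · have h2 : ((∑ i ∈ A, mv χ s i : ℤ) : ℝ) ≤ -1 := by
        have h5 : (1 : ℤ) ≤ χ s p q := by exact_mod_cast h.cyc s p q hpq hqp
        have h6 : (χ s p q : ℤ) ≤ ∑ p ∈ Aᶜ, (χ s p q : ℤ) :=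
          Finset.single_le_sum (f := fun p => (χ s p q : ℤ)) (fun _ _ => by positivity)
            (Finset.mem_compl.2 hp)
        have h7 : ∑ p ∈ Aᶜ, (χ s p q : ℤ) ≤ ∑ q ∈ A, ∑ p ∈ Aᶜ, (χ s p q : ℤ) :=
          Finset.single_le_sum (f := fun q => ∑ p ∈ Aᶜ, (χ s p q : ℤ))
            (fun _ _ => by positivity) hq
        have : ∑ i ∈ A, mv χ s i ≤ -1 := by
          rw [h1]; linarith
        exact_mod_cast this
      have h3 := mul_le_mul_of_nonneg_left h2 hσ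
      have h4 := hy.1 A
      linarith

/-- The range lemma: a set that is crossed by no arc of side `s` lying on a cycle has almost the
same mass in all pairs of bases with almost the same pair sums. -/
theorem range_le {r : Bool → Finset ι → ℝ} (hr : ∀ s, Sub (r s)) {x y : Bool → ι → ℝ}
    (hx : ∀ s, InB (r s) (x s)) (hy : ∀ s, InB (r s) (y s)) {τ Δ : ℝ} (hτ : 0 ≤ τ)
    (hΔ : ∀ S : Finset ι, (∀ s, ∀ p ∈ S, ∀ q, Arc (r s) (y s) τ p q → q ∈ S) →
      |∑ i ∈ S, (x false i + x true i - y false i - y true i)| ≤ Δ)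
    {s : Bool} {C : Finset ι}
    (hC : ∀ p q, Arc (r s) (y s) τ p q → Reach (XG r y τ) q p → (p ∈ C ↔ q ∈ C)) :
    |∑ i ∈ C, x s i - ∑ i ∈ C, y s i| ≤
      Fintype.card ι * (2 * (Fintype.card ι : ℝ) ^ 2 * τ + Δ) := by
  classical
  set c : ℝ := (Fintype.card ι : ℝ) ^ 2 * τ with hc
  have hc0 : 0 ≤ c := by positivity
  have hΔ0 : 0 ≤ Δ := by simpa using hΔ ∅ (by simp)
  have hup : ∀ (t : Bool) (A : Finset ι), (∀ p ∈ A, ∀ q, Arc (r t) (y t) τ p q → q ∈ A) →
      ∑ i ∈ A, (x t i - y t i) ≤ c := by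
    intro t A hA
    have h1 := slack_closed (hr t) (hy t) hτ (S := A) fun p hp q hq h => hq (hA p hp q h)
    have h2 := (hx t).1 A
    rw [Finset.sum_sub_distrib]
    linarith
  have hlo : ∀ S : Finset ι, (∀ t, ∀ p ∈ S, ∀ q, Arc (r t) (y t) τ p q → q ∈ S) →
      -(Δ + c) ≤ ∑ i ∈ S, (x s i - y s i) := by
    intro S hS
    have h1 := (abs_le.1 (hΔ S hS)).1
    have h2 := hup false S (hS false)
    have h3 := hup true S (hS true)
    have h4 : ∑ i ∈ S, (x false i + x true i - y false i - y true i) =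
        ∑ i ∈ S, (x false i - y false i) + ∑ i ∈ S, (x true i - y true i) := by
      rw [← Finset.sum_add_distrib]
      exact Finset.sum_congr rfl fun i _ => by ring
    cases s <;> linarith
  have key : ∀ S : Finset ι, (∀ t, ∀ p ∈ S, ∀ q, Arc (r t) (y t) τ p q → q ∈ S) →
      |∑ i ∈ C ∩ S, (x s i - y s i)| ≤ S.card * (2 * c + Δ) := by
    intro S
    induction S using Finset.strongInduction with
    | H S ih =>
      intro hS
      rcases S.eq_empty_or_nonempty with rfl | hne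
      · simp
      obtain ⟨p, hp, hmin⟩ := Finset.exists_min_image S
        (fun p => (S.filter fun a => Reach (XG r y τ) a p).card) hne
      have hreach : ∀ a ∈ S, ∀ b, Reach (XG r y τ) a b → b ∈ S := by
        intro a ha b h
        induction h with
        | refl => exact ha
        | tail _ hg ih' =>
          obtain ⟨t, ht⟩ := hg
          exact hS t _ ih' _ ht
      set D : Finset ι := S.filter fun a => Reach (XG r y τ) a p ∧ Reach (XG r y τ) p a with hD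
      have hpD : p ∈ D :=
        Finset.mem_filter.2 ⟨hp, Relation.ReflTransGen.refl, Relation.ReflTransGen.refl⟩
      have hDS : D ⊆ S := Finset.filter_subset _ _
      have hS' : ∀ t, ∀ a ∈ S \ D, ∀ b, Arc (r t) (y t) τ a b → b ∈ S \ D := by
        intro t a ha b hab
        obtain ⟨haS, haD⟩ := Finset.mem_sdiff.1 ha
        refine Finset.mem_sdiff.2 ⟨hS t a haS b hab, fun hb => haD ?_⟩
        have hap : Reach (XG r y τ) a p :=
          Relation.ReflTransGen.head ⟨t, hab⟩ (Finset.mem_filter.1 hb).2.1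
        have hsub : (S.filter fun u => Reach (XG r y τ) u a) ⊆
            S.filter fun u => Reach (XG r y τ) u p := fun u hu =>
          Finset.mem_filter.2 ⟨(Finset.mem_filter.1 hu).1,
            Relation.ReflTransGen.trans (Finset.mem_filter.1 hu).2 hap⟩
        have heq := Finset.eq_of_subset_of_card_le hsub (hmin a haS)
        have hpa : p ∈ S.filter fun u => Reach (XG r y τ) u a := by
          rw [heq]
          exact Finset.mem_filter.2 ⟨hp, Relation.ReflTransGen.refl⟩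
        exact Finset.mem_filter.2 ⟨haS, hap, (Finset.mem_filter.1 hpa).2⟩
      have hiff : ∀ a ∈ D, ∀ b ∈ D, Arc (r s) (y s) τ a b → (a ∈ C ↔ b ∈ C) :=
        fun a ha b hb hab => hC a b hab (Relation.ReflTransGen.trans
          (Finset.mem_filter.1 hb).2.1 (Finset.mem_filter.1 ha).2.2)
      have h1 := hup s ((S \ D) ∪ (C ∩ D)) (by
        intro a ha b hab
        rcases Finset.mem_union.1 ha with ha | ha
        · exact Finset.mem_union_left _ (hS' s a ha b hab)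
        · obtain ⟨haC, haD⟩ := Finset.mem_inter.1 ha
          by_cases hb : b ∈ D
          · exact Finset.mem_union_right _ (Finset.mem_inter.2 ⟨(hiff a haD b hb hab).1 haC, hb⟩)
          · exact Finset.mem_union_left _ (Finset.mem_sdiff.2 ⟨hS s a (hDS haD) b hab, hb⟩))
      have h2 := hup s (S \ (C ∩ D)) (by
        intro a ha b hab
        obtain ⟨haS, haC⟩ := Finset.mem_sdiff.1 ha
        refine Finset.mem_sdiff.2 ⟨hS s a haS b hab, fun hb => ?_⟩
        obtain ⟨hbC, hbD⟩ := Finset.mem_inter.1 hb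
        by_cases haD : a ∈ D
        · exact haC (Finset.mem_inter.2 ⟨(hiff a haD b hbD hab).2 hbC, haD⟩)
        · exact (Finset.mem_sdiff.1 (hS' s a (Finset.mem_sdiff.2 ⟨haS, haD⟩) b hab)).2 hbD)
      have h3 := hlo S hS
      have h4 := hlo (S \ D) hS'
      have hss : S \ D ⊂ S := Finset.sdiff_ssubset hDS ⟨p, hpD⟩
      have h5 := abs_le.1 (ih (S \ D) hss hS')
      have h6 : ((S \ D).card : ℝ) + 1 ≤ S.card := by exact_mod_cast Finset.card_lt_card hss
      rw [Finset.sum_union (Finset.disjoint_left.2 fun a ha ha' =>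
        (Finset.mem_sdiff.1 ha).2 (Finset.mem_inter.1 ha').2)] at h1
      have h7 : ∑ i ∈ S \ (C ∩ D), (x s i - y s i) + ∑ i ∈ C ∩ D, (x s i - y s i) =
          ∑ i ∈ S, (x s i - y s i) := Finset.sum_sdiff (Finset.inter_subset_right.trans hDS)
      have h8 : C ∩ S = (C ∩ (S \ D)) ∪ (C ∩ D) := by
        rw [← Finset.inter_union_distrib_left, Finset.sdiff_union_of_subset hDS]
      have h9 : ((S \ D).card + 1 : ℝ) * (2 * c + Δ) ≤ S.card * (2 * c + Δ) :=
        mul_le_mul_of_nonneg_right h6 (by positivity)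
      rw [h8, Finset.sum_union (Finset.disjoint_left.2 fun a ha ha' =>
        (Finset.mem_sdiff.1 (Finset.mem_inter.1 ha).2).2 (Finset.mem_inter.1 ha').2), abs_le]
      constructor <;> nlinarith
  have h := key univ fun _ _ _ _ _ => Finset.mem_univ _
  rw [Finset.inter_univ, Finset.card_univ, Finset.sum_sub_distrib] at h
  refine h.trans (le_of_eq ?_)
  rw [hc]
  ring

end Crest.Agent.R302
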