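import Crest.Agent.R302.SFM

/-!
# Row 302: the minimisation algorithm is polynomial time relative to the oracle
-/

set_option autoImplicit false

namespace Crest.Agent.R302

open Crest.Agent.Lib.PolyTime

namespace SFMPolyAux

open SFM

section Plain

variable {β : Type} [PEnc β] {n k v l i : β → ℕ} {L : β → List ℕ} {S : β → List Item}
  {x : β → List ℤ} {η : β → ℤ} {b : β → ℕ → Bool}

@[fun_prop] theorem foldr_min (hL : Poly L) (hn : Poly n) : Poly fun a => (L a).foldr min (n a) :=
  Poly.foldr_select (h := fun _ => min) hL hn (by fun_prop) fun _ x s => (min_choice x s).symm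

@[fun_prop] theorem foldr_max (hL : Poly L) (hn : Poly n) : Poly fun a => (L a).foldr max (n a) :=
  Poly.foldr_select (h := fun _ => max) hL hn (by fun_prop) fun _ x s => (max_choice x s).symm

@[fun_prop] theorem foldr_imax (hx : Poly x) (hη : Poly η) :
    Poly fun a => (x a).foldr max (η a) :=
  Poly.foldr_select (h := fun _ => max) hx hη (by fun_prop) fun _ x s => (max_choice x s).symm

theorem poly_pre (hn : Poly n) (bn : PB n) (hL : Poly L) (hk : Poly k) :
    Poly fun a => pre (n a) (L a) (k a) := by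
  unfold pre; fun_prop

@[fun_prop] theorem poly_dmin (hn : Poly n) (hS : Poly S) (hv : Poly v) :
    Poly fun a => dmin (n a) (S a) (v a) := by
  unfold dmin; fun_prop

@[fun_prop] theorem poly_eta (hn : Poly n) (bn : PB n) (hS : Poly S) (hx : Poly x) :
    Poly fun a => eta (n a) (S a) (x a) := by
  unfold eta; fun_prop

@[fun_prop] theorem poly_gap (hn : Poly n) (bn : PB n) (hx : Poly x) (hη : Poly η) :
    Poly fun a => gap (n a) (x a) (η a) := by
  unfold gap; fun_prop

@[fun_prop] theorem poly_big (hn : Poly n) (bn : PB n) (hx : Poly x) (hη : Poly η) (hv : Poly v) :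
    Poly fun a => big (n a) (x a) (η a) (v a) := by
  unfold big; fun_prop

@[fun_prop] theorem poly_lev (hn : Poly n) (bn : PB n) (hS : Poly S)
    (hb : Poly fun p : β × ℕ => b p.1 p.2) : Poly fun a => lev (n a) (S a) (b a) := by
  unfold lev; fun_prop

@[fun_prop] theorem poly_pos (hn : Poly n) (bn : PB n) (hS : Poly S)
    (hb : Poly fun p : β × ℕ => b p.1 p.2) (hl : Poly l) :
    Poly fun a => pos (n a) (S a) (b a) (l a) := by
  unfold pos; fun_prop

@[fun_prop] theorem poly_newL {it : β → Item} (hn : Poly n) (bn : PB n) (hit : Poly it)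
    (hb : Poly fun p : β × ℕ => b p.1 p.2) (hl : Poly l) :
    Poly fun a => newL (n a) (it a) (b a) (l a) := by
  unfold newL; fun_prop

@[fun_prop] theorem poly_push {nw : β → List ℕ × List ℕ} (hS : Poly S) (hi : Poly i)
    (hnw : Poly nw) (hk : Poly k) : Poly fun a => push (S a) (i a) (nw a) (k a) := by
  unfold push; fun_prop

@[fun_prop] theorem poly_Q (hn : Poly n) (hk : Poly k) : Poly fun a => Q (n a) (k a) := by
  unfold Q; fun_prop

theorem poly_argm (hn : Poly n) (bn : PB n) (hS : Poly S) : Poly fun a => argm (n a) (S a) := by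
  unfold argm; fun_prop

end Plain

variable {α : Type} [Ctx α] {n M : α → ℕ} {f : α → List Bool → ℤ}

theorem lift {β γ δ : Type} [PEnc β] [PEnc γ] [PEnc δ] {f : α → β → γ}
    (hf : OPoly fun p : α × β => f p.1 p.2) : OPoly fun p : (α × δ) × β => f p.1.1 p.2 :=
  hf.call (φ := fun p : (α × δ) × β => p.1.1) (fun _ => rfl) OPoly.code_fst.fst OPoly.snd

theorem opoly_gr {L : α → List ℕ} {v : α → ℕ} (hn : OPoly n) (bn : OPB n)
    (hf : OPoly fun p : α × List Bool => f p.1 p.2) (hL : OPoly L) (hv : OPoly v) :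
    OPoly fun a => gr (n a) (f a) (L a) (v a) := by
  have ht := (hn.un bn).pair (hL.pair hv)
  exact OPoly.comp₂ (h := fun x y : ℤ => x - y) (by fun_prop)
    (hf.subst (OPoly.comp (h := fun t : Un × List ℕ × ℕ => pre t.1.n t.2.1 (t.2.1.idxOf t.2.2 + 1))
      (poly_pre (by fun_prop) (by fun_prop) (by fun_prop) (by fun_prop)) ht))
    (hf.subst (OPoly.comp (h := fun t : Un × List ℕ × ℕ => pre t.1.n t.2.1 (t.2.1.idxOf t.2.2))
      (poly_pre (by fun_prop) (by fun_prop) (by fun_prop) (by fun_prop)) ht))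

theorem opoly_xv {S : α → List Item} (hn : OPoly n) (bn : OPB n)
    (hf : OPoly fun p : α × List Bool => f p.1 p.2) (hS : OPoly S) :
    OPoly fun a => xv (n a) (f a) (S a) :=
  (hn.range bn).map (OPoly.comp (h := fun l : List ℤ => l.sum) (by fun_prop)
    (OPoly.map (f := fun (p : α × ℕ) (it : Item) => (it.2.2 : ℤ) * gr (n p.1) (f p.1) it.1 p.2)
      hS.fst (OPoly.comp₂ (h := fun (it : Item) (y : ℤ) => (it.2.2 : ℤ) * y) (by fun_prop) OPoly.snd
        (opoly_gr (f := fun p : (α × ℕ) × Item => f p.1.1) hn.fst.fst bn.fst.fst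
          (lift (f := fun p : α × ℕ => f p.1) (lift hf))
          (OPoly.comp (h := fun it : Item => it.1) (by fun_prop) OPoly.snd) OPoly.snd.fst))))

theorem opoly_step {S : α → List Item} (hn : OPoly n) (bn : OPB n) (hM : OPoly M)
    (hf : OPoly fun p : α × List Bool => f p.1 p.2) (hS : OPoly S) :
    OPoly fun a => step (n a) (M a) (f a) (S a) := by
  have ht := (hn.un bn).pair (hS.pair (opoly_xv hn bn hf hS))
  let b : Un × List Item × List ℤ → ℕ → Bool := fun t => big t.1.n t.2.2 (eta t.1.n t.2.1 t.2.2)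
  let i : Un × List Item × List ℤ → ℕ := fun t => pos t.1.n t.2.1 (b t) (lev t.1.n t.2.1 (b t))
  let it : Un × List Item × List ℤ → Item := fun t => t.2.1.getD (i t) ([], [], 0)
  let nw : Un × List Item × List ℤ → List ℕ × List ℕ := fun t =>
    newL t.1.n (it t) (b t) (lev t.1.n t.2.1 (b t))
  have hb : Poly fun p : (Un × List Item × List ℤ) × ℕ => b p.1 p.2 := by
    simp only [b]; fun_prop
  have hl : Poly fun t : Un × List Item × List ℤ => lev t.1.n t.2.1 (b t) :=
    poly_lev (by fun_prop) (by fun_prop) (by fun_prop) hb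
  have hi : Poly i := poly_pos (by fun_prop) (by fun_prop) (by fun_prop) hb hl
  have hit : Poly it := Poly.listGetD (by fun_prop) hi (by fun_prop)
  have hnw : Poly nw := poly_newL (by fun_prop) (by fun_prop) hit hb hl
  have hβ := (hn.range bn).map (f := fun a v => (gr (n a) (f a)
      (nw (⟨n a⟩, S a, xv (n a) (f a) (S a))).1 v -
        gr (n a) (f a) (it (⟨n a⟩, S a, xv (n a) (f a) (S a))).1 v).natAbs)
    (OPoly.comp₂ (h := fun x y : ℤ => (x - y).natAbs) (by fun_prop)
      (opoly_gr (f := fun p : α × ℕ => f p.1) hn.fst bn.fst (lift hf)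
        (OPoly.comp hnw.fst ht).fst OPoly.snd)
      (opoly_gr (f := fun p : α × ℕ => f p.1) hn.fst bn.fst (lift hf)
        (OPoly.comp hit.fst ht).fst OPoly.snd))
  refine OPoly.comp (h := fun s : (Un × List Item × List ℤ) × ℕ × List ℕ =>
    if (s.1.1.n : ℤ) * eta s.1.1.n s.1.2.1 s.1.2.2 < Q s.1.1.n s.2.1 then s.1.2.1 else
      push s.1.2.1 (i s.1) (nw s.1) (if s.2.2.foldr max 0 = 0 then (it s.1).2.2 else
        min (it s.1).2.2 ((eta s.1.1.n s.1.2.1 s.1.2.2).toNat / (4 * s.1.1.n * s.2.2.foldr max 0))))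
    ?_ (ht.pair (hM.pair hβ))
  clear_value nw it i b
  fun_prop

theorem length_three {l : List ℕ} {p q r : ℕ → Bool}
    (h : ∀ v, (p v).toNat + (q v).toNat + (r v).toNat ≤ 1) :
    (l.filter p ++ l.filter q ++ l.filter r).length ≤ l.length := by
  simp only [List.length_append]
  induction l with
  | nil => simp
  | cons v l ih =>
    have := h v
    simp only [List.filter_cons]
    cases hp : p v <;> cases hq : q v <;> cases hr : r v <;> simp [hp, hq, hr] at this ⊢ <;> omega

theorem foldr_min_le (l : List ℕ) (n : ℕ) : l.foldr min n ≤ n := by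
  induction l with
  | nil => exact le_rfl
  | cons v l ih => exact (min_le_right _ _).trans ih

theorem getD_mem {γ : Type} {P : γ → Prop} {l : List γ} {d : γ} (h : ∀ v ∈ l, P v) (hd : P d)
    (i : ℕ) : P (l.getD i d) := by
  by_cases hi : i < l.length
  · rw [List.getD_eq_getElem _ _ hi]; exact h _ (List.getElem_mem _)
  · rwa [List.getD_eq_default _ _ (not_lt.1 hi)]

/-- the size invariant -/
theorem inv_step {n M : ℕ} {f : List Bool → ℤ} {S : List Item}
    (h : ∀ it ∈ S, it.1.length ≤ n ∧ (∀ v ∈ it.1, v ≤ n + 1) ∧ it.2.1.length ≤ n ∧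
      (∀ v ∈ it.2.1, v ≤ n + 1) ∧ it.2.2 ≤ Q n M) :
    (step n M f S).length ≤ S.length + 1 ∧
    ∀ it ∈ step n M f S, it.1.length ≤ n ∧ (∀ v ∈ it.1, v ≤ n + 1) ∧ it.2.1.length ≤ n ∧
      (∀ v ∈ it.2.1, v ≤ n + 1) ∧ it.2.2 ≤ Q n M := by
  unfold step
  extract_lets x η b l i it nw β
  split
  · exact ⟨Nat.le_succ _, h⟩
  obtain ⟨h1, h2, h3, h4, h5⟩ : it.1.length ≤ n ∧ (∀ v ∈ it.1, v ≤ n + 1) ∧ it.2.1.length ≤ n ∧
      (∀ v ∈ it.2.1, v ≤ n + 1) ∧ it.2.2 ≤ Q n M := getD_mem h (by simp) i
  have hl : l ≤ n := foldr_min_le _ _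
  have ha : (if β = 0 then it.2.2 else min it.2.2 (η.toNat / (4 * n * β))) ≤ it.2.2 := by
    split
    exacts [le_rfl, min_le_left _ _]
  generalize (if β = 0 then it.2.2 else min it.2.2 (η.toNat / (4 * n * β))) = a at ha
  unfold push
  refine ⟨?_, fun t ht => ?_⟩
  · rw [List.length_cons]
    split
    · exact Nat.succ_le_succ (List.length_eraseIdx_le _ _)
    · rw [List.length_set]
  · rcases List.mem_cons.1 ht with rfl | ht
    · refine ⟨(length_three fun v => ?_).trans h1, fun v hv => h2 v ?_, by simp [nw, newL],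
        fun v hv => ?_, ha.trans h5⟩
      · generalize it.2.1.getD v 0 = d
        rcases lt_trichotomy d l with e | e | e
        · simp [e, e.ne, e.le.not_gt]
        · cases b v <;> simp [e]
        · simp [e, e.ne', e.le.not_gt]
      · simp only [nw, newL, List.mem_append, List.mem_filter] at hv
        tauto
      · obtain ⟨u, -, rfl⟩ := List.mem_map.1 hv
        split
        · omega
        · exact getD_mem h4 (Nat.zero_le _) u
    · split at ht
      · exact h t (List.mem_of_mem_eraseIdx ht)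
      · rcases List.mem_or_eq_of_mem_set ht with ht | rfl
        · exact h t ht
        · exact ⟨h1, h2, h3, h4, (Nat.sub_le _ _).trans h5⟩

theorem inv_iter (n M : ℕ) (f : List Bool → ℤ) (i : ℕ) :
    ((step n M f)^[i] [(List.range n, List.replicate n 0, Q n M)]).length ≤ i + 1 ∧
    ∀ it ∈ (step n M f)^[i] [(List.range n, List.replicate n 0, Q n M)],
      it.1.length ≤ n ∧ (∀ v ∈ it.1, v ≤ n + 1) ∧ it.2.1.length ≤ n ∧
      (∀ v ∈ it.2.1, v ≤ n + 1) ∧ it.2.2 ≤ Q n M := by
  induction i with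
  | zero => simp; omega
  | succ i ih =>
    rw [Function.iterate_succ_apply']
    exact ⟨(inv_step ih.2).1.trans (Nat.succ_le_succ ih.1), (inv_step ih.2).2⟩

theorem sz_small {n : ℕ} {l : List ℕ} (h : l.length ≤ n) (h' : ∀ v ∈ l, v ≤ n + 1) :
    sz l ≤ n * (4 * n + 6) + 1 :=
  (sz_list_le (B := 4 * n + 5) fun v hv => (sz_le_self v).trans (by have := h' v hv; omega)).trans
    (Nat.succ_le_succ (Nat.mul_le_mul_right _ h))

theorem sz_iter (n M : ℕ) (f : List Bool → ℤ) {i t : ℕ} (hi : i ≤ t) :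
    sz ((step n M f)^[i] [(List.range n, List.replicate n 0, Q n M)]) ≤
      (t + 1) * (2 * (n * (4 * n + 6) + 1) + 4 * sz (Q n M) + 2 + 1) + 1 := by
  obtain ⟨h1, h2⟩ := inv_iter n M f i
  refine (sz_list_le fun it hit => ?_).trans
    (Nat.succ_le_succ (Nat.mul_le_mul_right _ (h1.trans (Nat.succ_le_succ hi))))
  obtain ⟨a1, a2, a3, a4, a5⟩ := h2 it hit
  have := sz_small a1 a2
  have := sz_small a3 a4
  have := sz_le_of_le a5
  rw [sz_prod, sz_prod]
  omega

theorem poly_T : Poly fun t : Un × ℕ => T t.1.n t.2 := by unfold T; fun_prop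

theorem pb_T : PB fun t : Un × ℕ => T t.1.n t.2 := by unfold T; fun_prop

end SFMPolyAux

open SFMPolyAux

variable {α : Type} [Ctx α] {n M : α → ℕ} {f g : α → List Bool → ℤ}

theorem opoly_fin (hn : OPoly n) (bn : OPB n) (hM : OPoly M)
    (hf : OPoly fun p : α × List Bool => f p.1 p.2) :
    OPoly fun a => SFM.fin (n a) (M a) (f a) := by
  have ht := (hn.un bn).pair hM
  have hQ : OPoly fun a => SFM.Q (n a) (M a) :=
    OPoly.comp (h := fun t : Un × ℕ => SFM.Q t.1.n t.2) (by fun_prop) ht
  have hT : OPoly fun a => SFM.T (n a) (M a) := (OPoly.comp poly_T ht :)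
  have bT : OPB fun a => SFM.T (n a) (M a) := (OPB.of_pb pb_T ht :)
  have h0 : OPoly fun a => [(List.range (n a), List.replicate (n a) 0, SFM.Q (n a) (M a))] :=
    OPoly.comp (h := fun t : Un × ℕ =>
      [(List.range t.1.n, List.replicate t.1.n 0, SFM.Q t.1.n t.2)]) (by fun_prop) ht
  have h1 : OPoly fun p : α × List SFM.Item => SFM.step (n p.1) (M p.1) (f p.1) p.2 :=
    opoly_step (f := fun p : α × List SFM.Item => f p.1) hn.fst bn.fst hM.fst (lift hf) OPoly.snd
  exact OPoly.iterate (h := fun a => SFM.step (n a) (M a) (f a)) hT bT h0 h1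
    (((bT.add (OPB.const 1)).mul (((((OPB.const 2).mul ((bn.mul (((OPB.const 4).mul bn).add
      (OPB.const 6))).add (OPB.const 1))).add ((OPB.const 4).mul hQ.sz_le)).add
        (OPB.const 2)).add (OPB.const 1))).add (OPB.const 1))
    fun a i hi => sz_iter (n a) (M a) (f a) hi

theorem opoly_sfm (hn : OPoly n) (bn : OPB n) (hM : OPoly M)
    (hf : OPoly fun p : α × List Bool => f p.1 p.2) : OPoly fun a => sfm (n a) (M a) (f a) :=
  hf.subst (OPoly.comp₂ (h := fun (u : Un) (S : List SFM.Item) => SFM.argm u.n S)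
    (poly_argm (by fun_prop) (by fun_prop) (by fun_prop)) (hn.un bn) (opoly_fin hn bn hM hf))

theorem opoly_sfmBase (hn : OPoly n) (bn : OPB n) (hM : OPoly M)
    (hf : OPoly fun p : α × List Bool => f p.1 p.2)
    (hg : OPoly fun p : α × List Bool => g p.1 p.2) :
    OPoly fun a => sfmBase (n a) (M a) (f a) (g a) :=
  opoly_xv hn bn hg (opoly_fin hn bn hM hf)

end Crest.Agent.R302
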