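import Crest.Agent.R302.SFMOk
import Crest.Agent.R302.SFMPoly
import Crest.Agent.R302.Geom

/-!
# Row 302: distances and exchange capacities by submodular minimisation
-/

set_option autoImplicit false

namespace Crest.Agent.R302

open Finset Crest.Agent.Lib.PolyTime

/-- Sum of the entries of `X` on the set with indicator list `l`. -/
def msum (n : ℕ) (X : List ℤ) (l : List Bool) : ℤ :=
  ((List.range n).map fun i => if l.getD i false then X.getD i 0 else 0).sum

/-- The `ℓ¹` norm. -/
def nrm (X : List ℤ) : ℕ := (X.map Int.natAbs).sum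

/-- The distance of `X` to the base polytope of `f` (bounded by `M`). -/
def distA (n M : ℕ) (f : List Bool → ℤ) (X : List ℤ) : ℤ :=
  -2 * sfm n (M + nrm X) (fun l => f l - msum n X l) + f (List.replicate n true) -
    msum n X (List.replicate n true)

/-- Force `p` into and `q` out of a set. -/
def frc (n p q : ℕ) (l : List Bool) : List Bool :=
  (List.range n).map fun i => decide (i = p) || (l.getD i false && decide (i ≠ q))

/-- The smallest slack of a set containing `p` but not `q`. -/
def capA (n M : ℕ) (f : List Bool → ℤ) (X : List ℤ) (p q : ℕ) : ℤ :=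
  sfm n (2 * (M + nrm X)) (fun l => f (frc n p q l) - msum n X (frc n p q l) -
    (f (frc n p q []) - msum n X (frc n p q []))) + (f (frc n p q []) - msum n X (frc n p q []))

namespace CapAux

theorem msum_eq (n : ℕ) (X : List ℤ) (l : List Bool) :
    msum n X l = ∑ i ∈ setOf n l, X.getD i 0 := by
  rw [msum, setOf, sum_filter, ← List.sum_toFinset _ List.nodup_range, List.toFinset_range,
    Finset.sum_range]

theorem abs_sum_le_nrm {n : ℕ} (X : List ℤ) (A : Finset (Fin n)) :
    |∑ i ∈ A, X.getD i 0| ≤ (nrm X : ℤ) := by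
  have h1 : ∀ (X : List ℤ) (m : ℕ), ∑ i ∈ range m, |X.getD i 0| ≤ (nrm X : ℤ) := by
    intro X
    induction X with
    | nil => intro m; simp [nrm]
    | cons a X ih =>
      intro m
      cases m with
      | zero => simp
      | succ m =>
        rw [sum_range_succ']
        have := ih m
        simp only [nrm, List.map_cons, List.sum_cons, List.getD_cons_succ, List.getD_cons_zero,
          Nat.cast_add, Int.natCast_natAbs] at this ⊢
        linarith
  refine (abs_sum_le_sum_abs _ _).trans (le_trans ?_ (h1 X n))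
  rw [Finset.sum_range]
  exact sum_le_sum_of_subset_of_nonneg (subset_univ _) fun _ _ _ => abs_nonneg _

theorem setOf_replicate (n : ℕ) : setOf n (List.replicate n true) = univ := by
  ext j; simp [setOf]

theorem setOf_nil (n : ℕ) : setOf n [] = ∅ := by
  ext j; simp [setOf]

theorem setOf_frc {n : ℕ} (p q : Fin n) (l : List Bool) :
    setOf n (frc n p q l) = insert p ((setOf n l).erase q) := by
  ext j
  simp [setOf, frc, Fin.ext_iff, and_comm]

theorem sub_mod {n : ℕ} {f : Finset (Fin n) → ℤ} (hf : Sub f) (y : Fin n → ℤ) :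
    Sub fun A => f A - ∑ i ∈ A, y i := by
  refine ⟨by simp [hf.1], fun A B => ?_⟩
  have h1 := hf.2 A B
  have h2 := sum_union_inter (s₁ := A) (s₂ := B) (f := y)
  dsimp only
  linarith

theorem abs_mod {n M : ℕ} {f : Finset (Fin n) → ℤ} (hM : ∀ A, |f A| ≤ M) (X : List ℤ)
    (A : Finset (Fin n)) : |f A - ∑ i ∈ A, X.getD i 0| ≤ M + nrm X :=
  (abs_sub _ _).trans (add_le_add (hM A) (abs_sum_le_nrm X A))

theorem poly_msum : Poly fun p : (Un × List ℤ) × List Bool => msum p.1.1.n p.1.2 p.2 := by
  unfold msum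
  fun_prop

theorem poly_nrm : Poly nrm := by
  unfold nrm
  fun_prop

theorem poly_frc : Poly fun p : (Un × ℕ × ℕ) × List Bool => frc p.1.1.n p.1.2.1 p.1.2.2 p.2 := by
  unfold frc
  fun_prop

end CapAux

open CapAux

theorem distA_eq {n M : ℕ} {f : Finset (Fin n) → ℤ} (hf : Sub f) (hM : ∀ A, |f A| ≤ M)
    (α : Fin n → ℤ) : distA n M (fun l => f (setOf n l)) (List.ofFn α) = dist f α := by
  have hα : ∀ i : Fin n, (List.ofFn α).getD i 0 = α i := fun i => by simp
  have h := sfm_spec (M := M + nrm (List.ofFn α)) (sub_mod hf fun i => (List.ofFn α).getD i 0)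
    fun A => by exact_mod_cast abs_mod hM _ A
  simp only [hα] at h
  simp only [distA, dist, msum_eq, setOf_replicate, hα]
  obtain ⟨⟨A, hA⟩, h2⟩ := h
  obtain ⟨B, hB⟩ := exists_dp f α
  have h3 := le_dp f α A
  have h4 := h2 B
  omega

theorem capA_spec {n M : ℕ} {f : Finset (Fin n) → ℤ} (hf : Sub f) (hM : ∀ A, |f A| ≤ M)
    (X : List ℤ) {p q : Fin n} (hpq : p ≠ q) (τ : ℝ) :
    τ ≤ (capA n M (fun l => f (setOf n l)) X p q : ℝ) ↔
      Arc (cr f) (cv fun i : Fin n => X.getD i 0) τ p q := by
  set F : Finset (Fin n) → ℤ := fun A => f A - ∑ i ∈ A, X.getD i 0 with hF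
  have hFs : Sub F := sub_mod hf _
  have hFb : ∀ A, |F A| ≤ M + nrm X := abs_mod hM X
  have hs : Sub fun A => F (insert p (A.erase q)) - F (insert p ((∅ : Finset (Fin n)).erase q)) := by
    refine ⟨sub_self _, fun A B => ?_⟩
    have h1 := hFs.2 (insert p (A.erase q)) (insert p (B.erase q))
    have e1 : insert p (A.erase q) ∪ insert p (B.erase q) = insert p ((A ∪ B).erase q) := by
      ext j; simp only [mem_union, mem_insert, mem_erase]; tauto
    have e2 : insert p (A.erase q) ∩ insert p (B.erase q) = insert p ((A ∩ B).erase q) := by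
      ext j; simp only [mem_inter, mem_insert, mem_erase]; tauto
    rw [e1, e2] at h1
    dsimp only
    linarith
  obtain ⟨⟨A, hA⟩, h2⟩ := sfm_spec (M := 2 * (M + nrm X)) hs fun A => by
    have := (abs_sub _ _).trans (add_le_add (hFb (insert p (A.erase q)))
      (hFb (insert p ((∅ : Finset (Fin n)).erase q))))
    push_cast
    linarith
  have e : capA n M (fun l => f (setOf n l)) X p q = F (insert p (A.erase q)) := by
    simp only [capA, msum_eq, setOf_frc, setOf_nil]
    simp only [hF] at hA ⊢
    rw [hA]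
    ring
  have hFc : ∀ B, cr f B - ∑ i ∈ B, cv (fun i : Fin n => X.getD i 0) i = (F B : ℝ) := by
    intro B
    simp [hF, cr, cv]
  rw [e]
  constructor
  · intro h B hp hq
    rw [hFc]
    refine h.trans ?_
    have h3 := h2 B
    rw [hA, erase_eq_of_notMem hq, insert_eq_of_mem hp] at h3
    exact_mod_cast (by linarith : F (insert p (A.erase q)) ≤ F B)
  · intro h
    rw [← hFc]
    exact h _ (mem_insert_self _ _) (by simp [hpq.symm])

variable {α : Type} [Ctx α] {n M : α → ℕ} {f : α → List Bool → ℤ} {X : α → List ℤ}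

attribute [local irreducible] sfm msum frc nrm

theorem opoly_distA (hn : OPoly n) (bn : OPB n) (hM : OPoly M)
    (hf : OPoly fun p : α × List Bool => f p.1 p.2) (hX : OPoly X) :
    OPoly fun a => distA (n a) (M a) (f a) (X a) := by
  have hu := hn.un bn
  have hms : OPoly fun p : α × List Bool => msum (n p.1) (X p.1) p.2 :=
    OPoly.comp₂ (h := fun (a : Un × List ℤ) l => msum a.1.n a.2 l) poly_msum (hu.pair hX).fst
      OPoly.snd
  have hF : OPoly fun p : α × List Bool => f p.1 p.2 - msum (n p.1) (X p.1) p.2 :=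
    OPoly.comp₂ (h := fun a b : ℤ => a - b) (by fun_prop) hf hms
  have hM' : OPoly fun a => M a + nrm (X a) :=
    OPoly.comp₂ (h := fun a b : ℕ => a + b) (by fun_prop) hM (OPoly.comp poly_nrm hX)
  have h1 := opoly_sfm (f := fun a l => f a l - msum (n a) (X a) l) hn bn hM' hF
  have h2 : OPoly fun a => List.replicate (n a) true :=
    OPoly.comp (h := fun u : Un => List.replicate u.n true) (by fun_prop) hu
  have h3 := OPoly.subst (f := fun a l => f a l - msum (n a) (X a) l) hF h2
  refine (OPoly.comp₂ (h := fun a b : ℤ => -2 * a + b) (by fun_prop) h1 h3).congr fun a => ?_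
  simp only [distA]
  ring

theorem opoly_capA (hn : OPoly n) (bn : OPB n) (hM : OPoly M)
    (hf : OPoly fun p : α × List Bool => f p.1 p.2) (hX : OPoly X) {p q : α → ℕ} (hp : OPoly p)
    (hq : OPoly q) : OPoly fun a => capA (n a) (M a) (f a) (X a) (p a) (q a) := by
  have hu := hn.un bn
  have hms : OPoly fun p : α × List Bool => msum (n p.1) (X p.1) p.2 :=
    OPoly.comp₂ (h := fun (a : Un × List ℤ) l => msum a.1.n a.2 l) poly_msum (hu.pair hX).fst
      OPoly.snd
  have hF : OPoly fun p : α × List Bool => f p.1 p.2 - msum (n p.1) (X p.1) p.2 :=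
    OPoly.comp₂ (h := fun a b : ℤ => a - b) (by fun_prop) hf hms
  have hfr : OPoly fun x : α × List Bool => frc (n x.1) (p x.1) (q x.1) x.2 :=
    OPoly.comp₂ (h := fun (a : Un × ℕ × ℕ) l => frc a.1.n a.2.1 a.2.2 l) poly_frc
      (hu.pair (hp.pair hq)).fst OPoly.snd
  have hG : OPoly fun x : α × List Bool => f x.1 (frc (n x.1) (p x.1) (q x.1) x.2) -
      msum (n x.1) (X x.1) (frc (n x.1) (p x.1) (q x.1) x.2) :=
    OPoly.call (f := fun a l => f a l - msum (n a) (X a) l) hF (φ := Prod.fst) (fun _ => rfl)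
      OPoly.code_fst hfr
  have h0 : OPoly fun a => f a (frc (n a) (p a) (q a) []) -
      msum (n a) (X a) (frc (n a) (p a) (q a) []) :=
    OPoly.subst (f := fun a l => f a (frc (n a) (p a) (q a) l) -
      msum (n a) (X a) (frc (n a) (p a) (q a) l)) hG (OPoly.const [])
  have hM' : OPoly fun a => 2 * (M a + nrm (X a)) :=
    OPoly.comp₂ (h := fun a b : ℕ => 2 * (a + b)) (by fun_prop) hM (OPoly.comp poly_nrm hX)
  have h1 := opoly_sfm (f := fun a l => f a (frc (n a) (p a) (q a) l) -
      msum (n a) (X a) (frc (n a) (p a) (q a) l) - (f a (frc (n a) (p a) (q a) []) -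
      msum (n a) (X a) (frc (n a) (p a) (q a) []))) hn bn hM'
    (OPoly.comp₂ (h := fun a b : ℤ => a - b) (by fun_prop) hG h0.fst)
  exact OPoly.comp₂ (h := fun a b : ℤ => a + b) (by fun_prop) h1 h0

end Crest.Agent.R302
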