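import Crest.Agent.R302.Defs
import Crest.Agent.Lib.PolyTime.More
import Crest.Agent.Lib.PolyTime.Arith

/-!
# Row 302: a polynomial-time circulation through all arcs on cycles
-/

set_option autoImplicit false

namespace Crest.Agent.R302

open Crest.Agent.Lib.PolyTime

/-- Entry of a matrix given as a list of rows. -/
def ent {β : Type} (d : β) (A : List (List β)) (p q : ℕ) : β := (A.getD p []).getD q d

namespace ChiAux

/-- Arcs: colour, tail, head. -/
abbrev Ar := Bool × ℕ × ℕ

/-- The arcs of the two digraphs. -/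
def arcs (n : ℕ) (g₀ g₁ : List (List Bool)) : List Ar :=
  ([false, true] ×ˢ (List.range n ×ˢ List.range n)).filter fun a =>
    ent false (bif a.1 then g₁ else g₀) a.2.1 a.2.2

/-- A reached vertex and an arc from it to a new vertex. -/
def nxt (E : List Ar) (L : List (ℕ × List Ar)) : Option ((ℕ × List Ar) × Ar) :=
  (L ×ˢ E).find? fun x => x.2.2.1 == x.1.1 && !(L.map Prod.fst).contains x.2.2.2

/-- Reach one more vertex. -/
def step (E : List Ar) (L : List (ℕ × List Ar)) : List (ℕ × List Ar) :=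
  (nxt E L).elim L fun x => (x.2.2.2, x.2 :: x.1.2) :: L

/-- Paths from `q` to all vertices reachable from `q`. -/
def tree (E : List Ar) (n q : ℕ) : List (ℕ × List Ar) := (step E)^[n] [(q, [])]

/-- A cycle through the arc `a`, if there is one. -/
def cy (E : List Ar) (n : ℕ) (a : Ar) : List Ar :=
  ((tree E n a.2.2).find? fun x => x.1 == a.2.1).elim [] fun x => a :: x.2

/-- All the cycles. -/
def cyc (E : List Ar) (n : ℕ) : List Ar := E.flatMap (cy E n)

/-- The multiplicities of the arcs of colour `s`. -/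
def mat (C : List Ar) (n : ℕ) (s : Bool) : List (List ℕ) :=
  (List.range n).map fun p => (List.range n).map fun q => C.count (s, p, q)

/-- Out-degree in a list of arcs. -/
def dout (x : ℕ) (w : List Ar) : ℕ := w.countP fun a => a.2.1 == x
/-- In-degree in a list of arcs. -/
def din (x : ℕ) (w : List Ar) : ℕ := w.countP fun a => a.2.2 == x

/-- The degrees are those of a walk from `q` to `v`. -/
def Bal (q v : ℕ) (w : List Ar) : Prop :=
  ∀ x, dout x w + (if v = x then 1 else 0) = din x w + if q = x then 1 else 0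

theorem dout_cons (x : ℕ) (a : Ar) (w : List Ar) :
    dout x (a :: w) = dout x w + if a.2.1 = x then 1 else 0 := by
  simp [dout, List.countP_cons]

theorem din_cons (x : ℕ) (a : Ar) (w : List Ar) :
    din x (a :: w) = din x w + if a.2.2 = x then 1 else 0 := by
  simp [din, List.countP_cons]

structure Inv (E : List Ar) (q : ℕ) (L : List (ℕ × List Ar)) : Prop where
  src : q ∈ L.map Prod.fst
  nd : (L.map Prod.fst).Nodup
  key : ∀ x ∈ L, x.1 ∈ q :: E.map fun a => a.2.2
  mem : ∀ x ∈ L, ∀ a ∈ x.2, a ∈ E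
  len : ∀ x ∈ L, x.2.length < L.length
  bal : ∀ x ∈ L, Bal q x.1 x.2

theorem nxt_some {E : List Ar} {L : List (ℕ × List Ar)} {x : (ℕ × List Ar) × Ar}
    (h : nxt E L = some x) :
    x.1 ∈ L ∧ x.2 ∈ E ∧ x.2.2.1 = x.1.1 ∧ x.2.2.2 ∉ L.map Prod.fst := by
  have h1 := List.mem_of_find?_eq_some h
  have h2 := List.find?_some h
  obtain ⟨y, a⟩ := x
  rw [List.mem_product] at h1
  simp only [Bool.and_eq_true, beq_iff_eq, Bool.not_eq_true', List.contains_eq_mem,
    decide_eq_false_iff_not] at h2
  exact ⟨h1.1, h1.2, h2.1, h2.2⟩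

theorem nxt_none {E : List Ar} {L : List (ℕ × List Ar)} (h : nxt E L = none) {a : Ar}
    (ha : a ∈ E) (hp : a.2.1 ∈ L.map Prod.fst) : a.2.2 ∈ L.map Prod.fst := by
  obtain ⟨y, hy, e⟩ := List.mem_map.1 hp
  have h1 := List.find?_eq_none.1 h (y, a) (List.mem_product.2 ⟨hy, ha⟩)
  simp only [Bool.and_eq_true, beq_iff_eq, Bool.not_eq_true', List.contains_eq_mem,
    decide_eq_false_iff_not, not_and, not_not] at h1
  exact h1 e.symm

theorem inv_init (E : List Ar) (q : ℕ) : Inv E q [(q, [])] := by
  refine ⟨by simp, by simp, by simp, by simp, by simp, ?_⟩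
  intro x hx
  rw [List.mem_singleton.1 hx]
  intro y
  simp [dout, din]

theorem Inv.step {E : List Ar} {q : ℕ} {L : List (ℕ × List Ar)} (h : Inv E q L) :
    Inv E q (step E L) := by
  unfold ChiAux.step
  cases hn : nxt E L with
  | none => exact h
  | some x =>
    obtain ⟨h1, h2, h3, h4⟩ := nxt_some hn
    simp only [Option.elim_some]
    refine ⟨List.mem_cons_of_mem _ h.src, List.nodup_cons.2 ⟨h4, h.nd⟩, ?_, ?_, ?_, ?_⟩
    · intro y hy
      rcases List.mem_cons.1 hy with rfl | hy
      · exact List.mem_cons_of_mem _ (List.mem_map.2 ⟨_, h2, rfl⟩)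
      · exact h.key y hy
    · intro y hy
      rcases List.mem_cons.1 hy with rfl | hy
      · intro a ha
        rcases List.mem_cons.1 ha with rfl | ha
        · exact h2
        · exact h.mem _ h1 a ha
      · exact h.mem y hy
    · intro y hy
      rcases List.mem_cons.1 hy with rfl | hy
      · simpa using h.len _ h1
      · exact (h.len y hy).trans (by simp)
    · intro y hy
      rcases List.mem_cons.1 hy with rfl | hy
      · intro z
        have := h.bal _ h1 z
        simp only [dout_cons, din_cons, h3]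
        omega
      · exact h.bal y hy

theorem inv_tree (E : List Ar) (n q : ℕ) : Inv E q (tree E n q) :=
  Function.Iterate.rec (Inv E q) (inv_init E q) (fun _ h => h.step) n

theorem Inv.length_le {E : List Ar} {q : ℕ} {L : List (ℕ × List Ar)} (h : Inv E q L)
    {M : List ℕ} (hM : (q :: E.map fun a => a.2.2) ⊆ M) : L.length ≤ M.length := by
  have := (h.nd.subperm (l₂ := M) fun x hx => by
    obtain ⟨y, hy, rfl⟩ := List.mem_map.1 hx
    exact hM (h.key y hy)).length_le
  simpa using this

theorem tree_closed_or (E : List Ar) (n q : ℕ) :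
    nxt E (tree E n q) = none ∨ n < (tree E n q).length := by
  induction n with
  | zero => right; simp [tree]
  | succ n ih =>
    have e : tree E (n + 1) q = step E (tree E n q) := Function.iterate_succ_apply' _ _ _
    cases hn : nxt E (tree E n q) with
    | none => left; rw [e, step, hn]; exact hn
    | some x =>
      right
      rw [hn] at ih
      rw [e, step, hn]
      simpa using ih

theorem mem_arcs {n : ℕ} {g₀ g₁ : List (List Bool)} {a : Ar} : a ∈ arcs n g₀ g₁ ↔
    a.2.1 < n ∧ a.2.2 < n ∧ ent false (bif a.1 then g₁ else g₀) a.2.1 a.2.2 = true := by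
  obtain ⟨s, p, q⟩ := a
  cases s <;> simp [arcs, and_assoc]

theorem length_arcs (n : ℕ) (g₀ g₁ : List (List Bool)) : (arcs n g₀ g₁).length ≤ 2 * n ^ 2 := by
  refine (List.length_filter_le _ _).trans ?_
  simp [List.length_product, sq, two_mul]

theorem length_tree {E : List Ar} {n q : ℕ} (hE : ∀ a ∈ E, a.2.2 < n) (hq : q < n) :
    (tree E n q).length ≤ n := by
  have := (inv_tree E n q).length_le (M := List.range n) fun x hx => by
    rcases List.mem_cons.1 hx with rfl | hx
    · exact List.mem_range.2 hq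
    · obtain ⟨a, ha, rfl⟩ := List.mem_map.1 hx
      exact List.mem_range.2 (hE a ha)
  simpa using this

theorem cy_cases (E : List Ar) (n : ℕ) (a : Ar) :
    (cy E n a = [] ∧ a.2.1 ∉ (tree E n a.2.2).map Prod.fst) ∨
      ∃ w, (a.2.1, w) ∈ tree E n a.2.2 ∧ cy E n a = a :: w := by
  unfold cy
  cases h : (tree E n a.2.2).find? fun x => x.1 == a.2.1 with
  | none =>
    refine Or.inl ⟨rfl, fun hm => ?_⟩
    obtain ⟨y, hy, e⟩ := List.mem_map.1 hm
    simpa [e] using List.find?_eq_none.1 h y hy
  | some x =>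
    have h1 := List.mem_of_find?_eq_some h
    have h2 : x.1 = a.2.1 := by simpa using List.find?_some h
    exact Or.inr ⟨x.2, h2 ▸ h1, rfl⟩

theorem mem_cyc {E : List Ar} {n : ℕ} {a : Ar} (h : a ∈ cyc E n) : a ∈ E := by
  obtain ⟨b, hb, h⟩ := List.mem_flatMap.1 h
  rcases cy_cases E n b with ⟨e, -⟩ | ⟨w, hw, e⟩ <;> rw [e] at h
  · simp at h
  · rcases List.mem_cons.1 h with rfl | h
    · exact hb
    · exact (inv_tree E n _).mem _ hw a h

theorem bal_cy (E : List Ar) (n : ℕ) (a : Ar) (x : ℕ) : dout x (cy E n a) = din x (cy E n a) := by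
  rcases cy_cases E n a with ⟨e, -⟩ | ⟨w, hw, e⟩ <;> rw [e]
  · rfl
  · rw [dout_cons, din_cons]
    exact (inv_tree E n _).bal _ hw x

theorem bal_cyc (E : List Ar) (n x : ℕ) : dout x (cyc E n) = din x (cyc E n) := by
  have : ∀ F : List Ar, dout x (F.flatMap (cy E n)) = din x (F.flatMap (cy E n)) := by
    intro F
    induction F with
    | nil => rfl
    | cons a F ih =>
      have := bal_cy E n a x
      simp only [dout, din, List.flatMap_cons, List.countP_append] at *
      omega
  exact this E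

theorem length_cyc {E : List Ar} {n : ℕ} (hE : ∀ a ∈ E, a.2.2 < n) :
    (cyc E n).length ≤ E.length * n := by
  rw [cyc, List.length_flatMap]
  have := List.sum_le_card_nsmul (E.map fun a => (cy E n a).length) n fun x hx => by
    obtain ⟨a, ha, rfl⟩ := List.mem_map.1 hx
    rcases cy_cases E n a with ⟨e, -⟩ | ⟨w, hw, e⟩ <;> rw [e]
    · simp
    · exact ((inv_tree E n _).len _ hw).trans_le (length_tree hE (hE a ha))
  simpa using this

theorem sum_count {κ : Type} [Fintype κ] {f : κ → Ar} (hf : Function.Injective f) (P : Ar → Bool)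
    (l : List Ar) (h : ∀ a ∈ l, P a = true ↔ ∃ i, f i = a) :
    ∑ i, l.count (f i) = l.countP P := by
  classical
  induction l with
  | nil => simp
  | cons a l ih =>
    simp only [List.count_cons, List.countP_cons, Finset.sum_add_distrib]
    rw [ih fun b hb => h b (List.mem_cons_of_mem _ hb)]
    congr 1
    by_cases hP : P a = true
    · obtain ⟨j, rfl⟩ := (h a List.mem_cons_self).1 hP
      simp [hP, hf.eq_iff]
    · have : ∀ i, a ≠ f i := fun i e => hP ((h a List.mem_cons_self).2 ⟨i, e.symm⟩)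
      simp [hP, this]

theorem ent_mat (C : List Ar) {n : ℕ} (s : Bool) (p q : Fin n) :
    ent 0 (mat C n s) p q = C.count (s, (p : ℕ), (q : ℕ)) := by
  simp [ent, mat, List.getD_eq_getElem?_getD]

theorem circ (n : ℕ) (g₀ g₁ : List (List Bool)) :
    Circ (fun s (p q : Fin n) => ent false (bif s then g₁ else g₀) p q = true)
      fun s (p q : Fin n) => (cyc (arcs n g₀ g₁) n).count (s, (p : ℕ), (q : ℕ)) := by
  have hE : ∀ a ∈ arcs n g₀ g₁, a.2.2 < n := fun a ha => (mem_arcs.1 ha).2.1
  refine ⟨fun s p q h => ?_, fun v => ?_, fun s p q hg hr => ?_, ?_⟩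
  · exact (mem_arcs.1 (mem_cyc (List.count_pos_iff.1 (Nat.pos_of_ne_zero h)))).2.2
  · have h1 := sum_count (f := fun i : Bool × Fin n => ((i.1, (v : ℕ), (i.2 : ℕ)) : Ar))
      (fun i j e => by simpa [Prod.ext_iff, Fin.ext_iff] using e) (fun a => a.2.1 == v)
      (cyc (arcs n g₀ g₁) n) fun a ha => by
        have := mem_arcs.1 (mem_cyc ha)
        refine ⟨fun e => ⟨(a.1, ⟨a.2.2, this.2.1⟩), ?_⟩, ?_⟩
        · simp only [beq_iff_eq] at e
          simp [← e]
        · rintro ⟨i, rfl⟩
          simp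
    have h2 := sum_count (f := fun i : Bool × Fin n => ((i.1, (i.2 : ℕ), (v : ℕ)) : Ar))
      (fun i j e => by simpa [Prod.ext_iff, Fin.ext_iff] using e) (fun a => a.2.2 == v)
      (cyc (arcs n g₀ g₁) n) fun a ha => by
        have := mem_arcs.1 (mem_cyc ha)
        refine ⟨fun e => ⟨(a.1, ⟨a.2.1, this.1⟩), ?_⟩, ?_⟩
        · simp only [beq_iff_eq] at e
          simp [← e]
        · rintro ⟨i, rfl⟩
          simp
    rw [Fintype.sum_prod_type] at h1 h2
    exact h1.trans ((bal_cyc _ n v).trans h2.symm)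
  · have hcl : nxt (arcs n g₀ g₁) (tree (arcs n g₀ g₁) n q) = none :=
      (tree_closed_or _ n q).resolve_right (not_lt.2 (length_tree hE q.2))
    have hp : (p : ℕ) ∈ (tree (arcs n g₀ g₁) n q).map Prod.fst := by
      clear hg
      induction hr with
      | refl => exact (inv_tree _ n q).src
      | @tail b c _ hbc ih =>
        obtain ⟨t, ht⟩ := hbc
        exact nxt_none hcl (a := (t, (b : ℕ), (c : ℕ))) (mem_arcs.2 ⟨b.2, c.2, ht⟩) ih
    refine List.count_pos_iff.2 (List.mem_flatMap.2 ⟨(s, (p : ℕ), (q : ℕ)),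
      mem_arcs.2 ⟨p.2, q.2, hg⟩, ?_⟩)
    rcases cy_cases (arcs n g₀ g₁) n (s, (p : ℕ), (q : ℕ)) with ⟨-, h⟩ | ⟨w, -, e⟩
    · exact absurd hp h
    · rw [e]; exact List.mem_cons_self
  · have h1 := sum_count
      (f := fun i : Bool × Fin n × Fin n => ((i.1, (i.2.1 : ℕ), (i.2.2 : ℕ)) : Ar))
      (fun i j e => by simpa [Prod.ext_iff, Fin.ext_iff] using e) (fun _ => true)
      (cyc (arcs n g₀ g₁) n) fun a ha => by
        have := mem_arcs.1 (mem_cyc ha)
        exact ⟨fun _ => ⟨(a.1, ⟨a.2.1, this.1⟩, ⟨a.2.2, this.2.1⟩), rfl⟩, fun _ => rfl⟩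
    simp only [Fintype.sum_prod_type] at h1
    rw [h1, Fintype.card_fin]
    calc _ ≤ (cyc (arcs n g₀ g₁) n).length := List.countP_le_length
      _ ≤ (arcs n g₀ g₁).length * n := length_cyc hE
      _ ≤ 2 * n ^ 2 * n := Nat.mul_le_mul_right _ (length_arcs n g₀ g₁)
      _ = 2 * n ^ 3 := by ring

section PolyTime

variable {α : Type} [PEnc α]

@[fun_prop] theorem poly_arcs {n : α → ℕ} {g₀ g₁ : α → List (List Bool)} (hn : Poly n)
    (hb : PB n) (h₀ : Poly g₀) (h₁ : Poly g₁) : Poly fun a => arcs (n a) (g₀ a) (g₁ a) := by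
  unfold arcs ent
  fun_prop

theorem poly_step : Poly fun p : List Ar × List (ℕ × List Ar) => step p.1 p.2 := by
  unfold step nxt
  fun_prop

theorem Inv.sz_le {E : List Ar} {q : ℕ} {L : List (ℕ × List Ar)} (h : Inv E q L) :
    sz L ≤ (E.length + 1) * (sz q + sz E + ((E.length + 1) * (sz E + 1) + 1) + 1 + 1) + 1 := by
  have hL : L.length ≤ E.length + 1 := by simpa using h.length_le (List.Subset.refl _)
  refine (sz_list_le (B := sz q + sz E + ((E.length + 1) * (sz E + 1) + 1) + 1)
    fun x hx => ?_).trans (by gcongr)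
  rw [sz_prod]
  have h1 : sz x.1 ≤ sz q + sz E := by
    rcases List.mem_cons.1 (h.key x hx) with e | e
    · rw [e]; omega
    · obtain ⟨a, ha, e⟩ := List.mem_map.1 e
      have := sz_le_of_mem ha
      have := sz_snd_le a
      have := sz_snd_le a.2
      rw [← e]; omega
  have h2 : sz x.2 ≤ (E.length + 1) * (sz E + 1) + 1 := by
    refine (sz_list_le (B := sz E) fun a ha => sz_le_of_mem (h.mem x hx a ha)).trans ?_
    have := h.len x hx
    gcongr
    omega
  omega

@[fun_prop] theorem poly_tree {E : α → List Ar} {n q : α → ℕ} (hE : Poly E) (hn : Poly n)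
    (hb : PB n) (hq : Poly q) : Poly fun a => tree (E a) (n a) (q a) :=
  Poly.iterate_inv (h := fun a => step (E a)) hn hb (by fun_prop)
    (poly_step.comp (g := fun p : α × List (ℕ × List Ar) => (E p.1, p.2)) (by fun_prop))
    (fun a => Inv (E a) (q a)) (fun a => inv_init _ _) (fun _ _ h => h.step)
    (B := fun a => ((E a).length + 1) * (sz (q a) + sz (E a) +
      (((E a).length + 1) * (sz (E a) + 1) + 1) + 1 + 1) + 1) (by fun_prop) fun _ _ h => h.sz_le

@[fun_prop] theorem poly_cyc {E : α → List Ar} {n : α → ℕ} (hE : Poly E) (hn : Poly n)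
    (hb : PB n) : Poly fun a => cyc (E a) (n a) := by
  unfold cyc cy
  fun_prop

@[fun_prop] theorem poly_mat {C : α → List Ar} {n : α → ℕ} (hC : Poly C) (hn : Poly n)
    (hb : PB n) (s : Bool) : Poly fun a => mat (C a) (n a) s := by
  unfold mat
  fun_prop

end PolyTime

end ChiAux

theorem exists_chi : ∃ chi : Un × List (List Bool) × List (List Bool) →
    List (List ℕ) × List (List ℕ), Poly chi ∧ ∀ (n : ℕ) (g₀ g₁ : List (List Bool)),
      Circ (fun s (p q : Fin n) => ent false (bif s then g₁ else g₀) p q = true)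
        fun s (p q : Fin n) =>
          ent 0 (bif s then (chi (⟨n⟩, g₀, g₁)).2 else (chi (⟨n⟩, g₀, g₁)).1) p q := by
  refine ⟨fun x => (ChiAux.mat (ChiAux.cyc (ChiAux.arcs x.1.n x.2.1 x.2.2) x.1.n) x.1.n false,
    ChiAux.mat (ChiAux.cyc (ChiAux.arcs x.1.n x.2.1 x.2.2) x.1.n) x.1.n true), by fun_prop,
    fun n g₀ g₁ => ?_⟩
  convert ChiAux.circ n g₀ g₁ using 4 with s p q
  cases s <;> exact ChiAux.ent_mat _ _ p q

end Crest.Agent.R302
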