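import Crest.Agent.R302.Cap
import Crest.Agent.R302.Chi

/-!
# Row 302: a centred pair of bases
-/

set_option autoImplicit false

namespace Crest.Agent.R302

open Finset Crest.Agent.Lib.PolyTime

/-- A feasible pair of submodular functions bounded by `R`. -/
structure Feas {n : ℕ} (r : Bool → Finset (Fin n) → ℤ) (R : ℕ) : Prop where
  sub : ∀ s, Sub (r s)
  tot : r false univ + r true univ = 0
  bnd : ∀ s A, |r s A| ≤ R
  feas : ∀ A, 0 ≤ r false A + r true A

/-- A centred pair of fractional bases. -/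
structure Centred {n : ℕ} (r : Bool → Finset (Fin n) → ℤ) (x : Bool → Fin n → ℝ) : Prop where
  cen : ∀ s, InB (cr (r s)) (x s)
  dfc : ∑ i, |x false i + x true i| ≤ 2
  cp : ∀ τ : ℝ, 2 * (2 * (n : ℝ) ^ 3 + 1) ≤ τ → ∀ s p q, Arc (cr (r s)) (x s) τ p q →
    Reach (XG (fun s => cr (r s)) x τ) q p → Sym (cr (r s)) (x s) (τ / (60 * (n : ℝ) ^ 6)) p q

/-- The fractional vector with numerators `X` and denominator `Q`. -/
noncomputable def frac (n : ℕ) (X : (List ℤ × List ℤ) × ℕ) : Bool → Fin n → ℝ :=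
  fun s i => ((bif s then X.1.2 else X.1.1).getD i 0 : ℝ) / X.2

namespace Center

/-! ### The scaling argument -/

section real
variable {n : ℕ} {r : Bool → Finset (Fin n) → ℝ} {y : Bool → Fin n → ℝ}

/-- All points close to `y` are centred at the scales above `σ`. -/
def Near (r : Bool → Finset (Fin n) → ℝ) (y : Bool → Fin n → ℝ) (σ : ℝ) : Prop :=
  ∀ y' : Bool → Fin n → ℝ, (∀ s A, |∑ i ∈ A, y' s i - ∑ i ∈ A, y s i| ≤ σ / 2) →
    ∀ τ : ℝ, 2 * (2 * (n : ℝ) ^ 3 + 1) * σ ≤ τ → ∀ s p q, Arc (r s) (y' s) τ p q →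
      Reach (XG r y' τ) q p → Sym (r s) (y' s) (τ / (60 * (n : ℝ) ^ 6)) p q

theorem arc_near {r : Finset (Fin n) → ℝ} {y y' : Fin n → ℝ} {τ τ' δ : ℝ} {p q : Fin n}
    (h : Arc r y τ p q) (hd : ∀ A, |∑ i ∈ A, y' i - ∑ i ∈ A, y i| ≤ δ) (ht : τ' + δ ≤ τ) :
    Arc r y' τ' p q := fun A hp hq => by
  have h1 := h A hp hq
  have h2 := (abs_le.1 (hd A)).2
  linarith

theorem coord_le {r : Finset (Fin n) → ℝ} {y : Fin n → ℝ} {R : ℝ} (hy : InB r y)
    (hR : ∀ A, |r A| ≤ R) (p : Fin n) : |y p| ≤ 2 * R := by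
  have h1 := hy.1 {p}
  have h2 := hy.1 {p}ᶜ
  have h3 := sum_add_sum_compl {p} y
  have h4 := abs_le.1 (hR {p})
  have h5 := abs_le.1 (hR {p}ᶜ)
  have h6 := abs_le.1 (hR univ)
  rw [sum_singleton] at h1 h3
  rw [hy.2] at h3
  rw [abs_le]
  constructor <;> linarith [h4.1, h4.2, h5.2, h6.1]

theorem near_init (hn : 1 ≤ n) {R σ : ℝ} (hy : ∀ s, InB (r s) (y s)) (hR : ∀ s A, |r s A| ≤ R)
    (hσ : R < σ) : Near r y σ := by
  intro y' hd τ hτ s p q h _
  by_cases hpq : p = q
  · exact hpq ▸ (Sym.equiv _ _ _).refl p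
  exfalso
  have h1 := h {p} (mem_singleton_self p) (by simpa using Ne.symm hpq)
  have h2 := (abs_le.1 (hd s {p})).1
  have h3 := (abs_le.1 (coord_le (hy s) (hR s) p)).1
  have h4 := abs_le.1 (hR s {p})
  have h5 : (1 : ℝ) ≤ (n : ℝ) ^ 3 := one_le_pow₀ (by exact_mod_cast hn)
  rw [sum_singleton] at h1 h2
  rw [sum_singleton] at h2
  nlinarith [h4.1, h4.2]

theorem near_step (hn : 1 ≤ n) {σ : ℝ} (hσ : 0 ≤ σ) {χ : Bool → Fin n → Fin n → ℕ}
    (hy : ∀ s, InB (r s) (y s)) (hχ : Circ (XG r y ((2 * (n : ℝ) ^ 3 + 1) * σ)) χ)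
    (h : Near r y ((4 * (n : ℝ) ^ 3 + 1) * σ)) : Near r (fun s => y s + σ • cv (mv χ s)) σ := by
  intro y' hd τ hτ s p q hpq hqp
  have h5 : (1 : ℝ) ≤ (n : ℝ) ^ 3 := one_le_pow₀ (by exact_mod_cast hn)
  have hd' : ∀ s A, |∑ i ∈ A, y' s i - ∑ i ∈ A, y s i| ≤ (4 * (n : ℝ) ^ 3 + 1) * σ / 2 := by
    intro s A
    have h1 := abs_le.1 (hd s A)
    have h2 : |((∑ i ∈ A, mv χ s i : ℤ) : ℝ)| ≤ 2 * (n : ℝ) ^ 3 := by
      have := hχ.abs_mv s A
      rw [Fintype.card_fin] at this
      exact_mod_cast this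
    have h3 := abs_le.1 h2
    have h4 := mul_le_mul_of_nonneg_left h3.1 hσ
    have h6 := mul_le_mul_of_nonneg_left h3.2 hσ
    simp only [GeomAux.sum_move] at h1
    rw [abs_le]
    constructor <;> linarith [h1.1, h1.2]
  by_cases hc : 2 * (2 * (n : ℝ) ^ 3 + 1) * ((4 * (n : ℝ) ^ 3 + 1) * σ) ≤ τ
  · exact h y' hd' τ hc s p q hpq hqp
  have key : ∀ s p q, Arc (r s) (y' s) τ p q → Arc (r s) (y s) ((2 * (n : ℝ) ^ 3 + 1) * σ) p q :=
    fun s p q h1 => arc_near h1 (fun A => by rw [abs_sub_comm]; exact hd' s A) (by nlinarith)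
  have h1 := hχ.sym (hy s) hσ (by rw [Fintype.card_fin]) (key s p q hpq)
    (Relation.ReflTransGen.mono (fun a b (hs : ∃ s, XG r y' τ s a b) => hs.imp fun s => key s a b)
      _ _ hqp)
  have h2 : τ / (60 * (n : ℝ) ^ 6) + σ / 2 ≤ σ := by
    have h3 : τ / (60 * (n : ℝ) ^ 6) ≤ σ / 2 := by
      rw [div_le_iff₀ (by positivity), show (n : ℝ) ^ 6 = n ^ 3 * n ^ 3 by ring]
      generalize (n : ℝ) ^ 3 = m at *
      have h4 : (2 * m + 1) * (4 * m + 1) ≤ 15 * (m * m) := by nlinarith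
      have h6 := mul_le_mul_of_nonneg_right h4 hσ
      linarith
    linarith
  exact ⟨arc_near h1.1 (hd s) h2, arc_near h1.2 (hd s) h2⟩

end real

/-! ### The algorithm -/

/-- The exchange graph at threshold `t`. -/
def gm (n M : ℕ) (f : List Bool → ℤ) (X : List ℤ) (t : ℕ) : List (List Bool) :=
  (List.range n).map fun p => (List.range n).map fun q =>
    decide (p = q) || decide ((t : ℤ) ≤ capA n M f X p q)

/-- Move along a circulation. -/
def upd (n k : ℕ) (X : List ℤ) (χ : List (List ℕ)) : List ℤ :=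
  (List.range n).map fun v => X.getD v 0 + k *
    (((List.range n).map fun q => ((ent 0 χ v q : ℕ) : ℤ)).sum -
      ((List.range n).map fun p => ((ent 0 χ p v : ℕ) : ℤ)).sum)

abbrev Chi := Un × List (List Bool) × List (List Bool) → List (List ℕ) × List (List ℕ)

def circ (chi : Chi) (n Q R : ℕ) (F : Bool → List Bool → ℤ) (X : List ℤ × List ℤ) (σ : ℕ) :
    List (List ℕ) × List (List ℕ) :=
  chi (⟨n⟩, gm n (Q * R) (fun l => Q * F false l) X.1 (Q * ((2 * n ^ 3 + 1) * σ)),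
    gm n (Q * R) (fun l => Q * F true l) X.2 (Q * ((2 * n ^ 3 + 1) * σ)))

def step (chi : Chi) (n Q R : ℕ) (F : Bool → List Bool → ℤ) (X : List ℤ × List ℤ) (σ : ℕ) :
    List ℤ × List ℤ :=
  (upd n (Q * σ) X.1 (circ chi n Q R F X σ).1, upd n (Q * σ) X.2 (circ chi n Q R F X σ).2)

def init (n R : ℕ) (F : Bool → List Bool → ℤ) : List ℤ × List ℤ :=
  (sfmBase n (2 * R) (fun l => F false l + F true l) (F false),
    sfmBase n (2 * R) (fun l => F false l + F true l) (F true))

/-- The scales in decreasing order. -/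
def sc (b J : ℕ) : List ℕ := ((List.range J).map fun j => b ^ j).reverse

theorem sc_succ (b J : ℕ) : sc b (J + 1) = b ^ J :: sc b J := by
  simp [sc, List.range_succ]

def cen (chi : Chi) (n R : ℕ) (F : Bool → List Bool → ℤ) : (List ℤ × List ℤ) × ℕ :=
  ((sc (4 * n ^ 3 + 1) R.size).foldl (step chi n (SFM.Q n (2 * R)) R F) (init n R F),
    SFM.Q n (2 * R))

/-- The specification of `chi`. -/
def ChiOK (chi : Chi) : Prop := ∀ (n : ℕ) (g₀ g₁ : List (List Bool)),
  Circ (fun s (p q : Fin n) => ent false (bif s then g₁ else g₀) p q = true)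
    fun s (p q : Fin n) =>
      ent 0 (bif s then (chi (⟨n⟩, g₀, g₁)).2 else (chi (⟨n⟩, g₀, g₁)).1) p q

section ok
variable {chi : Chi} {n Q R : ℕ} {r : Bool → Finset (Fin n) → ℤ} {X : List ℤ × List ℤ}

theorem gm_iff {r : Finset (Fin n) → ℤ} (hQ : 0 < Q) (hr : Sub r) (hR : ∀ A, |r A| ≤ R)
    (X : List ℤ) (t : ℕ) (p q : Fin n) :
    ent false (gm n (Q * R) (fun l => Q * r (setOf n l)) X (Q * t)) p q = true ↔
      Arc (cr r) (fun i => (X.getD i 0 : ℝ) / Q) t p q := by
  have hQ' : (0 : ℝ) < Q := by exact_mod_cast hQ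
  have e : ent false (gm n (Q * R) (fun l => Q * r (setOf n l)) X (Q * t)) p q =
      (decide ((p : ℕ) = q) ||
        decide (((Q * t : ℕ) : ℤ) ≤ capA n (Q * R) (fun l => Q * r (setOf n l)) X p q)) := by
    simp [ent, gm]
  rw [e]
  by_cases hpq : p = q
  · subst hpq
    simpa using Arc.refl _ _ _ _
  have h1 : Sub fun A => (Q : ℤ) * r A := ⟨by simp [hr.1], fun A B => by
    rw [← mul_add, ← mul_add]
    exact mul_le_mul_of_nonneg_left (hr.2 A B) (Nat.cast_nonneg Q)⟩
  have h2 := capA_spec (M := Q * R) h1 (fun A => by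
    rw [abs_mul, Nat.abs_cast, Nat.cast_mul]
    exact mul_le_mul_of_nonneg_left (hR A) (Nat.cast_nonneg Q)) X hpq ((Q : ℝ) * t)
  rw [decide_eq_false fun h => hpq (Fin.ext h), Bool.false_or, decide_eq_true_eq,
    ← Int.cast_le (R := ℝ)]
  push_cast
  rw [h2]
  refine forall₃_congr fun A _ _ => ?_
  simp only [cr, cv, ← sum_div]
  push_cast
  rw [le_sub_comm, le_sub_comm (a := (t : ℝ)), div_le_iff₀ hQ']
  exact Iff.of_eq (by congr 1; ring)

/-- The circulation as a function. -/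
def chiF (chi : Chi) (Q R : ℕ) (r : Bool → Finset (Fin n) → ℤ) (X : List ℤ × List ℤ) (σ : ℕ) :
    Bool → Fin n → Fin n → ℕ := fun s p q =>
  ent 0 (bif s then (circ chi n Q R (fun s l => r s (setOf n l)) X σ).2
    else (circ chi n Q R (fun s l => r s (setOf n l)) X σ).1) p q

theorem circ_chiF (hc : ChiOK chi) (hQ : 0 < Q) (hr : Feas r R) (X : List ℤ × List ℤ) (σ : ℕ) :
    Circ (XG (fun s => cr (r s)) (frac n (X, Q)) ((2 * (n : ℝ) ^ 3 + 1) * σ))
      (chiF chi Q R r X σ) := by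
  have h := hc n (gm n (Q * R) (fun l => Q * r false (setOf n l)) X.1 (Q * ((2 * n ^ 3 + 1) * σ)))
    (gm n (Q * R) (fun l => Q * r true (setOf n l)) X.2 (Q * ((2 * n ^ 3 + 1) * σ)))
  refine (congrArg (fun g => Circ g (chiF chi Q R r X σ)) ?_).mpr h
  funext s p q
  have e : (2 * (n : ℝ) ^ 3 + 1) * σ = ((2 * n ^ 3 + 1) * σ : ℕ) := by push_cast; rfl
  rw [e]
  cases s
  · exact propext (gm_iff hQ (hr.sub _) (hr.bnd _) _ _ p q).symm
  · exact propext (gm_iff hQ (hr.sub _) (hr.bnd _) _ _ p q).symm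

theorem upd_getD (k : ℕ) (X : List ℤ) (χ : List (List ℕ)) (v : Fin n) :
    (upd n k X χ).getD v 0 = X.getD v 0 + k *
      ((∑ q : Fin n, ((ent 0 χ v q : ℕ) : ℤ)) - ∑ p : Fin n, ((ent 0 χ p v : ℕ) : ℤ)) := by
  rw [Fin.sum_univ_eq_sum_range (fun q => ((ent 0 χ v q : ℕ) : ℤ)),
    Fin.sum_univ_eq_sum_range (fun p => ((ent 0 χ p v : ℕ) : ℤ))]
  simp only [upd, List.getD_eq_getElem?_getD, List.getElem?_map, List.getElem?_range v.2,
    Option.map_some, Option.getD_some]
  rfl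

theorem frac_step (hQ : 0 < Q) (X : List ℤ × List ℤ) (σ : ℕ) :
    frac n (step chi n Q R (fun s l => r s (setOf n l)) X σ, Q) =
      fun s => frac n (X, Q) s + (σ : ℝ) • cv (mv (chiF chi Q R r X σ) s) := by
  have hQ' : (Q : ℝ) ≠ 0 := by positivity
  funext s v
  cases s <;>
  · simp only [frac, step, cond_false, cond_true, upd_getD, Pi.add_apply, Pi.smul_apply, cv, mv,
      chiF, smul_eq_mul]
    push_cast
    field_simp

/-- The invariant of the loop. -/
structure Good (Q : ℕ) (r : Bool → Finset (Fin n) → ℤ) (X : List ℤ × List ℤ) : Prop where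
  len₁ : X.1.length = n
  len₂ : X.2.length = n
  inB : ∀ s, InB (cr (r s)) (frac n (X, Q) s)
  dfc : ∑ i, |frac n (X, Q) false i + frac n (X, Q) true i| ≤ 2

theorem Good.step (hc : ChiOK chi) (hQ : 0 < Q) (hr : Feas r R) (h : Good Q r X) (σ : ℕ) :
    Good Q r (step chi n Q R (fun s l => r s (setOf n l)) X σ) := by
  have h1 := circ_chiF hc hQ hr X σ
  have h0 : (0 : ℝ) ≤ σ := Nat.cast_nonneg σ
  refine ⟨by simp [Center.step, upd], by simp [Center.step, upd], fun s => ?_, ?_⟩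
  · rw [frac_step hQ]
    exact h1.inB (h.inB s) h0 (by rw [Fintype.card_fin]; linarith)
  · rw [frac_step hQ]
    refine le_trans (le_of_eq (sum_congr rfl fun i _ => ?_)) h.dfc
    have h2 : ((mv (chiF chi Q R r X σ) false i + mv (chiF chi Q R r X σ) true i : ℤ) : ℝ) = 0 := by
      exact_mod_cast congrFun h1.mv_add i
    push_cast at h2
    simp only [Pi.add_apply, Pi.smul_apply, cv, smul_eq_mul]
    congr 1
    linear_combination (σ : ℝ) * h2

theorem Good.foldl (hc : ChiOK chi) (hQ : 0 < Q) (hr : Feas r R) (l : List ℕ) (h : Good Q r X) :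
    Good Q r (l.foldl (Center.step chi n Q R fun s l => r s (setOf n l)) X) := by
  induction l generalizing X with
  | nil => exact h
  | cons σ l ih => exact ih (h.step hc hQ hr σ)

theorem Good.near (hn : 1 ≤ n) (hc : ChiOK chi) (hQ : 0 < Q) (hr : Feas r R) (J : ℕ)
    (h : Good Q r X) (hN : Near (fun s => cr (r s)) (frac n (X, Q)) ((4 * n ^ 3 + 1) ^ J : ℕ)) :
    Near (fun s => cr (r s)) (frac n ((sc (4 * n ^ 3 + 1) J).foldl
      (Center.step chi n Q R fun s l => r s (setOf n l)) X, Q)) 1 := by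
  induction J generalizing X with
  | zero => simpa [sc] using hN
  | succ J ih =>
    rw [sc_succ, List.foldl_cons]
    refine ih (h.step hc hQ hr _) ?_
    rw [frac_step hQ]
    refine near_step hn (Nat.cast_nonneg _) h.inB (circ_chiF hc hQ hr X _) ?_
    rw [pow_succ', Nat.cast_mul] at hN
    push_cast at hN ⊢
    exact hN

theorem Q_pos (n M : ℕ) : 0 < SFM.Q n M := Nat.succ_pos _

theorem good_init (hr : Feas r R) :
    Good (SFM.Q n (2 * R)) r (init n R fun s l => r s (setOf n l)) := by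
  have hf : Sub fun A => r false A + r true A :=
    ⟨by simp [(hr.sub _).1], fun A B => by linarith [(hr.sub false).2 A B, (hr.sub true).2 A B]⟩
  have hM : ∀ A, |r false A + r true A| ≤ (2 * R : ℕ) := fun A => by
    have := abs_add_le (r false A) (r true A)
    push_cast
    linarith [hr.bnd false A, hr.bnd true A]
  have hQ : (0 : ℝ) < SFM.Q n (2 * R) := by exact_mod_cast Q_pos n (2 * R)
  refine ⟨length_sfmBase .., length_sfmBase .., fun s => ?_, ?_⟩
  · have h := inB_cr.2 (sfmBase_inB hf hM (hr.sub s))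
    simp only [InB, cr, cv] at h
    push_cast at h
    cases s <;>
    · simp only [InB, frac, init, cond_false, cond_true, ← sum_div, cr]
      exact ⟨fun A => (div_le_iff₀' hQ).2 (h.1 A), by rw [h.2]; field_simp⟩
  · have h1 := sfmBase_self hf hM
    have h2 := (sfmBase_inB hf hM hf).2
    obtain ⟨A, hA⟩ := (sfm_spec hf hM).1
    have h3 := hr.feas A
    simp only [hr.tot, mul_zero] at h2
    rw [hA] at h1
    simp only [frac, init, cond_false, cond_true, ← add_div, abs_div, ← sum_div, abs_of_pos hQ,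
      ← Int.cast_add, ← sfmBase_add]
    rw [div_le_iff₀ hQ]
    generalize sfmBase n (2 * R) (fun l => r false (setOf n l) + r true (setOf n l))
      (fun l => r false (setOf n l) + r true (setOf n l)) = Z at h1 h2 ⊢
    have h4 : ∑ i : Fin n, |Z.getD i 0| = ∑ i : Fin n, (Z.getD i 0 - 2 * min (Z.getD i 0) 0) :=
      sum_congr rfl fun i _ => by
        rcases le_total (Z.getD i 0) 0 with h | h
        · rw [abs_of_nonpos h, min_eq_left h]; ring
        · rw [abs_of_nonneg h, min_eq_right h]; ring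
    rw [sum_sub_distrib, ← mul_sum, h2] at h4
    have h5 : ∑ i : Fin n, |Z.getD i 0| ≤ 2 * (SFM.Q n (2 * R) : ℤ) := by
      have := mul_nonneg (Nat.cast_nonneg (α := ℤ) (SFM.Q n (2 * R))) h3
      linarith
    exact_mod_cast h5

theorem cen_ok (hn : 1 ≤ n) (hc : ChiOK chi) (hr : Feas r R) :
    Centred r (frac n (cen chi n R fun s l => r s (setOf n l))) := by
  have h0 := good_init hr
  have h1 := h0.foldl hc (Q_pos _ _) hr (sc (4 * n ^ 3 + 1) R.size)
  have h2 := h0.near hn hc (Q_pos _ _) hr R.size (near_init (R := R) hn h0.inB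
    (fun s A => by simp only [cr]; exact_mod_cast hr.bnd s A) (by
      have h3 : 1 ≤ n ^ 3 := Nat.one_le_pow _ _ hn
      exact_mod_cast (Nat.lt_size_self R).trans_le (Nat.pow_le_pow_left (by omega) _)))
  exact ⟨h1.inB, h1.dfc, fun τ hτ => h2 _ (fun s A => by simp [cen]) τ (by rwa [mul_one])⟩

theorem Good.sz_le (hQ : 0 < Q) (hr : Feas r R) (h : Good Q r X) :
    sz X ≤ 2 * (n * (4 * (2 * R * Q).size + 5 + 1) + 1) + 1 := by
  have hQ' : (0 : ℝ) < Q := by exact_mod_cast hQ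
  have key : ∀ s, (bif s then X.2 else X.1).length = n →
      sz (bif s then X.2 else X.1) ≤ n * (4 * (2 * R * Q).size + 5 + 1) + 1 := fun s hl => by
    have := sz_list_le (l := bif s then X.2 else X.1) (B := 4 * (2 * R * Q).size + 5)
      fun x hx => by
        obtain ⟨i, hi, rfl⟩ := List.getElem_of_mem hx
        have h1 := coord_le (R := R) (h.inB s)
          (fun A => by simp only [cr]; exact_mod_cast hr.bnd s A) ⟨i, hl ▸ hi⟩
        simp only [frac, List.getD_eq_getElem _ _ hi] at h1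
        rw [abs_div, abs_of_pos hQ', div_le_iff₀ hQ'] at h1
        refine sz_int_le_of_lt (lt_of_le_of_lt ?_ (Nat.lt_size_self _))
        rw [← Nat.cast_le (α := ℤ), Int.natCast_natAbs]
        exact_mod_cast h1
    rwa [hl] at this
  have h1 := key false h.len₁
  have h2 := key true h.len₂
  rw [sz_prod]
  simp only [cond_false, cond_true] at h1 h2
  omega

end ok

/-! ### Polynomial time -/

section poly
variable {α β : Type} [Ctx α] [PEnc β] {n M Q R : α → ℕ}

theorem lift {γ δ : Type} [PEnc γ] [PEnc δ] {f : α → γ → δ}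
    (hf : OPoly fun p : α × γ => f p.1 p.2) : OPoly fun p : (α × β) × γ => f p.1.1 p.2 :=
  hf.call (φ := fun p : (α × β) × γ => p.1.1) (fun _ => rfl) OPoly.code_fst.fst OPoly.snd

theorem opoly_gm {f : α → List Bool → ℤ} {X : α → List ℤ} {t : α → ℕ} (hn : OPoly n) (bn : OPB n)
    (hM : OPoly M) (hf : OPoly fun p : α × List Bool => f p.1 p.2) (hX : OPoly X) (ht : OPoly t) :
    OPoly fun a => gm (n a) (M a) (f a) (X a) (t a) := by
  refine OPoly.map (OPoly.range hn bn) (OPoly.map (OPoly.range hn.fst bn.fst) ?_)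
  have h := opoly_capA (α := (α × ℕ) × ℕ) (f := fun p => f p.1.1) hn.fst.fst bn.fst.fst hM.fst.fst
    (lift (f := fun p : α × ℕ => f p.1) (lift hf)) hX.fst.fst OPoly.snd.fst OPoly.snd
  exact OPoly.comp (h := fun x : (ℕ × ℕ) × ℕ × ℤ =>
    decide (x.1.1 = x.1.2) || decide ((x.2.1 : ℤ) ≤ x.2.2)) (by fun_prop)
    ((OPoly.snd.fst.pair OPoly.snd).pair (ht.fst.fst.pair h))

theorem poly_upd : Poly fun x : (Un × ℕ) × List ℤ × List (List ℕ) =>
    upd x.1.1.n x.1.2 x.2.1 x.2.2 := by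
  simp only [upd, ent]
  fun_prop

theorem opoly_side {F : α → Bool → List Bool → ℤ}
    (hF : OPoly fun p : α × Bool × List Bool => F p.1 p.2.1 p.2.2) (s : Bool) :
    OPoly fun p : α × List Bool => F p.1 s p.2 :=
  OPoly.call (f := fun a (y : Bool × List Bool) => F a y.1 y.2) hF
    (φ := fun p : α × List Bool => p.1) (fun _ => rfl) OPoly.code_fst
    ((OPoly.const s).pair OPoly.snd)

theorem opoly_step {chi : Chi} (hc : Poly chi) {F : α → Bool → List Bool → ℤ}
    {X : α → List ℤ × List ℤ} {σ : α → ℕ} (hn : OPoly n) (bn : OPB n) (hQ : OPoly Q) (hR : OPoly R)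
    (hF : OPoly fun p : α × Bool × List Bool => F p.1 p.2.1 p.2.2) (hX : OPoly X) (hσ : OPoly σ) :
    OPoly fun a => step chi (n a) (Q a) (R a) (F a) (X a) (σ a) := by
  have hM : OPoly fun a => Q a * R a := OPoly.comp₂ (h := (· * ·)) (by fun_prop) hQ hR
  have hk : OPoly fun a => Q a * σ a := OPoly.comp₂ (h := (· * ·)) (by fun_prop) hQ hσ
  have ht : OPoly fun a => Q a * ((2 * n a ^ 3 + 1) * σ a) :=
    OPoly.comp (h := fun x : ℕ × ℕ × ℕ => x.1 * ((2 * x.2.1 ^ 3 + 1) * x.2.2)) (by fun_prop)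
      (hQ.pair (hn.pair hσ))
  have hf : ∀ s, OPoly fun p : α × List Bool => (Q p.1 : ℤ) * F p.1 s p.2 := fun s =>
    OPoly.comp₂ (h := fun (x : ℕ) (y : ℤ) => (x : ℤ) * y) (by fun_prop) hQ.fst (opoly_side hF s)
  have h1 : OPoly fun a => (X a).1 := OPoly.comp (h := Prod.fst) (by fun_prop) hX
  have h2 : OPoly fun a => (X a).2 := OPoly.comp (h := Prod.snd) (by fun_prop) hX
  have hχ : OPoly fun a => circ chi (n a) (Q a) (R a) (F a) (X a) (σ a) :=
    OPoly.comp hc ((OPoly.un hn bn).pair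
      ((opoly_gm (f := fun a l => (Q a : ℤ) * F a false l) hn bn hM (hf false) h1 ht).pair
        (opoly_gm (f := fun a l => (Q a : ℤ) * F a true l) hn bn hM (hf true) h2 ht)))
  exact (OPoly.comp poly_upd (((OPoly.un hn bn).pair hk).pair
      (h1.pair (OPoly.comp (h := Prod.fst) (by fun_prop) hχ)))).pair
    (OPoly.comp poly_upd (((OPoly.un hn bn).pair hk).pair
      (h2.pair (OPoly.comp (h := Prod.snd) (by fun_prop) hχ))))

theorem opoly_cen {chi : Chi} (hc : Poly chi) (hc' : ChiOK chi)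
    {r : ∀ a, Bool → Finset (Fin (n a)) → ℤ} (hn : OPoly n) (bn : OPB n) (hR : OPoly R)
    (hr : ∀ a, Feas (r a) (R a))
    (hF : OPoly fun p : α × Bool × List Bool => r p.1 p.2.1 (setOf (n p.1) p.2.2)) :
    OPoly fun a => cen chi (n a) (R a) fun s l => r a s (setOf (n a) l) := by
  have hQ : OPoly fun a => SFM.Q (n a) (2 * R a) :=
    OPoly.comp₂ (h := fun x y : ℕ => SFM.Q x (2 * y)) (by unfold SFM.Q; fun_prop) hn hR
  have h2 : OPoly fun a => 2 * R a := OPoly.comp (h := fun x : ℕ => 2 * x) (by fun_prop) hR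
  have hs := opoly_side (F := fun a s l => r a s (setOf (n a) l)) hF
  have hf : OPoly fun p : α × List Bool =>
      r p.1 false (setOf (n p.1) p.2) + r p.1 true (setOf (n p.1) p.2) :=
    OPoly.comp₂ (h := fun x y : ℤ => x + y) (by fun_prop) (hs false) (hs true)
  have hk : OPB fun a => (2 * R a * SFM.Q (n a) (2 * R a)).size :=
    OPB.of_pb (PB.size Poly.id') (OPoly.comp₂ (h := (· * ·)) (by fun_prop) h2 hQ)
  refine OPoly.pair (OPoly.foldl
    (OPoly.comp₂ (h := fun x y : ℕ => sc (4 * x ^ 3 + 1) y.size) (by unfold sc; fun_prop) hn hR)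
    ((opoly_sfmBase (f := fun a l => r a false (setOf (n a) l) + r a true (setOf (n a) l))
        hn bn h2 hf (hs false)).pair
      (opoly_sfmBase (f := fun a l => r a false (setOf (n a) l) + r a true (setOf (n a) l))
        hn bn h2 hf (hs true)))
    (opoly_step (F := fun p : α × (List ℤ × List ℤ) × ℕ => fun s l => r p.1 s (setOf (n p.1) l))
      hc hn.fst bn.fst hQ.fst hR.fst
      (lift (f := fun a (y : Bool × List Bool) => r a y.1 (setOf (n a) y.2)) hF)
      (OPoly.comp (h := Prod.fst) (by fun_prop) OPoly.snd)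
      (OPoly.comp (h := Prod.snd) (by fun_prop) OPoly.snd))
    (((OPB.const 2).mul ((bn.mul (((((OPB.const 4).mul hk).add (OPB.const 5))).add
      (OPB.const 1))).add (OPB.const 1))).add (OPB.const 1))
    fun a l _ => ((good_init (hr a)).foldl hc' (Q_pos _ _) (hr a) l).sz_le (Q_pos _ _) (hr a)) hQ

end poly

end Center

theorem exists_center : ∃ cen : ℕ → ℕ → (Bool → List Bool → ℤ) → (List ℤ × List ℤ) × ℕ,
    (∀ (n R : ℕ) (r : Bool → Finset (Fin n) → ℤ), 1 ≤ n → Feas r R →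
      0 < (cen n R fun s l => r s (setOf n l)).2 ∧
        Centred r (frac n (cen n R fun s l => r s (setOf n l)))) ∧
    ∀ {α : Type} [Ctx α] {n R : α → ℕ} {r : ∀ a, Bool → Finset (Fin (n a)) → ℤ},
      OPoly n → OPB n → OPoly R → (∀ a, 1 ≤ n a ∧ Feas (r a) (R a)) →
      (OPoly fun p : α × Bool × List Bool => r p.1 p.2.1 (setOf (n p.1) p.2.2)) →
      OPoly fun a => cen (n a) (R a) fun s l => r a s (setOf (n a) l) := by
  obtain ⟨chi, h1, h2⟩ := exists_chi
  exact ⟨Center.cen chi, fun n R r hn hr => ⟨Center.Q_pos _ _, Center.cen_ok hn h2 hr⟩,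
    fun hn bn hR hr hF => Center.opoly_cen h1 h2 hn bn hR (fun a => (hr a).2) hF⟩

end Crest.Agent.R302
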