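import Crest.Agent.R302.Num

/-!
# Row 302: the initial stage
-/

set_option autoImplicit false
set_option linter.unusedVariables false

namespace Crest.Agent.R302.Raw

open Finset Crest.Agent.R309

variable {R : Raw} {r : Bool → Finset R.E → ℤ} {x : Bool → R.E → ℝ} {Rm κ : ℕ}

namespace Ends

theorem G_pos (h : R.Valid r x Rm κ) : 0 < R.G := pow_pos h.m_pos _

theorem ϱ_pos (R : Raw) : (0 : ℝ) < R.ϱ := by
  have : (1 : ℝ) ≤ R.ϱ := by exact_mod_cast R.one_le_ϱ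
  linarith

theorem one_le_ϱR (R : Raw) : (1 : ℝ) ≤ R.ϱ := by exact_mod_cast R.one_le_ϱ

theorem tab0_len (R : Raw) : R.tab0.length = 2 * R.G := by simp [tab0]

theorem tabK_len (R : Raw) : R.tabK.length = 2 * R.G := by simp [tabK]

theorem tab0_pos (R : Raw) : ∀ a ∈ R.tab0, 0 < a := by
  intro a ha
  obtain ⟨i, -, rfl⟩ := List.mem_map.1 ha
  exact zpow_pos (lt_of_lt_of_le one_pos R.one_le_ϱ) _

theorem zpow_abs (R : Raw) (b : ℤ) : ((R.ϱ ^ (-|b|) : ℚ) : ℝ) = (1 / (R.ϱ : ℝ)) ^ b.natAbs := by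
  rw [← Int.natCast_natAbs, zpow_neg, zpow_natCast, one_div, inv_pow]
  push_cast
  rfl

theorem tab0_sum (R : Raw) : (R.tab0.sum : ℝ)
    = ∑ i ∈ range (2 * R.G), (1 / (R.ϱ : ℝ)) ^ (-(R.G : ℤ) + i).natAbs := by
  have h1 : R.tab0.sum = ∑ i ∈ range (2 * R.G), R.ϱ ^ (-|(i : ℤ) - R.G|) := rfl
  rw [h1, Rat.cast_sum]
  refine sum_congr rfl fun i _ => ?_
  rw [zpow_abs, neg_add_eq_sub]

theorem tab0_getD (R : Raw) {b : ℤ} (h1 : -(R.G : ℤ) ≤ b) (h2 : b < R.G) :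
    (R.tab0.getD (b + R.G).toNat 0 : ℝ) = (1 / (R.ϱ : ℝ)) ^ b.natAbs := by
  have hi : (b + R.G).toNat < R.tab0.length := by rw [tab0_len]; omega
  rw [List.getD_eq_getElem _ _ hi, ← zpow_abs]
  simp only [tab0, List.getElem_map, List.getElem_range]
  rw [Int.toNat_of_nonneg (by omega), add_sub_cancel_right]

/-- sums of functions that are constant on blocks -/
theorem sum_blocks (g : ℤ → ℝ) {l : ℕ} (hl : 0 < l) (a : ℤ) (N : ℕ) :
    ∑ k ∈ Ico ((l : ℤ) * a) (l * (a + N)), g (k / l) = l * ∑ i ∈ range N, g (a + i) := by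
  have hl' : (0 : ℤ) < l := by exact_mod_cast hl
  induction N with
  | zero => simp
  | succ N ih =>
    have h1 : (l : ℤ) * a ≤ l * (a + N) :=
      mul_le_mul_of_nonneg_left (by omega) hl'.le
    have h2 : (l : ℤ) * (a + N) ≤ l * (a + (N + 1 : ℕ)) :=
      mul_le_mul_of_nonneg_left (by push_cast; omega) hl'.le
    rw [← Ico_union_Ico_eq_Ico h1 h2, sum_union (Ico_disjoint_Ico_consecutive _ _ _), ih,
      sum_range_succ, mul_add (l : ℝ)]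
    congr 1
    rw [sum_congr rfl (g := fun _ => g (a + N)), sum_const, Int.card_Ico, nsmul_eq_mul]
    · have : (l : ℤ) * (a + (N + 1 : ℕ)) - l * (a + N) = l := by push_cast; ring
      rw [this, Int.toNat_natCast]
    · intro k hk
      rw [mem_Ico] at hk
      congr 1
      refine le_antisymm ?_ (Int.le_ediv_of_mul_le hl' (by linarith [hk.1]))
      have : k / l < a + N + 1 := Int.ediv_lt_of_lt_mul hl' (by
        have := hk.2
        push_cast at this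
        linarith)
      omega

/-- the block weight -/
noncomputable def pw (R : Raw) (k : ℤ) : ℝ := (1 / (R.ϱ : ℝ)) ^ (k / (R.ℓ0 : ℤ)).natAbs

theorem pw_pos (R : Raw) (k : ℤ) : 0 < pw R k := by
  have := ϱ_pos R
  unfold pw
  positivity

theorem sum_pw (R : Raw) : ∑ k ∈ Icc R.lo R.hi, pw R k = R.ℓ0 * (R.tab0.sum : ℝ) := by
  have h1 : Icc R.lo R.hi
      = Ico ((R.ℓ0 : ℤ) * (-(R.G : ℤ))) (R.ℓ0 * (-(R.G : ℤ) + (2 * R.G : ℕ))) := by
    ext k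
    simp only [mem_Icc, mem_Ico, lo, hi]
    push_cast
    constructor
    · rintro ⟨h1, h2⟩
      constructor <;> linarith
    · rintro ⟨h1, h2⟩
      refine ⟨by linarith, ?_⟩
      have : k < R.ℓ0 * R.G := by linarith
      omega
  rw [h1, tab0_sum]
  exact sum_blocks (fun b => (1 / (R.ϱ : ℝ)) ^ b.natAbs) R.ℓ0_pos _ _

theorem C0_cast (R : Raw) (D : (R.V → ℤ) → ℤ) :
    ((R.ann D).C0 : ℝ) = (R.ℓ0 * (R.tab0.sum : ℝ)) ^ R.n := by
  simp [ann]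

theorem C0_eq (R : Raw) (D : (R.V → ℤ) → ℤ) :
    ((R.ann D).C0 : ℝ) = ∑ y ∈ box R.E R.lo R.hi, ∏ i, pw R (y i) := by
  rw [C0_cast, box, ← prod_univ_sum (fun _ => Icc R.lo R.hi) fun _ k => pw R k]
  simp only [sum_pw, prod_const, card_univ, Fintype.card_fin]

theorem tab0_sum_pos (h : R.Valid r x Rm κ) : 0 < R.tab0.sum := by
  refine List.sum_pos _ (tab0_pos R) (List.length_pos_iff.1 ?_)
  rw [tab0_len]
  have := G_pos h
  omega

theorem abs_dec_le (h : R.Valid r x Rm κ) (u : List Bool) (a : R.V) : |R.dec u a| ≤ R.Jw a := by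
  unfold dec Jw
  split_ifs with ha
  · obtain ⟨h1, h2⟩ := blockS_mem (G_pos h) (tabK_len R) (R.ℓ_pos a) (R.m ^ 7) R.m
      (blk (Bb R.m) (R.idx a) u)
    rw [abs_le]
    push_cast
    constructor <;> linarith
  · simp

theorem dist_l1 (h : R.Valid r x Rm κ) (s : Bool) (α : R.E → ℤ) :
    |dist (r s) α - (∑ i, |α i|)| ≤ Rm := by
  have hb : ∃ y, InB (r s) y := by
    obtain ⟨y, h1, h2⟩ := h.ex
    cases s
    · exact ⟨_, h1⟩
    · exact ⟨_, h2⟩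
  obtain ⟨y, hy⟩ := hb
  obtain ⟨y', hy', h2⟩ := exists_near (h.sub s) α
  have h1 := dist_le (h.sub s) hy α
  have h3 := h.l1 s y hy
  have h4 := h.l1 s y' hy'
  have h5 : ∑ i, |α i - y i| ≤ ∑ i, |α i| + ∑ i, |y i| := by
    rw [← sum_add_distrib]
    exact sum_le_sum fun i _ => abs_sub _ _
  have h6 : ∑ i, |α i| ≤ ∑ i, |α i - y' i| + ∑ i, |y' i| := by
    rw [← sum_add_distrib]
    refine sum_le_sum fun i _ => ?_
    have := abs_add_le (α i - y' i) (y' i)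
    rwa [sub_add_cancel] at this
  rw [abs_le]
  constructor <;> linarith

theorem sum_abs_ev (d : R.E) : ∑ i, |ev d i| = 1 := by
  rw [sum_eq_single d]
  · simp [ev]
  · intro b _ hb
    simp [ev, hb]
  · simp

theorem DD_l1 (h : R.Valid r x Rm κ) (e d : R.E) (y : R.E → ℤ) (u : List Bool) :
    |DD r (lf (ev d - ev e) y - R.sh (R.dec u)) - 2 * (∑ i, |y i|)| ≤ 2 * R.ℓ0 := by
  have h1 := DD_lip r (lf (ev d - ev e) y) (-R.sh (R.dec u))
  rw [← sub_eq_add_neg] at h1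
  simp only [Pi.neg_apply, abs_neg] at h1
  have h2 := sum_abs_sh R (R.dec u)
  have h3 : ∑ a, |R.dec u a| ≤ ∑ a, (R.Jw a : ℤ) := sum_le_sum fun a _ => abs_dec_le h u a
  have h4 : 4 * ∑ a, (R.Jw a : ℤ) ≤ Rm := by exact_mod_cast h.sum_Jw
  have h5 : 2 * ((Rm : ℤ) + 2) ≤ R.ℓ0 := by exact_mod_cast h.Rm_le
  have h6 : DD r (lf (ev d - ev e) y)
      = dist (r false) y + dist (r true) (-y + (ev d - ev e)) := by
    unfold DD
    rw [side_lf_false, side_lf_true, neg_add_eq_sub]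
  have h7 := dist_l1 h false y
  have h8 := dist_l1 h true (-y)
  simp only [Pi.neg_apply, abs_neg] at h8
  have h9 := dist_lip (r true) (-y) (ev d - ev e)
  have h10 : ∑ i, |(ev d - ev e) i| ≤ 2 := by
    calc ∑ i, |(ev d - ev e) i| ≤ ∑ i, (|ev d i| + |ev e i|) :=
          sum_le_sum fun i _ => abs_sub _ _
      _ = 2 := by rw [sum_add_distrib, sum_abs_ev, sum_abs_ev]; norm_num
  rw [abs_le] at h1 h7 h8 h9 ⊢
  have h11 : (0 : ℤ) ≤ Rm := Int.natCast_nonneg _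
  constructor <;> linarith [h1.1, h1.2, h7.1, h7.2, h8.1, h8.2, h9.1, h9.2]

theorem abs_block {l : ℤ} (hl : 0 < l) (k : ℤ) : |(|k| - l * |k / l|)| ≤ l := by
  have h1 := Int.emod_nonneg k hl.ne'
  have h2 := Int.emod_lt_of_pos k hl
  have h3 := Int.mul_ediv_add_emod k l
  have h4 : l * |k / l| = |l * (k / l)| := by rw [abs_mul, abs_of_pos hl]
  rw [h4]
  refine (abs_abs_sub_abs_le _ _).trans ?_
  rw [abs_le]
  constructor <;> linarith

theorem block_mem {k : ℤ} (h1 : R.lo ≤ k) (h2 : k ≤ R.hi) :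
    -(R.G : ℤ) ≤ k / (R.ℓ0 : ℤ) ∧ k / (R.ℓ0 : ℤ) < R.G := by
  have hl : (0 : ℤ) < R.ℓ0 := by exact_mod_cast R.ℓ0_pos
  unfold lo at h1
  unfold hi at h2
  exact ⟨Int.le_ediv_of_mul_le hl (by linarith), Int.ediv_lt_of_lt_mul hl (by linarith)⟩

theorem n_le_m (h : R.Valid r x Rm κ) : 8 * (R.n + 2) ^ 2 ≤ R.m := by
  refine le_trans ?_ h.m_ge
  have : (R.n + 2) ^ 2 ≤ (R.n + 2) ^ 10 := Nat.pow_le_pow_right (by omega) (by norm_num)
  omega

/-- the exponent at stage zero -/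
theorem hw_zero (h : R.Valid r x Rm κ) (e d : R.E) {y : R.E → ℤ} (hy : y ∈ box R.E R.lo R.hi)
    (u : List Bool) : ∃ K : ℕ,
      (R.hw 0 (DD r (lf (ev d - ev e) y - R.sh (R.dec u))) : ℝ) = (1 / (R.ϱ : ℝ)) ^ K ∧
      K ≤ ∑ i, (y i / (R.ℓ0 : ℤ)).natAbs + (R.n + 1) ∧
      ∑ i, (y i / (R.ℓ0 : ℤ)).natAbs ≤ K + (R.n + 1) := by
  have hl : (0 : ℤ) < R.ℓ0 := by exact_mod_cast R.ℓ0_pos
  have hlQ : (0 : ℚ) < R.ℓ0 := by exact_mod_cast R.ℓ0_pos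
  have h1 := DD_l1 h e d y u
  have h0 := DD_nonneg h.sub (lf (ev d - ev e) y - R.sh (R.dec u))
  generalize DD r (lf (ev d - ev e) y - R.sh (R.dec u)) = D at h1 h0
  set B := ∑ i, (y i / (R.ℓ0 : ℤ)).natAbs with hB
  have hBz : (B : ℤ) = ∑ i, |y i / (R.ℓ0 : ℤ)| := by
    rw [hB]
    push_cast
    rfl
  have h2 : |(∑ i, |y i|) - R.ℓ0 * B| ≤ R.n * R.ℓ0 := by
    rw [hBz, mul_sum, ← sum_sub_distrib]
    refine (abs_sum_le_sum_abs _ _).trans ?_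
    refine (sum_le_sum fun i _ => abs_block hl (y i)).trans ?_
    simp
  rw [abs_le] at h1 h2
  have h3 : D ≤ 2 * R.ℓ0 * (B + (R.n + 1)) := by nlinarith [h1.2, h2.2]
  have h4 : 2 * R.ℓ0 * ((B : ℤ) - (R.n + 1)) ≤ D := by nlinarith [h1.1, h2.1]
  have h3' : (D : ℚ) ≤ 2 * R.ℓ0 * (B + (R.n + 1)) := by exact_mod_cast h3
  have h4' : 2 * R.ℓ0 * ((B : ℚ) - (R.n + 1)) ≤ D := by exact_mod_cast h4
  have h0' : (0 : ℚ) ≤ D := by exact_mod_cast h0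
  have h5 : R.τ 0 * D ≤ ((B + (R.n + 1) : ℕ) : ℚ) := by
    rw [h.τ_zero, one_div, inv_mul_le_iff₀ (by positivity)]
    push_cast
    exact h3'
  have h6 : (B : ℚ) - (R.n + 1) ≤ R.τ 0 * D := by
    rw [h.τ_zero, one_div, le_inv_mul_iff₀ (by positivity)]
    exact h4'
  have h7 : ⌊R.τ 0 * D⌋₊ ≤ B + (R.n + 1) := Nat.floor_le_of_le h5
  have h8 : B ≤ ⌊R.τ 0 * D⌋₊ + (R.n + 1) := by
    have h9 := Nat.lt_floor_add_one (R.τ 0 * D)
    have h10 : (B : ℚ) < ((⌊R.τ 0 * D⌋₊ + (R.n + 1) + 1 : ℕ) : ℚ) := by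
      push_cast
      linarith
    have h11 : B < ⌊R.τ 0 * D⌋₊ + (R.n + 1) + 1 := by exact_mod_cast h10
    omega
  have h9 : B ≤ R.n * R.m ^ 7 := by
    calc B ≤ ∑ _i : R.E, R.m ^ 7 := by
          refine sum_le_sum fun i _ => ?_
          have h12 := mem_Icc.1 (Fintype.mem_piFinset.1 hy i)
          have h13 := block_mem h12.1 h12.2
          have h14 : R.G = R.m ^ 7 := rfl
          omega
      _ = R.n * R.m ^ 7 := by simp
  have h10 : ⌊R.τ 0 * D⌋₊ ≤ R.m ^ 8 := by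
    have h11 := n_le_m h
    have h12 : 1 ≤ R.m ^ 7 := Nat.one_le_pow _ _ h.m_pos
    have h13 : 2 * R.n + 1 ≤ R.m := by nlinarith
    calc ⌊R.τ 0 * D⌋₊ ≤ R.n * R.m ^ 7 + (R.n + 1) * 1 := by omega
      _ ≤ R.n * R.m ^ 7 + (R.n + 1) * R.m ^ 7 := by gcongr
      _ = (2 * R.n + 1) * R.m ^ 7 := by ring
      _ ≤ R.m * R.m ^ 7 := by gcongr
      _ = R.m ^ 8 := by ring
  refine ⟨⌊R.τ 0 * D⌋₊, ?_, h7, h8⟩
  unfold hw
  rw [min_eq_right h10]
  push_cast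
  rfl

theorem q_pow_ge (h : R.Valid r x Rm κ) :
    1 - 1 / (200 * (κ : ℝ)) ≤ (1 / (R.ϱ : ℝ)) ^ (R.n + 1) := by
  have hm := h.mR
  have hκ : (1 : ℝ) ≤ κ := by exact_mod_cast h.one_le
  have h1 : 1 / (R.ϱ : ℝ) = 1 + -(1 / ((R.m : ℝ) + 1)) := by
    rw [ϱ_cast]
    field_simp
    ring
  have h2 : 1 / ((R.m : ℝ) + 1) ≤ 1 := by
    rw [div_le_one (by positivity)]
    linarith
  have h3 := one_add_mul_le_pow (a := -(1 / ((R.m : ℝ) + 1))) (by linarith) (R.n + 1)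
  rw [h1]
  refine le_trans ?_ h3
  have h4 := h.m_geR
  have h5 : ((R.n : ℝ) + 2) ≤ ((R.n : ℝ) + 2) ^ 10 :=
    le_self_pow₀ (by have : (0 : ℝ) ≤ R.n := Nat.cast_nonneg _; linarith) (by norm_num)
  have h6 : ((R.n : ℝ) + 1) / ((R.m : ℝ) + 1) ≤ 1 / (200 * (κ : ℝ)) := by
    rw [div_le_div_iff₀ (by positivity) (by positivity)]
    have : (0 : ℝ) ≤ R.n := Nat.cast_nonneg _
    nlinarith [mul_le_mul_of_nonneg_right h5 (show (0 : ℝ) ≤ κ by linarith)]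
  push_cast
  rw [mul_neg, mul_one_div]
  linarith

theorem ϱ_pow_le (h : R.Valid r x Rm κ) : (R.ϱ : ℝ) ^ (R.n + 1) ≤ 1 + 1 / (100 * (κ : ℝ)) := by
  have hκ : (1 : ℝ) ≤ κ := by exact_mod_cast h.one_le
  have h1 := q_pow_ge h
  have hp := ϱ_pos R
  have h2 : (1 / (R.ϱ : ℝ)) ^ (R.n + 1) * (R.ϱ : ℝ) ^ (R.n + 1) = 1 := by
    rw [← mul_pow, one_div_mul_cancel hp.ne', one_pow]
  have h3 : 1 / (100 * (κ : ℝ)) = 2 * (1 / (200 * (κ : ℝ))) := by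
    field_simp
    norm_num
  have h4 : 1 / (200 * (κ : ℝ)) ≤ 1 / 2 :=
    one_div_le_one_div_of_le (by norm_num) (by linarith)
  have h5 : 0 < 1 / (200 * (κ : ℝ)) := by positivity
  rw [h3]
  generalize 1 / (200 * (κ : ℝ)) = δ at h1 h4 h5
  have h6 : 0 < (R.ϱ : ℝ) ^ (R.n + 1) := by positivity
  generalize (R.ϱ : ℝ) ^ (R.n + 1) = A at h2 h6
  have h7 : (1 - δ) * A ≤ 1 := (mul_le_mul_of_nonneg_right h1 h6.le).trans h2.le
  by_contra h8
  push Not at h8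
  nlinarith [mul_lt_mul_of_pos_left h8 (show 0 < 1 - δ by linarith)]

/-- the key estimate -/
theorem hw_bounds0 (h : R.Valid r x Rm κ) (e d : R.E) {y : R.E → ℤ} (hy : y ∈ box R.E R.lo R.hi)
    (u : List Bool) :
    (1 - 1 / (100 * (κ : ℝ))) * ∏ i, pw R (y i) ≤
      (R.hw 0 (DD r (lf (ev d - ev e) y - R.sh (R.dec u))) : ℝ) ∧
    (R.hw 0 (DD r (lf (ev d - ev e) y - R.sh (R.dec u))) : ℝ) ≤
      (1 + 1 / (100 * (κ : ℝ))) * ∏ i, pw R (y i) := by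
  obtain ⟨K, h1, h2, h3⟩ := hw_zero h e d hy u
  have hp := ϱ_pos R
  have hκ : (1 : ℝ) ≤ κ := by exact_mod_cast h.one_le
  have hq0 : 0 < 1 / (R.ϱ : ℝ) := by positivity
  have hq1 : 1 / (R.ϱ : ℝ) ≤ 1 := by
    rw [div_le_one hp]
    exact one_le_ϱR R
  have h4 : ∏ i, pw R (y i) = (1 / (R.ϱ : ℝ)) ^ ∑ i, (y i / (R.ℓ0 : ℤ)).natAbs := by
    unfold pw
    rw [prod_pow_eq_pow_sum]
  rw [h1, h4]
  generalize ∑ i, (y i / (R.ℓ0 : ℤ)).natAbs = B at h2 h3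
  constructor
  · have h5 : 1 / (200 * (κ : ℝ)) ≤ 1 / (100 * (κ : ℝ)) :=
      one_div_le_one_div_of_le (by positivity) (by linarith)
    calc (1 - 1 / (100 * (κ : ℝ))) * (1 / (R.ϱ : ℝ)) ^ B
        ≤ (1 / (R.ϱ : ℝ)) ^ (R.n + 1) * (1 / (R.ϱ : ℝ)) ^ B :=
          mul_le_mul_of_nonneg_right (by linarith [q_pow_ge h]) (by positivity)
      _ = (1 / (R.ϱ : ℝ)) ^ (B + (R.n + 1)) := by rw [← pow_add, add_comm]
      _ ≤ (1 / (R.ϱ : ℝ)) ^ K := pow_le_pow_of_le_one hq0.le hq1 h2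
  · calc (1 / (R.ϱ : ℝ)) ^ K
        = (R.ϱ : ℝ) ^ (R.n + 1) * (1 / (R.ϱ : ℝ)) ^ (K + (R.n + 1)) := by
          rw [pow_add _ K, mul_left_comm, ← mul_pow, mul_one_div_cancel hp.ne', one_pow, mul_one]
      _ ≤ (R.ϱ : ℝ) ^ (R.n + 1) * (1 / (R.ϱ : ℝ)) ^ B :=
          mul_le_mul_of_nonneg_left (pow_le_pow_of_le_one hq0.le hq1 h3) (by positivity)
      _ ≤ _ := mul_le_mul_of_nonneg_right (ϱ_pow_le h) (by positivity)

theorem Ex_const' (n : ℕ) (c : ℝ) : Ex n (fun _ => c) = c := by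
  rw [Ex_ofFn, sum_const, card_univ, nsmul_eq_mul, mul_div_cancel_left₀]
  exact_mod_cast Fintype.card_ne_zero

theorem ϱ_pow_G (h : R.Valid r x Rm κ) :
    (R.m : ℝ) * (2 * R.G) * (R.ϱ : ℝ) ^ R.G ≤ 2 ^ R.m ^ 7 := by
  have hm := h.mR
  have hb := h.m_big.1
  have h1 : (R.ϱ : ℝ) ^ R.m ≤ 2 ^ 2 := by
    calc (R.ϱ : ℝ) ^ R.m ≤ Real.exp (1 / (R.m : ℝ)) ^ R.m := by
          refine pow_le_pow_left₀ (ϱ_pos R).le ?_ _
          rw [ϱ_cast, add_comm]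
          exact Real.add_one_le_exp _
      _ = Real.exp 1 := by
          rw [← Real.exp_nat_mul, mul_one_div_cancel (by positivity)]
      _ ≤ 2 ^ 2 := by linarith [Real.exp_one_lt_d9]
  have h2 : (R.ϱ : ℝ) ^ R.G ≤ 2 ^ (2 * R.m ^ 6) := by
    have : R.G = R.m * R.m ^ 6 := by unfold G; ring
    rw [this, pow_mul, pow_mul]
    exact pow_le_pow_left₀ (pow_pos (ϱ_pos R) _).le h1 _
  have h3 : R.m * (2 * R.G) ≤ 2 ^ (2 * R.m) := by
    have h4 := num_pow7 R.m (by omega)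
    have h5 : R.m ≤ 2 ^ R.m := Nat.lt_two_pow_self.le
    have h6 : R.G = R.m ^ 7 := rfl
    rw [two_mul R.m, pow_add]
    exact Nat.mul_le_mul h5 (by omega)
  have h3' : (R.m : ℝ) * (2 * R.G) ≤ 2 ^ (2 * R.m) := by exact_mod_cast h3
  have h4 : 2 * R.m + 2 * R.m ^ 6 ≤ R.m ^ 7 := by
    have h5 : R.m ≤ R.m ^ 6 := Nat.le_self_pow (by norm_num) _
    calc 2 * R.m + 2 * R.m ^ 6 ≤ 4 * R.m ^ 6 := by omega
      _ ≤ R.m * R.m ^ 6 := Nat.mul_le_mul_right _ (by omega)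
      _ = R.m ^ 7 := by ring
  calc (R.m : ℝ) * (2 * R.G) * (R.ϱ : ℝ) ^ R.G ≤ 2 ^ (2 * R.m) * 2 ^ (2 * R.m ^ 6) :=
        mul_le_mul h3' h2 (pow_pos (ϱ_pos R) _).le (by positivity)
    _ = 2 ^ (2 * R.m + 2 * R.m ^ 6) := (pow_add _ _ _).symm
    _ ≤ 2 ^ R.m ^ 7 := pow_le_pow_right₀ (by norm_num) h4

theorem Pr_block (h : R.Valid r x Rm κ) {v : ℤ} (h1 : R.lo ≤ v) (h2 : v ≤ R.hi) :
    Pr (Bb R.m) (fun u => blockS R.tab0 R.G R.ℓ0 (R.m ^ 7) R.m u = v) ≤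
      R.ϱ * pw R v / (R.ℓ0 * (R.tab0.sum : ℝ)) := by
  have hb := h.m_big.2
  have hm := h.mR
  have hp := ϱ_pos R
  have h3 := blockS_law (tab0_pos R) (G := R.G) (j := R.L0.n + 1) (k := R.m ^ 7) (b := R.m)
    (n := Bb R.m) (tab0_len R) (by omega) le_rfl (v := v) h1 h2
  have hl : (2 : ℝ) ^ (R.L0.n + 1) = R.ℓ0 := by simp [ℓ0]
  have hl' : 2 ^ (R.L0.n + 1) = R.ℓ0 := rfl
  obtain ⟨h4, h5⟩ := block_mem h1 h2
  rw [hl, hl', tab0_getD R h4 h5] at h3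
  have hS : (0 : ℝ) < R.tab0.sum := by exact_mod_cast tab0_sum_pos h
  have hl0 : (0 : ℝ) < R.ℓ0 := by exact_mod_cast R.ℓ0_pos
  have hq0 : 0 < 1 / (R.ϱ : ℝ) := by positivity
  have hq1 : 1 / (R.ϱ : ℝ) ≤ 1 := by
    rw [div_le_one hp]
    exact one_le_ϱR R
  have h6 : (R.tab0.sum : ℝ) ≤ 2 * R.G := by
    rw [tab0_sum]
    refine (sum_le_sum fun i _ => pow_le_one₀ hq0.le hq1).trans ?_
    simp
  have h7 : (1 / (R.ϱ : ℝ)) ^ R.G ≤ pw R v := pow_le_pow_of_le_one hq0.le hq1 (by omega)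
  have h8 : 1 / (2 : ℝ) ^ R.m ^ 7 ≤ 1 / (R.m : ℝ) * pw R v / R.tab0.sum := by
    rw [div_le_div_iff₀ (by positivity) hS, one_mul, one_div_mul_eq_div, div_mul_eq_mul_div,
      le_div_iff₀ (by positivity)]
    calc (R.tab0.sum : ℝ) * R.m ≤ 2 * R.G * R.m := by gcongr
      _ = (1 / (R.ϱ : ℝ)) ^ R.G * ((R.m : ℝ) * (2 * R.G) * (R.ϱ : ℝ) ^ R.G) := by
          rw [one_div, inv_pow]
          field_simp
      _ ≤ pw R v * 2 ^ R.m ^ 7 :=
          mul_le_mul h7 (ϱ_pow_G h) (by positivity) (pw_pos R v).le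
  have h9 := (abs_le.1 h3).2
  have h10 : 1 / (2 : ℝ) ^ R.m ^ 7 / R.ℓ0 ≤ 1 / (R.m : ℝ) * pw R v / R.tab0.sum / R.ℓ0 := by
    gcongr
  have h11 : R.ϱ * pw R v / (R.ℓ0 * (R.tab0.sum : ℝ))
      = pw R v / R.tab0.sum / R.ℓ0 + 1 / (R.m : ℝ) * pw R v / R.tab0.sum / R.ℓ0 := by
    rw [ϱ_cast]
    field_simp
  rw [h11]
  unfold pw at h10 ⊢
  linarith

theorem seed_ofFn (R : Raw) (u : Fin (Bξ R.n R.m) → Bool) : R.seed (List.ofFn u) = u := by
  funext i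
  unfold seed
  rw [List.getD_eq_getElem _ _ (by simp)]
  simp

theorem Pr_seed (R : Raw) (s : Fin (Bξ R.n R.m) → Bool) :
    Ex (Bξ R.n R.m) (fun v => ind (R.seed v = s)) = 1 / 2 ^ Bξ R.n R.m := by
  rw [Ex_ofFn, sum_eq_single s]
  · rw [seed_ofFn, ind_true rfl]
    simp
  · intro b _ hb
    rw [seed_ofFn, ind_false hb]
  · simp

theorem ind_forall {ι : Type} [Fintype ι] (p : ι → Prop) : ind (∀ i, p i) = ∏ i, ind (p i) := by
  by_cases h : ∀ i, p i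
  · rw [ind_true h]
    exact (prod_eq_one fun i _ => ind_true (h i)).symm
  · rw [ind_false h]
    push Not at h
    obtain ⟨i, hi⟩ := h
    exact (prod_eq_zero (mem_univ i) (ind_false hi)).symm

theorem Pr_init (R : Raw) (y : R.E → ℤ) (s : Fin (Bξ R.n R.m) → Bool) :
    Pr (R.n * Bb R.m + Bξ R.n R.m) (fun u => R.init u = (lf 0 y, s)) =
      (∏ i, Pr (Bb R.m) (fun u => blockS R.tab0 R.G R.ℓ0 (R.m ^ 7) R.m u = y i)) *
        (1 / 2 ^ Bξ R.n R.m) := by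
  have key : ∀ u : List Bool, ind (R.init u = (lf 0 y, s)) =
      (∏ i : R.E, ind (blockS R.tab0 R.G R.ℓ0 (R.m ^ 7) R.m
        (blk (Bb R.m) i (u.take (R.n * Bb R.m))) = y i)) *
        ind (R.seed (u.drop (R.n * Bb R.m)) = s) := by
    intro u
    rw [← ind_forall, ← Pick.ind_and]
    refine Pick.ind_congr ?_
    unfold init
    rw [Prod.mk.injEq]
    refine and_congr ?_ Iff.rfl
    have hb : ∀ i : R.E, blk (Bb R.m) i (u.take (R.n * Bb R.m)) = blk (Bb R.m) i u :=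
      fun i => blk_take (Nat.mul_le_mul_right _ i.2) u
    simp only [hb]
    constructor
    · intro h1 i
      have := congrFun h1 (false, i)
      simpa [lf] using this
    · intro h1
      rw [funext h1]
  unfold Pr
  simp only [key]
  rw [Ex_split (Nat.le_add_right _ _) fun u v =>
    (∏ i : R.E, ind (blockS R.tab0 R.G R.ℓ0 (R.m ^ 7) R.m (blk (Bb R.m) i u) = y i)) *
      ind (R.seed v = s)]
  simp only [Ex_mul_left]
  rw [Ex_mul_right, Nat.add_sub_cancel_left, Pr_seed,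
    Ex_prod_blk le_rfl fun i u => ind (blockS R.tab0 R.G R.ℓ0 (R.m ^ 7) R.m u = y i)]

end Ends

open Ends

theorem Valid.init_mem (h : R.Valid r x Rm κ) (u : List Bool) : R.init u ∈ R.Ω := by
  unfold Ω
  rw [mem_product, mem_Ωz]
  refine ⟨?_, mem_univ _⟩
  have h1 := valid_lf (R := R) (h.rt_rt ⟨0, h.n_pos⟩) (h.rt_rt ⟨0, h.n_pos⟩)
    (y := fun d => blockS R.tab0 R.G R.ℓ0 (R.m ^ 7) R.m (blk (Bb R.m) d u))
    (Fintype.mem_piFinset.2 fun d => mem_Icc.2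
      (blockS_mem (G_pos h) (tab0_len R) R.ℓ0_pos _ _ _))
  rw [sub_self] at h1
  exact h1

theorem Valid.Zz_zero (h : R.Valid r x Rm κ) (e d : R.E) :
    |R.Zz r 0 (ev d - ev e) - (R.ann (DD r)).C0| ≤ (R.ann (DD r)).C0 / (100 * κ) := by
  have h1 : (1 - 1 / (100 * (κ : ℝ))) * (R.ann (DD r)).C0 ≤ R.Zz r 0 (ev d - ev e) := by
    rw [C0_eq, mul_sum]
    refine sum_le_sum fun y hy => ?_
    rw [← Ex_const' (Bξ R.n R.m) ((1 - 1 / (100 * (κ : ℝ))) * ∏ i, pw R (y i))]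
    exact Ex_mono fun u _ => (hw_bounds0 h e d hy u).1
  have h2 : R.Zz r 0 (ev d - ev e) ≤ (1 + 1 / (100 * (κ : ℝ))) * (R.ann (DD r)).C0 := by
    rw [C0_eq, mul_sum]
    refine sum_le_sum fun y hy => ?_
    rw [← Ex_const' (Bξ R.n R.m) ((1 + 1 / (100 * (κ : ℝ))) * ∏ i, pw R (y i))]
    exact Ex_mono fun u _ => (hw_bounds0 h e d hy u).2
  rw [abs_le, div_eq_mul_one_div]
  constructor <;> linarith

theorem Valid.C0_pos (h : R.Valid r x Rm κ) : 0 < (R.ann (DD r)).C0 := by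
  have h1 := tab0_sum_pos h
  have h2 : (0 : ℚ) < R.ℓ0 := by exact_mod_cast R.ℓ0_pos
  exact pow_pos (mul_pos h2 h1) _

theorem Valid.warm (h : R.Valid r x Rm κ) {y : R.X} (hy : y ∈ R.Ω) :
    Pr (R.n * Bb R.m + Bξ R.n R.m) (fun u => R.init u = y) * ∑ z ∈ R.Ω, (R.wt (DD r) 0 z : ℝ) ≤
      R.m * R.wt (DD r) 0 y := by
  have hκ : (1 : ℝ) ≤ κ := by exact_mod_cast h.one_le
  have hδ : 1 / (100 * (κ : ℝ)) ≤ 1 / 2 := one_div_le_one_div_of_le (by norm_num) (by linarith)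
  have hw0 : ∀ z, (0 : ℝ) ≤ R.wt (DD r) 0 z := by
    intro z
    unfold wt
    split_ifs
    · exact_mod_cast (h.hw_pos 0 _).1.le
    · simp
  obtain ⟨z, s⟩ := y
  by_cases hz : ps z = 0
  swap
  · have h1 : Pr (R.n * Bb R.m + Bξ R.n R.m) (fun u => R.init u = (z, s)) = 0 := by
      unfold Pr
      rw [← Ex_const' (R.n * Bb R.m + Bξ R.n R.m) 0]
      refine Ex_congr fun u _ => ind_false fun h2 => hz ?_
      rw [← (Prod.mk.inj h2).1, ps_lf]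
    rw [h1, zero_mul]
    exact mul_nonneg (Nat.cast_nonneg _) (hw0 _)
  have hv : R.valid z := mem_Ωz.1 (mem_product.1 hy).1
  have hb : side z false ∈ box R.E R.lo R.hi :=
    Fintype.mem_piFinset.2 fun i => mem_Icc.2 (hv.1 i)
  have hzz : z = lf 0 (side z false) := by rw [← hz, lf_ps]
  generalize side z false = y at hb hzz
  subst hzz
  have hC : (0 : ℝ) < (R.ann (DD r)).C0 := by exact_mod_cast h.C0_pos
  have hP : 0 < ∏ i, pw R (y i) := prod_pos fun i _ => pw_pos R _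
  have h1 : Pr (R.n * Bb R.m + Bξ R.n R.m) (fun u => R.init u = (lf 0 y, s)) ≤
      2 * (∏ i, pw R (y i)) / (R.ann (DD r)).C0 * (1 / 2 ^ Bξ R.n R.m) := by
    rw [Pr_init]
    refine mul_le_mul_of_nonneg_right ?_ (by positivity)
    calc ∏ i, Pr (Bb R.m) (fun u => blockS R.tab0 R.G R.ℓ0 (R.m ^ 7) R.m u = y i)
        ≤ ∏ i, R.ϱ * pw R (y i) / (R.ℓ0 * (R.tab0.sum : ℝ)) := by
          refine prod_le_prod (fun i _ => Pr_nonneg _ _) fun i _ => ?_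
          have := mem_Icc.1 (Fintype.mem_piFinset.1 hb i)
          exact Pr_block h this.1 this.2
      _ = (R.ϱ : ℝ) ^ R.n * (∏ i, pw R (y i)) / (R.ann (DD r)).C0 := by
          rw [prod_div_distrib, prod_mul_distrib, C0_cast]
          simp only [prod_const, card_univ, Fintype.card_fin]
      _ ≤ 2 * (∏ i, pw R (y i)) / (R.ann (DD r)).C0 := by
          have h2 : (R.ϱ : ℝ) ^ R.n ≤ 2 :=
            (pow_le_pow_right₀ (one_le_ϱR R) (Nat.le_succ _)).trans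
              ((ϱ_pow_le h).trans (by linarith))
          gcongr
  have h2 : ∑ z ∈ R.Ω, (R.wt (DD r) 0 z : ℝ) ≤
      (R.n : ℝ) ^ 2 * (2 ^ Bξ R.n R.m * (2 * (R.ann (DD r)).C0)) := by
    unfold Ω
    rw [sum_product]
    refine sum_Ωz_le (f := fun z => ∑ u : Fin (Bξ R.n R.m) → Bool, (R.wt (DD r) 0 (z, u) : ℝ))
      (fun z => sum_nonneg fun u _ => hw0 _) (by positivity) fun e d he hd => ?_
    rw [C0_eq, mul_sum, mul_sum]
    refine sum_le_sum fun y' hy' => ?_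
    calc ∑ u : Fin (Bξ R.n R.m) → Bool, (R.wt (DD r) 0 (lf (ev d - ev e) y', u) : ℝ)
        ≤ ∑ _u : Fin (Bξ R.n R.m) → Bool, 2 * ∏ i, pw R (y' i) := by
          refine sum_le_sum fun u _ => ?_
          unfold wt
          rw [if_pos (valid_lf he hd hy')]
          refine (hw_bounds0 h e d hy' _).2.trans ?_
          exact mul_le_mul_of_nonneg_right (by linarith) (prod_pos fun i _ => pw_pos R _).le
      _ = 2 ^ Bξ R.n R.m * (2 * ∏ i, pw R (y' i)) := by simp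
  have h3 : (∏ i, pw R (y i)) / 2 ≤ (R.wt (DD r) 0 (lf 0 y, s) : ℝ) := by
    unfold wt
    rw [if_pos hv]
    have h4 := (hw_bounds0 h ⟨0, h.n_pos⟩ ⟨0, h.n_pos⟩ hb (List.ofFn s)).1
    rw [sub_self] at h4
    refine le_trans ?_ h4
    rw [div_eq_inv_mul]
    exact mul_le_mul_of_nonneg_right (by linarith) hP.le
  have h4 : 8 * (R.n : ℝ) ^ 2 ≤ R.m := by
    have h5 : 8 * R.n ^ 2 ≤ R.m :=
      le_trans (Nat.mul_le_mul_left _ (Nat.pow_le_pow_left (by omega) _)) (n_le_m h)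
    exact_mod_cast h5
  calc Pr (R.n * Bb R.m + Bξ R.n R.m) (fun u => R.init u = (lf 0 y, s)) *
        ∑ z ∈ R.Ω, (R.wt (DD r) 0 z : ℝ)
      ≤ 2 * (∏ i, pw R (y i)) / (R.ann (DD r)).C0 * (1 / 2 ^ Bξ R.n R.m) *
        ((R.n : ℝ) ^ 2 * (2 ^ Bξ R.n R.m * (2 * (R.ann (DD r)).C0))) :=
        mul_le_mul h1 h2 (sum_nonneg fun z _ => hw0 z) (by positivity)
    _ = 8 * (R.n : ℝ) ^ 2 * ((∏ i, pw R (y i)) / 2) := by
        field_simp
        ring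
    _ ≤ R.m * R.wt (DD r) 0 (lf 0 y, s) :=
        mul_le_mul h4 h3 (by positivity) (Nat.cast_nonneg _)

end Crest.Agent.R302.Raw
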