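import Crest.Agent.R302.WeakP
import Crest.Agent.R302.Ends

/-!
# Row 302: the estimator is accurate
-/

set_option autoImplicit false

namespace Crest.Agent.R302.Raw

open Finset Crest.Agent.R309

variable {R : Raw} {r : Bool → Finset R.E → ℤ} {x : Bool → R.E → ℝ} {Rm κ : ℕ}

theorem core_wt_nonneg (R : Raw) (D : (R.V → ℤ) → ℤ) (j : ℕ) (y : R.X) : 0 ≤ R.wt D j y := by
  have h1 := R.one_le_ϱ
  unfold wt hw
  split_ifs
  · positivity
  · exact le_rfl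

theorem core_C0_nonneg (R : Raw) (D : (R.V → ℤ) → ℤ) : 0 ≤ (R.ann D).C0 := by
  have h1 := R.one_le_ϱ
  refine pow_nonneg (mul_nonneg (Nat.cast_nonneg _) (List.sum_nonneg fun a ha => ?_)) _
  obtain ⟨i, -, rfl⟩ := List.mem_map.1 ha
  positivity

theorem est_nonneg (R : Raw) (D : (R.V → ℤ) → ℤ) (u : List Bool) : 0 ≤ R.est D u := by
  exact AData.est_nonneg (R.core_wt_nonneg D) (R.core_C0_nonneg D) u

theorem core_mem_Ω {y : R.X} : y ∈ R.Ω ↔ R.valid y.1 := by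
  rw [← mem_Ωz]
  exact ⟨fun h => (mem_product.1 h).1, fun h => mem_product.2 ⟨h, mem_univ _⟩⟩

theorem core_mem_act {c : ℕ} : c ∈ R.act ↔ ∃ e d, R.rt e = e ∧ R.rt d = d ∧ R.cn e d = c := by
  constructor
  · intro h
    obtain ⟨p, hp, rfl⟩ := mem_image.1 h
    exact ⟨p.1, p.2, (mem_filter.1 hp).2.1, (mem_filter.1 hp).2.2, rfl⟩
  · rintro ⟨e, d, he, hd, rfl⟩
    exact mem_image.2 ⟨(e, d), mem_filter.2 ⟨mem_univ _, he, hd⟩, rfl⟩

theorem core_cn_lt (e d : R.E) : R.cn e d < R.n ^ 2 + 1 := by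
  unfold cn
  split_ifs
  · exact Nat.succ_pos _
  · have h1 : ((e : ℕ) + 1) * R.n ≤ R.n * R.n := Nat.mul_le_mul_right _ e.2
    have h2 := d.2
    rw [Nat.succ_mul] at h1
    rw [sq]
    omega

theorem core_cn_self (e : R.E) : R.cn e e = 0 := if_pos rfl

theorem Valid.core_root (h : R.Valid r x Rm κ) : ∃ e : R.E, R.rt e = e :=
  ⟨R.rt ⟨0, h.n_pos⟩, h.rt_rt _⟩

theorem Valid.core_Zc_zero (h : R.Valid r x Rm κ) (j : ℕ) :
    (R.ann (DD r)).Zc R.Ω j 0 = 2 ^ Bξ R.n R.m * R.Zz r j 0 := by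
  obtain ⟨e, he⟩ := h.core_root
  have h1 := Zc_eq (r := r) he he j
  rw [core_cn_self, sub_self] at h1
  exact h1

theorem Valid.core_inv_le (h : R.Valid r x Rm κ) :
    0 ≤ 1 / (100 * (κ : ℝ)) ∧ 1 / (100 * (κ : ℝ)) ≤ 1 / 100 ∧
      1 / (R.m : ℝ) ≤ 1 / (100 * (κ : ℝ)) := by
  have h1 : (1 : ℝ) ≤ κ := by exact_mod_cast h.one_le
  have h2 := h.m_geR
  have h3 : (1 : ℝ) ≤ ((R.n : ℝ) + 2) ^ 10 :=
    one_le_pow₀ (by linarith [(Nat.cast_nonneg R.n : (0 : ℝ) ≤ R.n)])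
  refine ⟨by positivity, one_div_le_one_div_of_le (by norm_num) (by linarith),
    one_div_le_one_div_of_le (by positivity) ?_⟩
  nlinarith

theorem Valid.core_good0 (h : R.Valid r x Rm κ) :
    (R.ann (DD r)).Good R.Ω R.act 0 (List.replicate (R.n ^ 2 + 1) 1) := by
  have hg : ∀ c, c < R.n ^ 2 + 1 → (List.replicate (R.n ^ 2 + 1) (1 : ℚ)).getD c 0 = 1 :=
    fun c hc => by
      rw [List.getD_eq_getElem _ _ (by simpa using hc), List.getElem_replicate]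
  refine ⟨hg 0 (Nat.succ_pos _), fun c hc => ?_⟩
  obtain ⟨e, d, he, hd, rfl⟩ := core_mem_act.1 hc
  rw [hg _ (core_cn_lt e d), h.core_Zc_zero, Zc_eq he hd, Rat.cast_one, one_mul]
  have hC : (0 : ℝ) < (R.ann (DD r)).C0 := by exact_mod_cast h.C0_pos
  have h1 := h.Zz_zero e d
  have h2 := h.Zz_zero e e
  rw [sub_self] at h2
  have h3 : ((R.ann (DD r)).C0 : ℝ) / (100 * κ) ≤ (R.ann (DD r)).C0 * (1 / 100) := by
    rw [div_eq_mul_one_div]
    exact mul_le_mul_of_nonneg_left h.core_inv_le.2.1 hC.le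
  have h4 := abs_le.1 (h1.trans h3)
  have h5 := abs_le.1 (h2.trans h3)
  have h6 : (0 : ℝ) ≤ 2 ^ Bξ R.n R.m := by positivity
  constructor
  · rw [mul_div_assoc]
    exact mul_le_mul_of_nonneg_left (by linarith) h6
  · rw [mul_left_comm]
    exact mul_le_mul_of_nonneg_left (by linarith) h6

theorem core_num_T {M : ℝ} (hM : 4 ≤ M) : 4 * M ^ 255 ≤ 1 / M ^ 47 * M ^ 310 := by
  have h0 : 0 < M := by linarith
  have h1 : 1 / M ^ 47 * M ^ 310 = M ^ 8 * M ^ 255 := by field_simp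
  have h2 : M ≤ M ^ 8 := le_self_pow₀ (by linarith) (by norm_num)
  rw [h1]
  exact mul_le_mul_of_nonneg_right (by linarith) (by positivity)

theorem core_num_δ {M : ℝ} (hM : 2 ≤ M) : 2 * (1 / M ^ 47) * M ^ 2 ≤ (1 / M ^ 22) ^ 2 := by
  have h0 : 0 < M := by linarith
  have h1 : 2 * (1 / M ^ 47) * M ^ 2 = 2 * (1 / M ^ 45) := by field_simp
  have h2 : (1 / M ^ 22) ^ 2 = M * (1 / M ^ 45) := by field_simp
  rw [h1, h2]
  exact mul_le_mul_of_nonneg_right hM (by positivity)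

theorem core_num_pow {m : ℕ} (hm : 332 ≤ m) : (m : ℝ) ^ 332 ≤ 2 ^ m ^ 2 := by
  have h1 : m ^ 332 ≤ (2 ^ m) ^ 332 := Nat.pow_le_pow_left Nat.lt_two_pow_self.le _
  have h2 : (2 ^ m) ^ 332 ≤ (2 ^ m) ^ m := Nat.pow_le_pow_right (Nat.two_pow_pos m) hm
  rw [← pow_mul 2 m m, ← sq] at h2
  exact_mod_cast h1.trans h2

theorem core_num_θ {M P : ℝ} (hM : 4 ≤ M) (hP : M ^ 332 ≤ P) :
    (M ^ 9 + 1) * (1 / M ^ 22 + M ^ 310 / P) ≤ 1 / M ^ 12 := by
  have h0 : 0 < M := by linarith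
  have h1 : M ^ 310 / P ≤ 1 / M ^ 22 := by
    refine (div_le_div_of_nonneg_left (by positivity) (by positivity) hP).trans (le_of_eq ?_)
    field_simp
  have h2 : M ^ 9 + 1 ≤ 2 * M ^ 9 := by
    have : 1 ≤ M ^ 9 := one_le_pow₀ (by linarith)
    linarith
  have h3 : 0 < P := lt_of_lt_of_le (by positivity) hP
  calc (M ^ 9 + 1) * (1 / M ^ 22 + M ^ 310 / P) ≤ (2 * M ^ 9) * (2 * (1 / M ^ 22)) :=
        mul_le_mul h2 (by linarith) (by positivity) (by positivity)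
    _ = 4 * (1 / M ^ 13) := by field_simp; norm_num
    _ ≤ M * (1 / M ^ 13) := mul_le_mul_of_nonneg_right hM (by positivity)
    _ = 1 / M ^ 12 := by field_simp

theorem core_num_R {M N : ℝ} (hM : 1 ≤ M) (hN : 32 * (N + 1) ≤ M) :
    M ^ 9 * ((N + 1) / (M ^ 35 * (1 / M ^ 12) ^ 2)) ≤ 1 / 32 := by
  have h0 : 0 < M := by linarith
  have h1 : M ^ 9 * ((N + 1) / (M ^ 35 * (1 / M ^ 12) ^ 2)) = (N + 1) / M ^ 2 := by field_simp
  have h2 : M ≤ M ^ 2 := le_self_pow₀ hM (by norm_num)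
  rw [h1, div_le_iff₀ (by positivity)]
  linarith

theorem core_num_ε {M N : ℝ} (hM : 1 ≤ M) (hN0 : 0 ≤ N) (hN : 800 * N ≤ M) :
    400 * (M ^ 9 + 1) * N * (1 / M ^ 12) ≤ 1 / M := by
  have h0 : 0 < M := by linarith
  have h2 : M ^ 9 + 1 ≤ 2 * M ^ 9 := by
    have : 1 ≤ M ^ 9 := one_le_pow₀ hM
    linarith
  have h3 : M ≤ M ^ 2 := le_self_pow₀ hM (by norm_num)
  calc 400 * (M ^ 9 + 1) * N * (1 / M ^ 12) ≤ 400 * (2 * M ^ 9) * N * (1 / M ^ 12) := by gcongr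
    _ = 800 * N * (1 / M ^ 3) := by field_simp; ring
    _ ≤ M ^ 2 * (1 / M ^ 3) := mul_le_mul_of_nonneg_right (hN.trans h3) (by positivity)
    _ = 1 / M := by field_simp

theorem Valid.core_m (h : R.Valid r x Rm κ) : 10000 * (R.n ^ 2 + 2) ≤ R.m := by
  refine le_trans (Nat.mul_le_mul_left _ ?_) h.m_ge
  refine le_trans ?_ (Nat.pow_le_pow_right (by omega) (by norm_num : 2 ≤ 10))
  have h1 : (R.n + 2) ^ 2 = R.n ^ 2 + 4 * R.n + 4 := by ring
  omega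

theorem Valid.ok (h : R.Valid r x Rm κ) :
    (R.ann (DD r)).Ok R.Ω R.act ((R.m : ℝ) ^ 255) (1 / (R.m : ℝ) ^ 47) R.m (1 / (R.m : ℝ) ^ 22)
      (1 / (R.m : ℝ) ^ 12) (1 / (R.m : ℝ)) := by
  have hm := h.core_m
  have hm' : 10000 * (((R.n ^ 2 + 1 : ℕ) : ℝ) + 1) ≤ R.m := by exact_mod_cast hm
  have hn : (0 : ℝ) ≤ ((R.n ^ 2 + 1 : ℕ) : ℝ) := Nat.cast_nonneg _
  have hM : (10000 : ℝ) ≤ R.m := by linarith
  have h0 : (0 : ℝ) < R.m := by linarith
  refine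
    { pos := fun j _ y hy => ?_
      zero := fun j y hy => if_neg fun hv => hy (core_mem_Ω.2 hv)
      cl_mem := fun y hy => ?_
      act_lt := fun c hc => ?_
      zero_mem := ?_
      Zpos := fun c hc => ?_
      ratio := fun j _ y hy => ?_
      symm := R.prop_symm
      weak := fun j _ t ht => h.weakP ht
      init_mem := h.init_mem
      good0 := h.core_good0
      warm := fun y hy => h.warm hy
      C0 := h.C0_pos.le
      K1 := one_le_pow₀ h.mR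
      η0 := by positivity
      M1 := by linarith
      hT := ?_
      δ0 := by positivity
      hδ := core_num_δ (by linarith)
      θ0 := by positivity
      hθ := ?_
      Rs0 := pow_pos h.m_pos 35
      hR := ?_
      hε := ?_
      ε1 := one_div_le_one_div_of_le (by norm_num) (by linarith) }
  · change 0 < R.wt (DD r) j y
    unfold wt
    rw [if_pos (core_mem_Ω.1 hy)]
    exact (h.hw_pos _ _).1
  · obtain ⟨-, e, d, he, hd, hz⟩ := core_mem_Ω.1 hy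
    exact core_mem_act.2 ⟨e, d, he, hd, (cls_eq he hd hz).symm⟩
  · obtain ⟨e, d, -, -, rfl⟩ := core_mem_act.1 hc
    exact core_cn_lt e d
  · obtain ⟨e, he⟩ := h.core_root
    exact core_mem_act.2 ⟨e, e, he, he, core_cn_self e⟩
  · obtain ⟨e, d, he, hd, rfl⟩ := core_mem_act.1 hc
    exact ⟨(lf (ev d - ev e) fun _ => R.lo, fun _ => false), core_mem_Ω.2 (valid_lf he hd
      (Fintype.mem_piFinset.2 fun _ => mem_Icc.2 ⟨le_rfl, h.lo_le_hi⟩)),
      cls_eq he hd (ps_lf (ev d - ev e) fun _ => R.lo)⟩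
  · change R.wt (DD r) j y ≤ 2 * R.wt (DD r) (j + 1) y ∧ R.wt (DD r) (j + 1) y ≤ R.wt (DD r) j y
    unfold wt
    rw [if_pos (core_mem_Ω.1 hy), if_pos (core_mem_Ω.1 hy)]
    exact h.hw_succ j (DD_nonneg h.sub _)
  · change _ ≤ _ * ((R.m ^ 310 : ℕ) : ℝ)
    rw [Nat.cast_pow]
    exact core_num_T (by linarith)
  · change (((R.m ^ 9 : ℕ) : ℝ) + 1) * (_ + ((R.m ^ 310 : ℕ) : ℝ) / 2 ^ R.m ^ 2) ≤ _
    rw [Nat.cast_pow, Nat.cast_pow]
    exact core_num_θ (by linarith) (core_num_pow (by omega))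
  · change ((R.m ^ 9 : ℕ) : ℝ) * ((((R.n ^ 2 + 1 : ℕ) : ℝ) + 1) / (((R.m ^ 35 : ℕ) : ℝ) * _)) ≤ _
    rw [Nat.cast_pow R.m, Nat.cast_pow R.m]
    exact core_num_R h.mR (by linarith)
  · change 400 * (((R.m ^ 9 : ℕ) : ℝ) + 1) * ((R.n ^ 2 + 1 : ℕ) : ℝ) * _ ≤ _
    rw [Nat.cast_pow R.m]
    exact core_num_ε h.mR hn (by linarith)

theorem core_fin {C A B c e a ε : ℝ} (hC : 0 < C) (hc : 0 ≤ c) (ha0 : 0 ≤ a) (ha : a ≤ 1 / 100)
    (h1 : |B - C| ≤ C * a) (h2 : |A - c| ≤ c * a) (hε : ε ≤ a)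
    (h3 : |e - C * (A / B)| ≤ ε * (C * (A / B))) : |e - c| ≤ c * (100 * a) := by
  obtain ⟨h1, h1'⟩ := abs_le.1 h1
  obtain ⟨h2, h2'⟩ := abs_le.1 h2
  have hCa : C * a ≤ C * (1 / 100) := mul_le_mul_of_nonneg_left ha hC.le
  have hca : c * a ≤ c * (1 / 100) := mul_le_mul_of_nonneg_left ha hc
  have hca0 : 0 ≤ c * a := mul_nonneg hc ha0
  have hCa0 : 0 ≤ C * a := mul_nonneg hC.le ha0
  have hB : 0 < B := by linarith
  have hA : 0 ≤ A := by linarith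
  have hT : C * (A / B) = C / B * A := by ring
  rw [hT] at h3
  have q1 : 1 - a ≤ C / B := by
    rw [le_div_iff₀ hB]
    have : a * C ≤ a * (B + C * a) := mul_le_mul_of_nonneg_left (by linarith) ha0
    have : (1 - a) * B ≤ (1 - a) * (C + C * a) :=
      mul_le_mul_of_nonneg_left (by linarith) (by linarith)
    nlinarith [mul_nonneg hCa0 ha0]
  have q2 : C / B ≤ 1 + 2 * a := by
    rw [div_le_iff₀ hB]
    have : (1 + 2 * a) * (C - C * a) ≤ (1 + 2 * a) * B :=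
      mul_le_mul_of_nonneg_left (by linarith) (by linarith)
    have : C * a * a ≤ C * a * (1 / 100) := mul_le_mul_of_nonneg_left ha hCa0
    nlinarith
  generalize C / B = q at h3 q1 q2
  have hcaa : c * a * a ≤ c * a * (1 / 100) := mul_le_mul_of_nonneg_left ha hca0
  have hcaa0 : 0 ≤ c * a * a := mul_nonneg hca0 ha0
  have t1 : (1 - a) * (c - c * a) ≤ q * A :=
    mul_le_mul q1 (by linarith) (by linarith) (by linarith)
  have t2 : q * A ≤ (1 + 2 * a) * (c + c * a) :=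
    mul_le_mul q2 (by linarith) hA (by linarith)
  have t3 : c - 2 * (c * a) ≤ q * A := by nlinarith
  have t4 : q * A ≤ c + 4 * (c * a) := by nlinarith
  have t5 : ε * (q * A) ≤ a * (2 * c) :=
    mul_le_mul hε (by linarith) (by linarith) ha0
  obtain ⟨h3, h3'⟩ := abs_le.1 (h3.trans t5)
  refine abs_le.2 ⟨by nlinarith, by nlinarith⟩

theorem Valid.est_good (h : R.Valid r x Rm κ) {N : ℕ} (hN : Btot R.n R.m ≤ N) :
    31 / 32 ≤ Pr N fun u => |(R.est (DD r) u : ℝ) - R.cnt r| ≤ R.cnt r / κ := by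
  refine (h.ok.est_good (n := N) hN).trans (Pr_mono fun u _ hu => ?_)
  rw [h.core_Zc_zero, h.core_Zc_zero, mul_div_mul_left _ _ (by positivity)] at hu
  obtain ⟨e, -⟩ := h.core_root
  have h1 := h.Zz_zero e e
  have h2 := h.final
  rw [sub_self, div_eq_mul_one_div] at h1
  rw [div_eq_mul_one_div] at h2
  have hC : (0 : ℝ) < (R.ann (DD r)).C0 := by exact_mod_cast h.C0_pos
  obtain ⟨a0, a1, a2⟩ := h.core_inv_le
  refine (core_fin hC (Nat.cast_nonneg _) a0 a1 h1 h2 a2 hu).trans (le_of_eq ?_)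
  have hκ : (0 : ℝ) < κ := by exact_mod_cast h.one_le
  field_simp

end Crest.Agent.R302.Raw
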