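import Mathlib

/-!
# Row 302: basic definitions

Sides `Bool × ι`; a state `z` is a pair of integer vectors (`side z false`, `side z true`); the
pair sums `ps z` are the defects of the state.
-/

set_option autoImplicit false

namespace Crest.Agent.R302

open Finset

section General

variable {V : Type} [Fintype V] [DecidableEq V]

/-- Unit vector. -/
def ev (a : V) : V → ℤ := Pi.single a 1

/-- Positive weights whose local matrices `φ (T + a + b)` are dominated by a rank-one form. -/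
def LC (φ : (V → ℤ) → ℝ) : Prop :=
  (∀ z, 0 < φ z) ∧ ∀ (T : V → ℤ) (w : V → ℝ),
    φ T * ∑ a, ∑ b, w a * w b * φ (T + ev a + ev b) ≤ (∑ a, w a * φ (T + ev a)) ^ 2

/-- A rooted forest with the sets `S h` of descendants of `h`. -/
structure Tree (V : Type) [DecidableEq V] where
  par : V → V
  rt : V → V
  S : V → Finset V
  self_mem : ∀ h, h ∈ S h
  sub : ∀ h b, b ∈ S h → S b ⊆ S h
  par_mem : ∀ h b, b ∈ S h → b ≠ h → par b ∈ S h
  nonroot : ∀ h b, b ∈ S h → b ≠ h → rt b ≠ b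
  rt_rt : ∀ q, rt (rt q) = rt q
  mem_rt : ∀ q, q ∈ S (rt q)
  rt_eq : ∀ h q, q ∈ S h → rt q = rt h
  tel : ∀ h q, q ∈ S h →
    ev q = ev h + ∑ b ∈ ((S h).erase h).filter (fun b => q ∈ S b), (ev b - ev (par b))

end General

variable {ι : Type} [Fintype ι] [DecidableEq ι]

/-- Normalised submodular functions. -/
def Sub {K : Type} [AddCommGroup K] [PartialOrder K] (r : Finset ι → K) : Prop :=
  r ∅ = 0 ∧ ∀ A B, r (A ∪ B) + r (A ∩ B) ≤ r A + r B

/-- Membership in the base polytope. -/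
def InB {K : Type} [AddCommGroup K] [PartialOrder K] (r : Finset ι → K) (y : ι → K) : Prop :=
  (∀ A, ∑ i ∈ A, y i ≤ r A) ∧ ∑ i, y i = r univ

/-- Largest violation of a constraint. -/
def dp (r : Finset ι → ℤ) (α : ι → ℤ) : ℤ :=
  univ.sup' univ_nonempty fun A : Finset ι => ∑ i ∈ A, α i - r A

/-- The `ℓ¹` distance to the base polytope. -/
def dist (r : Finset ι → ℤ) (α : ι → ℤ) : ℤ := 2 * dp r α + r univ - ∑ i, α i

/-- One side of a state. -/
def side (z : Bool × ι → ℤ) (s : Bool) : ι → ℤ := fun i => z (s, i)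

/-- Pair sums. -/
def ps (z : Bool × ι → ℤ) : ι → ℤ := fun i => z (false, i) + z (true, i)

/-- Total distance of the two sides to their base polytopes. -/
def DD (r : Bool → Finset ι → ℤ) (z : Bool × ι → ℤ) : ℤ :=
  dist (r false) (side z false) + dist (r true) (side z true)

/-- The state with first side `x` and pair sums `t`. -/
def lf (t x : ι → ℤ) : Bool × ι → ℤ := fun a => if a.1 then t a.2 - x a.2 else x a.2

/-- A real set function from an integral one. -/
def cr (r : Finset ι → ℤ) : Finset ι → ℝ := fun A => (r A : ℝ)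

/-- A real vector from an integral one. -/
def cv (α : ι → ℤ) : ι → ℝ := fun i => (α i : ℝ)

/-- The exchange capacity from `q` to `p` at `y` is at least `τ`. -/
def Arc (r : Finset ι → ℝ) (y : ι → ℝ) (τ : ℝ) (p q : ι) : Prop :=
  ∀ A : Finset ι, p ∈ A → q ∉ A → τ ≤ r A - ∑ i ∈ A, y i

/-- Both exchange capacities are at least `τ`. -/
def Sym (r : Finset ι → ℝ) (y : ι → ℝ) (τ : ℝ) (p q : ι) : Prop := Arc r y τ p q ∧ Arc r y τ q p

/-- Reachability in the union of two digraphs. -/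
def Reach (g : Bool → ι → ι → Prop) : ι → ι → Prop :=
  Relation.ReflTransGen fun p q => ∃ s, g s p q

/-- The exchange graph at threshold `τ`. -/
def XG (r : Bool → Finset ι → ℝ) (y : Bool → ι → ℝ) (τ : ℝ) : Bool → ι → ι → Prop :=
  fun s => Arc (r s) (y s) τ

/-- A circulation that uses every arc lying on a cycle. -/
structure Circ (g : Bool → ι → ι → Prop) (χ : Bool → ι → ι → ℕ) : Prop where
  supp : ∀ s p q, χ s p q ≠ 0 → g s p q
  bal : ∀ v, ∑ s, ∑ q, χ s v q = ∑ s, ∑ p, χ s p v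
  cyc : ∀ s p q, g s p q → Reach g q p → 1 ≤ χ s p q
  tot : ∑ s, ∑ p, ∑ q, χ s p q ≤ 2 * Fintype.card ι ^ 3

/-- The displacement of side `s` along a circulation. -/
def mv (χ : Bool → ι → ι → ℕ) (s : Bool) : ι → ℤ :=
  fun v => (∑ q, (χ s v q : ℤ)) - ∑ p, (χ s p v : ℤ)

/-- The box of first sides. -/
noncomputable def box (ι : Type) [Fintype ι] [DecidableEq ι] (lo hi : ℤ) : Finset (ι → ℤ) :=
  Fintype.piFinset fun _ => Icc lo hi

/-- The points of the box that agree with `y` on `Pn`. -/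
noncomputable def fib (lo hi : ℤ) (Pn : Finset ι) (y : ι → ℤ) : Finset (ι → ℤ) :=
  (box ι lo hi).filter fun x => ∀ d ∈ Pn, x d = y d

/-- Total weight of the states with pair sums `t`. -/
noncomputable def NN (φ : (Bool × ι → ℤ) → ℝ) (lo hi : ℤ) (t : ι → ℤ) : ℝ :=
  ∑ x ∈ box ι lo hi, φ (lf t x)

/-- Quadratic form of a system of charges. -/
noncomputable def QF (lo hi : ℤ) (t : ι → ℤ) (w : (ι → ℤ) → Bool × ι → ℝ)
    (Ψ : (Bool × ι → ℤ) → ℝ) : ℝ :=
  ∑ x ∈ box ι lo hi, ∑ a, ∑ b, w x a * w x b * Ψ (lf t x + ev a + ev b)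

/-- Linear form of a system of charges. -/
noncomputable def LF (lo hi : ℤ) (t : ι → ℤ) (w : (ι → ℤ) → Bool × ι → ℝ)
    (G : (Bool × ι → ℤ) → ℝ) : ℝ :=
  ∑ x ∈ box ι lo hi, ∑ a, w x a * G (lf t x + ev a)

/-- A system of charges in which the pairs in `Pn` are pinned. -/
structure Sys (φ : (Bool × ι → ℤ) → ℝ) (lo hi : ℤ) (t : ι → ℤ) (Pn : Finset ι)
    (w : (ι → ℤ) → Bool × ι → ℝ) : Prop where
  dep : ∀ x x', (∀ d ∈ Pn, x d = x' d) → w x = w x'
  free : ∀ d ∉ Pn, ∀ x, w x (false, d) = 0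
  zero : ∀ y ∈ box ι lo hi, ∑ x ∈ fib lo hi Pn y, ∑ a, w x a * φ (lf t x + ev a) = 0

/-- Displacement along the arcs `(a, par a)` with coefficients `ξ`. -/
def shf {V : Type} [Fintype V] [DecidableEq V] (par : V → V) (ξ : V → ℤ) : V → ℤ :=
  ∑ a, ξ a • (ev a - ev (par a))

end Crest.Agent.R302
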