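import Crest.Agent.R302.Model
import Crest.Agent.R302.Avg

/-!
# Row 302: the smoothed test function and the energies of the chain
-/

set_option autoImplicit false

namespace Crest.Agent.R302.Raw

open Finset

variable (R : Raw) (r : Bool → Finset R.E → ℤ) (j : ℕ) (t : List ℚ) (F : R.X → ℝ)

/-- Marginal weight of the chain. -/
noncomputable def Pz (z : R.V → ℤ) : ℝ := av (R.Wx r j t z)
/-- Conditional mean of the test function given the state. -/
noncomputable def Fb (z : R.V → ℤ) : ℝ := cm (R.Wx r j t z) fun u => F (z, u)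
/-- The smoothed test function. -/
noncomputable def Gt (z : R.V → ℤ) : ℝ := sm (R.dir j) (R.len j) (R.Fb r j t F) (R.nf j z)
/-- Marginal energy of a translation. -/
noncomputable def Ez (v : R.V → ℤ) : ℝ := En R.Ωz (R.Pz r j t) (R.Fb r j t F) v
/-- Energy of a translation with a fresh seed. -/
noncomputable def Ex2 (v : R.V → ℤ) : ℝ :=
  ∑ z ∈ R.Ωz, ex2 (R.Wx r j t z) (R.Wx r j t (z + v)) (fun u => F (z, u)) fun u => F (z + v, u)
/-- Sum of an energy over all moves. -/
noncomputable def tot (E : (R.V → ℤ) → ℝ) : ℝ :=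
  ∑ h, ∑ h', ∑ i ∈ range (R.m + 1), (E (2 ^ i • (R.γ h - R.γ h')) +
    (∑ k ∈ range (2 ^ i), E (k • (R.γ h - R.γ h'))) / 2 ^ i)

end Crest.Agent.R302.Raw
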