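import Crest.Agent.R302.Soft

/-!
# Row 302: the marginal weight of the chain is comparable with the ideal weight
-/

set_option autoImplicit false

namespace Crest.Agent.R302.Raw

open Finset Crest.Agent.R309

variable {R : Raw} {r : Bool → Finset R.E → ℤ} {x : Bool → R.E → ℝ} {Rm κ : ℕ}

namespace KernAux

theorem k_cosh_le {x y L : ℝ} (h : |x - y| ≤ L) : Real.cosh x ≤ Real.exp L * Real.cosh y := by
  obtain ⟨h1, h2⟩ := abs_le.1 h
  rw [Real.cosh_eq, Real.cosh_eq]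
  have e1 : Real.exp x ≤ Real.exp L * Real.exp y := by
    rw [← Real.exp_add]; exact Real.exp_le_exp.2 (by linarith)
  have e2 : Real.exp (-x) ≤ Real.exp L * Real.exp (-y) := by
    rw [← Real.exp_add]; exact Real.exp_le_exp.2 (by linarith)
  linarith

theorem k_ratio {I : Finset ℤ} {π s : ℤ → ℝ} {A K : ℝ} (hK : 0 ≤ K)
    (hs : ∀ v, 0 < s v) (h1 : ∑ v ∈ I, π v = 1)
    (h : ∀ v ∈ I, A * s v ≤ K * π v ∧ π v ≤ K * (A * s v)) {v : ℤ} (hv : v ∈ I) :
    s v / ∑ w ∈ I, s w ≤ K ^ 2 * π v ∧ π v ≤ K ^ 2 * (s v / ∑ w ∈ I, s w) := by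
  have hZ : 0 < ∑ w ∈ I, s w := sum_pos (fun w _ => hs w) ⟨v, hv⟩
  have h2 : A * ∑ w ∈ I, s w ≤ K := by
    calc _ = ∑ w ∈ I, A * s w := mul_sum _ _ _
      _ ≤ ∑ w ∈ I, K * π w := sum_le_sum fun w hw => (h w hw).1
      _ = K := by rw [← mul_sum, h1, mul_one]
  have h3 : 1 ≤ K * (A * ∑ w ∈ I, s w) := by
    calc (1 : ℝ) = ∑ w ∈ I, π w := h1.symm
      _ ≤ ∑ w ∈ I, K * (A * s w) := sum_le_sum fun w hw => (h w hw).2
      _ = _ := by rw [← mul_sum, ← mul_sum]
  have hsv := hs v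
  obtain ⟨h4, h5⟩ := h v hv
  constructor
  · rw [div_le_iff₀ hZ]
    calc s v ≤ s v * (K * (A * ∑ w ∈ I, s w)) := le_mul_of_one_le_right hsv.le h3
      _ = K * (∑ w ∈ I, s w) * (A * s v) := by ring
      _ ≤ K * (∑ w ∈ I, s w) * (K * π v) := by gcongr
      _ = _ := by ring
  · rw [← mul_div_assoc, le_div_iff₀ hZ]
    calc π v * ∑ w ∈ I, s w ≤ K * (A * s v) * ∑ w ∈ I, s w := by gcongr
      _ = K * s v * (A * ∑ w ∈ I, s w) := by ring
      _ ≤ K * s v * K := by gcongr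
      _ = _ := by ring

theorem k_sum_Pr {X : Type} (Ω : Finset X) {n : ℕ} {g : List Bool → X}
    (hg : ∀ u, u.length = n → g u ∈ Ω) : ∑ y ∈ Ω, Pr n (fun u => g u = y) = 1 := by
  have := Ex_law Ω hg fun _ => 1
  simpa using this.symm

theorem k_num1 {m : ℕ} (hm : 10 ≤ m) :
    4 * (m : ℝ) ^ 8 * Real.exp ((m : ℝ) ^ 6) ≤ 2 ^ m ^ 7 := by
  have h1 : Real.exp ((m : ℝ) ^ 6) ≤ 2 ^ (2 * m ^ 6) := by
    have : Real.exp ((m : ℝ) ^ 6) = Real.exp 1 ^ (m ^ 6) := by
      rw [← Real.exp_nat_mul]; simp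
    rw [this, pow_mul]
    gcongr
    linarith [Real.exp_one_lt_three]
  have h2 : (m : ℝ) ≤ 2 ^ m := by exact_mod_cast Nat.lt_two_pow_self.le
  have h3 : 2 + m * 8 + 2 * m ^ 6 ≤ m ^ 7 := by
    have h4 : m ≤ m ^ 6 := Nat.le_self_pow (by norm_num) m
    have h5 : m ^ 7 = m * m ^ 6 := by ring
    have h6 : 10 * m ^ 6 ≤ m * m ^ 6 := Nat.mul_le_mul_right _ hm
    have h7 : m * m ≤ m ^ 6 := by
      rw [← pow_two]; exact Nat.pow_le_pow_right (by omega) (by norm_num)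
    nlinarith
  calc 4 * (m : ℝ) ^ 8 * Real.exp ((m : ℝ) ^ 6) ≤ 2 ^ 2 * (2 ^ m) ^ 8 * 2 ^ (2 * m ^ 6) := by
        gcongr; norm_num
    _ = 2 ^ (2 + m * 8 + 2 * m ^ 6) := by rw [← pow_mul, ← pow_add, ← pow_add]
    _ ≤ 2 ^ m ^ 7 := pow_le_pow_right₀ one_le_two h3

theorem k_m_big (h : R.Valid r x Rm κ) : 10000 * (R.n + 2) ≤ R.m :=
  le_trans (Nat.mul_le_mul_left _ (Nat.le_self_pow (by norm_num) _)) h.m_ge

theorem k_ϱ_cast (R : Raw) : (R.ϱ : ℝ) = 1 + 1 / (R.m : ℝ) := by simp [ϱ]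

theorem k_length_tabK (R : Raw) : R.tabK.length = 2 * R.G := by simp [tabK]

theorem k_ϱ_pos (R : Raw) : 0 < R.ϱ := by unfold ϱ; positivity

theorem k_tabK_pos (R : Raw) : ∀ a ∈ R.tabK, 0 < a := by
  intro a ha
  obtain ⟨i, -, rfl⟩ := List.mem_map.1 ha
  have := k_ϱ_pos R
  positivity

theorem k_tabK_getD (R : Raw) {q : ℤ} (h1 : -(R.G : ℤ) ≤ q) (h2 : q < R.G) :
    (R.tabK.getD (q + R.G).toNat 0 : ℝ) = (Real.cosh (q * Real.log R.ϱ))⁻¹ / 2 := by
  have hϱ : (0 : ℝ) < R.ϱ := by exact_mod_cast k_ϱ_pos R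
  have hi : (q + R.G).toNat < 2 * R.G := by omega
  have e : (((q + R.G).toNat : ℕ) : ℤ) - R.G = q := by omega
  have e1 : Real.exp (q * Real.log R.ϱ) = (R.ϱ : ℝ) ^ q := by
    rw [← Real.log_zpow, Real.exp_log (zpow_pos hϱ _)]
  have e2 : Real.exp (-(q * Real.log R.ϱ)) = (R.ϱ : ℝ) ^ (-q) := by
    rw [Real.exp_neg, e1, zpow_neg]
  rw [tabK, List.getD_eq_getElem _ _ (by simpa using hi), List.getElem_map, List.getElem_range, e,
    Real.cosh_eq, e1, e2]
  push_cast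
  field_simp

theorem k_tabK_sum_le (R : Raw) : (R.tabK.sum : ℝ) ≤ 2 * R.G := by
  have h : R.tabK.sum ≤ R.tabK.length • (1 : ℚ) := by
    refine List.sum_le_card_nsmul _ _ fun a ha => ?_
    obtain ⟨i, -, rfl⟩ := List.mem_map.1 ha
    have h0 := k_ϱ_pos R
    have h1 : 1 ≤ R.ϱ := by unfold ϱ; exact le_add_of_nonneg_right (by positivity)
    rw [div_le_one (by positivity)]
    rcases le_total 0 ((i : ℤ) - R.G) with h2 | h2
    · exact le_add_of_le_of_nonneg (one_le_zpow₀ h1 h2) (by positivity)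
    · exact le_add_of_nonneg_of_le (by positivity) (one_le_zpow₀ h1 (by omega))
  rw [k_length_tabK] at h
  simp only [nsmul_eq_mul, mul_one] at h
  exact_mod_cast h

/-- The law of one coefficient. -/
theorem k_one_law (h : R.Valid r x Rm κ) (a : R.V) {v : ℤ} (hv : v ∈ Icc (R.klo a) (R.khi a)) :
    R.ψ a v ≤ ((R.ϱ : ℝ) ^ 3) ^ 2 * Pr (Bb R.m) (fun w =>
      (if R.ker a then blockS R.tabK R.G (R.ℓ a) (R.m ^ 7) R.m w else 0) = v) ∧
    Pr (Bb R.m) (fun w => (if R.ker a then blockS R.tabK R.G (R.ℓ a) (R.m ^ 7) R.m w else 0) = v)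
      ≤ ((R.ϱ : ℝ) ^ 3) ^ 2 * R.ψ a v := by
  have hm := k_m_big h
  have hmR : (10000 : ℝ) ≤ R.m := by exact_mod_cast (by omega : 10000 ≤ R.m)
  have hϱ := k_ϱ_cast R
  have hϱ1 : (1 : ℝ) ≤ R.ϱ := by rw [hϱ]; exact le_add_of_nonneg_right (by positivity)
  by_cases ha : R.ker a
  · have hG : 0 < R.G := by
      have : 0 < R.m := by omega
      unfold G; positivity
    simp only [ψ, klo, khi, Jw, if_pos ha] at hv ⊢
    have hS : (0 : ℝ) < R.tabK.sum := by
      exact_mod_cast List.sum_pos _ (k_tabK_pos R)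
        (List.length_pos_iff.1 (by rw [k_length_tabK]; omega))
    have hℓ : (0 : ℝ) < R.ℓ a := by exact_mod_cast R.ℓ_pos a
    refine k_ratio (A := 1 / (2 * R.tabK.sum * R.ℓ a)) (by positivity)
      (s := fun v => (Real.cosh (v * R.hh a))⁻¹) (fun v => inv_pos.2 (Real.cosh_pos _))
      (k_sum_Pr _ fun u _ => ?_) (fun v hv => ?_) hv
    · have := blockS_mem hG (k_length_tabK R) (R.ℓ_pos a) (R.m ^ 7) R.m u
      rw [mem_Icc]
      push_cast
      exact this
    · rw [mem_Icc] at hv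
      push_cast at hv
      have hℓ' : (0 : ℤ) < R.ℓ a := by exact_mod_cast R.ℓ_pos a
      have hq1 : -(R.G : ℤ) ≤ v / R.ℓ a := Int.le_ediv_of_mul_le hℓ' (by linarith [hv.1])
      have hq2 : v / R.ℓ a < R.G := Int.ediv_lt_of_lt_mul hℓ' (by linarith [hv.2])
      have key : |Pr (Bb R.m) (fun u => blockS R.tabK R.G (R.ℓ a) (R.m ^ 7) R.m u = v) -
          (R.tabK.getD (v / R.ℓ a + R.G).toNat 0 : ℝ) / (R.tabK.sum : ℝ) / R.ℓ a| ≤
          1 / 2 ^ R.m ^ 7 / R.ℓ a := by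
        have := blockS_law (k_tabK_pos R) (k_length_tabK R) (h.lg_le a) (k := R.m ^ 7)
          (n := Bb R.m) le_rfl (v := v) hv.1 hv.2
        simpa [ℓ] using this
      rw [k_tabK_getD R hq1 hq2] at key
      obtain ⟨hL0, hL1⟩ := h.log_ϱ
      have hL : 0 ≤ Real.log R.ϱ := le_trans (by positivity) hL0
      set L := Real.log R.ϱ with hLdef
      have heL : Real.exp L = R.ϱ := Real.exp_log (by linarith)
      set q := v / R.ℓ a with hq
      have hd : |(v : ℝ) * R.hh a - q * L| ≤ L := by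
        have h1 := Int.emod_nonneg v hℓ'.ne'
        have h2 := Int.emod_lt_of_pos v hℓ'
        have h3 := Int.mul_ediv_add_emod v (R.ℓ a)
        have h4 : (v : ℝ) = R.ℓ a * q + ((v % R.ℓ a : ℤ) : ℝ) := by exact_mod_cast h3.symm
        have h1' : (0 : ℝ) ≤ ((v % R.ℓ a : ℤ) : ℝ) := by exact_mod_cast h1
        have h2' : ((v % R.ℓ a : ℤ) : ℝ) ≤ R.ℓ a := by exact_mod_cast h2.le
        have h5 : (v : ℝ) * R.hh a - q * L = ((v % R.ℓ a : ℤ) : ℝ) / R.ℓ a * L := by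
          rw [hh, ← hLdef]
          nth_rewrite 1 [h4]
          field_simp
          ring
        rw [h5, abs_of_nonneg (by positivity)]
        exact mul_le_of_le_one_left hL (div_le_one_of_le₀ h2' hℓ.le)
      have c1 := k_cosh_le hd
      have c2 := k_cosh_le (x := q * L) (y := v * R.hh a) (L := L) (by rwa [abs_sub_comm])
      rw [heL] at c1 c2
      have c3 : Real.cosh (q * L) ≤ Real.exp ((R.m : ℝ) ^ 6) := by
        have := k_cosh_le (x := q * L) (y := 0) (L := (R.m : ℝ) ^ 6) (by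
          rw [sub_zero, abs_mul, abs_of_nonneg hL]
          have h1 : |(q : ℝ)| ≤ (R.m : ℝ) ^ 7 := by
            have : |q| ≤ (R.G : ℤ) := abs_le.2 ⟨hq1, hq2.le⟩
            unfold G at this
            exact_mod_cast this
          calc |(q : ℝ)| * L ≤ (R.m : ℝ) ^ 7 * (1 / R.m) := by gcongr
            _ = _ := by field_simp)
        simpa using this
      have hc1 := Real.cosh_pos (q * L)
      have hc2 := Real.cosh_pos (v * R.hh a)
      have hSle : (R.tabK.sum : ℝ) ≤ 2 * (R.m : ℝ) ^ 7 := by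
        have := k_tabK_sum_le R
        unfold G at this
        exact_mod_cast this
      have herr : (1 : ℝ) / 2 ^ R.m ^ 7 ≤ 1 / R.m * ((Real.cosh (q * L))⁻¹ / 2 / R.tabK.sum) := by
        have h1 := k_num1 (m := R.m) (by omega)
        have e : 1 / (R.m : ℝ) * ((Real.cosh (q * L))⁻¹ / 2 / R.tabK.sum) =
            1 / (R.m * Real.cosh (q * L) * 2 * R.tabK.sum) := by field_simp
        rw [e]
        refine one_div_le_one_div_of_le (by positivity) (le_trans ?_ h1)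
        calc (R.m : ℝ) * Real.cosh (q * L) * 2 * R.tabK.sum
            ≤ R.m * Real.exp ((R.m : ℝ) ^ 6) * 2 * (2 * (R.m : ℝ) ^ 7) := by gcongr
          _ = _ := by ring
      set P := (Real.cosh (q * L))⁻¹ / 2 / R.tabK.sum / R.ℓ a with hP
      have hP0 : 0 < P := by positivity
      have herr' : (1 : ℝ) / 2 ^ R.m ^ 7 / R.ℓ a ≤ 1 / R.m * P := by
        rw [hP, ← mul_div_assoc]
        gcongr
      obtain ⟨k1, k2⟩ := abs_le.1 (key.trans herr')
      have s1 : 1 / (2 * (R.tabK.sum : ℝ) * R.ℓ a) * (Real.cosh (v * R.hh a))⁻¹ ≤ R.ϱ * P := by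
        rw [hP]
        have : (Real.cosh (v * R.hh a))⁻¹ ≤ R.ϱ * (Real.cosh (q * L))⁻¹ := by
          rw [← div_eq_mul_inv, inv_eq_one_div, div_le_div_iff₀ hc2 hc1]
          linarith
        calc _ ≤ 1 / (2 * (R.tabK.sum : ℝ) * R.ℓ a) * (R.ϱ * (Real.cosh (q * L))⁻¹) := by gcongr
          _ = _ := by field_simp
      have s2 : P ≤ R.ϱ * (1 / (2 * (R.tabK.sum : ℝ) * R.ℓ a) * (Real.cosh (v * R.hh a))⁻¹) := by
        rw [hP]
        have : (Real.cosh (q * L))⁻¹ ≤ R.ϱ * (Real.cosh (v * R.hh a))⁻¹ := by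
          rw [← div_eq_mul_inv, inv_eq_one_div, div_le_div_iff₀ hc1 hc2]
          linarith
        calc _ ≤ (R.ϱ * (Real.cosh (v * R.hh a))⁻¹) / 2 / R.tabK.sum / R.ℓ a := by gcongr
          _ = _ := by field_simp
      set π := Pr (Bb R.m) (fun u => blockS R.tabK R.G (R.ℓ a) (R.m ^ 7) R.m u = v)
      set As := 1 / (2 * (R.tabK.sum : ℝ) * R.ℓ a) * (Real.cosh (v * R.hh a))⁻¹
      have hAs : 0 ≤ As := by positivity
      have hx0 : (0 : ℝ) ≤ 1 / R.m := by positivity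
      have hx1 : (1 : ℝ) / R.m ≤ 1 / 2 := one_div_le_one_div_of_le (by norm_num) (by linarith)
      constructor
      · have h1 : (1 - 1 / R.m) * P ≤ π := by linarith
        have h2 : (1 : ℝ) ≤ R.ϱ ^ 2 * (1 - 1 / R.m) := by
          rw [hϱ]
          generalize (1 : ℝ) / R.m = y at hx0 hx1
          nlinarith [mul_nonneg hx0 hx0, mul_nonneg hx0 (mul_nonneg hx0 hx0)]
        calc As ≤ R.ϱ * P := s1
          _ ≤ R.ϱ * (R.ϱ ^ 2 * (1 - 1 / R.m) * P) := by
            gcongr; exact le_mul_of_one_le_left hP0.le h2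
          _ = R.ϱ ^ 3 * ((1 - 1 / R.m) * P) := by ring
          _ ≤ _ := by gcongr
      · calc π ≤ R.ϱ * P := by rw [hϱ]; linarith
          _ ≤ R.ϱ * (R.ϱ * As) := by gcongr
          _ = R.ϱ ^ 2 * As := by ring
          _ ≤ R.ϱ ^ 3 * As := by gcongr; norm_num
  · simp only [ψ, klo, khi, Jw, if_neg ha] at hv ⊢
    have hv0 : v = 0 := by simpa using hv
    subst hv0
    have h1 : (1 : ℝ) ≤ ((R.ϱ : ℝ) ^ 3) ^ 2 := one_le_pow₀ (one_le_pow₀ hϱ1)
    simpa [Pr, ind] using h1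

theorem k_idx_lt (a : R.V) : R.idx a < 2 * R.n := by
  have := a.2.2
  unfold idx; split_ifs <;> omega

theorem k_idx_bij (R : Raw) :
    Function.Bijective fun a : R.V => (⟨R.idx a, k_idx_lt a⟩ : Fin (2 * R.n)) := by
  refine (Fintype.bijective_iff_injective_and_card _).2 ⟨?_, by simp⟩
  rintro ⟨s, i⟩ ⟨s', i'⟩ e
  have e' : R.idx (s, i) = R.idx (s', i') := congrArg Fin.val e
  have := i.2
  have := i'.2
  cases s <;> cases s' <;> simp [idx] at e' ⊢ <;> omega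

theorem k_ind_forall {ι : Type} [Fintype ι] (p : ι → Prop) : ind (∀ i, p i) = ∏ i, ind (p i) := by
  by_cases h : ∀ i, p i
  · rw [ind_true h]
    exact (prod_eq_one fun i _ => ind_true (h i)).symm
  · rw [ind_false h]
    obtain ⟨i, hi⟩ := not_forall.1 h
    exact (prod_eq_zero (mem_univ i) (ind_false hi)).symm

theorem k_Pr_dec (R : Raw) (ξ : R.V → ℤ) : Pr (Bξ R.n R.m) (fun u => R.dec u = ξ) =
    ∏ a, Pr (Bb R.m) (fun w =>
      (if R.ker a then blockS R.tabK R.G (R.ℓ a) (R.m ^ 7) R.m w else 0) = ξ a) := by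
  set e := Equiv.ofBijective _ (k_idx_bij R) with he
  set F : R.V → List Bool → ℝ := fun a w =>
    ind ((if R.ker a then blockS R.tabK R.G (R.ℓ a) (R.m ^ 7) R.m w else 0) = ξ a) with hF
  have := Ex_prod_blk (B := Bb R.m) (t := 2 * R.n) (n := Bξ R.n R.m) le_rfl fun i => F (e.symm i)
  rw [← e.prod_comp] at this
  simp only [Equiv.symm_apply_apply] at this
  refine Eq.trans ?_ this
  refine Ex_congr fun u _ => ?_
  rw [← e.prod_comp]
  simp only [Equiv.symm_apply_apply, funext_iff, k_ind_forall]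
  rfl

theorem k_pow_le_two (h : R.Valid r x Rm κ) : ∏ _a : R.V, ((R.ϱ : ℝ) ^ 3) ^ 2 ≤ 2 := by
  have hm : (10000 : ℝ) * (R.n + 2) ≤ R.m := by exact_mod_cast k_m_big h
  have hn : (0 : ℝ) ≤ R.n := Nat.cast_nonneg _
  have hϱ : (0 : ℝ) < R.ϱ := by exact_mod_cast k_ϱ_pos R
  rw [prod_const, ← pow_mul, ← pow_mul, ← Real.exp_log hϱ, ← Real.exp_nat_mul]
  have h1 : ((3 * (2 * (univ : Finset R.V).card) : ℕ) : ℝ) * Real.log R.ϱ ≤ 1 / 2 := by
    have e : ((3 * (2 * (univ : Finset R.V).card) : ℕ) : ℝ) = 12 * R.n := by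
      simp; ring
    rw [e]
    calc 12 * (R.n : ℝ) * Real.log R.ϱ ≤ 12 * R.n * (1 / R.m) := by gcongr; exact h.log_ϱ.2
      _ ≤ 1 / 2 := by
        rw [mul_one_div, div_le_iff₀ (by linarith)]
        linarith
  refine (Real.exp_le_exp.2 h1).trans ?_
  have h2 : Real.exp (1 / 2) ^ 2 ≤ 2 ^ 2 := by
    rw [← Real.exp_nat_mul]
    norm_num
    linarith [Real.exp_one_lt_three]
  exact (pow_le_pow_iff_left₀ (Real.exp_pos _).le (by norm_num) (by norm_num)).1 h2

theorem k_φ_nonneg (h : R.Valid r x Rm κ) (j : ℕ) (z : R.V → ℤ) : 0 ≤ R.φ r j z :=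
  ((h.φ_lc j).1 z).le

theorem k_negl' (h : R.Valid r x Rm κ) (j : ℕ) (e d : R.E) :
    (box R.E R.lo R.hi).card * R.thr' ≤ R.N r j (ev d - ev e) := by
  refine le_trans ?_ (h.negl j e d)
  have h1 : (1 : ℝ) ≤ 2 ^ R.m ^ 4 := one_le_pow₀ one_le_two
  have h2 : 0 < R.thr := by unfold thr; positivity
  rw [mul_assoc, thr']
  gcongr
  exact (div_le_self h2.le h1).trans (le_mul_of_one_le_right h2.le h1)

theorem k_cap_le' (h : R.Valid r x Rm κ) : R.cap ≤ R.thr' :=
  (le_mul_of_one_le_right h.cap_le.1.le (one_le_pow₀ one_le_two)).trans h.cap_le.2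

theorem k_shift_sum {E : Type} [AddGroup E] [DecidableEq E] {B : Finset E} {f g : E → ℝ} {c : E}
    {K θ : ℝ} (hK : 0 ≤ K) (hθ : 0 ≤ θ) (hg : ∀ y, 0 ≤ g y)
    (h : ∀ y ∈ B, θ ≤ f y → y + c ∈ B ∧ f y ≤ K * g (y + c)) :
    ∑ y ∈ B, f y ≤ K * ∑ y ∈ B, g y + B.card * θ := by
  rw [← sum_filter_add_sum_filter_not B fun y => θ ≤ f y]
  refine add_le_add ?_ ?_
  · calc _ ≤ ∑ y ∈ B.filter fun y => θ ≤ f y, K * g (y + c) :=
          sum_le_sum fun y hy => (h y (mem_filter.1 hy).1 (mem_filter.1 hy).2).2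
      _ = K * ∑ y ∈ (B.filter fun y => θ ≤ f y).image (· + c), g y := by
          rw [sum_image fun a _ b _ e => add_right_cancel e, mul_sum]
      _ ≤ _ := by
          gcongr
          · exact fun y _ _ => hg y
          · intro y hy
            obtain ⟨y', hy', rfl⟩ := mem_image.1 hy
            exact (h y' (mem_filter.1 hy').1 (mem_filter.1 hy').2).1
  · calc _ ≤ (B.filter fun y => ¬ θ ≤ f y).card • θ :=
          sum_le_card_nsmul _ _ _ fun y hy => (not_le.1 (mem_filter.1 hy).2).le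
      _ ≤ _ := by
          rw [nsmul_eq_mul]
          gcongr
          exact filter_subset _ _

theorem k_mem_box (h : R.Valid r x Rm κ) {y : R.E → ℤ}
    (hy : ∀ i, |y i| ≤ 5 * (R.ℓ0 : ℤ) * R.m ^ 6 + 8 * R.n) : y ∈ box R.E R.lo R.hi := by
  have hm : (10000 : ℤ) * (R.n + 2) ≤ R.m := by exact_mod_cast k_m_big h
  have hn : (0 : ℤ) ≤ R.n := Nat.cast_nonneg _
  have hℓ : (1 : ℤ) ≤ R.ℓ0 := by
    have : 0 < R.ℓ0 := by unfold ℓ0; positivity
    exact_mod_cast this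
  have h6 : (R.m : ℤ) ≤ (R.m : ℤ) ^ 6 := le_self_pow₀ (by linarith) (by norm_num)
  have h7 : (R.m : ℤ) ≤ R.ℓ0 * (R.m : ℤ) ^ 6 := h6.trans (le_mul_of_one_le_left (by linarith) hℓ)
  have h8 : 6 * (R.ℓ0 * (R.m : ℤ) ^ 6) ≤ R.m * (R.ℓ0 * (R.m : ℤ) ^ 6) := by
    gcongr; linarith
  have h9 : (R.ℓ0 : ℤ) * R.G = R.m * (R.ℓ0 * (R.m : ℤ) ^ 6) := by
    unfold G; push_cast; ring
  refine Fintype.mem_piFinset.2 fun i => mem_Icc.2 ?_
  obtain ⟨h1, h2⟩ := abs_le.1 (hy i)
  unfold lo hi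
  constructor <;> linarith

end KernAux

open KernAux

theorem Valid.dec_mem (h : R.Valid r x Rm κ) (u : List Bool) : R.dec u ∈ R.kbox := by
  refine Fintype.mem_piFinset.2 fun a => mem_Icc.2 ?_
  have hm := k_m_big h
  by_cases ha : R.ker a
  · have hG : 0 < R.G := by
      have : 0 < R.m := by omega
      unfold G; positivity
    simp only [dec, klo, khi, Jw, if_pos ha]
    push_cast
    exact blockS_mem hG (k_length_tabK R) (R.ℓ_pos a) _ _ _
  · simp [dec, klo, khi, Jw, ha]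

/-- The law of the decoded seed is within a factor two of the ideal kernel. -/
theorem Valid.dec_law (h : R.Valid r x Rm κ) {ξ : R.V → ℤ} (hξ : ξ ∈ R.kbox) :
    (∏ a, R.ψ a (ξ a)) / 2 ≤ Pr (Bξ R.n R.m) (fun u => R.dec u = ξ) ∧
      Pr (Bξ R.n R.m) (fun u => R.dec u = ξ) ≤ 2 * ∏ a, R.ψ a (ξ a) := by
  have h1 := fun a => k_one_law h a (Fintype.mem_piFinset.1 hξ a)
  have h2 := k_pow_le_two h
  rw [k_Pr_dec]
  constructor
  · rw [div_le_iff₀ two_pos, mul_comm]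
    refine (prod_le_prod (fun a _ => (h.ψ_pos a _).le) fun a _ => (h1 a).1).trans ?_
    rw [prod_mul_distrib]
    exact mul_le_mul_of_nonneg_right h2 (prod_nonneg fun a _ => Pr_nonneg _ _)
  · refine (prod_le_prod (fun a _ => Pr_nonneg _ _) fun a _ => (h1 a).2).trans ?_
    rw [prod_mul_distrib]
    exact mul_le_mul_of_nonneg_right h2 (prod_nonneg fun a _ => (h.ψ_pos a _).le)

theorem Valid.φ_le_ph (h : R.Valid r x Rm κ) (j : ℕ) (z : R.V → ℤ) :
    R.φ r j z ≤ 2 * R.ph r j z := by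
  rw [ph, Ex_law R.kbox (fun u _ => h.dec_mem u) fun ξ => (R.hw j (DD r (z - R.sh ξ)) : ℝ), φ,
    mul_sum]
  refine sum_le_sum fun ξ hξ => ?_
  have h1 := (h.dec_law hξ).1
  have h2 := (h.hw_bounds j (DD_nonneg h.sub (z - R.sh ξ))).1
  rw [← mul_assoc]
  exact mul_le_mul (by linarith) h2 (Real.exp_pos _).le
    (mul_nonneg zero_le_two (Pr_nonneg _ _))

theorem Valid.ph_le (h : R.Valid r x Rm κ) (j : ℕ) (z : R.V → ℤ) :
    R.ph r j z ≤ 4 * R.φ r j z + R.cap := by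
  rw [ph, Ex_law R.kbox (fun u _ => h.dec_mem u) fun ξ => (R.hw j (DD r (z - R.sh ξ)) : ℝ), φ,
    mul_sum]
  have e : R.cap = ∑ ξ ∈ R.kbox, Pr (Bξ R.n R.m) (fun u => R.dec u = ξ) * R.cap := by
    rw [← sum_mul, k_sum_Pr R.kbox fun u _ => h.dec_mem u, one_mul]
  rw [e, ← sum_add_distrib]
  refine sum_le_sum fun ξ hξ => ?_
  have h1 := (h.dec_law hξ).2
  have h2 := (h.hw_bounds j (DD_nonneg h.sub (z - R.sh ξ))).2
  have h3 : (R.ϱ : ℝ) ≤ 2 := by
    have hm : (1 : ℝ) ≤ R.m := by exact_mod_cast (by have := k_m_big h; omega : 1 ≤ R.m)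
    rw [k_ϱ_cast]
    have := div_le_one_of_le₀ hm (by linarith)
    linarith
  have h4 := Pr_nonneg (Bξ R.n R.m) (fun u => R.dec u = ξ)
  have h5 := (Real.exp_pos (-R.tt j * (DD r (z - R.sh ξ) : ℝ))).le
  calc _ ≤ Pr (Bξ R.n R.m) (fun u => R.dec u = ξ) *
        (2 * Real.exp (-R.tt j * (DD r (z - R.sh ξ) : ℝ)) + R.cap) := by
        gcongr
        exact h2.trans (by gcongr)
    _ ≤ _ := by nlinarith [mul_le_mul_of_nonneg_right h1 h5]

theorem Valid.Zz_bounds (h : R.Valid r x Rm κ) (j : ℕ) (e d : R.E) :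
    R.N r j (ev d - ev e) ≤ 2 * R.Zz r j (ev d - ev e) ∧
      R.Zz r j (ev d - ev e) ≤ 5 * R.N r j (ev d - ev e) := by
  constructor
  · rw [N, NN, Zz, mul_sum]
    exact sum_le_sum fun y _ => h.φ_le_ph j _
  · have h1 : R.Zz r j (ev d - ev e) ≤
        4 * R.N r j (ev d - ev e) + (box R.E R.lo R.hi).card * R.cap := by
      rw [N, NN, Zz, mul_sum, ← nsmul_eq_mul, ← sum_const, ← sum_add_distrib]
      exact sum_le_sum fun y _ => h.ph_le j _
    have h2 := k_negl' h j e d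
    have h3 := mul_le_mul_of_nonneg_left (k_cap_le' h)
      (Nat.cast_nonneg (α := ℝ) (box R.E R.lo R.hi).card)
    linarith

/-- Good tables in terms of the ideal masses. -/
theorem Valid.tab_bounds (h : R.Valid r x Rm κ) {j : ℕ} {t : List ℚ} (ht : R.Good r j t)
    {e d : R.E} (he : R.rt e = e) (hd : R.rt d = d) :
    R.N r j 0 ≤ 40 * ((t.getD (R.cn e d) 0 : ℝ) * R.N r j (ev d - ev e)) ∧
      (t.getD (R.cn e d) 0 : ℝ) * R.N r j (ev d - ev e) ≤ 40 * R.N r j 0 := by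
  have hc : R.cn e d ∈ R.act :=
    mem_image.2 ⟨(e, d), mem_filter.2 ⟨mem_univ _, he, hd⟩, rfl⟩
  obtain ⟨h1, h2⟩ := ht.2 _ hc
  have e0 : (R.ann (DD r)).Zc R.Ω j 0 = 2 ^ Bξ R.n R.m * R.Zz r j 0 := by
    have := Zc_eq (r := r) he he j
    rwa [sub_self, show R.cn e e = 0 by simp [cn]] at this
  rw [e0, Zc_eq he hd] at h1 h2
  have hB : (0 : ℝ) < 2 ^ Bξ R.n R.m := by positivity
  have h3 : R.Zz r j 0 ≤ 4 * ((t.getD (R.cn e d) 0 : ℝ) * R.Zz r j (ev d - ev e)) :=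
    le_of_mul_le_mul_left (by linarith) hB
  have h4 : (t.getD (R.cn e d) 0 : ℝ) * R.Zz r j (ev d - ev e) ≤ 4 * R.Zz r j 0 :=
    le_of_mul_le_mul_left (by linarith) hB
  obtain ⟨h5, h6⟩ := h.Zz_bounds j e d
  obtain ⟨h7, h8⟩ := h.Zz_bounds j e e
  rw [sub_self] at h7 h8
  have h9 : 0 < R.N r j 0 := lt_of_lt_of_le (by positivity) (h.N_zero j)
  have h10 : 0 ≤ R.N r j (ev d - ev e) := sum_nonneg fun y _ => k_φ_nonneg h j _
  have h11 : (0 : ℝ) ≤ (t.getD (R.cn e d) 0 : ℝ) := by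
    by_contra hneg
    have := mul_nonpos_of_nonpos_of_nonneg (not_le.1 hneg).le
      (by linarith : 0 ≤ R.Zz r j (ev d - ev e))
    linarith
  have h12 := mul_le_mul_of_nonneg_left h5 h11
  have h13 := mul_le_mul_of_nonneg_left h6 h11
  constructor <;> linarith

/-- Moving the defects to the roots changes the masses by a bounded factor. -/
theorem Valid.N_root (h : R.Valid r x Rm κ) (j : ℕ) (e d : R.E) :
    R.N r j (ev (R.rt d) - ev (R.rt e)) ≤ 3 * R.N r j (ev d - ev e) := by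
  have hθ : 0 ≤ R.thr' := h.cap_le.1.le.trans (k_cap_le' h)
  set k := R.Pf e - R.Pf d with hk
  have hk2 : ∀ a, |k a| ≤ 2 := fun a =>
    (abs_sub _ _).trans (by linarith [h.P_abs e a, h.P_abs d a])
  have hsh : ∀ a, |R.sh k a| ≤ 8 * R.n := by
    intro a
    have h1 := (single_le_sum (f := fun a => |R.sh k a|) (fun a _ => abs_nonneg _)
      (mem_univ a)).trans (R.sum_abs_sh k)
    have h2 := sum_le_card_nsmul univ _ _ fun a _ => hk2 a
    simp only [card_univ, Fintype.card_prod, Fintype.card_bool, Fintype.card_fin, nsmul_eq_mul,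
      Nat.cast_mul, Nat.cast_ofNat] at h2
    linarith
  have hps : ps (R.sh k) = (ev d - ev e) - (ev (R.rt d) - ev (R.rt e)) := by
    have e1 : R.sh k = R.pth e - R.pth d := by
      simp [hk, pth, sh, shf, sub_smul, sum_sub_distrib]
    have e2 : ps (R.pth e - R.pth d) = ps (R.pth e) - ps (R.pth d) := by
      funext i; simp only [ps, Pi.sub_apply]; ring
    rw [e1, e2, h.ps_pth, h.ps_pth]
    abel
  have key := k_shift_sum (B := box R.E R.lo R.hi)
    (f := fun y => R.φ r j (lf (ev (R.rt d) - ev (R.rt e)) y))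
    (g := fun y => R.φ r j (lf (ev d - ev e) y)) (c := side (R.sh k) false) zero_le_two hθ
    (fun y => k_φ_nonneg h j _) fun y _ hy => ?_
  · have := k_negl' h j e d
    change R.N r j _ ≤ 2 * R.N r j _ + _ at key
    linarith
  · refine ⟨k_mem_box h fun i => ?_, ?_⟩
    · exact (abs_add_le _ _).trans (add_le_add (h.good_box j hy (false, i)) (hsh (false, i)))
    · have e1 : lf (ev d - ev e) (y + side (R.sh k) false) =
          lf (ev (R.rt d) - ev (R.rt e)) y + R.sh k + 0 := by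
        funext ⟨s, i⟩
        have := congrFun hps i
        cases s
        · simp [lf, side]
        · simp only [ps, Pi.sub_apply] at this
          simp only [lf, side, if_true, Pi.add_apply, Pi.sub_apply, Pi.zero_apply]
          linarith
      rw [e1]
      refine (h.φ_shift j hy (fun a ha => ?_) ?_ (by simp)).1
      · by_cases h1 : R.Pf e a = 0
        · exact h.P_ker d a fun h2 => ha (by simp [hk, h1, h2])
        · exact h.P_ker e a h1
      · have hm : (10000 : ℝ) * (R.n + 2) ≤ R.m := by exact_mod_cast k_m_big h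
        have h1 : ∀ a, |(k a : ℝ)| / R.ℓ a ≤ 2 := by
          intro a
          have h2 : (1 : ℝ) ≤ R.ℓ a := by exact_mod_cast R.ℓ_pos a
          have h3 : |(k a : ℝ)| ≤ 2 := by exact_mod_cast hk2 a
          exact (div_le_self (abs_nonneg _) h2).trans h3
        have h2 := sum_le_card_nsmul univ _ _ fun a _ => h1 a
        simp only [card_univ, Fintype.card_prod, Fintype.card_bool, Fintype.card_fin, nsmul_eq_mul,
          Nat.cast_mul, Nat.cast_ofNat] at h2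
        have hn : (0 : ℝ) ≤ R.n := Nat.cast_nonneg _
        linarith

theorem Valid.bdry (h : R.Valid r x Rm κ) (j : ℕ) (e p : R.E) :
    ∑ y ∈ box R.E R.lo R.hi, R.φ r j (lf (ev e) y - ev (false, p)) ≤
      2 * R.N r j (ev e - ev p) := by
  have hθ : 0 ≤ R.thr' := h.cap_le.1.le.trans (k_cap_le' h)
  have e1 : ∀ y : R.E → ℤ, lf (ev e) y - ev (false, p) = lf (ev e - ev p) (y + -ev p) := by
    intro y
    rw [sub_eq_iff_eq_add, lf_add_false]
    simp
  have key := k_shift_sum (B := box R.E R.lo R.hi)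
    (f := fun y => R.φ r j (lf (ev e) y - ev (false, p)))
    (g := fun y => R.φ r j (lf (ev e - ev p) y)) (c := -ev p) zero_le_one hθ
    (fun y => k_φ_nonneg h j _) fun y _ hy => ?_
  · have := k_negl' h j p e
    change _ ≤ 1 * R.N r j _ + _ at key
    linarith
  · refine ⟨k_mem_box h fun i => ?_, by rw [one_mul, e1]⟩
    have := h.good_box j hy (false, i)
    rw [e1] at this
    exact le_add_of_le_of_nonneg this (by positivity)

end Crest.Agent.R302.Raw
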