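import Crest.Agent.R302.EDefs
import Crest.Agent.R302.Kern

/-!
# Row 302: linear algebra of the normal form and of the smoothing directions
-/

set_option autoImplicit false

namespace Crest.Agent.R302

open Finset

namespace EnAux

section
variable {ι : Type} [Fintype ι] [DecidableEq ι]

omit [Fintype ι] [DecidableEq ι] in
theorem ps_add (z w : Bool × ι → ℤ) : ps (z + w) = ps z + ps w := by
  funext i; simp only [ps, Pi.add_apply]; ring

omit [Fintype ι] [DecidableEq ι] in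
theorem ps_sub (z w : Bool × ι → ℤ) : ps (z - w) = ps z - ps w := by
  funext i; simp only [ps, Pi.sub_apply]; ring

omit [Fintype ι] [DecidableEq ι] in
theorem ps_zero : ps (0 : Bool × ι → ℤ) = 0 := by
  funext i; simp [ps]

omit [Fintype ι] [DecidableEq ι] in
theorem ps_smul (c : ℤ) (z : Bool × ι → ℤ) : ps (c • z) = c • ps z := by
  funext i; simp only [ps, Pi.smul_apply, smul_eq_mul]; ring

omit [Fintype ι] [DecidableEq ι] in
theorem ps_sum_zero {K : Type} (s : Finset K) (c : K → ℤ) (f : K → Bool × ι → ℤ)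
    (hf : ∀ k, ps (f k) = 0) : ps (∑ k ∈ s, c k • f k) = 0 := by
  classical
  induction s using Finset.induction_on with
  | empty => simp [ps_zero]
  | insert a s ha ih => rw [sum_insert ha, ps_add, ih, ps_smul, hf, smul_zero, add_zero]

omit [Fintype ι] in
theorem ps_ev (a : Bool × ι) : ps (ev a) = ev a.2 := by
  obtain ⟨s, d⟩ := a
  funext i
  cases s <;> simp [ps, ev, Pi.single_apply]

theorem sum_ev_smul {V W : Type} [Fintype V] [DecidableEq V] [AddCommGroup W] (a : V)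
    (f : V → W) : ∑ d, (ev a : V → ℤ) d • f d = f a := by
  rw [sum_eq_single a (fun b _ hb => by simp [ev, hb]) (by simp)]
  simp [ev]

theorem sum_abs_ev {V : Type} [Fintype V] [DecidableEq V] (a : V) :
    ∑ d, |(ev a : V → ℤ) d| = 1 := by
  rw [sum_eq_single a (fun b _ hb => by simp [ev, hb]) (by simp)]
  simp [ev]

omit [Fintype ι] [DecidableEq ι] in
theorem lf_injective (t : ι → ℤ) : Function.Injective (lf t) := by
  intro x y h
  funext i
  simpa [lf] using congrFun h (false, i)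

/-- a state without defects is a combination of coordinate moves -/
theorem eq_sum_of_ps {w : Bool × ι → ℤ} (hw : ps w = 0) :
    w = ∑ d, w (false, d) • (ev (false, d) - ev (true, d)) := by
  funext ⟨s, i⟩
  have h := congrFun hw i
  simp only [ps, Pi.zero_apply] at h
  rw [Finset.sum_apply, sum_eq_single i]
  · cases s
    · simp [ev]
    · simp [ev]; omega
  · intro d _ hd
    cases s <;> simp [ev, hd.symm]
  · simp

omit [DecidableEq ι] in
theorem two_mul_sum_of_ps {w : Bool × ι → ℤ} (hw : ps w = 0) :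
    2 * ∑ d, |w (false, d)| = ∑ a, |w a| := by
  rw [Fintype.sum_prod_type, Fintype.sum_bool, two_mul]
  congr 1
  refine sum_congr rfl fun i _ => ?_
  have h := congrFun hw i
  simp only [ps, Pi.zero_apply] at h
  rw [show w (true, i) = -w (false, i) by omega, abs_neg]

theorem l1_add {V : Type} [Fintype V] (z w : V → ℤ) :
    ∑ a, |(z + w) a| ≤ ∑ a, |z a| + ∑ a, |w a| := by
  rw [← sum_add_distrib]
  exact sum_le_sum fun a _ => abs_add_le _ _

theorem l1_sub {V : Type} [Fintype V] (z w : V → ℤ) :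
    ∑ a, |(z - w) a| ≤ ∑ a, |z a| + ∑ a, |w a| := by
  rw [← sum_add_distrib]
  exact sum_le_sum fun a _ => abs_sub _ _

theorem l1_sum {V K : Type} [Fintype V] (s : Finset K) (c : K → ℤ) (f : K → V → ℤ) :
    ∑ a, |(∑ k ∈ s, c k • f k) a| ≤ ∑ k ∈ s, |c k| * ∑ a, |f k a| := by
  simp only [mul_sum]
  rw [sum_comm]
  refine sum_le_sum fun a _ => ?_
  rw [Finset.sum_apply]
  refine (abs_sum_le_sum_abs _ _).trans (le_of_eq ?_)
  exact sum_congr rfl fun k _ => by simp [abs_mul]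

end

end EnAux

namespace Raw

open EnAux

variable {R : Raw} {r : Bool → Finset R.E → ℤ} {x : Bool → R.E → ℝ} {Rm κ : ℕ} {j : ℕ}
  {t : List ℚ}

theorem En_sh_add (ξ ζ : R.V → ℤ) : R.sh (ξ + ζ) = R.sh ξ + R.sh ζ := by
  simp only [sh, shf, Pi.add_apply, add_smul, sum_add_distrib]

theorem En_sh_sub (ξ ζ : R.V → ℤ) : R.sh (ξ - ζ) = R.sh ξ - R.sh ζ := by
  simp only [sh, shf, Pi.sub_apply, sub_smul, sum_sub_distrib]

theorem En_sh_zero : R.sh 0 = 0 := by
  simp [sh, shf]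

theorem En_sh_smul (c : ℤ) (ξ : R.V → ℤ) : R.sh (c • ξ) = c • R.sh ξ := by
  simp only [sh, shf, Pi.smul_apply, smul_eq_mul, mul_smul, smul_sum]

theorem En_sh_sum {K : Type} (s : Finset K) (c : K → ℤ) (f : K → R.V → ℤ) :
    R.sh (∑ k ∈ s, c k • f k) = ∑ k ∈ s, c k • R.sh (f k) := by
  classical
  induction s using Finset.induction_on with
  | empty => simp [En_sh_zero]
  | insert a s ha ih => rw [sum_insert ha, sum_insert ha, En_sh_add, ih, En_sh_smul]

theorem En_sh_ev (b : R.V) : R.sh (ev b) = ev b - ev (R.pa b) :=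
  sum_ev_smul b fun a => ev a - ev (R.pa a)

variable (R) in
/-- the correction of a defect -/
def cor (j : ℕ) (d : R.E) : R.V → ℤ := if R.hot j then R.pth d - ev (true, R.rt d) else R.pth d

theorem nf_eq (z : R.V → ℤ) : R.nf j z = z + ∑ d, ps z d • R.cor j d := rfl

theorem nf_of_ps {z : R.V → ℤ} {e d : R.E} (hps : ps z = ev d - ev e) :
    R.nf j z = z + R.cor j d - R.cor j e := by
  rw [nf_eq, hps]
  simp only [Pi.sub_apply, sub_smul, sum_sub_distrib, sum_ev_smul]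
  abel

theorem ps_lf_add (e : R.E) (y : R.E → ℤ) (a : R.V) :
    ps (lf (-ev e) y + ev a) = ev a.2 - ev e := by
  rw [ps_add, ps_lf, ps_ev]
  abel

theorem nf_lf_add (e : R.E) (y : R.E → ℤ) (a : R.V) :
    R.nf j (lf (-ev e) y + ev a) = lf (-ev e) y + (ev a + R.cor j a.2 - R.cor j e) := by
  rw [nf_of_ps (ps_lf_add e y a)]
  abel

theorem ker_of_θ {b : R.V} (hb : R.θ j ≤ R.cf b) : R.ker b :=
  le_trans (Nat.le_add_right _ _) hb

variable (R) in
/-- the coefficients of a smoothing direction along an arc -/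
def kdir (j : ℕ) (b : R.V) : R.V → ℤ :=
  if R.θ j ≤ R.cf b then ev b + R.Pf b.2 - R.Pf (R.parf b) else 0

theorem dir_inl' (a : R.V) :
    R.dir j (.inl a) = if R.θ j ≤ R.cf a then R.γ a - R.γ (R.pa a) else 0 := rfl

theorem dir_inr' (d : R.E) :
    R.dir j (.inr d) = if R.hot j then ev (false, d) - ev (true, d) else 0 := rfl

theorem len_inl' (a : R.V) : R.len j (.inl a) = if R.θ j ≤ R.cf a then R.ℓ a else 1 := rfl

theorem len_inr' (d : R.E) : R.len j (.inr d) = R.qs j := rfl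

theorem dir_inl (b : R.V) : R.dir j (.inl b) = R.sh (R.kdir j b) := by
  rw [dir_inl']
  unfold kdir
  split_ifs with h
  · rw [En_sh_sub, En_sh_add, En_sh_ev]
    simp only [γ, pth, pa]
    abel
  · rw [En_sh_zero]

theorem qs_pos (j : ℕ) : 0 < R.qs j := by
  unfold qs
  split_ifs <;> positivity

theorem len_pos (j : ℕ) (m : R.V ⊕ R.E) : 0 < R.len j m := by
  rcases m with a | d
  · rw [len_inl']
    split_ifs
    · exact R.ℓ_pos a
    · exact one_pos
  · exact qs_pos j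

theorem Valid.ps_γ (h : R.Valid r x Rm κ) (a : R.V) : ps (R.γ a) = ev (R.rt a.2) := by
  rw [γ, ps_add, ps_ev, h.ps_pth]
  abel

theorem Valid.ps_dir (h : R.Valid r x Rm κ) (m : R.V ⊕ R.E) : ps (R.dir j m) = 0 := by
  rcases m with a | d
  · rw [dir_inl']
    split_ifs with ha
    · rw [ps_sub, h.ps_γ, h.ps_γ, h.ker_rt a (ker_of_θ ha)]
      exact sub_self _
    · exact ps_zero
  · rw [dir_inr']
    split_ifs
    · rw [ps_sub, ps_ev, ps_ev, sub_self]
    · exact ps_zero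

theorem Valid.ps_cor (h : R.Valid r x Rm κ) (d : R.E) :
    ps (R.cor j d) = if R.hot j then -ev d else ev (R.rt d) - ev d := by
  unfold cor
  split_ifs
  · rw [ps_sub, h.ps_pth, ps_ev]
    abel
  · exact h.ps_pth d

theorem Valid.dir_cases (h : R.Valid r x Rm κ) (m : R.V ⊕ R.E) :
    R.dir j m = 0 ∨ ∃ a b, ∃ i ≤ R.m, R.dir j m = R.γ a - R.γ b ∧ R.len j m = 2 ^ i := by
  rcases m with a | d
  · by_cases ha : R.θ j ≤ R.cf a
    · exact Or.inr ⟨a, R.pa a, _, h.lg_le a, by simp [dir_inl', ha], by simp [len_inl', ha, ℓ]⟩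
    · exact Or.inl (by simp [dir_inl', ha])
  · by_cases hh : R.hot j
    · obtain ⟨i, hi, hq⟩ := (h.qs_le j).1
      exact Or.inr ⟨(false, d), (true, d), i, hi, by simp [dir_inr', hh, γ], hq⟩
    · exact Or.inl (by simp [dir_inr', hh])

theorem tot_ge {E : (R.V → ℤ) → ℝ} (hE : ∀ v, 0 ≤ E v) (a b : R.V) {i : ℕ} (hi : i ≤ R.m) :
    E (2 ^ i • (R.γ a - R.γ b)) + (∑ k ∈ range (2 ^ i), E (k • (R.γ a - R.γ b))) / 2 ^ i ≤
      R.tot E := by
  have h0 : ∀ (h h' : R.V) (i : ℕ), 0 ≤ E (2 ^ i • (R.γ h - R.γ h')) +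
      (∑ k ∈ range (2 ^ i), E (k • (R.γ h - R.γ h'))) / 2 ^ i := fun h h' i =>
    add_nonneg (hE _) (div_nonneg (sum_nonneg fun _ _ => hE _) (by positivity))
  unfold tot
  refine le_trans ?_ (single_le_sum (f := fun h => ∑ h', ∑ i ∈ range (R.m + 1),
    (E (2 ^ i • (R.γ h - R.γ h')) + (∑ k ∈ range (2 ^ i), E (k • (R.γ h - R.γ h'))) / 2 ^ i))
    (fun h _ => sum_nonneg fun h' _ => sum_nonneg fun i _ => h0 h h' i) (mem_univ a))
  refine le_trans ?_ (single_le_sum (f := fun h' => ∑ i ∈ range (R.m + 1),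
    (E (2 ^ i • (R.γ a - R.γ h')) + (∑ k ∈ range (2 ^ i), E (k • (R.γ a - R.γ h'))) / 2 ^ i))
    (fun h' _ => sum_nonneg fun i _ => h0 a h' i) (mem_univ b))
  exact single_le_sum (f := fun i => E (2 ^ i • (R.γ a - R.γ b)) +
    (∑ k ∈ range (2 ^ i), E (k • (R.γ a - R.γ b))) / 2 ^ i) (fun i _ => h0 a b i)
    (mem_range.2 (Nat.lt_succ_of_le hi))

theorem tot_nonneg {E : (R.V → ℤ) → ℝ} (hE : ∀ v, 0 ≤ E v) : 0 ≤ R.tot E :=
  sum_nonneg fun _ _ => sum_nonneg fun _ _ => sum_nonneg fun _ _ =>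
    add_nonneg (hE _) (div_nonneg (sum_nonneg fun _ _ => hE _) (by positivity))

theorem tot_ge_γ {E : (R.V → ℤ) → ℝ} (hE : ∀ v, 0 ≤ E v) (a b : R.V) :
    E (R.γ a - R.γ b) ≤ R.tot E := by
  have h := tot_ge hE a b (Nat.zero_le R.m)
  have h1 := hE ((0 : ℕ) • (R.γ a - R.γ b))
  simp only [pow_zero, one_smul, range_one, sum_singleton, div_one] at h
  linarith

theorem Valid.tot_ge_len (h : R.Valid r x Rm κ) {E : (R.V → ℤ) → ℝ} (hE : ∀ v, 0 ≤ E v)
    (hE0 : E 0 = 0) (m : R.V ⊕ R.E) :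
    E (R.len j m • R.dir j m) ≤ R.tot E ∧
      (∑ k ∈ range (R.len j m), E (k • R.dir j m)) / R.len j m ≤ R.tot E := by
  rcases h.dir_cases (j := j) m with h0 | ⟨a, b, i, hi, h1, h2⟩
  · simp [h0, hE0, tot_nonneg hE]
  · have h3 := tot_ge hE a b hi
    have h4 := hE (2 ^ i • (R.γ a - R.γ b))
    have h5 : 0 ≤ (∑ k ∈ range (2 ^ i), E (k • (R.γ a - R.γ b))) / 2 ^ i :=
      div_nonneg (sum_nonneg fun _ _ => hE _) (by positivity)
    rw [h1, h2]
    push_cast
    constructor <;> linarith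

theorem Valid.m_ge4 (h : R.Valid r x Rm κ) : 1000000 * (R.n + 2) ^ 4 ≤ R.m := by
  have h1 := h.m_ge
  have h2 : 3 ^ 6 ≤ (R.n + 2) ^ 6 := Nat.pow_le_pow_left (by have := h.n_pos; omega) 6
  calc 1000000 * (R.n + 2) ^ 4 ≤ 10000 * ((R.n + 2) ^ 4 * 3 ^ 6) := by omega
    _ ≤ 10000 * ((R.n + 2) ^ 4 * (R.n + 2) ^ 6) := by gcongr
    _ = 10000 * (R.n + 2) ^ 10 := by ring
    _ ≤ R.m := h1

theorem Valid.m_ge2 (h : R.Valid r x Rm κ) : 1000000 * (R.n ^ 2 + R.n + 1) ≤ R.m := by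
  refine le_trans ?_ h.m_ge4
  gcongr
  nlinarith [Nat.zero_le (R.n ^ 4), Nat.zero_le (R.n ^ 3)]

theorem Valid.N_pos (h : R.Valid r x Rm κ) (j : ℕ) (e d : R.E) : 0 < R.N r j (ev d - ev e) := by
  have h1 := h.N_zero j
  have h2 := (h.N_hole j e d).1
  have h3 : 0 < R.N r j 0 := lt_of_lt_of_le (by positivity) h1
  by_contra hc
  have := mul_nonpos_of_nonneg_of_nonpos (sq_nonneg (R.Λ j)) (not_lt.1 hc)
  linarith

theorem Valid.t_pos (h : R.Valid r x Rm κ) (ht : R.Good r j t) {e d : R.E} (he : R.rt e = e)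
    (hd : R.rt d = d) : 0 < (t.getD (R.cn e d) 0 : ℝ) := by
  have h1 := (h.tab_bounds ht he hd).1
  have h3 : 0 < R.N r j 0 := lt_of_lt_of_le (by positivity) (h.N_zero j)
  by_contra hc
  have := mul_nonpos_of_nonpos_of_nonneg (not_lt.1 hc) (h.N_pos j e d).le
  linarith

theorem Valid.kap_pos (h : R.Valid r x Rm κ) (ht : R.Good r j t) (e : R.E) (a : R.V) :
    0 < R.kap j t e a := by
  unfold kap
  split_ifs
  · exact one_pos
  · exact h.t_pos ht (h.rt_rt _) (h.rt_rt _)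

theorem Valid.tt_hot (h : R.Valid r x Rm κ) (hj : R.hot j) : R.tt j ≤ 1 / (R.m : ℝ) := by
  have h1 := (h.qs_le j).2.2 hj
  have h2 : (1 : ℝ) ≤ R.qs j := by exact_mod_cast qs_pos j
  have h3 := h.tt_nonneg j
  nlinarith

theorem Valid.abs_kdir (h : R.Valid r x Rm κ) (b g : R.V) {c : ℤ} (hc : |c| ≤ R.len j (.inl b)) :
    |c * R.kdir j b g| ≤ 3 * R.ℓ g ∧ (¬ R.ker g → R.kdir j b g = 0) := by
  unfold kdir
  split_ifs with hb
  · have hk := ker_of_θ hb
    have hl : R.len j (.inl b) = R.ℓ b := by simp [len_inl', hb]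
    rw [hl] at hc
    constructor
    · by_cases h0 : (ev b + R.Pf b.2 - R.Pf (R.parf b) : R.V → ℤ) g = 0
      · rw [h0]; simp
      · have h1 : R.cf b ≤ R.cf g := by
          by_cases hg : g = b
          · rw [hg]
          · refine h.P_mono b g hk fun e => h0 ?_
            simp [ev, hg, e]
        have h2 : (R.ℓ b : ℤ) ≤ R.ℓ g := by exact_mod_cast R.ℓ_mono h1
        have h3 : |(ev b + R.Pf b.2 - R.Pf (R.parf b) : R.V → ℤ) g| ≤ 3 := by
          have a1 := abs_le.1 (h.P_abs b.2 g)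
          have a2 := abs_le.1 (h.P_abs (R.parf b) g)
          simp only [Pi.sub_apply, Pi.add_apply, ev, Pi.single_apply]
          rw [abs_le]
          split_ifs <;> omega
        rw [abs_mul, mul_comm]
        exact mul_le_mul h3 (hc.trans h2) (abs_nonneg _) (by norm_num)
    · intro hg
      have a1 : R.Pf b.2 g = 0 := by_contra fun e => hg (h.P_ker _ _ e)
      have a2 : R.Pf (R.parf b) g = 0 := by_contra fun e => hg (h.P_ker _ _ e)
      have a3 : g ≠ b := fun e => hg (e ▸ hk)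
      simp [ev, a1, a2, a3]
  · simp

theorem Valid.ℓ_le_ℓ0 (h : R.Valid r x Rm κ) {g : R.V} (hg : R.ker g) : R.ℓ g ≤ 2 * R.ℓ0 := by
  have h1 := (h.ℓ_le hg).1
  have h2 := h.c_le g
  have h3 := h.Rm_le
  have h4 : 0 < R.m ^ 9 := Nat.pow_pos (by have := h.m_ge2; omega)
  have h5 : R.ℓ g ≤ R.ℓ g * R.m ^ 9 := Nat.le_mul_of_pos_right _ h4
  omega

/-- The displacement of `le_Pz` is moderate. -/
theorem Valid.displ (h : R.Valid r x Rm κ) {z : R.V → ℤ} {e : R.E} {a : R.V}
    (hps : ps z = ev a.2 - ev e) {s : R.V ⊕ R.E → ℤ} (hs : ∀ m, |s m| ≤ R.len j m)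
    {k : R.E → ℤ} (hk : ∑ d, |k d| ≤ 8 * R.n) :
    ∃ K v : R.V → ℤ, R.nf j z + ∑ m, s m • R.dir j m + ∑ d, k d • R.dir j (.inr d) =
        z + R.sh K + v ∧ (∀ g, K g ≠ 0 → R.ker g) ∧ (∀ g, |K g| ≤ (2 + 6 * R.n) * R.ℓ g) ∧
      (¬ R.hot j → v = 0) ∧ ∑ g, |v g| ≤ (2 + 18 * R.n) * R.qs j := by
  refine ⟨R.Pf a.2 - R.Pf e + ∑ b, s (.inl b) • R.kdir j b,
    if R.hot j then ev (true, R.rt e) - ev (true, R.rt a.2) +
      ∑ d, (s (.inr d) + k d) • (ev (false, d) - ev (true, d)) else 0, ?_, ?_, ?_, ?_, ?_⟩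
  · rw [nf_of_ps hps, Fintype.sum_sum_type, En_sh_add, En_sh_sub, En_sh_sum]
    simp only [dir_inl]
    by_cases hh : R.hot j
    · simp only [cor, dir_inr', hh, if_true, pth, add_smul, sum_add_distrib]
      abel
    · simp only [cor, dir_inr', hh, if_false, pth, smul_zero, sum_const_zero]
      abel
  · intro g hg
    by_contra hk
    refine hg ?_
    have a1 : R.Pf a.2 g = 0 := by_contra fun e => hk (h.P_ker _ _ e)
    have a2 : R.Pf e g = 0 := by_contra fun e => hk (h.P_ker _ _ e)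
    simp only [Pi.add_apply, Pi.sub_apply, a1, a2, Finset.sum_apply, Pi.smul_apply]
    rw [sum_eq_zero fun b _ => by rw [(h.abs_kdir b g (hs _)).2 hk, smul_zero]]
    rfl
  · intro g
    have a1 := abs_le.1 (h.P_abs a.2 g)
    have a2 := abs_le.1 (h.P_abs e g)
    have a3 : |∑ b, s (.inl b) * R.kdir j b g| ≤ 2 * R.n * (3 * R.ℓ g) := by
      refine (abs_sum_le_sum_abs _ _).trans ?_
      refine (sum_le_card_nsmul _ _ _ fun b _ => (h.abs_kdir b g (hs _)).1).trans (le_of_eq ?_)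
      simp
    have a4 : (1 : ℤ) ≤ R.ℓ g := by exact_mod_cast R.ℓ_pos g
    simp only [Pi.add_apply, Pi.sub_apply, Finset.sum_apply, Pi.smul_apply, smul_eq_mul]
    have a5 := abs_le.1 a3
    rw [abs_le]
    constructor <;> nlinarith
  · intro hh
    simp [hh]
  · have hq : (1 : ℤ) ≤ R.qs j := by exact_mod_cast qs_pos j
    split_ifs with hh
    · refine (l1_add _ _).trans ?_
      have a1 := l1_sub (ev ((true, R.rt e) : R.V)) (ev ((true, R.rt a.2) : R.V))
      rw [sum_abs_ev, sum_abs_ev] at a1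
      have a2 := l1_sum univ (fun d => s (.inr d) + k d)
        (fun d : R.E => (ev (false, d) - ev (true, d) : R.V → ℤ))
      have a3 : ∑ d : R.E, |s (.inr d) + k d| *
          ∑ g, |(ev (false, d) - ev (true, d) : R.V → ℤ) g| ≤
          ∑ d : R.E, ((R.qs j : ℤ) + |k d|) * 2 := by
        refine sum_le_sum fun d _ => ?_
        have b1 := l1_sub (ev ((false, d) : R.V)) (ev ((true, d) : R.V))
        rw [sum_abs_ev, sum_abs_ev] at b1
        have b2 : |s (.inr d) + k d| ≤ R.qs j + |k d| :=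
          (abs_add_le _ _).trans (add_le_add_left (hs (.inr d)) _)
        exact mul_le_mul b2 b1 (sum_nonneg fun _ _ => abs_nonneg _) (by positivity)
      rw [← sum_mul, sum_add_distrib, sum_const, card_univ, Fintype.card_fin, nsmul_eq_mul] at a3
      have hn : (0 : ℤ) ≤ R.n := by positivity
      nlinarith
    · simp only [Pi.zero_apply, abs_zero, sum_const_zero]
      positivity

end Raw

end Crest.Agent.R302
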