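import Crest.Agent.R302.LC

/-!
# Row 302: the flux bound (parabola weights) and the pairing estimate
-/

set_option autoImplicit false

namespace Crest.Agent.R302

open Finset

variable {ι : Type} [Fintype ι] [DecidableEq ι]

/-- Local regularity of `φ` at the leaf `T` along the forest `Tr`. -/
structure Reg {V : Type} [Fintype V] [DecidableEq V] (φ : (V → ℤ) → ℝ) (Tr : Tree V)
    (ρ σ y : V → ℝ) (T : V → ℤ) : Prop where
  win : ∀ h, |(∑ q ∈ Tr.S h, (T q : ℝ)) - y h| ≤ ρ h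
  comp : ∀ h, ∀ b ∈ Tr.S h, φ (T + ev h) ≤ 2 * φ (T + ev b) ∧ φ (T + ev b) ≤ 2 * φ (T + ev h)
  smooth : ∀ h, ∀ b ∈ Tr.S h, b ≠ h →
    -(φ (T - ev h + ev b + ev b) / φ (T + ev b) ^ 2 -
        2 * φ (T - ev h + ev b + ev (Tr.par b)) / (φ (T + ev b) * φ (T + ev (Tr.par b))) +
        φ (T - ev h + ev (Tr.par b) + ev (Tr.par b)) / φ (T + ev (Tr.par b)) ^ 2) ≤
      σ b ^ 2 / φ (T + ev h)

/-- Energy of `G` along the arc `(b, par b)` on the good leaves. -/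
noncomputable def EnA {V : Type} [Fintype V] [DecidableEq V] {X : Type} (φ : (V → ℤ) → ℝ)
    (Tr : Tree V) (Gd : Finset X) (T : X → V → ℤ) (κ : V → ℝ) (G : (V → ℤ) → ℝ) (b : V) : ℝ :=
  ∑ x ∈ Gd, κ b * φ (T x + ev b) * (G (T x + ev b) - G (T x + ev (Tr.par b))) ^ 2

/-- Energy of `G` between two heads on the good leaves. -/
noncomputable def EnR {V : Type} [Fintype V] [DecidableEq V] {X : Type} (φ : (V → ℤ) → ℝ)
    (Gd : Finset X) (T : X → V → ℤ) (κ : V → ℝ) (G : (V → ℤ) → ℝ) (a b : V) : ℝ :=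
  ∑ x ∈ Gd, min (κ a * φ (T x + ev a)) (κ b * φ (T x + ev b)) *
    (G (T x + ev a) - G (T x + ev b)) ^ 2

namespace FlowAux

theorem abs_leaf {W : Type} [AddCommGroup W] [Module ℝ W] (H : W →ₗ[ℝ] W →ₗ[ℝ] ℝ)
    (hs : ∀ x y, H x y = H y x) (e : W) (href : ∀ x, H x e = 0 → H x x ≤ 0)
    {u u' : W} (huu : H u e + H u' e = 0) {α : Type} (s : Finset α) (δ : α → W)
    (hδ : ∀ b ∈ s, H (δ b) e = 0) {c : ℝ} (hu : u = c • e + ∑ b ∈ s, δ b) {ω₀ ω₁ ω₂ k : ℝ}
    (h0 : 0 < ω₀) (h2 : ω₂ - 2 * ω₁ + ω₀ = -2) (hk : ω₁ ^ 2 - ω₀ * ω₂ ≤ k * ω₀) (hk0 : 0 ≤ k) :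
    ω₂ * H u u + 2 * ω₁ * H u u' + ω₀ * H u' u' ≤
      -2 * (c ^ 2 * H e e) + k * (s.card * ∑ b ∈ s, -H (δ b) (δ b)) := by
  set d := ∑ b ∈ s, δ b with hd
  have hde : H d e = 0 := by
    rw [hd, map_sum, LinearMap.sum_apply]
    exact sum_eq_zero hδ
  have hue : H u e = c * H e e := by simp [hu, hde]
  obtain ⟨d', hu'⟩ : ∃ d', u' = -c • e + d' := ⟨u' + c • e, by simp⟩
  have hde' : H d' e = 0 := by
    rw [hue, hu'] at huu
    simp only [map_add, map_smul, LinearMap.add_apply, LinearMap.smul_apply, smul_eq_mul] at huu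
    linarith
  have h1 := href (ω₁ • d + ω₀ • d') (by simp [hde, hde'])
  have h3 := href d hde
  have h4 : -H d d ≤ s.card * ∑ b ∈ s, -H (δ b) (δ b) := by
    have e1 : -H d d = ∑ b ∈ s, ∑ b' ∈ s, -H (δ b') (δ b) := by
      simp only [hd, map_sum, LinearMap.sum_apply, sum_neg_distrib]
    have e2 : ∑ b ∈ s, ∑ b' ∈ s, (-H (δ b) (δ b) + -H (δ b') (δ b')) / 2 =
        s.card * ∑ b ∈ s, -H (δ b) (δ b) := by
      simp only [← sum_div, sum_add_distrib, sum_const, nsmul_eq_mul, ← mul_sum]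
      ring
    rw [e1, ← e2]
    refine sum_le_sum fun b hb => sum_le_sum fun b' hb' => ?_
    have := href (δ b - δ b') (by simp [hδ b hb, hδ b' hb'])
    simp only [map_sub, LinearMap.sub_apply, hs (δ b) (δ b')] at this
    linarith
  rw [hu, hu']
  simp only [map_add, map_smul, LinearMap.add_apply, LinearMap.smul_apply, smul_eq_mul,
    hs e d, hs e d', hs d' d, hde, hde'] at h1 ⊢
  have h5 : ω₂ * H d d + 2 * ω₁ * H d d' + ω₀ * H d' d' ≤ k * -H d d := by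
    refine le_of_mul_le_mul_left ?_ h0
    have := mul_le_mul_of_nonneg_right hk (neg_nonneg.2 h3)
    nlinarith
  have h6 := mul_le_mul_of_nonneg_left h4 hk0
  have h7 : (ω₂ - 2 * ω₁ + ω₀) * (c ^ 2 * H e e) = -2 * (c ^ 2 * H e e) := by rw [h2]
  nlinarith

variable {V : Type} [Fintype V] [DecidableEq V]

theorem tel_fun (Tr : Tree V) {h q : V} (hq : q ∈ Tr.S h) (g : V → ℝ) :
    g q = g h + ∑ b ∈ (Tr.S h).erase h, if q ∈ Tr.S b then g b - g (Tr.par b) else 0 := by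
  let Λ : (V → ℤ) →+ ℝ :=
    { toFun := fun z => ∑ a, (z a : ℝ) * g a
      map_zero' := by simp
      map_add' := fun z z' => by simp [add_mul, sum_add_distrib] }
  have hΛ : ∀ a, Λ (ev a) = g a := fun a => by
    simp [Λ, ev, Pi.single_apply]
  have := congrArg Λ (Tr.tel h q hq)
  rwa [map_add, map_sum, hΛ, hΛ, sum_filter, sum_congr rfl fun b _ => by
    rw [map_sub, hΛ, hΛ]] at this

theorem sum_tel (Tr : Tree V) (h : V) (m g : V → ℝ) :
    ∑ q ∈ Tr.S h, m q * g q = (∑ q ∈ Tr.S h, m q) * g h +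
      ∑ b ∈ (Tr.S h).erase h, (∑ q ∈ Tr.S b, m q) * (g b - g (Tr.par b)) := by
  rw [sum_congr rfl fun q hq => by rw [tel_fun Tr hq g, mul_add, mul_sum], sum_add_distrib,
    sum_mul, sum_comm]
  congr 1
  refine sum_congr rfl fun b hb => ?_
  simp only [mul_ite, mul_zero]
  rw [← sum_filter, filter_mem_eq_inter, inter_eq_right.2 (Tr.sub h b (mem_of_mem_erase hb)),
    sum_mul]

theorem sum_roots (Tr : Tree V) (F : V → ℝ) :
    ∑ a, F a = ∑ r ∈ univ.filter fun r => Tr.rt r = r, ∑ q ∈ Tr.S r, F q := by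
  rw [← sum_fiberwise_of_maps_to (s := univ) (t := univ.filter fun r => Tr.rt r = r) (g := Tr.rt)
    fun a _ => mem_filter.2 ⟨mem_univ _, Tr.rt_rt a⟩]
  refine sum_congr rfl fun r hr => sum_congr ?_ fun _ _ => rfl
  ext q
  simp only [mem_filter, mem_univ, true_and] at hr ⊢
  exact ⟨fun h => h ▸ Tr.mem_rt q, fun h => (Tr.rt_eq r q h).trans hr⟩

theorem pairing (Tr : Tree V) (m g : V → ℝ) (hm : ∑ a, m a = 0) (c : ℝ) :
    ∑ a, m a * g a = ∑ b, (∑ q ∈ Tr.S b, m q) *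
      (g b - if Tr.rt b = b then c else g (Tr.par b)) := by
  rw [sum_roots Tr fun a => m a * g a, sum_roots Tr fun b => (∑ q ∈ Tr.S b, m q) *
    (g b - if Tr.rt b = b then c else g (Tr.par b))]
  have h0 : ∑ r ∈ univ.filter fun r => Tr.rt r = r, (∑ q ∈ Tr.S r, m q) * c = 0 := by
    rw [← sum_mul, ← sum_roots, hm, zero_mul]
  rw [← sub_zero (∑ r ∈ univ.filter fun r => Tr.rt r = r, ∑ q ∈ Tr.S r, m q * g q), ← h0,
    ← sum_sub_distrib]
  refine sum_congr rfl fun r hr => ?_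
  rw [sum_tel, ← add_sum_erase _ (fun b => (∑ q ∈ Tr.S b, m q) *
      (g b - if Tr.rt b = b then c else g (Tr.par b))) (Tr.self_mem r), if_pos (mem_filter.1 hr).2,
    sum_congr rfl (s₁ := (Tr.S r).erase r) (f := fun b => (∑ q ∈ Tr.S b, m q) *
      (g b - if Tr.rt b = b then c else g (Tr.par b))) fun b hb => by
        rw [if_neg (Tr.nonroot r b (mem_of_mem_erase hb) (ne_of_mem_erase hb))]]
  ring

theorem leaf {φ : (V → ℤ) → ℝ} (hφ : LC φ) (Tr : Tree V) {ρ σ y : V → ℝ} {T : V → ℤ}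
    (hreg : Reg φ Tr ρ σ y T) {w : V → ℝ} (hz : ∑ a, w a * φ (T + ev a) = 0) (h : V)
    (hρ : 1 ≤ ρ h) :
    ∑ a, ∑ b, w a * w b * (φ (T + ev a + ev b - ev h) *
      max 0 (9 * ρ h ^ 2 - ((∑ q ∈ Tr.S h, ((T + ev a + ev b : V → ℤ) q : ℝ)) - y h) ^ 2)) ≤
      -2 * ((∑ q ∈ Tr.S h, w q * φ (T + ev q)) ^ 2 / φ (T + ev h)) +
        13 / 2 * (Fintype.card V * ∑ b ∈ (Tr.S h).erase h,
          σ b ^ 2 * ((∑ q ∈ Tr.S b, w q * φ (T + ev q)) ^ 2 / φ (T + ev b))) := by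
  set H : (V → ℝ) →ₗ[ℝ] (V → ℝ) →ₗ[ℝ] ℝ :=
    Matrix.toBilin' (Matrix.of fun a b => φ (T - ev h + ev a + ev b)) with hH
  have Happ : ∀ x x' : V → ℝ, H x x' = ∑ a, ∑ b, x a * x' b * φ (T - ev h + ev a + ev b) :=
    fun x x' => by
      rw [hH, Matrix.toBilin'_apply]
      exact sum_congr rfl fun a _ => sum_congr rfl fun b _ => by rw [Matrix.of_apply]; ring
  have hs : ∀ x x', H x x' = H x' x := fun x x' => by
    rw [Happ, Happ, sum_comm]
    exact sum_congr rfl fun a _ => sum_congr rfl fun b _ => by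
      rw [add_right_comm (T - ev h), mul_comm (x b)]
  have Hs : ∀ a b, H (Pi.single a 1) (Pi.single b 1) = φ (T - ev h + ev a + ev b) := fun a b => by
    rw [hH, Matrix.toBilin'_single, Matrix.of_apply]
  have He : ∀ x, H x (Pi.single h 1) = ∑ a, x a * φ (T + ev a) := fun x => by
    rw [Happ]
    refine sum_congr rfl fun a _ => ?_
    rw [sum_eq_single h (fun b _ hb => by simp [hb]) (by simp)]
    rw [show T - ev h + ev a + ev h = T + ev a by abel]
    simp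
  have Hee : ∀ a, H (Pi.single a 1) (Pi.single h 1) = φ (T + ev a) := fun a => by
    rw [Hs, show T - ev h + ev a + ev h = T + ev a by abel]
  have pos := fun a => hφ.pos (T + ev a)
  set s : ℝ := (∑ q ∈ Tr.S h, (T q : ℝ)) - y h with hsdef
  have hwin : |s| ≤ ρ h := hreg.win h
  have hw := abs_le.1 hwin
  set f : V → ℝ := fun b => ∑ q ∈ Tr.S b, w q * φ (T + ev q) with hf
  set u : V → ℝ := fun a => if a ∈ Tr.S h then w a else 0 with hu
  set u' : V → ℝ := fun a => if a ∈ Tr.S h then 0 else w a with hu'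
  have key := abs_leaf H hs (Pi.single h 1)
    (fun x hx => by rw [Happ]; exact hφ.ref T h x (He x ▸ hx)) (u := u) (u' := u')
    (by
      rw [He, He, ← sum_add_distrib, ← hz]
      refine sum_congr rfl fun a _ => ?_
      by_cases ha : a ∈ Tr.S h <;> simp [hu, hu', ha])
    ((Tr.S h).erase h) (fun b => f b • ((φ (T + ev b))⁻¹ • Pi.single b 1 -
      (φ (T + ev (Tr.par b)))⁻¹ • Pi.single (Tr.par b) 1))
    (fun b _ => by
      simp only [map_smul, map_sub, LinearMap.smul_apply, LinearMap.sub_apply, Hee, smul_eq_mul,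
        inv_mul_cancel₀ (pos _).ne', sub_self, mul_zero])
    (c := f h / φ (T + ev h))
    (by
      funext a
      have := sum_tel Tr h (fun q => w q * φ (T + ev q))
        fun q => (φ (T + ev q))⁻¹ * (Pi.single q 1 : V → ℝ) a
      simp only [Pi.add_apply, Finset.sum_apply, Pi.smul_apply, Pi.sub_apply, smul_eq_mul]
      rw [div_eq_mul_inv, mul_assoc, ← this, sum_congr rfl fun q _ => by
        rw [mul_assoc, mul_inv_cancel_left₀ (pos q).ne']]
      simp [hu, Pi.single_apply])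
    (ω₀ := 9 * ρ h ^ 2 - s ^ 2) (ω₁ := 9 * ρ h ^ 2 - (s + 1) ^ 2)
    (ω₂ := 9 * ρ h ^ 2 - (s + 2) ^ 2) (k := 13 / 4) (by nlinarith) (by ring) (by nlinarith)
    (by norm_num)
  refine le_trans (le_of_eq ?_) (key.trans ?_)
  · have hsum : ∀ a b, (∑ q ∈ Tr.S h, ((T + ev a + ev b : V → ℤ) q : ℝ)) - y h =
        s + (if a ∈ Tr.S h then 1 else 0) + (if b ∈ Tr.S h then 1 else 0) := fun a b => by
      simp only [hsdef, Pi.add_apply, Int.cast_add, sum_add_distrib, ev, Pi.single_apply,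
        Int.cast_ite, Int.cast_one, Int.cast_zero, sum_ite_eq']
      ring
    have m0 : 0 ≤ 9 * ρ h ^ 2 - s ^ 2 := by nlinarith
    have m1 : 0 ≤ 9 * ρ h ^ 2 - (s + 1) ^ 2 := by nlinarith
    have m2 : 0 ≤ 9 * ρ h ^ 2 - (s + 1 + 1) ^ 2 := by nlinarith
    rw [two_mul, add_mul]
    nth_rewrite 2 [hs u u']
    simp only [Happ, mul_sum, ← sum_add_distrib]
    refine sum_congr rfl fun a _ => sum_congr rfl fun b _ => ?_
    rw [hsum, show T + ev a + ev b - ev h = T - ev h + ev a + ev b by abel]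
    by_cases ha : a ∈ Tr.S h <;> by_cases hb : b ∈ Tr.S h <;>
      simp only [hu, hu', ha, hb, if_true, if_false, add_zero, max_eq_right m0, max_eq_right m1,
        max_eq_right m2] <;> ring
  · rw [Hee]
    refine add_le_add (le_of_eq ?_) ?_
    · have := (pos h).ne'
      simp only [hf]
      field_simp
    · have h1 : ∑ b ∈ (Tr.S h).erase h, -H (f b • ((φ (T + ev b))⁻¹ • Pi.single b 1 -
          (φ (T + ev (Tr.par b)))⁻¹ • Pi.single (Tr.par b) 1)) (f b • ((φ (T + ev b))⁻¹ •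
            Pi.single b 1 - (φ (T + ev (Tr.par b)))⁻¹ • Pi.single (Tr.par b) 1)) ≤
          2 * ∑ b ∈ (Tr.S h).erase h, σ b ^ 2 * (f b ^ 2 / φ (T + ev b)) := by
        rw [mul_sum]
        refine sum_le_sum fun b hb => ?_
        have h2 := hreg.smooth h b (mem_of_mem_erase hb) (ne_of_mem_erase hb)
        have h3 : σ b ^ 2 / φ (T + ev h) ≤ 2 * (σ b ^ 2 / φ (T + ev b)) := by
          rw [← mul_div_assoc, div_le_div_iff₀ (pos h) (pos b)]
          have := mul_le_mul_of_nonneg_left (hreg.comp h b (mem_of_mem_erase hb)).2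
            (sq_nonneg (σ b))
          linarith
        have h4 := mul_le_mul_of_nonneg_left (h2.trans h3) (sq_nonneg (f b))
        refine le_trans (le_of_eq ?_) (h4.trans (le_of_eq (by ring)))
        simp only [map_smul, map_sub, LinearMap.smul_apply, LinearMap.sub_apply, Hs, smul_eq_mul,
          add_right_comm (T - ev h) (ev (Tr.par b)) (ev b)]
        ring
      have h5 : (((Tr.S h).erase h).card : ℝ) ≤ Fintype.card V := by
        exact_mod_cast card_le_univ _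
      have h6 : 0 ≤ ∑ b ∈ (Tr.S h).erase h, σ b ^ 2 * (f b ^ 2 / φ (T + ev b)) :=
        sum_nonneg fun b _ => by have := pos b; positivity
      have h7 := (mul_le_mul_of_nonneg_left h1 (Nat.cast_nonneg ((Tr.S h).erase h).card)).trans
        (mul_le_mul_of_nonneg_right h5 (by positivity))
      linarith

end FlowAux

open FlowAux

/-- The pairing of a leafwise balanced system of charges with a bounded function. -/
theorem flow {φ : (Bool × ι → ℤ) → ℝ} (hφ : LC φ) (Tr : Tree (Bool × ι)) {lo hi : ℤ} {t : ι → ℤ}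
    {w : (ι → ℤ) → Bool × ι → ℝ}
    (hz : ∀ x ∈ box ι lo hi, ∑ a, w x a * φ (lf t x + ev a) = 0) {B : ℝ} (hB0 : 0 ≤ B)
    (hB : ∀ x ∈ box ι lo hi, ∀ a, |w x a| ≤ B) {Gd : Finset (ι → ℤ)} (hGd : Gd ⊆ box ι lo hi)
    {ρ σ y κ : Bool × ι → ℝ} (hρ : ∀ h, 1 ≤ ρ h) (hσ0 : ∀ b, 0 ≤ σ b)
    (hreg : ∀ x ∈ Gd, Reg φ Tr ρ σ y (lf t x)) {Ξ : ℝ} (hΞ : 0 ≤ Ξ)
    (hσρ : ∀ b, Tr.rt b ≠ b → σ b * ρ b ≤ Ξ)
    (hσ : ∀ b, Tr.rt b ≠ b → 10 * (Fintype.card (Bool × ι) : ℝ) ^ 2 * σ b ^ 2 ≤ 1)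
    (hκ : ∀ h, 0 < κ h) (hκr : ∀ h, κ h = κ (Tr.rt h)) {J ε E : ℝ}
    (hJ : ∀ h, ∀ Ψ : (Bool × ι → ℤ) → ℝ, (∀ z, 0 ≤ Ψ z ∧ Ψ z ≤ φ (z - ev h)) →
      -QF lo hi t w Ψ ≤ κ h * J)
    (hε₁ : ∀ h, ∑ x ∈ box ι lo hi \ Gd, ∑ a, ∑ b, φ (lf t x + ev a + ev b - ev h) ≤ ε)
    (hε₂ : ∑ x ∈ box ι lo hi \ Gd, ∑ a, φ (lf t x + ev a) ≤ ε)
    (hBε : ∀ h, B ^ 2 * ε ≤ κ h * J) {G : (Bool × ι → ℤ) → ℝ} (hG : ∀ z, 0 ≤ G z ∧ G z ≤ 1)
    (hEA : ∀ b, Tr.rt b ≠ b → ρ b ^ 2 * EnA φ Tr Gd (lf t) κ G b ≤ E)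
    (hER : ∀ a b, Tr.rt a = a → Tr.rt b = b → ρ a ^ 2 * EnR φ Gd (lf t) κ G a b ≤ E) :
    |LF lo hi t w fun z => φ z * G z| ≤
      7 * (Fintype.card (Bool × ι) : ℝ) ^ 3 * (1 + Ξ) * Real.sqrt (J * E) + B * ε := by
  set v : ℝ := (Fintype.card (Bool × ι) : ℝ) with hv
  have hv0 : 0 ≤ v := Nat.cast_nonneg _
  have hv1 : ∀ _ : Bool × ι, 1 ≤ v := fun h => by
    have : 0 < Fintype.card (Bool × ι) := Fintype.card_pos_iff.2 ⟨h⟩
    rw [hv]
    exact_mod_cast this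
  have pos := fun x a => hφ.pos (lf t x + ev a)
  set f : (ι → ℤ) → Bool × ι → ℝ := fun x b => ∑ q ∈ Tr.S b, w x q * φ (lf t x + ev q) with hf
  set Φ : Bool × ι → ℝ := fun b => ∑ x ∈ Gd, f x b ^ 2 / (κ b * φ (lf t x + ev b)) with hΦ
  have hΦ0 : ∀ b, 0 ≤ Φ b := fun b => sum_nonneg fun x _ => by
    have := pos x b
    have := hκ b
    positivity
  have hΦ1 : ∀ b, ∑ x ∈ Gd, f x b ^ 2 / φ (lf t x + ev b) = κ b * Φ b := fun b => by
    rw [hΦ, mul_sum]
    refine sum_congr rfl fun x _ => ?_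
    have := (hκ b).ne'
    field_simp
  have hJ0 : ∀ _ : Bool × ι, 0 ≤ J := fun h => by
    have := hJ h (fun _ => 0) fun z => ⟨le_rfl, (hφ.pos _).le⟩
    simp only [QF, mul_zero, sum_const_zero, neg_zero] at this
    exact nonneg_of_mul_nonneg_right this (hκ h)
  set X : ℝ := ∑ b ∈ univ.filter fun b => Tr.rt b ≠ b, σ b ^ 2 * Φ b with hX
  have hX0 : 0 ≤ X := sum_nonneg fun b _ => mul_nonneg (sq_nonneg _) (hΦ0 b)
  have h1 : ∀ h, Φ h ≤ 9 * ρ h ^ 2 * J + 13 / 4 * v * X := fun h => by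
    have hρ0 : 0 < 9 * ρ h ^ 2 := by have := hρ h; positivity
    set Ψ : (Bool × ι → ℤ) → ℝ := fun z => φ (z - ev h) *
      max 0 (9 * ρ h ^ 2 - ((∑ q ∈ Tr.S h, (z q : ℝ)) - y h) ^ 2) / (9 * ρ h ^ 2) with hΨ
    have hΨ1 : ∀ z, 0 ≤ Ψ z ∧ Ψ z ≤ φ (z - ev h) := fun z => by
      have := hφ.pos (z - ev h)
      refine ⟨by positivity, ?_⟩
      rw [hΨ, div_le_iff₀ hρ0]
      exact mul_le_mul_of_nonneg_left (max_le hρ0.le (sub_le_self _ (sq_nonneg _))) this.le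
    have a1 := hJ h Ψ hΨ1
    rw [QF, ← sum_sdiff hGd] at a1
    have a2 : ∑ x ∈ box ι lo hi \ Gd, ∑ a, ∑ b, w x a * w x b * Ψ (lf t x + ev a + ev b) ≤
        κ h * J := by
      refine le_trans ?_ ((mul_le_mul_of_nonneg_left (hε₁ h) (sq_nonneg B)).trans (hBε h))
      simp only [mul_sum]
      refine sum_le_sum fun x hx => sum_le_sum fun a _ => sum_le_sum fun b _ => ?_
      have hx' := (mem_sdiff.1 hx).1
      refine mul_le_mul ((le_abs_self _).trans ?_) (hΨ1 _).2 (hΨ1 _).1 (sq_nonneg B)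
      rw [abs_mul, sq]
      exact mul_le_mul (hB x hx' a) (hB x hx' b) (abs_nonneg _) hB0
    have a3 : 9 * ρ h ^ 2 * ∑ x ∈ Gd, ∑ a, ∑ b, w x a * w x b * Ψ (lf t x + ev a + ev b) ≤
        -2 * (κ h * Φ h) + 13 / 2 * (v * (κ h * X)) := by
      have b1 : ∑ b ∈ (Tr.S h).erase h, σ b ^ 2 * (κ b * Φ b) ≤ κ h * X := by
        rw [hX, mul_sum, sum_congr rfl fun b hb => by
          rw [hκr b, Tr.rt_eq h b (mem_of_mem_erase hb), ← hκr h, mul_left_comm]]
        refine sum_le_sum_of_subset_of_nonneg (fun b hb => mem_filter.2 ⟨mem_univ _,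
          Tr.nonroot h b (mem_of_mem_erase hb) (ne_of_mem_erase hb)⟩) fun b _ _ => ?_
        have := hκ h
        have := hΦ0 b
        positivity
      calc _ = ∑ x ∈ Gd, ∑ a, ∑ b, w x a * w x b * (φ (lf t x + ev a + ev b - ev h) *
            max 0 (9 * ρ h ^ 2 - ((∑ q ∈ Tr.S h,
              ((lf t x + ev a + ev b : Bool × ι → ℤ) q : ℝ)) - y h) ^ 2)) := by
            simp only [mul_sum]
            refine sum_congr rfl fun x _ => sum_congr rfl fun a _ => sum_congr rfl fun b _ => ?_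
            simp only [hΨ]
            rw [mul_left_comm, mul_div_cancel₀ _ hρ0.ne']
        _ ≤ ∑ x ∈ Gd, (-2 * (f x h ^ 2 / φ (lf t x + ev h)) + 13 / 2 * (v *
            ∑ b ∈ (Tr.S h).erase h, σ b ^ 2 * (f x b ^ 2 / φ (lf t x + ev b)))) :=
            sum_le_sum fun x hx => leaf hφ Tr (hreg x hx) (hz x (hGd hx)) h (hρ h)
        _ = -2 * (κ h * Φ h) + 13 / 2 * (v * ∑ b ∈ (Tr.S h).erase h, σ b ^ 2 * (κ b * Φ b)) := by
            rw [sum_add_distrib, ← mul_sum, ← mul_sum, ← mul_sum, hΦ1, sum_comm]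
            simp only [← mul_sum, hΦ1]
        _ ≤ _ := by gcongr
    refine le_of_mul_le_mul_left ?_ (hκ h)
    have a4 := mul_le_mul_of_nonneg_left (show -(2 * (κ h * J)) ≤
      ∑ x ∈ Gd, ∑ a, ∑ b, w x a * w x b * Ψ (lf t x + ev a + ev b) by linarith) hρ0.le
    linarith
  have h2 : ∀ h, Φ h ≤ 44 * v ^ 2 * (1 + Ξ) ^ 2 * ρ h ^ 2 * J := fun h => by
    have hJ' := hJ0 h
    have hv' := hv1 h
    have a1 : X ≤ v * (9 * Ξ ^ 2 * J + 13 / (40 * v) * X) := by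
      refine le_trans (sum_le_sum fun b hb => ?_) ((sum_le_sum_of_subset_of_nonneg
        (f := fun _ => 9 * Ξ ^ 2 * J + 13 / (40 * v) * X) (filter_subset _ _)
        fun b _ _ => by positivity).trans (by rw [sum_const, card_univ, nsmul_eq_mul]))
      have hb' := (mem_filter.1 hb).2
      have b1 := mul_le_mul_of_nonneg_left (h1 b) (sq_nonneg (σ b))
      have b2 : (σ b * ρ b) ^ 2 ≤ Ξ ^ 2 :=
        pow_le_pow_left₀ (mul_nonneg (hσ0 b) (by linarith [hρ b])) (hσρ b hb') 2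
      have b3 := mul_le_mul_of_nonneg_right b2 hJ'
      have b4 : σ b ^ 2 * (13 / 4 * v) ≤ 13 / (40 * v) := by
        rw [le_div_iff₀ (by positivity)]
        have := hσ b hb'
        nlinarith
      have b5 := mul_le_mul_of_nonneg_right b4 hX0
      nlinarith
    have a2 : v * (13 / (40 * v) * X) = 13 / 40 * X := by field_simp
    have a3 : X ≤ 40 / 3 * (v * Ξ ^ 2 * J) := by nlinarith
    have a4 := mul_le_mul_of_nonneg_left a3 hv0
    have hρ1 : 1 ≤ ρ h ^ 2 := one_le_pow₀ (hρ h)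
    have hv2 : 1 ≤ v ^ 2 := one_le_pow₀ hv'
    have a5 : ρ h ^ 2 * J ≤ v ^ 2 * (ρ h ^ 2 * J) := le_mul_of_one_le_left (by positivity) hv2
    have a6 : v ^ 2 * Ξ ^ 2 * J ≤ ρ h ^ 2 * (v ^ 2 * Ξ ^ 2 * J) :=
      le_mul_of_one_le_left (by positivity) hρ1
    have a7 : 0 ≤ v ^ 2 * Ξ * ρ h ^ 2 * J := by positivity
    have a8 : 0 ≤ v ^ 2 * (ρ h ^ 2 * J) := by positivity
    have a9 : 0 ≤ v ^ 2 * Ξ ^ 2 * J := by positivity
    nlinarith [h1 h]
  -- the pairing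
  have hstar : ∀ x, ∃ c : ℝ, ∀ r, Tr.rt r = r → κ r * φ (lf t x + ev r) *
      (G (lf t x + ev r) - c) ^ 2 ≤ ∑ r' ∈ univ.filter fun r' => Tr.rt r' = r',
        min (κ r * φ (lf t x + ev r)) (κ r' * φ (lf t x + ev r')) *
          (G (lf t x + ev r) - G (lf t x + ev r')) ^ 2 := fun x => by
    rcases (univ.filter fun r' => Tr.rt r' = r').eq_empty_or_nonempty with he | hne
    · exact ⟨0, fun r hr => absurd (he ▸ mem_filter.2 ⟨mem_univ r, hr⟩) (notMem_empty r)⟩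
    · obtain ⟨r₀, hr₀, hmax⟩ := exists_max_image _ (fun r => κ r * φ (lf t x + ev r)) hne
      refine ⟨G (lf t x + ev r₀), fun r hr => ?_⟩
      refine le_trans (le_of_eq ?_) (single_le_sum (f := fun r' =>
        min (κ r * φ (lf t x + ev r)) (κ r' * φ (lf t x + ev r')) *
          (G (lf t x + ev r) - G (lf t x + ev r')) ^ 2) (fun r' _ => mul_nonneg
            (le_min (mul_pos (hκ _) (pos _ _)).le (mul_pos (hκ _) (pos _ _)).le) (sq_nonneg _)) hr₀)
      rw [min_eq_left (hmax r (mem_filter.2 ⟨mem_univ r, hr⟩))]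
  choose c hc using hstar
  set Δ : (ι → ℤ) → Bool × ι → ℝ := fun x b =>
    G (lf t x + ev b) - if Tr.rt b = b then c x else G (lf t x + ev (Tr.par b)) with hΔ
  have h3 : ∀ b, |∑ x ∈ Gd, f x b * Δ x b| ≤ 7 * v ^ 2 * (1 + Ξ) * Real.sqrt (J * E) := fun b => by
    have hJ' := hJ0 b
    have hv' := hv1 b
    have hE : 0 ≤ E := by simpa [EnR] using hER (Tr.rt b) (Tr.rt b) (Tr.rt_rt b) (Tr.rt_rt b)
    have a1 : (∑ x ∈ Gd, f x b * Δ x b) ^ 2 ≤
        Φ b * ∑ x ∈ Gd, κ b * φ (lf t x + ev b) * Δ x b ^ 2 := by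
      refine sum_sq_le_sum_mul_sum_of_sq_le_mul _ (fun x _ => ?_) (fun x _ => ?_) fun x _ => ?_
      · have := pos x b
        have := hκ b
        positivity
      · have := pos x b
        have := hκ b
        positivity
      · have := (pos x b).ne'
        have := (hκ b).ne'
        refine le_of_eq ?_
        field_simp
    have a2 : ρ b ^ 2 * ∑ x ∈ Gd, κ b * φ (lf t x + ev b) * Δ x b ^ 2 ≤ v * E := by
      by_cases hb : Tr.rt b = b
      · simp only [hΔ, if_pos hb]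
        refine (mul_le_mul_of_nonneg_left (sum_le_sum fun x _ => hc x b hb) (sq_nonneg _)).trans ?_
        rw [sum_comm, mul_sum, hv, ← card_univ, ← nsmul_eq_mul, ← sum_const]
        exact (sum_le_sum fun r hr => hER b r hb (mem_filter.1 hr).2).trans
          (sum_le_sum_of_subset_of_nonneg (filter_subset _ _) fun _ _ _ => hE)
      · simp only [hΔ, if_neg hb]
        exact (hEA b hb).trans (le_mul_of_one_le_left hE hv')
    have a3 : 0 ≤ ∑ x ∈ Gd, κ b * φ (lf t x + ev b) * Δ x b ^ 2 := sum_nonneg fun x _ => by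
      have := pos x b
      have := hκ b
      positivity
    refine abs_le_of_sq_le_sq ?_ (by positivity)
    rw [mul_pow, Real.sq_sqrt (mul_nonneg hJ' hE)]
    refine a1.trans ((mul_le_mul_of_nonneg_right (h2 b) a3).trans ?_)
    have a4 := mul_le_mul_of_nonneg_left a2 (show 0 ≤ 44 * v ^ 2 * (1 + Ξ) ^ 2 * J by positivity)
    have a5 : v ^ 3 * ((1 + Ξ) ^ 2 * (J * E)) ≤ v * (v ^ 3 * ((1 + Ξ) ^ 2 * (J * E))) :=
      le_mul_of_one_le_left (by positivity) hv'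
    have a6 : 0 ≤ v ^ 3 * ((1 + Ξ) ^ 2 * (J * E)) := by positivity
    nlinarith
  rw [LF, ← sum_sdiff hGd, add_comm]
  refine (abs_add_le _ _).trans (add_le_add ?_ ?_)
  · rw [sum_congr rfl fun x hx => by
      rw [sum_congr rfl fun a _ => (mul_assoc _ _ _).symm, pairing Tr
        (fun a => w x a * φ (lf t x + ev a)) (fun a => G (lf t x + ev a)) (hz x (hGd hx)) (c x)],
      sum_comm]
    refine (abs_sum_le_sum_abs _ _).trans ((sum_le_sum fun b _ => h3 b).trans (le_of_eq ?_))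
    rw [sum_const, card_univ, nsmul_eq_mul, ← hv]
    ring
  · refine (abs_sum_le_sum_abs _ _).trans (le_trans ?_ (mul_le_mul_of_nonneg_left hε₂ hB0))
    rw [mul_sum]
    refine sum_le_sum fun x hx => (abs_sum_le_sum_abs _ _).trans ?_
    rw [mul_sum]
    refine sum_le_sum fun a _ => ?_
    rw [abs_mul, abs_of_nonneg (mul_nonneg (pos x a).le (hG _).1)]
    exact mul_le_mul (hB x (mem_sdiff.1 hx).1 a) (mul_le_of_le_one_right (pos x a).le (hG _).2)
      (mul_nonneg (pos x a).le (hG _).1) hB0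

end Crest.Agent.R302
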