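import Crest.Agent.R302.Defs

/-!
# Row 302: the forest of an ultrametric
-/

set_option autoImplicit false

namespace Crest.Agent.R302

open Finset

/-- `E s k` is a decreasing family of equivalence relations; `c a` is the largest level at which
`a` is related to a smaller element and `par a` is the smallest such element. -/
theorem exists_tree {n : ℕ} {E : Bool → ℕ → Fin n → Fin n → Prop}
    (hE : ∀ s k, Equivalence (E s k)) (hm : ∀ s k k' p q, k ≤ k' → E s k' p q → E s k p q)
    {c : Bool × Fin n → ℕ} {par : Bool × Fin n → Fin n}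
    (harc : ∀ a, c a ≠ 0 → par a < a.2 ∧ E a.1 (c a) a.2 (par a) ∧
      ∀ p, p < par a → ¬ E a.1 (c a) a.2 p)
    (hmax : ∀ (a : Bool × Fin n) (p : Fin n), p < a.2 → ¬ E a.1 (c a + 1) a.2 p)
    {θ : ℕ} (hθ : 1 ≤ θ) :
    ∃ T : Tree (Bool × Fin n), (∀ a, T.par a = (a.1, par a)) ∧ (∀ a, T.rt a = a ↔ c a < θ) ∧
      (∀ h q, q ∈ T.S h → q.1 = h.1) ∧
      ∀ h p q, (h.1, p) ∈ T.S h → (h.1, q) ∉ T.S h → ¬ E h.1 (max (c h + 1) θ) p q := by
  classical
  have hex : ∀ q : Bool × Fin n, ∃ p, E q.1 θ q.2 p ∧ ∀ p', p' < p → ¬ E q.1 θ q.2 p' := by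
    intro q
    obtain ⟨p, hp, hmin⟩ := WellFounded.has_min (wellFounded_lt (α := Fin n))
      {p | E q.1 θ q.2 p} ⟨q.2, (hE _ _).refl _⟩
    exact ⟨p, hp, fun p' h1 h2 => hmin p' h2 h1⟩
  choose ρ hρ1 hρ2 using hex
  obtain ⟨S, hS⟩ : ∃ S : Bool × Fin n → Finset (Bool × Fin n), ∀ h q,
      q ∈ S h ↔ q.1 = h.1 ∧ E h.1 (max (c h + 1) θ) q.2 h.2 :=
    ⟨fun h => univ.filter fun q => q.1 = h.1 ∧ E h.1 (max (c h + 1) θ) q.2 h.2,
      fun h q => by simp⟩
  have hB : ∀ h b, b ∈ S h → b ≠ h → h.2 < b.2 ∧ max (c h + 1) θ ≤ c b := by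
    intro h b hb hne
    obtain ⟨h1, h2⟩ := (hS h b).1 hb
    have h3 : h.2 < b.2 := by
      rcases lt_trichotomy h.2 b.2 with h3 | h3 | h3
      · exact h3
      · exact absurd (Prod.ext h1 h3.symm) hne
      · exact absurd (hm _ _ _ _ _ (le_max_left _ _) ((hE _ _).symm h2)) (hmax h b.2 h3)
    refine ⟨h3, ?_⟩
    by_contra h4
    refine hmax b h.2 h3 ?_
    rw [h1]
    exact hm _ _ _ _ _ (Nat.succ_le_of_lt (not_le.1 h4)) h2
  have hself : ∀ h, h ∈ S h := fun h => (hS h h).2 ⟨rfl, (hE _ _).refl _⟩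
  have hne0 : ∀ h b, b ∈ S h → b ≠ h → c b ≠ 0 := fun h b hb hne => by
    have := (hB h b hb hne).2
    have := le_max_right (c h + 1) θ
    omega
  have hpar : ∀ h b, b ∈ S h → b ≠ h → (b.1, par b) ∈ S h := by
    intro h b hb hne
    obtain ⟨h1, h2⟩ := (hS h b).1 hb
    have h3 := (harc b (hne0 h b hb hne)).2.1
    rw [h1] at h3
    exact (hS h _).2 ⟨h1, (hE _ _).trans
      ((hE _ _).symm (hm _ _ _ _ _ (hB h b hb hne).2 h3)) h2⟩
  have hroot : ∀ a : Bool × Fin n, (a.1, ρ a) = a ↔ c a < θ := by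
    intro a
    constructor
    · intro h1
      have h2 : ρ a = a.2 := congrArg Prod.snd h1
      by_contra h3
      obtain ⟨h4, h5, -⟩ := harc a (by omega)
      exact hρ2 a (par a) (h2 ▸ h4) (hm _ _ _ _ _ (not_lt.1 h3) h5)
    · intro h1
      refine Prod.ext rfl ?_
      rcases lt_trichotomy (ρ a) a.2 with h3 | h3 | h3
      · exact absurd (hm _ _ _ _ _ (Nat.succ_le_of_lt h1) (hρ1 a)) (hmax a _ h3)
      · exact h3
      · exact absurd ((hE _ _).refl _) (hρ2 a _ h3)
  have hρ : ∀ q h : Bool × Fin n, q.1 = h.1 → E h.1 θ q.2 h.2 → ρ q = ρ h := by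
    intro q h h1 h2
    have h4 := hρ1 q
    have h5 := hρ2 q
    rw [h1] at h4 h5
    rcases lt_trichotomy (ρ q) (ρ h) with h3 | h3 | h3
    · exact absurd ((hE _ _).trans ((hE _ _).symm h2) h4) (hρ2 h _ h3)
    · exact h3
    · exact absurd ((hE _ _).trans h2 (hρ1 h)) (h5 _ h3)
  have hrr : ∀ q : Bool × Fin n, ρ (q.1, ρ q) = ρ q := fun q =>
    hρ (q.1, ρ q) q rfl ((hE _ _).symm (hρ1 q))
  refine ⟨{ par := fun a => (a.1, par a)
            rt := fun a => (a.1, ρ a)
            S := S
            self_mem := hself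
            sub := ?_
            par_mem := hpar
            nonroot := ?_
            rt_rt := fun q => Prod.ext rfl (hrr q)
            mem_rt := ?_
            rt_eq := ?_
            tel := ?_ }, fun _ => rfl, hroot, fun h q hq => ((hS h q).1 hq).1, ?_⟩
  · intro h b hb q hq
    by_cases hne : b = h
    · exact hne ▸ hq
    obtain ⟨h1, h2⟩ := (hS h b).1 hb
    obtain ⟨h3, h4⟩ := (hS b q).1 hq
    rw [h1] at h4
    refine (hS h q).2 ⟨h3.trans h1, (hE _ _).trans (hm _ _ _ _ _ ?_ h4) h2⟩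
    exact (hB h b hb hne).2.trans ((Nat.le_succ _).trans (le_max_left _ _))
  · intro h b hb hne h1
    have h2 := (hroot b).1 h1
    have := (hB h b hb hne).2
    have := le_max_right (c h + 1) θ
    omega
  · intro q
    have h1 : c (q.1, ρ q) < θ := (hroot (q.1, ρ q)).1 (Prod.ext rfl (hrr q))
    refine (hS _ q).2 ⟨rfl, ?_⟩
    rw [max_eq_right (Nat.succ_le_of_lt h1)]
    exact hρ1 q
  · intro h q hq
    obtain ⟨h1, h2⟩ := (hS h q).1 hq
    exact Prod.ext h1 (hρ q h h1 (hm _ _ _ _ _ (le_max_right _ _) h2))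
  · intro h q
    induction hq2 : q.2 using WellFoundedLT.induction generalizing q with
    | ind x ih =>
      intro hq
      by_cases hne : q = h
      · rw [filter_false_of_mem, sum_empty, add_zero, hne]
        intro b hb hqb
        obtain ⟨hb1, hb2⟩ := mem_erase.1 hb
        rw [hne] at hqb
        exact lt_asymm (hB h b hb2 hb1).1 (hB b h hqb (Ne.symm hb1)).1
      obtain ⟨h1, h2, h3⟩ := harc q (hne0 h q hq hne)
      have hθq : θ ≤ c q := (le_max_right _ _).trans (hB h q hq hne).2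
      have h4 := ih (par q) (hq2 ▸ h1) (q.1, par q) rfl (hpar h q hq hne)
      have h5 : ((S h).erase h).filter (fun b => q ∈ S b) =
          insert q (((S h).erase h).filter fun b => (q.1, par q) ∈ S b) := by
        ext b
        simp only [mem_insert, mem_filter]
        constructor
        · rintro ⟨hb, hqb⟩
          by_cases hbq : b = q
          · exact Or.inl hbq
          · exact Or.inr ⟨hb, hpar b q hqb (Ne.symm hbq)⟩
        · rintro (rfl | ⟨hb, hqb⟩)
          · exact ⟨mem_erase.2 ⟨hne, hq⟩, hself _⟩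
          refine ⟨hb, ?_⟩
          obtain ⟨h6, h7⟩ := (hS b _).1 hqb
          simp only at h6 h7
          have h8 : max (c b + 1) θ ≤ c q := by
            by_contra h8
            have h9 : E q.1 (c q) q.2 b.2 := by
              refine (hE _ _).trans h2 ?_
              rw [h6]
              exact hm _ _ _ _ _ (not_le.1 h8).le h7
            have h10 : (q.1, par q) = b := by
              by_contra h10
              exact h3 b.2 (hB b _ hqb h10).1 h9
            have h11 : c q ≤ c b := by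
              by_contra h11
              exact h8 (max_le (Nat.succ_le_of_lt (not_le.1 h11)) hθq)
            obtain ⟨h12, h13, -⟩ := harc b (by omega)
            have h14 : b.2 = par q := by rw [← h10]
            rw [← h6] at h13
            exact h3 (par b) (h14 ▸ h12) ((hE _ _).trans h9 (hm _ _ _ _ _ h11 h13))
          rw [h6] at h2
          exact (hS b q).2 ⟨h6, (hE _ _).trans (hm _ _ _ _ _ h8 h2) h7⟩
      have h6 : q ∉ ((S h).erase h).filter fun b => (q.1, par q) ∈ S b := by
        intro h6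
        have h7 := (mem_filter.1 h6).2
        exact lt_asymm h1 (hB q _ h7 fun h8 => h1.ne (congrArg Prod.snd h8)).1
      rw [h5, sum_insert h6, add_left_comm, ← h4]
      simp
  · intro h p q hp hq hE'
    exact hq ((hS h _).2 ⟨rfl, (hE _ _).trans ((hE _ _).symm hE') ((hS h _).1 hp).2⟩)

end Crest.Agent.R302
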