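import Crest.Agent.R302.Soft
import Crest.Agent.R302.Flow
import Crest.Agent.R302.Geom
import Crest.Agent.R302.Tree

/-!
# Row 302: windows and smoothness on the good leaves
-/

set_option autoImplicit false

namespace Crest.Agent.R302.Raw

open Finset

variable {R : Raw} {r : Bool → Finset R.E → ℤ} {x : Bool → R.E → ℝ} {Rm κ : ℕ}

theorem Valid.exists_tree (h : R.Valid r x Rm κ) (j : ℕ) : ∃ T, R.IsTree r x j T := by
  have hm : 0 < R.m := lt_of_lt_of_le (by positivity) h.m_ge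
  obtain ⟨T, h1, h2, h3, h4⟩ := R302.exists_tree (E := fun s k p q => Sym (cr (r s)) (x s) k p q)
    (fun s k => Sym.equiv _ _ _) (fun s k k' p q hk hs => hs.mono (by exact_mod_cast hk))
    h.arc h.cmax (θ := R.θ j) (le_add_right (Nat.one_le_pow _ _ hm))
  exact ⟨T, h1, h2, h3, h4⟩

theorem IsTree.ker {j : ℕ} {T : Tree R.V} (hT : R.IsTree r x j T) {b : R.V} (hb : T.rt b ≠ b) :
    R.θ j ≤ R.cf b ∧ R.ker b :=
  have h := not_lt.1 (mt (hT.root b).2 hb)
  ⟨h, (Nat.le_add_right _ _).trans h⟩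

theorem Valid.rt_eq (h : R.Valid r x Rm κ) {j : ℕ} {T : Tree R.V} (hT : R.IsTree r x j T)
    (q : R.V) : R.rt (T.rt q).2 = R.rt q.2 := by
  have hm : 0 < R.m := lt_of_lt_of_le (by positivity) h.m_ge
  induction hq : q.2 using WellFoundedLT.induction generalizing q with
  | ind d ih =>
    subst hq
    by_cases hb : T.rt q = q
    · rw [hb]
    have hk := (hT.ker hb).2
    have h1 := (h.arc q (lt_of_lt_of_le (pow_pos hm 9) hk).ne').1
    have h2 := T.rt_eq _ _ (T.par_mem _ q (T.mem_rt q) (Ne.symm hb))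
    rw [T.rt_rt, hT.par] at h2
    rw [h.ker_rt q hk, ← h2]
    exact ih _ h1 (R.pa q) rfl

theorem Valid.Reg_m (h : R.Valid r x Rm κ) : 32 * (R.n : ℝ) + 100 ≤ R.m ∧
    2 * (R.n : ℝ) ^ 3 + 6 * R.n + 3 ≤ R.m := by
  have h1 : (10000 : ℝ) * (R.n + 2) ^ 10 ≤ R.m := by exact_mod_cast h.m_ge
  have h2 : (0 : ℝ) ≤ R.n := by positivity
  have h3 : ((R.n : ℝ) + 2) ^ 3 ≤ (R.n + 2) ^ 10 := pow_le_pow_right₀ (by linarith) (by norm_num)
  have h4 : (0 : ℝ) ≤ R.n ^ 2 := by positivity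
  have h5 : (0 : ℝ) ≤ R.n ^ 3 := by positivity
  constructor <;> nlinarith

theorem Valid.Reg_sh (h : R.Valid r x Rm κ) {ξ : R.V → ℤ} (hξ : ξ ∈ R.kbox) {U : Finset R.V}
    {t : ℝ} (ht : 0 ≤ t) (hU : ∀ b, t ≤ R.cf b → (b ∈ U ↔ R.pa b ∈ U)) :
    |∑ q ∈ U, (R.sh ξ q : ℝ)| ≤ t := by
  have hm := h.Reg_m.1
  have h0 : (0 : ℝ) ≤ R.n := by positivity
  have hm0 : (0 : ℝ) < R.m := by linarith
  have e : ∑ q ∈ U, (R.sh ξ q : ℝ) =
      ∑ b, (ξ b : ℝ) * ((if b ∈ U then 1 else 0) - if R.pa b ∈ U then 1 else 0) := by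
    simp only [sh, shf, Finset.sum_apply, Int.cast_sum]
    rw [sum_comm]
    refine sum_congr rfl fun b _ => ?_
    simp [ev, Pi.single_apply, ← mul_sum]
  have hb : ∀ b, |(ξ b : ℝ) * ((if b ∈ U then 1 else 0) - if R.pa b ∈ U then 1 else 0)| ≤
      t / R.m ^ 2 := fun b => by
    by_cases hc : t ≤ R.cf b
    · simp only [hU b hc, sub_self, mul_zero, abs_zero]
      positivity
    have h1 : |(ξ b : ℝ)| ≤ R.Jw b := by exact_mod_cast mem_kbox hξ b
    have h2 : (R.Jw b : ℝ) * R.m ^ 2 ≤ R.cf b := by exact_mod_cast h.Jw_le b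
    have h3 : |(ξ b : ℝ)| ≤ t / R.m ^ 2 := h1.trans ((le_div_iff₀ (by positivity)).2 (by linarith))
    rw [abs_mul]
    refine (mul_le_of_le_one_right (abs_nonneg _) ?_).trans h3
    split_ifs <;> simp
  rw [e]
  refine (abs_sum_le_sum_abs _ _).trans ((sum_le_card_nsmul _ _ _ fun b _ => hb b).trans ?_)
  rw [nsmul_eq_mul, mul_div_assoc', div_le_iff₀ (by positivity), mul_comm]
  refine mul_le_mul_of_nonneg_left ?_ ht
  simp only [card_univ, Fintype.card_prod, Fintype.card_bool, Fintype.card_fin]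
  push_cast
  nlinarith

theorem Reg_thr (R : Raw) : 0 < R.thr' ∧ R.thr' ≤ R.thr :=
  ⟨by unfold thr' thr; positivity,
    div_le_self (by unfold thr; positivity) (one_le_pow₀ one_le_two)⟩

/-- The windows. -/
theorem Valid.win (h : R.Valid r x Rm κ) {j : ℕ} {T : Tree R.V} (hT : R.IsTree r x j T)
    {z : R.V → ℤ} (hz : R.thr ≤ R.φ r j z) (hps : ∑ i, |ps z i| ≤ 1) (a : R.V) :
    |(∑ q ∈ T.S a, (z q : ℝ)) - ∑ q ∈ T.S a, x q.1 q.2| ≤ R.ρ j a := by
  obtain ⟨hm, hm'⟩ := h.Reg_m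
  have h0 : (0 : ℝ) ≤ R.n := by positivity
  have hm0 : 0 < R.m := lt_of_lt_of_le (by positivity) h.m_ge
  have hm1 : (1 : ℝ) ≤ R.m := by linarith
  obtain ⟨ξ, hξ, hD⟩ := h.good_near j (R.Reg_thr.2.trans hz)
  choose y hy hy' using fun s => exists_near (h.sub s) (side (z - R.sh ξ) s)
  set l : ℝ := ((max (R.cf a + 1) (R.θ j) : ℕ) : ℝ) with hl
  have hl1 : 1 ≤ l := Nat.one_le_cast.2 (le_max_of_le_left (Nat.le_add_left _ _))
  have hl2 : l ≤ R.m * l := le_mul_of_one_le_left (by linarith) hm1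
  have hl3 : (R.m : ℝ) ≤ R.m * l := le_mul_of_one_le_right (by linarith) hl1
  have hD' : (DD r (z - R.sh ξ) : ℝ) ≤ 2 * (R.m * l) := by
    have h1 : (0 : ℝ) < R.τ j := by exact_mod_cast h.τ_pos j
    have h2 : (R.m : ℝ) ^ 5 / R.τ j ≤ l := by
      have : (R.m : ℚ) ^ 5 / R.τ j ≤ (max (R.cf a + 1) (R.θ j) : ℕ) := (Nat.le_ceil _).trans
        (Nat.cast_le.2 (le_max_of_le_right (Nat.le_add_left _ _)))
      rw [hl]
      exact_mod_cast this
    rw [div_le_iff₀ h1] at h2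
    refine le_of_mul_le_mul_left (hD.trans ?_) h1
    nlinarith
  have he : ∀ U : Finset R.V, |∑ q ∈ U, ((z q : ℝ) - R.sh ξ q - y q.1 q.2)| ≤ 2 * (R.m * l) := by
    intro U
    refine (abs_sum_le_sum_abs _ _).trans ((sum_le_univ_sum_of_nonneg fun _ =>
      abs_nonneg _).trans (le_trans ?_ hD'))
    rw [Fintype.sum_prod_type, Fintype.sum_bool, add_comm]
    exact_mod_cast add_le_add (hy' false) (hy' true)
  have hsym : ∀ (b : R.V) (t : ℝ), 1 ≤ t → t ≤ R.cf b →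
      Sym (cr (r b.1)) (x b.1) t b.2 (R.parf b) := fun b t h1 h2 =>
    (h.arc b (by rintro e; rw [e] at h2; norm_num at h2; linarith)).2.1.mono h2
  set C := univ.filter fun p => (a.1, p) ∈ T.S a with hC
  have hcut : ∀ p q, Sym (cr (r a.1)) (x a.1) l p q → ((a.1, p) ∈ T.S a ↔ (a.1, q) ∈ T.S a) :=
    fun p q hs => ⟨fun hp => by_contra fun hq => hT.cut a p q hp hq hs,
      fun hq => by_contra fun hp => hT.cut a q p hq hp ((Sym.equiv _ _ _).symm hs)⟩
  have hS : T.S a = {a.1} ×ˢ C := by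
    ext q
    simp only [hC, mem_product, mem_singleton, mem_filter, mem_univ, true_and]
    exact ⟨fun hq => ⟨hT.side a q hq, by rwa [← hT.side a q hq]⟩, fun ⟨h1, h2⟩ => by rwa [← h1] at h2⟩
  have key := range_le (r := fun s => cr (r s)) (fun s => (h.sub s).cr) (x := fun s => cv (y s))
    (fun s => inB_cr.2 (hy s)) h.cen (τ := R.m * l) (Δ := 6 * (R.m * l)) (by linarith)
    (s := a.1) (C := C) (fun S hS => ?_) fun p q h1 h2 => ?_
  · have h1 := h.Reg_sh hξ (U := T.S a) (t := l) (by linarith) fun b hb => by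
      by_cases hba : b.1 = a.1
      · have := hsym b l hl1 hb
        rw [hba] at this
        simpa only [← hba] using! hcut _ _ this
      · exact iff_of_false (fun h => hba (hT.side a b h)) fun h => hba (hT.side a (R.pa b) h)
    have h2 := he (T.S a)
    have h3 : ∑ i ∈ C, cv (y a.1) i - ∑ i ∈ C, x a.1 i =
        ∑ q ∈ T.S a, (y q.1 q.2 : ℝ) - ∑ q ∈ T.S a, x q.1 q.2 := by
      simp [hS, cv]
    rw [h3, Fintype.card_fin] at key
    rw [sum_sub_distrib, sum_sub_distrib] at h2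
    have h4 : (2 * (R.n : ℝ) ^ 3 + 6 * R.n + 3) * (R.m * l) ≤ R.m * (R.m * l) :=
      mul_le_mul_of_nonneg_right hm' (by linarith)
    rw [abs_le] at h1 h2 key ⊢
    rw [ρ, ← hl]
    constructor <;> nlinarith [h1.1, h1.2, h2.1, h2.2, key.1, key.2]
  · have h1 := h.Reg_sh hξ (U := univ ×ˢ S) (t := R.m * l) (by linarith) fun b hb => by
      have := hsym b _ (by linarith) hb
      simp only [mem_product, mem_univ, true_and]
      exact ⟨fun hp => hS _ _ hp _ this.1, fun hp => hS _ _ hp _ this.2⟩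
    have h2 := he (univ ×ˢ S)
    have h3 : |∑ i ∈ S, (ps z i : ℝ)| ≤ 1 := (abs_sum_le_sum_abs _ _).trans
      ((sum_le_univ_sum_of_nonneg fun _ => abs_nonneg _).trans (by exact_mod_cast hps))
    have h4 : |∑ i ∈ S, (x false i + x true i)| ≤ 2 := (abs_sum_le_sum_abs _ _).trans
      ((sum_le_univ_sum_of_nonneg fun _ => abs_nonneg _).trans h.dfc)
    simp only [sum_product, Fintype.sum_bool, sum_sub_distrib, sum_add_distrib, ps, Int.cast_add,
      cv] at h1 h2 h3 h4 ⊢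
    rw [abs_le] at h1 h2 h3 h4 ⊢
    constructor <;> linarith [h1.1, h1.2, h2.1, h2.2, h3.1, h3.2, h4.1, h4.2]
  · have := h.cp _ hl3 _ p q h1 h2
    rw [mul_div_cancel_left₀ _ (by positivity)] at this
    simpa only [hC, mem_filter, mem_univ, true_and] using hcut p q this

theorem Valid.Reg_comp (h : R.Valid r x Rm κ) {j : ℕ} {T : Tree R.V} (hT : R.IsTree r x j T)
    {z : R.V → ℤ} {a b : R.V} (hb : b ∈ T.S a) (hz : R.thr' ≤ R.φ r j (z + ev a)) :
    R.φ r j (z + ev a) ≤ 2 * R.φ r j (z + ev b) ∧ R.φ r j (z + ev b) ≤ 2 * R.φ r j (z + ev a) := by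
  set F := ((T.S a).erase a).filter fun c => b ∈ T.S c with hF
  have e : z + ev b = z + ev a + R.sh (fun c => if c ∈ F then 1 else 0) + 0 := by
    rw [T.tel a b hb, add_zero, add_assoc, ← hF]
    simp [sh, shf, hT.par]
  rw [e]
  refine h.φ_shift j hz (fun c hc => ?_) ?_ (by simp)
  · have := mem_erase.1 (mem_filter.1 (by_contra fun h => hc (if_neg h) : c ∈ F)).1
    exact (hT.ker (T.nonroot a c this.2 this.1)).2
  · refine (sum_le_card_nsmul _ _ 1 fun c _ => ?_).trans ?_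
    · have : (1 : ℝ) ≤ R.ℓ c := by exact_mod_cast R.ℓ_pos c
      rw [div_le_one (by linarith)]
      split_ifs <;> simp [this]
    · have := h.Reg_m.1
      simp only [card_univ, Fintype.card_prod, Fintype.card_bool, Fintype.card_fin, nsmul_eq_mul]
      push_cast
      linarith

theorem Valid.Reg_lam (h : R.Valid r x Rm κ) {j : ℕ} {z : R.V → ℤ} (hz : R.thr ≤ R.φ r j z)
    (a : R.V) : R.thr' ≤ R.φ r j (z + ev a) := by
  have hm : 2 ≤ R.m := le_trans (by have := Nat.one_le_pow 10 (R.n + 2) (by omega); omega) h.m_ge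
  rw [thr', div_le_iff₀ (by positivity), mul_comm]
  refine hz.trans ((h.φ_lam j z a).2.trans (mul_le_mul_of_nonneg_right ((h.Λ_le j).2.trans
    (pow_le_pow_right₀ one_le_two ?_)) ((h.φ_lc j).1 _).le))
  rw [pow_succ' _ 3]
  exact Nat.mul_le_mul_right _ hm

theorem Reg_real {A B H P M Φ t σ : ℝ} (hA : 0 < A) (hB : 0 < B) (hH : 0 < H) (hΦ : 0 < Φ)
    (ht : 0 ≤ t) (ht' : t ≤ 1 / 2) (hσ : 13 * t ≤ σ) (h1 : |A - B| ≤ 3 * t * B)
    (h2 : |M - H| ≤ 3 * t * H) (h3 : -(5 * t ^ 2 * H) ≤ P + M - 2 * H) (h4 : H ≤ 2 * A)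
    (h5 : Φ ≤ 2 * A) : -(P / A ^ 2 - 2 * H / (A * B) + M / B ^ 2) ≤ σ ^ 2 / Φ := by
  have e : -(P / A ^ 2 - 2 * H / (A * B) + M / B ^ 2) = (-(H * (1 - A / B) ^ 2) - (P + M - 2 * H)
      + (M - H) * ((1 - A / B) * (1 + A / B))) / A ^ 2 := by
    field_simp
    ring
  have h6 : |1 - A / B| ≤ 3 * t := by
    rw [one_sub_div hB.ne', abs_div, abs_sub_comm, abs_of_pos hB, div_le_iff₀ hB]
    exact h1
  have h7 : |1 + A / B| ≤ 7 / 2 := by
    rw [abs_of_pos (by positivity)]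
    linarith [(abs_le.1 h6).1]
  have h8 : (M - H) * ((1 - A / B) * (1 + A / B)) ≤ 3 * t * H * (3 * t * (7 / 2)) := by
    refine (le_abs_self _).trans ?_
    rw [abs_mul, abs_mul]
    gcongr
  have h9 : 0 ≤ H * (1 - A / B) ^ 2 := by positivity
  have h10 : (13 * t) ^ 2 ≤ σ ^ 2 := by gcongr
  have h11 : t ^ 2 * H * Φ ≤ t ^ 2 * (2 * A) * (2 * A) := by gcongr
  rw [e, div_le_div_iff₀ (by positivity) hΦ]
  calc _ ≤ 73 / 2 * (t ^ 2 * H) * Φ := by gcongr; linarith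
    _ ≤ (13 * t) ^ 2 * A ^ 2 := by nlinarith [mul_nonneg (sq_nonneg t) (sq_nonneg A)]
    _ ≤ _ := by gcongr

theorem Valid.Reg_cap (h : R.Valid r x Rm κ) (b : R.V) : 0 ≤ R.hh b ∧ R.hh b ≤ 1 / 2 ∧
    13 * R.hh b ≤ R.σ b ∧ 32 * R.cap ≤ R.hh b ^ 2 * R.thr' := by
  have hm := h.Reg_m.1
  have h0 : (0 : ℝ) ≤ R.n := by positivity
  have hm0 : (0 : ℝ) < R.m := by linarith
  obtain ⟨h1, h2⟩ := h.log_ϱ
  have hl : (1 : ℝ) ≤ R.ℓ b := by exact_mod_cast R.ℓ_pos b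
  have h3 : 1 / (2 * (R.m : ℝ)) / R.ℓ b ≤ R.hh b := by unfold hh; gcongr
  have h4 : R.hh b ≤ 1 / (R.m : ℝ) / R.ℓ b := by unfold hh; gcongr
  refine ⟨le_trans (by positivity) h3, h4.trans ((div_le_self (by positivity) hl).trans
    (one_div_le_one_div_of_le two_pos (by linarith))), ?_, ?_⟩
  · rw [σ, div_eq_mul_one_div 13, ← div_div]
    linarith
  · have h5 : R.ℓ b ≤ 2 ^ R.m := Nat.pow_le_pow_right two_pos (h.lg_le b)
    have h6 : 32 * (2 * R.m * R.ℓ b) ^ 2 ≤ 2 ^ R.m ^ 5 := by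
      have h7 : 100 ≤ R.m := by exact_mod_cast (by linarith : (100 : ℝ) ≤ R.m)
      calc _ ≤ 32 * (2 * 2 ^ R.m * 2 ^ R.m) ^ 2 := by gcongr; exact R.m.lt_two_pow_self.le
        _ = 2 ^ (7 + 4 * R.m) := by ring
        _ ≤ _ := Nat.pow_le_pow_right two_pos
          (le_trans (by nlinarith) (Nat.pow_le_pow_right (by omega) (by norm_num : 2 ≤ 5)))
    have h7 : 32 * (2 * (R.m : ℝ) * R.ℓ b) ^ 2 ≤ 2 ^ R.m ^ 5 := by exact_mod_cast h6
    obtain ⟨h8, h9⟩ := h.cap_le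
    calc 32 * R.cap = (1 / (2 * (R.m : ℝ)) / R.ℓ b) ^ 2 *
          (R.cap * (32 * (2 * (R.m : ℝ) * R.ℓ b) ^ 2)) := by field_simp
      _ ≤ _ := by
        gcongr
        exact le_trans (by gcongr) h9

theorem Valid.reg (h : R.Valid r x Rm κ) {j : ℕ} {T : Tree R.V} (hT : R.IsTree r x j T)
    {z : R.V → ℤ} (hz : R.thr ≤ R.φ r j z) (hps : ∑ i, |ps z i| ≤ 1) :
    Reg (R.φ r j) T (R.ρ j) R.σ (fun a => ∑ q ∈ T.S a, x q.1 q.2) z := by
  refine ⟨h.win hT hz hps, fun a b hb => h.Reg_comp hT hb (h.Reg_lam hz a), fun a b hb hne => ?_⟩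
  have hk := (hT.ker (T.nonroot a b hb hne)).2
  have hp := (h.φ_lc j).1
  obtain ⟨h1, h2, h3, h4⟩ := h.Reg_cap b
  have hA := h.Reg_lam hz b
  have hB := h.Reg_lam hz (R.pa b)
  have e : z - ev a + ev b + ev a = z + ev b := by abel
  have h5 := h.Reg_comp hT (z := z - ev a + ev b) (T.par_mem a b hb hne) (e ▸ hA)
  rw [e, hT.par] at h5
  have h6 := (h.φ_step j hk (z + ev (R.pa b))).1
  have h7 := (h.φ_step j hk (z - ev a + ev b + ev (R.pa b))).2
  have h8 := h.φ_step₂ j hk (z - ev a + ev b + ev (R.pa b))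
  rw [show z + ev (R.pa b) + (ev b - ev (R.pa b)) = z + ev b by abel] at h6
  rw [show z - ev a + ev b + ev (R.pa b) + (ev b - ev (R.pa b)) =
    z - ev a + ev b + ev b by abel] at h8
  rw [show z - ev a + ev b + ev (R.pa b) - (ev b - ev (R.pa b)) =
    z - ev a + ev (R.pa b) + ev (R.pa b) by abel] at h7 h8
  rw [hT.par]
  have h9 := R.Reg_thr.1
  have h10 : R.hh b ^ 2 * R.thr' ≤ R.hh b * R.thr' := by gcongr; nlinarith
  have h11 := mul_le_mul_of_nonneg_left hB h1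
  have h12 := mul_le_mul_of_nonneg_left (hA.trans h5.1) h1
  have h13 := mul_le_mul_of_nonneg_left (hA.trans h5.1) (sq_nonneg (R.hh b))
  have h14 := h.cap_le.1
  exact Reg_real (hp _) (hp _) (hp _) (hp _) h1 h2 h3 (by linarith) (by linarith) (by linarith) h5.2
    (h.Reg_comp hT hb (h.Reg_lam hz a)).1

end Crest.Agent.R302.Raw
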