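import Mathlib

/-!
# Row 302: dyadic charges for a log-concave weight on an interval
-/

set_option autoImplicit false

namespace Crest.Agent.R302

open Finset

namespace HaarAux

/-- start of the block of length `m` (offset `o`) that contains `k`. -/
def bs (m o k : ℤ) : ℤ := k - (k - o) % m

theorem bs_dvd (m o k : ℤ) : m ∣ bs m o k - o := by
  have := Int.dvd_self_sub_emod (x := k - o) (m := m)
  rwa [show k - o - (k - o) % m = bs m o k - o by unfold bs; ring] at this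

theorem bs_le {m : ℤ} (hm : 0 < m) (o k : ℤ) : bs m o k ≤ k := by
  have := Int.emod_nonneg (k - o) hm.ne'
  unfold bs; omega

theorem lt_bs {m : ℤ} (hm : 0 < m) (o k : ℤ) : k < bs m o k + m := by
  have := Int.emod_lt_of_pos (k - o) hm
  unfold bs; omega

theorem bs_eq {m o l k : ℤ} (h : m ∣ l - o) (h1 : l ≤ k) (h2 : k < l + m) : bs m o k = l := by
  obtain ⟨t, ht⟩ := h
  have : (k - o) % m = k - l := by
    rw [show k - o = (k - l) + m * t by linarith, Int.add_mul_emod_self_left]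
    exact Int.emod_eq_of_lt (by omega) (by omega)
  unfold bs; omega

theorem bs_pred {m : ℤ} (hm : 0 < m) {o k : ℤ} (h : ¬ m ∣ k - o) : bs m o (k - 1) = bs m o k := by
  have h1 := bs_le hm o k
  have h2 := lt_bs hm o k
  have h3 : bs m o k ≠ k := fun e => h (by have := bs_dvd m o k; rwa [e] at this)
  exact bs_eq (bs_dvd m o k) (by omega) (by omega)

variable (n g : ℤ → ℝ)

noncomputable def mu (l L : ℤ) : ℝ := (∑ j ∈ Ico l (l + L), n j * g j) / ∑ j ∈ Ico l (l + L), n j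

noncomputable def cc (h o j : ℤ) : ℝ := mu n g (bs h o j) h - mu n g (bs (2 * h) o j) (2 * h)

noncomputable def UU (h o k : ℤ) : ℝ := - ∑ j ∈ Ico (bs (2 * h) o k) (k + 1), cc n g h o j * n j

variable {n g}

theorem mu_mul (hn : ∀ j, 0 ≤ n j) (l L : ℤ) :
    mu n g l L * ∑ j ∈ Ico l (l + L), n j = ∑ j ∈ Ico l (l + L), n j * g j := by
  by_cases h : ∑ j ∈ Ico l (l + L), n j = 0
  · rw [h, mul_zero, eq_comm]
    exact sum_eq_zero fun j hj => by
      rw [(sum_eq_zero_iff_of_nonneg fun j _ => hn j).1 h j hj, zero_mul]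
  · exact div_mul_cancel₀ _ h

theorem mu_mem (hn : ∀ j, 0 ≤ n j) (hg : ∀ k, 0 ≤ g k ∧ g k ≤ 1) (l L : ℤ) :
    0 ≤ mu n g l L ∧ mu n g l L ≤ 1 :=
  ⟨div_nonneg (sum_nonneg fun j _ => mul_nonneg (hn j) (hg j).1) (sum_nonneg fun j _ => hn j),
    div_le_one_of_le₀ (sum_le_sum fun j _ => mul_le_of_le_one_right (hn j) (hg j).2)
      (sum_nonneg fun j _ => hn j)⟩

theorem abs_cc (hn : ∀ j, 0 ≤ n j) (hg : ∀ k, 0 ≤ g k ∧ g k ≤ 1) (h o j : ℤ) :
    |cc n g h o j| ≤ 1 := by
  have h1 := mu_mem hn hg (bs h o j) h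
  have h2 := mu_mem hn hg (bs (2 * h) o j) (2 * h)
  rw [abs_le, cc]; constructor <;> linarith

theorem sum_Ico_split (f : ℤ → ℝ) {a b c : ℤ} (h1 : a ≤ b) (h2 : b ≤ c) :
    ∑ j ∈ Ico a c, f j = ∑ j ∈ Ico a b, f j + ∑ j ∈ Ico b c, f j := by
  rw [← sum_union (Ico_disjoint_Ico_consecutive a b c), Ico_union_Ico_eq_Ico h1 h2]

theorem block_sum (hn : ∀ j, 0 ≤ n j) {h : ℤ} (hh : 0 < h) {o l : ℤ} (hl : 2 * h ∣ l - o) :
    ∑ j ∈ Ico l (l + 2 * h), cc n g h o j * n j = 0 := by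
  have hl' : h ∣ l - o := (Dvd.intro_left 2 rfl).trans hl
  have e1 : ∑ j ∈ Ico l (l + 2 * h), mu n g (bs (2 * h) o j) (2 * h) * n j =
      ∑ j ∈ Ico l (l + 2 * h), n j * g j := by
    rw [← mu_mul hn, mul_sum]
    exact sum_congr rfl fun j hj => by rw [bs_eq hl (mem_Ico.1 hj).1 (mem_Ico.1 hj).2]
  have e2 : ∑ j ∈ Ico l (l + h), mu n g (bs h o j) h * n j = ∑ j ∈ Ico l (l + h), n j * g j := by
    rw [← mu_mul hn, mul_sum]
    exact sum_congr rfl fun j hj => by rw [bs_eq hl' (mem_Ico.1 hj).1 (mem_Ico.1 hj).2]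
  have e3 : ∑ j ∈ Ico (l + h) (l + h + h), mu n g (bs h o j) h * n j =
      ∑ j ∈ Ico (l + h) (l + h + h), n j * g j := by
    rw [← mu_mul hn, mul_sum]
    refine sum_congr rfl fun j hj => by
      rw [bs_eq (l := l + h) _ (mem_Ico.1 hj).1 (mem_Ico.1 hj).2]
      rw [show l + h - o = (l - o) + h by ring]
      exact dvd_add hl' dvd_rfl
  simp only [cc, sub_mul, sum_sub_distrib, e1]
  rw [show l + 2 * h = l + h + h by ring, sum_Ico_split _ (b := l + h) (by omega) (by omega),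
    sum_Ico_split (fun j => n j * g j) (b := l + h) (by omega) (by omega), e2, e3, sub_self]

theorem UU_alt (hn : ∀ j, 0 ≤ n j) {h : ℤ} (hh : 0 < h) (o k : ℤ) :
    UU n g h o k = ∑ j ∈ Ico (k + 1) (bs (2 * h) o k + 2 * h), cc n g h o j * n j := by
  have h1 := bs_le (m := 2 * h) (by omega) o k
  have h2 := lt_bs (m := 2 * h) (by omega) o k
  have := block_sum (g := g) hn hh (bs_dvd (2 * h) o k)
  rw [sum_Ico_split _ (b := k + 1) (by omega) (by omega)] at this
  rw [UU]; linarith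

theorem UU_start (hn : ∀ j, 0 ≤ n j) {h : ℤ} (hh : 0 < h) {o k : ℤ} (hk : 2 * h ∣ k - o) :
    UU n g h o (k - 1) = 0 := by
  have : bs (2 * h) o (k - 1) = k - 2 * h := bs_eq
    (by rw [show k - 2 * h - o = (k - o) - 2 * h by ring]; exact dvd_sub hk dvd_rfl)
    (by omega) (by omega)
  rw [UU_alt hn hh, this]
  simp

theorem UU_step (hn : ∀ j, 0 ≤ n j) {h : ℤ} (hh : 0 < h) (o k : ℤ) :
    UU n g h o k = UU n g h o (k - 1) - cc n g h o k * n k := by
  by_cases hk : 2 * h ∣ k - o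
  · rw [UU_start hn hh hk, UU, bs_eq hk le_rfl (by omega), Ico_add_one_right_eq_Icc]
    simp
  · have h1 := bs_pred (m := 2 * h) (by omega) hk
    have h2 := bs_le (m := 2 * h) (by omega) o (k - 1)
    rw [UU, UU, h1, sub_add_cancel, sum_Ico_split _ (b := k) (by omega) (by omega),
      Ico_add_one_right_eq_Icc]
    simp; ring

theorem abs_sum_le (hn : ∀ j, 0 ≤ n j) (hg : ∀ k, 0 ≤ g k ∧ g k ≤ 1) (h o a b : ℤ) {M : ℝ}
    (hM : 0 ≤ M) (hle : ∀ j ∈ Ico a b, n j ≤ M) (hab : b - a ≤ 2 * h) (hh : 0 < h) :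
    |∑ j ∈ Ico a b, cc n g h o j * n j| ≤ 2 * h * M := by
  refine (abs_sum_le_sum_abs _ _).trans ((sum_le_card_nsmul _ _ M fun j hj => ?_).trans ?_)
  · rw [abs_mul, abs_of_nonneg (hn j)]
    exact (mul_le_of_le_one_left (hn j) (abs_cc hn hg h o j)).trans (hle j hj)
  · rw [nsmul_eq_mul, Int.card_Ico]
    refine mul_le_mul_of_nonneg_right ?_ hM
    have : ((b - a).toNat : ℤ) ≤ 2 * h := by omega
    exact_mod_cast this

theorem abs_UU_le (hn : ∀ j, 0 ≤ n j) (hg : ∀ k, 0 ≤ g k ∧ g k ≤ 1) {h : ℤ} (hh : 0 < h) (o k : ℤ)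
    {M : ℝ} (hM : 0 ≤ M) (hle : (∀ j, j ≤ k → n j ≤ M) ∨ ∀ j, k < j → n j ≤ M) :
    |UU n g h o k| ≤ 2 * h * M := by
  have h1 := bs_le (m := 2 * h) (by omega) o k
  have h2 := lt_bs (m := 2 * h) (by omega) o k
  rcases hle with hle | hle
  · rw [UU, abs_neg]
    exact abs_sum_le hn hg h o _ _ hM (fun j hj => hle j (by have := mem_Ico.1 hj; omega))
      (by omega) hh
  · rw [UU_alt hn hh]
    exact abs_sum_le hn hg h o _ _ hM (fun j hj => hle j (by have := mem_Ico.1 hj; omega))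
      (by omega) hh

theorem cc_pred {h : ℤ} (hh : 0 < h) {o k : ℤ} (hk : ¬ h ∣ k - o) :
    cc n g h o (k - 1) = cc n g h o k := by
  rw [cc, cc, bs_pred hh hk, bs_pred (by omega) fun h' => hk ((Dvd.intro_left 2 rfl).trans h')]

/-- log-concave sequences are unimodal. -/
theorem unimodal {lo hi : ℤ} {N : ℤ → ℝ} (hN : ∀ k, lo ≤ k → k ≤ hi → 0 < N k)
    (hlc : ∀ k, lo ≤ k → k + 2 ≤ hi → N k * N (k + 2) ≤ N (k + 1) ^ 2) (k : ℤ) (h1 : lo ≤ k)
    (h2 : k ≤ hi) : (∀ j, lo ≤ j → j ≤ k → N j ≤ N k) ∨ ∀ j, k ≤ j → j ≤ hi → N j ≤ N k := by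
  have down : ∀ a, lo ≤ a → N (a + 1) < N a → ∀ j, a ≤ j → j + 1 ≤ hi → N (j + 1) < N j := by
    intro a ha h j hj
    induction j, hj using Int.leInduction with
    | base => exact fun _ => h
    | succ j hj ih =>
      intro hj'
      have h3 := ih (by omega)
      have h4 := hlc j (by omega) (by omega)
      have h5 := hN (j + 1) (by omega) (by omega)
      have h6 := hN j (by omega) (by omega)
      rw [show j + 1 + 1 = j + 2 by ring]
      by_contra h7
      push Not at h7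
      nlinarith
  by_cases h : ∃ a, lo ≤ a ∧ a < k ∧ N (a + 1) < N a
  · right
    obtain ⟨a, ha, hak, h⟩ := h
    intro j hj
    induction j, hj using Int.leInduction with
    | base => exact fun _ => le_rfl
    | succ j hj ih => exact fun hj' => (down a ha h j (by omega) hj').le.trans (ih (by omega))
  · left
    push Not at h
    intro j hj hjk
    induction j, hjk using Int.leInductionDown with
    | base => exact le_rfl
    | pred j hjk ih =>
      have := h (j - 1) hj (by omega)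
      rw [sub_add_cancel] at this
      exact this.trans (ih (by omega))

theorem sum_emod (f : ℤ → ℝ) {L : ℕ} (hL : 0 < L) (j : ℤ) :
    ∑ o ∈ range L, f ((j - o) % L) = ∑ r ∈ range L, f r := by
  have hL' : (0 : ℤ) < L := by exact_mod_cast hL
  have key : ∀ o : ℕ, o < L → (j - (((j - o) % L).toNat : ℕ)) % L = o := by
    intro o ho
    rw [Int.toNat_of_nonneg (Int.emod_nonneg _ hL'.ne'), Int.sub_emod_emod, sub_sub_cancel]
    exact Int.emod_eq_of_lt (by omega) (by omega)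
  have mem : ∀ o : ℕ, ((j - o) % L).toNat ∈ range L := fun o => by
    have := Int.emod_lt_of_pos (j - o) hL'
    rw [mem_range]; omega
  refine sum_nbij' (fun o => ((j - o) % L).toNat) (fun o => ((j - o) % L).toNat)
    (fun o _ => mem o) (fun o _ => mem o) (fun o ho => ?_) (fun o ho => ?_) fun o _ => ?_
  · simp only [key o (mem_range.1 ho), Int.toNat_natCast]
  · simp only [key o (mem_range.1 ho), Int.toNat_natCast]
  · rw [Int.toNat_of_nonneg (Int.emod_nonneg _ hL'.ne')]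

theorem sum_cc (h : ℕ) (hh : 0 < h) (j : ℤ) :
    ∑ o ∈ range (2 * h), cc n g h o j =
      2 * ∑ r ∈ range h, mu n g (j - r) h - ∑ r ∈ range (2 * h), mu n g (j - r) (2 * h : ℕ) := by
  simp only [cc, bs, sum_sub_distrib]
  congr 1
  · have h1 := sum_emod (fun r => mu n g (j - r) h) hh j
    rw [two_mul h, sum_range_add, h1, two_mul]
    congr 1
    rw [← h1]
    refine sum_congr rfl fun o _ => ?_
    rw [show j - ((h + o : ℕ) : ℤ) = j - o - h by push_cast; ring, Int.sub_emod_right]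
  · have := sum_emod (fun r => mu n g (j - r) (2 * h)) (L := 2 * h) (by omega) j
    push_cast at this ⊢
    exact this

theorem var_nonneg (hn : ∀ j, 0 ≤ n j) (l L : ℤ) :
    ∑ j ∈ Ico l (l + L), n j * g j * (g j - mu n g l L) =
      ∑ j ∈ Ico l (l + L), n j * (g j - mu n g l L) ^ 2 := by
  have h := mu_mul (g := g) hn l L
  have : ∑ j ∈ Ico l (l + L), n j * (g j - mu n g l L) ^ 2 =
      ∑ j ∈ Ico l (l + L), n j * g j * (g j - mu n g l L) +
        mu n g l L * (mu n g l L * ∑ j ∈ Ico l (l + L), n j - ∑ j ∈ Ico l (l + L), n j * g j) := by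
    rw [mul_sum, ← sum_sub_distrib, mul_sum, ← sum_add_distrib]
    exact sum_congr rfl fun j _ => by ring
  rw [this, h, sub_self, mul_zero, add_zero]

theorem sum_supp {lo hi : ℤ} {f : ℤ → ℝ} (hf : ∀ j, ¬ (lo ≤ j ∧ j ≤ hi) → f j = 0) {a b : ℤ}
    (ha : a ≤ lo) (hb : hi < b) : ∑ j ∈ Ico a b, f j = ∑ j ∈ Icc lo hi, f j := by
  refine (sum_subset (fun j hj => ?_) fun j _ hj => hf j (by simpa using hj)).symm
  rw [mem_Icc] at hj
  rw [mem_Ico]; omega

theorem var_le {lo hi : ℤ} (hn : ∀ j, 0 ≤ n j) (h0 : ∀ j, ¬ (lo ≤ j ∧ j ≤ hi) → n j = 0) (L : ℕ)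
    (hL : 2 * (hi - lo + 1) ≤ L) (hle : lo ≤ hi) :
    L * ∑ k ∈ Icc lo hi, n k * (g k - (∑ j ∈ Icc lo hi, n j * g j) / ∑ j ∈ Icc lo hi, n j) ^ 2 ≤
      2 * ∑ j ∈ Icc lo hi, n j * g j * ∑ r ∈ range L, (g j - mu n g (j - r) L) := by
  have e1 : ∑ j ∈ Icc lo hi, n j * g j * ∑ r ∈ range L, (g j - mu n g (j - r) L) =
      ∑ l ∈ Ioc (lo - L) hi, ∑ j ∈ Ico l (l + L), n j * g j * (g j - mu n g l L) := by
    have e2 : ∀ j ∈ Icc lo hi, n j * g j * ∑ r ∈ range L, (g j - mu n g (j - r) L) =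
        ∑ l ∈ Ioc (lo - L) hi, if l ≤ j ∧ j < l + L then n j * g j * (g j - mu n g l L) else 0 := by
      intro j hj
      rw [mem_Icc] at hj
      rw [← sum_filter, mul_sum]
      refine sum_nbij' (fun r => j - r) (fun l => (j - l).toNat) (fun r hr => ?_) (fun l hl => ?_)
        (fun r _ => by simp) (fun l hl => ?_) fun r _ => rfl
      · simp only [mem_Ioc, mem_filter, mem_range] at hr ⊢
        omega
      · simp only [mem_Ioc, mem_filter, mem_range] at hl ⊢
        omega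
      · simp only [mem_Ioc, mem_filter, mem_range] at hl ⊢
        omega
    rw [sum_congr rfl e2, sum_comm]
    refine sum_congr rfl fun l hl => ?_
    rw [mem_Ioc] at hl
    rw [← sum_supp (a := lo - L) (b := hi + L + 1) (fun j hj => by simp [h0 j hj]) (by omega)
      (by omega), ← sum_filter]
    congr 1
    ext j
    simp only [mem_filter, mem_Ico]
    omega
  rw [e1]
  set V := ∑ k ∈ Icc lo hi,
    n k * (g k - (∑ j ∈ Icc lo hi, n j * g j) / ∑ j ∈ Icc lo hi, n j) ^ 2 with hV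
  have hV0 : 0 ≤ V := sum_nonneg fun k _ => mul_nonneg (hn k) (sq_nonneg _)
  have e3 : ∀ l ∈ Ioc (hi - L) lo,
      ∑ j ∈ Ico l (l + L), n j * g j * (g j - mu n g l L) = V := by
    intro l hl
    rw [mem_Ioc] at hl
    rw [var_nonneg hn, sum_supp (lo := lo) (hi := hi) (fun j hj => by simp [h0 j hj]) hl.2
      (by omega), mu, sum_supp (lo := lo) (hi := hi) (fun j hj => by simp [h0 j hj]) hl.2
      (by omega), sum_supp h0 hl.2 (by omega)]
  have e4 : ∑ l ∈ Ioc (hi - L) lo, ∑ j ∈ Ico l (l + L), n j * g j * (g j - mu n g l L) ≤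
      ∑ l ∈ Ioc (lo - L) hi, ∑ j ∈ Ico l (l + L), n j * g j * (g j - mu n g l L) := by
    refine sum_le_sum_of_subset_of_nonneg (Ioc_subset_Ioc (by omega) hle) fun l _ _ => ?_
    rw [var_nonneg hn]
    exact sum_nonneg fun k _ => mul_nonneg (hn k) (sq_nonneg _)
  rw [sum_congr rfl e3, sum_const, nsmul_eq_mul, Int.card_Ioc] at e4
  have e5 : (L : ℤ) ≤ 2 * ((lo - (hi - L)).toNat : ℤ) := by omega
  have e6 : (L : ℝ) ≤ 2 * ((lo - (hi - L)).toNat : ℝ) := by exact_mod_cast e5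
  nlinarith

theorem abel {lo hi : ℤ} (hle : lo ≤ hi) (U g : ℤ → ℝ) :
    ∑ k ∈ Icc lo hi, U k * (g (k + 1) - g k) =
      U hi * g (hi + 1) - U (lo - 1) * g lo - ∑ k ∈ Icc lo hi, (U k - U (k - 1)) * g k := by
  induction hi, hle using Int.leInduction with
  | base => simp; ring
  | succ j hj ih =>
    rw [← insert_Icc_right_eq_Icc_add_one (by omega), sum_insert (by simp), sum_insert (by simp),
      ih, add_sub_cancel_right]
    ring

theorem quad {lo hi : ℤ} (hle : lo ≤ hi) (a b Ψ : ℤ → ℝ) (h0 : a (lo - 1) = 0) :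
    ∑ k ∈ Icc lo hi, (a k ^ 2 * Ψ (k + 2) + 2 * a k * b k * Ψ (k + 1) + b k ^ 2 * Ψ k) =
      b lo ^ 2 * Ψ lo + ∑ j ∈ Icc (lo + 1) hi,
        (a (j - 1 - 1) ^ 2 + 2 * a (j - 1) * b (j - 1) + b j ^ 2) * Ψ j +
      (a (hi - 1) ^ 2 * Ψ (hi + 1) + a hi ^ 2 * Ψ (hi + 2) + 2 * a hi * b hi * Ψ (hi + 1)) := by
  induction hi, hle using Int.leInduction with
  | base => simp [h0]; ring
  | succ j hj ih =>
    rw [← insert_Icc_right_eq_Icc_add_one (by omega), sum_insert (by simp),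
      ← insert_Icc_right_eq_Icc_add_one (a := lo + 1) (by omega), sum_insert (by simp),
      ih, add_sub_cancel_right, show j + 1 + 1 = j + 2 by ring]
    ring

theorem tele (f : ℕ → ℝ) (I : ℕ) : ∑ i ∈ Icc 1 I, (f (i - 1) - f i) = f 0 - f I := by
  induction I with
  | zero => simp
  | succ I ih => rw [sum_Icc_succ_top (by omega), ih]; simp

end HaarAux

open HaarAux in
/-- Dyadic (Haar) decomposition of the variance of `g` under a log-concave weight `N`, averaged
over all offsets `o` of the dyadic grid.  `a i o k` is the charge carried from level `k` up to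
level `k + 1`, `b i o k` the charge that stays at level `k`. -/
theorem haar {lo hi : ℤ} (hle : lo ≤ hi) {N g : ℤ → ℝ} (hN : ∀ k, lo ≤ k → k ≤ hi → 0 < N k)
    (hlc : ∀ k, lo ≤ k → k + 2 ≤ hi → N k * N (k + 2) ≤ N (k + 1) ^ 2)
    (hg : ∀ k, 0 ≤ g k ∧ g k ≤ 1) {I : ℕ} (hI : 2 * (hi - lo + 1) ≤ 2 ^ I) :
    ∃ a b : ℕ → ℕ → ℤ → ℝ,
      (∀ i o, a i o hi = 0 ∧ b i o hi = 0) ∧
      (∀ i o k, lo ≤ k → k < hi → a i o k * N (k + 1) + b i o k * N k = 0) ∧
      (∀ i o k, lo ≤ k → k ≤ hi → |a i o k| ≤ 2 ^ i ∧ |b i o k| ≤ 2 ^ i) ∧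
      (∀ i o : ℕ, 1 ≤ i → ∀ Ψ : ℤ → ℝ, (∀ j, 0 ≤ Ψ j) →
        -(2 ^ (i + 2) * ∑ j ∈ (Icc (lo + 1) hi).filter
            (fun j : ℤ => (j - (o : ℤ) - 2 ^ (i - 1)) % 2 ^ i = 0), Ψ j) ≤
          ∑ k ∈ Icc lo hi, (a i o k ^ 2 * Ψ (k + 2) + 2 * a i o k * b i o k * Ψ (k + 1) +
            b i o k ^ 2 * Ψ k)) ∧
      ∑ k ∈ Icc lo hi, N k * (g k - (∑ j ∈ Icc lo hi, N j * g j) / ∑ j ∈ Icc lo hi, N j) ^ 2 ≤
        2 * ∑ i ∈ Icc 1 I, (∑ o ∈ range (2 ^ i), ∑ k ∈ Icc lo hi,
          (a i o k * (N (k + 1) * g (k + 1)) + b i o k * (N k * g k))) / 2 ^ i := by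
  classical
  let n : ℤ → ℝ := fun j => if lo ≤ j ∧ j ≤ hi then N j else 0
  have hn1 : ∀ j, lo ≤ j → j ≤ hi → n j = N j := fun j h1 h2 => if_pos ⟨h1, h2⟩
  have hn0 : ∀ j, ¬ (lo ≤ j ∧ j ≤ hi) → n j = 0 := fun j h => if_neg h
  have hn : ∀ j, 0 ≤ n j := fun j => by
    by_cases h : lo ≤ j ∧ j ≤ hi
    · rw [hn1 j h.1 h.2]; exact (hN j h.1 h.2).le
    · rw [hn0 j h]
  have hpow : ∀ i : ℕ, 1 ≤ i → 2 * (2 : ℤ) ^ (i - 1) = 2 ^ i := fun i hi => by
    rw [← pow_succ', Nat.sub_add_cancel hi]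
  have hh : ∀ i : ℕ, (0 : ℤ) < 2 ^ (i - 1) := fun i => by positivity
  let U : ℕ → ℕ → ℤ → ℝ := fun i o k => if i = 0 then 0 else UU n g (2 ^ (i - 1)) o k
  have hU : ∀ i o k, 1 ≤ i → U i o k = UU n g (2 ^ (i - 1)) o k := fun i o k h => if_neg (by omega)
  have hUhi : ∀ i o, U i o hi = 0 := by
    intro i o
    simp only [U]
    split_ifs with h
    · rfl
    · rw [UU_alt hn (hh i)]
      exact sum_eq_zero fun j hj => by rw [hn0 j (by have := mem_Ico.1 hj; omega), mul_zero]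
  have hUlo : ∀ i o, U i o (lo - 1) = 0 := by
    intro i o
    simp only [U]
    split_ifs with h
    · rfl
    · rw [UU, neg_eq_zero]
      exact sum_eq_zero fun j hj => by rw [hn0 j (by have := mem_Ico.1 hj; omega), mul_zero]
  have hUb : ∀ i o k t, lo ≤ t → t ≤ hi → k ≤ t → t ≤ k + 1 → |U i o k / N t| ≤ 2 ^ i := by
    intro i o k t h1 h2 h3 h4
    have hNt := hN t h1 h2
    rw [abs_div, abs_of_pos hNt, div_le_iff₀ hNt]
    rcases Nat.eq_zero_or_pos i with rfl | hi0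
    · simp [U, hNt.le]
    · have h5 : (2 : ℝ) * ((2 ^ (i - 1) : ℤ) : ℝ) = 2 ^ i := by exact_mod_cast hpow i hi0
      rw [hU i o k hi0, ← h5]
      refine abs_UU_le hn hg (hh i) o k hNt.le ?_
      refine (unimodal hN hlc t h1 h2).imp (fun h j hj => ?_) fun h j hj => ?_
      · by_cases h' : lo ≤ j ∧ j ≤ hi
        · rw [hn1 j h'.1 h'.2]; exact h j h'.1 (by omega)
        · rw [hn0 j h']; exact hNt.le
      · by_cases h' : lo ≤ j ∧ j ≤ hi
        · rw [hn1 j h'.1 h'.2]; exact h j (by omega) h'.2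
        · rw [hn0 j h']; exact hNt.le
  refine ⟨fun i o k => U i o k / N (k + 1), fun i o k => -(U i o k / N k), fun i o => ?_,
    fun i o k h1 h2 => ?_, fun i o k h1 h2 => ⟨?_, ?_⟩, fun i o hi1 Ψ hΨ => ?_, ?_⟩
  · simp [hUhi]
  · have h3 := (hN k h1 h2.le).ne'
    have h4 := (hN (k + 1) (by omega) (by omega)).ne'
    field_simp
    ring
  · rcases h2.lt_or_eq with h2 | rfl
    · exact hUb i o k (k + 1) (by omega) (by omega) (by omega) le_rfl
    · simp [hUhi]
  · rw [abs_neg]; exact hUb i o k k h1 h2 le_rfl (by omega)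
  · rw [quad hle (fun k => U i o k / N (k + 1)) (fun k => -(U i o k / N k)) Ψ (by simp [hUlo])]
    have h1 : -(2 ^ (i + 2) * ∑ j ∈ (Icc (lo + 1) hi).filter
        (fun j : ℤ => (j - (o : ℤ) - 2 ^ (i - 1)) % 2 ^ i = 0), Ψ j) ≤ ∑ j ∈ Icc (lo + 1) hi,
        ((U i o (j - 1 - 1) / N (j - 1 - 1 + 1)) ^ 2 +
          2 * (U i o (j - 1) / N (j - 1 + 1)) * -(U i o (j - 1) / N (j - 1)) +
          (-(U i o j / N j)) ^ 2) * Ψ j := by
      rw [sum_filter, mul_sum, ← sum_neg_distrib]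
      refine sum_le_sum fun j hj => ?_
      rw [mem_Icc] at hj
      have hb := hUb i o (j - 1) j (by omega) hj.2 (by omega) (by omega)
      have h2 := (hN j (by omega) hj.2).ne'
      have h3 := (hN (j - 1) (by omega) (by omega)).ne'
      have s1 := UU_step (g := g) hn (hh i) o j
      have s2 := UU_step (g := g) hn (hh i) o (j - 1)
      rw [hn1 _ (by omega) (by omega), ← hU _ _ _ hi1, ← hU _ _ _ hi1] at s1 s2
      rw [sub_add_cancel, sub_add_cancel]
      set c := cc n g (2 ^ (i - 1)) o j with hc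
      set c' := cc n g (2 ^ (i - 1)) o (j - 1) with hc'
      set A := U i o (j - 1) / N j with hA
      set a := U i o (j - 1 - 1) / N (j - 1) with ha
      have e1 : U i o j / N j = A - c := by rw [s1, hA]; field_simp
      have e2 : U i o (j - 1) / N (j - 1) = a - c' := by rw [s2, ha]; field_simp
      have e3 : a ^ 2 + 2 * A * -(a - c') + (-(A - c)) ^ 2 =
          (A - a) ^ 2 + c ^ 2 + 2 * (A * (c' - c)) := by ring
      rw [e1, e2, e3]
      have hΨj := hΨ j
      split_ifs with h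
      · have h4 : |A * (c' - c)| ≤ 2 ^ i * 2 := by
          rw [abs_mul]
          refine mul_le_mul hb ?_ (abs_nonneg _) (by positivity)
          have h5 := abs_le.1 (abs_cc hn hg (2 ^ (i - 1)) o j)
          have h6 := abs_le.1 (abs_cc hn hg (2 ^ (i - 1)) o (j - 1))
          rw [abs_le]; constructor <;> linarith
        rw [← neg_mul]
        refine mul_le_mul_of_nonneg_right ?_ hΨj
        have h7 := (abs_le.1 h4).1
        rw [pow_add]
        nlinarith [sq_nonneg (A - a), sq_nonneg c]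
      · have h4 : A * (c' - c) = 0 := by
          by_cases h5 : (2 : ℤ) ^ (i - 1) ∣ j - o
          · have h6 : 2 * (2 : ℤ) ^ (i - 1) ∣ j - o := by
              obtain ⟨t, ht⟩ := h5
              rcases Int.even_or_odd' t with ⟨u, rfl | rfl⟩
              · exact ⟨u, by rw [ht]; ring⟩
              · exact absurd (Int.emod_eq_zero_of_dvd ⟨u, by rw [ht, ← hpow i hi1]; ring⟩) h
            rw [hA, hU _ _ _ hi1, UU_start hn (hh i) h6, zero_div, zero_mul]
          · rw [hc', cc_pred (hh i) h5, sub_self, mul_zero]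
        rw [h4]
        simp only [mul_zero, neg_zero, add_zero]
        positivity
    refine h1.trans ?_
    simp only [hUhi, zero_div, mul_zero, zero_mul, add_zero]
    have h2 := mul_nonneg (sq_nonneg (-(U i o lo / N lo))) (hΨ lo)
    have h3 := mul_nonneg (sq_nonneg (U i o (hi - 1) / N (hi - 1 + 1))) (hΨ (hi + 1))
    have h4 := mul_nonneg (sq_nonneg (0 : ℝ)) (hΨ (hi + 2))
    linarith
  · let T : ℕ → ℝ := fun i =>
      (∑ j ∈ Icc lo hi, n j * g j * ∑ r ∈ range (2 ^ i), mu n g (j - r) (2 ^ i : ℕ)) / 2 ^ i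
    have e1 : ∀ i ∈ Icc 1 I, (∑ o ∈ range (2 ^ i), ∑ k ∈ Icc lo hi,
        (U i o k / N (k + 1) * (N (k + 1) * g (k + 1)) + -(U i o k / N k) * (N k * g k))) / 2 ^ i =
        T (i - 1) - T i := by
      intro i hi'
      have hi1 : 1 ≤ i := (mem_Icc.1 hi').1
      have e2 : ∀ o : ℕ, ∑ k ∈ Icc lo hi,
          (U i o k / N (k + 1) * (N (k + 1) * g (k + 1)) + -(U i o k / N k) * (N k * g k)) =
          ∑ k ∈ Icc lo hi, n k * g k * cc n g (2 ^ (i - 1)) o k := by
        intro o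
        have e3 : ∀ k ∈ Icc lo hi,
            U i o k / N (k + 1) * (N (k + 1) * g (k + 1)) + -(U i o k / N k) * (N k * g k) =
            U i o k * (g (k + 1) - g k) := by
          intro k hk
          rw [mem_Icc] at hk
          rcases hk.2.lt_or_eq with h2 | rfl
          · have h3 := (hN k hk.1 hk.2).ne'
            have h4 := (hN (k + 1) (by omega) (by omega)).ne'
            field_simp
            ring
          · simp [hUhi]
        rw [sum_congr rfl e3, abel hle, hUhi, hUlo, zero_mul, zero_mul, sub_zero, zero_sub,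
          ← sum_neg_distrib]
        refine sum_congr rfl fun k _ => ?_
        rw [hU _ _ _ hi1, hU _ _ _ hi1, UU_step hn (hh i) o k]
        ring
      obtain ⟨i, rfl⟩ := Nat.exists_eq_add_of_le' hi1
      simp only [e2, T, Nat.add_sub_cancel]
      rw [sum_comm]
      have e4 : ∀ k, ∑ o ∈ range (2 ^ (i + 1)), n k * g k * cc n g (2 ^ i) o k =
          2 * (n k * g k * ∑ r ∈ range (2 ^ i), mu n g (k - r) (2 ^ i : ℕ)) -
          n k * g k * ∑ r ∈ range (2 ^ (i + 1)), mu n g (k - r) (2 ^ (i + 1) : ℕ) := by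
        intro k
        have := sum_cc (n := n) (g := g) (2 ^ i) (by positivity) k
        rw [← pow_succ'] at this
        rw [← mul_sum]
        push_cast at this ⊢
        rw [this]; ring
      simp only [e4, sum_sub_distrib, ← mul_sum]
      rw [pow_succ (2 : ℝ)]
      field_simp
    rw [sum_congr rfl e1, tele]
    have e5 := var_le (g := g) hn hn0 (2 ^ I) (by exact_mod_cast hI) hle
    have e6 : ∀ f : ℝ → ℤ → ℝ, ∑ k ∈ Icc lo hi, f (N k) k = ∑ k ∈ Icc lo hi, f (n k) k :=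
      fun f => sum_congr rfl fun k hk => by rw [hn1 k (mem_Icc.1 hk).1 (mem_Icc.1 hk).2]
    rw [e6 (fun x j => x * g j), e6 (fun x _ => x), e6 (fun x k => x * (g k - _) ^ 2)]
    have e7 : T 0 = ∑ j ∈ Icc lo hi, n j * g j * g j := by
      simp only [T, pow_zero, div_one, range_one, sum_singleton]
      refine sum_congr rfl fun j hj => ?_
      have h2 : n j ≠ 0 := by
        rw [hn1 j (mem_Icc.1 hj).1 (mem_Icc.1 hj).2]
        exact (hN j (mem_Icc.1 hj).1 (mem_Icc.1 hj).2).ne'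
      simp [mu, Ico_add_one_right_eq_Icc, h2]
    have e8 : ∑ j ∈ Icc lo hi, n j * g j * ∑ r ∈ range (2 ^ I), (g j - mu n g (j - r) (2 ^ I : ℕ)) =
        2 ^ I * (T 0 - T I) := by
      rw [e7, mul_sub]
      simp only [T]
      rw [mul_div_cancel₀ _ (by positivity), mul_sum, ← sum_sub_distrib]
      refine sum_congr rfl fun j _ => ?_
      rw [sum_sub_distrib, sum_const, card_range, nsmul_eq_mul]
      push_cast
      ring
    rw [e8] at e5
    push_cast at e5
    have h9 : (0 : ℝ) < 2 ^ I := by positivity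
    nlinarith

end Crest.Agent.R302
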