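import Crest.Agent.R302.Refine
import Crest.Agent.R302.Haar

/-!
# Row 302: fibres, conditional means and the dyadic systems of charges
-/

set_option autoImplicit false

namespace Crest.Agent.R302.WPI

open Finset

theorem ev_apply {V : Type} [DecidableEq V] (a b : V) : ev a b = if b = a then 1 else 0 :=
  Pi.single_apply a (1 : ℤ) b

variable {ι : Type} [Fintype ι] [DecidableEq ι]

omit [Fintype ι] [DecidableEq ι] in
theorem lf_t (t x : ι → ℤ) (d : ι) : lf t x (true, d) = t d - x d := rfl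

omit [Fintype ι] [DecidableEq ι] in
theorem lf_f (t x : ι → ℤ) (d : ι) : lf t x (false, d) = x d := rfl

omit [Fintype ι] in
theorem lf_true (t x : ι → ℤ) (d : ι) : lf t x + ev (true, d) = lf (t + ev d) x := by
  funext ⟨s, c⟩
  cases s
  · simp [lf_f, ev_apply]
  · simp only [Pi.add_apply, lf_t, ev_apply, Prod.mk.injEq, true_and]; ring

omit [Fintype ι] in
theorem lf_false (t x : ι → ℤ) (d : ι) : lf t x + ev (false, d) = lf (t + ev d) (x + ev d) := by
  funext ⟨s, c⟩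
  cases s
  · simp [lf_f, ev_apply]
  · simp [lf_t, ev_apply]

omit [Fintype ι] in
theorem lf_sub_true (t x : ι → ℤ) (d : ι) : lf t x - ev (true, d) = lf (t - ev d) x := by
  rw [sub_eq_iff_eq_add, lf_true, sub_add_cancel]

theorem mem_box {lo hi : ℤ} {x : ι → ℤ} : x ∈ box ι lo hi ↔ ∀ d, lo ≤ x d ∧ x d ≤ hi := by
  show x ∈ Fintype.piFinset (fun _ => Icc lo hi) ↔ _
  simp [Fintype.mem_piFinset]

theorem mem_fib {lo hi : ℤ} {Pn : Finset ι} {x y : ι → ℤ} :
    x ∈ fib lo hi Pn y ↔ x ∈ box ι lo hi ∧ ∀ d ∈ Pn, x d = y d := Finset.mem_filter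

theorem fib_congr {lo hi : ℤ} {Pn : Finset ι} {y y' : ι → ℤ} (h : ∀ d ∈ Pn, y d = y' d) :
    fib lo hi Pn y = fib lo hi Pn y' := by
  ext x
  simp only [mem_fib]
  exact and_congr_right fun _ => forall₂_congr fun d hd => by rw [h d hd]

theorem fib_empty (lo hi : ℤ) (y : ι → ℤ) : fib lo hi ∅ y = box ι lo hi := by
  ext x; simp [mem_fib]

theorem fib_univ {lo hi : ℤ} {y : ι → ℤ} (hy : y ∈ box ι lo hi) : fib lo hi univ y = {y} := by
  ext x
  simp only [mem_fib, mem_univ, forall_const, mem_singleton]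
  constructor
  · exact fun h => funext h.2
  · rintro rfl; exact ⟨hy, fun _ => rfl⟩

theorem box_nonempty {lo hi : ℤ} (hle : lo ≤ hi) : (box ι lo hi).Nonempty :=
  ⟨fun _ => lo, mem_box.2 fun _ => ⟨le_rfl, hle⟩⟩

/-- The representative of the fibre of `x`. -/
def rep (lo : ℤ) (Pn : Finset ι) (x : ι → ℤ) : ι → ℤ := fun d => if d ∈ Pn then x d else lo

omit [Fintype ι] in
theorem rep_apply (lo : ℤ) (Pn : Finset ι) (x : ι → ℤ) (d : ι) :
    rep lo Pn x d = if d ∈ Pn then x d else lo := rfl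

omit [Fintype ι] in
theorem rep_congr {lo : ℤ} {Pn : Finset ι} {x x' : ι → ℤ} (h : ∀ d ∈ Pn, x d = x' d) :
    rep lo Pn x = rep lo Pn x' := by
  funext d
  rw [rep_apply, rep_apply]
  split_ifs with hd
  · exact h d hd
  · rfl

omit [Fintype ι] in
theorem rep_mem {lo : ℤ} {Pn : Finset ι} (x : ι → ℤ) {d : ι} (hd : d ∈ Pn) :
    rep lo Pn x d = x d := by rw [rep_apply, if_pos hd]

theorem rep_box {lo hi : ℤ} (hle : lo ≤ hi) (Pn : Finset ι) {x : ι → ℤ} (hx : x ∈ box ι lo hi) :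
    rep lo Pn x ∈ box ι lo hi := by
  rw [mem_box] at hx ⊢
  intro d
  rw [rep_apply]
  split_ifs
  · exact hx d
  · exact ⟨le_rfl, hle⟩

/-- The representatives of the fibres. -/
noncomputable def reps (lo hi : ℤ) (Pn : Finset ι) : Finset (ι → ℤ) :=
  (box ι lo hi).filter fun y => rep lo Pn y = y

theorem mem_reps {lo hi : ℤ} {Pn : Finset ι} {y : ι → ℤ} :
    y ∈ reps lo hi Pn ↔ y ∈ box ι lo hi ∧ rep lo Pn y = y := Finset.mem_filter

theorem sum_reps {lo hi : ℤ} (hle : lo ≤ hi) (Pn : Finset ι) (F : (ι → ℤ) → ℝ) :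
    ∑ x ∈ box ι lo hi, F x = ∑ y ∈ reps lo hi Pn, ∑ x ∈ fib lo hi Pn y, F x := by
  rw [← Finset.sum_fiberwise_of_maps_to (s := box ι lo hi) (t := reps lo hi Pn)
    (g := rep lo Pn) (fun x hx => mem_reps.2 ⟨rep_box hle Pn hx,
      rep_congr fun d hd => rep_mem x hd⟩)]
  refine Finset.sum_congr rfl fun y hy => Finset.sum_congr ?_ fun _ _ => rfl
  ext x
  rw [mem_filter, mem_fib]
  refine and_congr_right fun _ => ⟨fun h d hd => ?_, fun h => ?_⟩
  · rw [← h, rep_mem x hd]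
  · rw [rep_congr h, (mem_reps.1 hy).2]

theorem mem_lvl {lo hi : ℤ} {Pn : Finset ι} {e : ι} (he : e ∉ Pn) {x y : ι → ℤ} {k : ℤ} :
    x ∈ fib lo hi (insert e Pn) (Function.update y e k) ↔
      x ∈ box ι lo hi ∧ x e = k ∧ ∀ d ∈ Pn, x d = y d := by
  rw [mem_fib]
  refine and_congr_right fun _ => ?_
  rw [forall_mem_insert, Function.update_self]
  refine and_congr_right fun _ => forall₂_congr fun d hd => ?_
  rw [Function.update_of_ne (by rintro rfl; exact he hd)]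

theorem sum_lvl {lo hi : ℤ} {Pn : Finset ι} {e : ι} (he : e ∉ Pn) (y : ι → ℤ)
    (F : (ι → ℤ) → ℝ) :
    ∑ x ∈ fib lo hi Pn y, F x =
      ∑ k ∈ Icc lo hi, ∑ x ∈ fib lo hi (insert e Pn) (Function.update y e k), F x := by
  rw [← Finset.sum_fiberwise_of_maps_to (s := fib lo hi Pn y) (t := Icc lo hi)
    (g := fun x => x e) (fun x hx => mem_Icc.2 (mem_box.1 (mem_fib.1 hx).1 e))]
  refine Finset.sum_congr rfl fun k _ => Finset.sum_congr ?_ fun _ _ => rfl
  ext x
  rw [mem_filter, mem_fib, mem_lvl he]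
  tauto

theorem sum_box {lo hi : ℤ} (hle : lo ≤ hi) {Pn : Finset ι} {e : ι} (he : e ∉ Pn)
    (F : (ι → ℤ) → ℝ) :
    ∑ x ∈ box ι lo hi, F x = ∑ y ∈ reps lo hi Pn,
      ∑ k ∈ Icc lo hi, ∑ x ∈ fib lo hi (insert e Pn) (Function.update y e k), F x := by
  rw [sum_reps hle Pn]
  exact Finset.sum_congr rfl fun y _ => sum_lvl he y F

/-- The mass of level `j` in the fibre of `y`. -/
noncomputable def lev (lo hi : ℤ) (Pn : Finset ι) (e : ι) (y : ι → ℤ) (F : (ι → ℤ) → ℝ)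
    (j : ℤ) : ℝ :=
  ∑ x ∈ fib lo hi (insert e Pn) (Function.update y e lo), F (Function.update x e j)

theorem update_box {lo hi : ℤ} {x : ι → ℤ} (hx : x ∈ box ι lo hi) (e : ι) {k : ℤ} (h1 : lo ≤ k)
    (h2 : k ≤ hi) : Function.update x e k ∈ box ι lo hi := by
  rw [mem_box] at hx ⊢
  intro d
  by_cases hd : d = e
  · subst hd; rw [Function.update_self]; exact ⟨h1, h2⟩
  · rw [Function.update_of_ne hd]; exact hx d

theorem update_lvl {lo hi : ℤ} {Pn : Finset ι} {e : ι} (he : e ∉ Pn) {x y : ι → ℤ} {k k' : ℤ}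
    (hx : x ∈ fib lo hi (insert e Pn) (Function.update y e k)) (h1 : lo ≤ k') (h2 : k' ≤ hi) :
    Function.update x e k' ∈ fib lo hi (insert e Pn) (Function.update y e k') := by
  rw [mem_lvl he] at hx ⊢
  refine ⟨update_box hx.1 e h1 h2, Function.update_self .., fun d hd => ?_⟩
  rw [Function.update_of_ne (by rintro rfl; exact he hd)]
  exact hx.2.2 d hd

theorem lev_shift {lo hi : ℤ} {Pn : Finset ι} {e : ι} (he : e ∉ Pn) (y : ι → ℤ)
    (F : (ι → ℤ) → ℝ) {k : ℤ} (h1 : lo ≤ k) (h2 : k ≤ hi) (j : ℤ) :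
    ∑ x ∈ fib lo hi (insert e Pn) (Function.update y e k), F (Function.update x e j) =
      lev lo hi Pn e y F j := by
  refine Finset.sum_nbij' (fun x => Function.update x e lo) (fun x => Function.update x e k)
    (fun x hx => update_lvl he hx le_rfl (h1.trans h2)) (fun x hx => update_lvl he hx h1 h2)
    (fun x hx => ?_) (fun x hx => ?_) (fun x _ => ?_)
  · rw [Function.update_idem, ← ((mem_lvl he).1 hx).2.1, Function.update_eq_self]
  · rw [Function.update_idem, ← ((mem_lvl he).1 hx).2.1, Function.update_eq_self]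
  · rw [Function.update_idem]

theorem lev_zero {lo hi : ℤ} {Pn : Finset ι} {e : ι} (he : e ∉ Pn) (y : ι → ℤ)
    (F : (ι → ℤ) → ℝ) {k : ℤ} (h1 : lo ≤ k) (h2 : k ≤ hi) :
    ∑ x ∈ fib lo hi (insert e Pn) (Function.update y e k), F x = lev lo hi Pn e y F k := by
  rw [← lev_shift he y F h1 h2]
  refine Finset.sum_congr rfl fun x hx => ?_
  rw [← ((mem_lvl he).1 hx).2.1, Function.update_eq_self]

omit [Fintype ι] in
theorem add_ev (x : ι → ℤ) (e : ι) : x + ev e = Function.update x e (x e + 1) := by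
  funext d
  by_cases hd : d = e
  · subst hd; simp [ev_apply]
  · simp [ev_apply, hd]

theorem lev_one {lo hi : ℤ} {Pn : Finset ι} {e : ι} (he : e ∉ Pn) (y : ι → ℤ)
    (F : (ι → ℤ) → ℝ) {k : ℤ} (h1 : lo ≤ k) (h2 : k ≤ hi) :
    ∑ x ∈ fib lo hi (insert e Pn) (Function.update y e k), F (x + ev e) =
      lev lo hi Pn e y F (k + 1) := by
  rw [← lev_shift he y F h1 h2]
  refine Finset.sum_congr rfl fun x hx => ?_
  rw [← ((mem_lvl he).1 hx).2.1, add_ev]

theorem lev_two {lo hi : ℤ} {Pn : Finset ι} {e : ι} (he : e ∉ Pn) (y : ι → ℤ)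
    (F : (ι → ℤ) → ℝ) {k : ℤ} (h1 : lo ≤ k) (h2 : k ≤ hi) :
    ∑ x ∈ fib lo hi (insert e Pn) (Function.update y e k), F (x + ev e + ev e) =
      lev lo hi Pn e y F (k + 2) := by
  rw [← lev_shift he y F h1 h2]
  refine Finset.sum_congr rfl fun x hx => ?_
  rw [← ((mem_lvl he).1 hx).2.1, add_ev (x + ev e), add_ev x, Function.update_idem,
    Function.update_self, add_assoc]
  rfl

theorem lev_mono {lo hi : ℤ} {Pn : Finset ι} {e : ι} {y : ι → ℤ} {F F' : (ι → ℤ) → ℝ}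
    (h : ∀ x, F x ≤ F' x) (j : ℤ) : lev lo hi Pn e y F j ≤ lev lo hi Pn e y F' j :=
  Finset.sum_le_sum fun _ _ => h _

theorem lev_nonneg {lo hi : ℤ} {Pn : Finset ι} {e : ι} {y : ι → ℤ} {F : (ι → ℤ) → ℝ}
    (h : ∀ x, 0 ≤ F x) (j : ℤ) : 0 ≤ lev lo hi Pn e y F j :=
  Finset.sum_nonneg fun _ _ => h _

theorem lev_pos {lo hi : ℤ} (hle : lo ≤ hi) {Pn : Finset ι} {e : ι} {y : ι → ℤ}
    (hy : y ∈ box ι lo hi) {F : (ι → ℤ) → ℝ} (h : ∀ x, 0 < F x) (j : ℤ) :
    0 < lev lo hi Pn e y F j :=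
  Finset.sum_pos (fun _ _ => h _) ⟨Function.update y e lo,
    mem_fib.2 ⟨update_box hy e le_rfl hle, fun _ _ => rfl⟩⟩

/-- The variance identity. -/
theorem var_split {α : Type} (s : Finset α) (f g : α → ℝ) (c : ℝ) (h : ∑ x ∈ s, f x ≠ 0) :
    ∑ x ∈ s, f x * (g x - c) ^ 2 =
      ∑ x ∈ s, f x * (g x - (∑ x ∈ s, f x * g x) / ∑ x ∈ s, f x) ^ 2 +
        (∑ x ∈ s, f x) * ((∑ x ∈ s, f x * g x) / (∑ x ∈ s, f x) - c) ^ 2 := by
  have key : ∀ d : ℝ, ∑ x ∈ s, f x * (g x - d) ^ 2 =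
      ∑ x ∈ s, f x * g x ^ 2 - 2 * d * ∑ x ∈ s, f x * g x + d ^ 2 * ∑ x ∈ s, f x := by
    intro d
    rw [mul_sum, mul_sum, ← sum_sub_distrib, ← sum_add_distrib]
    exact Finset.sum_congr rfl fun x _ => by ring
  rw [key, key]
  field_simp
  ring

/-- The conditional mean on the fibre of `x`. -/
noncomputable def cm (lo hi : ℤ) (f g : (ι → ℤ) → ℝ) (Pn : Finset ι) (x : ι → ℤ) : ℝ :=
  (∑ x' ∈ fib lo hi Pn x, f x' * g x') / ∑ x' ∈ fib lo hi Pn x, f x'

/-- The variance inside the fibres. -/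
noncomputable def VV (lo hi : ℤ) (f g : (ι → ℤ) → ℝ) (Pn : Finset ι) : ℝ :=
  ∑ x ∈ box ι lo hi, f x * (g x - cm lo hi f g Pn x) ^ 2

theorem VV_empty (lo hi : ℤ) (f g : (ι → ℤ) → ℝ) :
    VV lo hi f g ∅ = ∑ x ∈ box ι lo hi,
      f x * (g x - (∑ x ∈ box ι lo hi, f x * g x) / ∑ x ∈ box ι lo hi, f x) ^ 2 := by
  unfold VV cm
  simp only [fib_empty]

theorem VV_univ (lo hi : ℤ) {f : (ι → ℤ) → ℝ} (hf : ∀ x, 0 < f x) (g : (ι → ℤ) → ℝ) :
    VV lo hi f g univ = 0 := by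
  refine Finset.sum_eq_zero fun x hx => ?_
  unfold cm
  rw [fib_univ hx, sum_singleton, sum_singleton, mul_div_cancel_left₀ _ (hf x).ne']
  simp

theorem VV_step {lo hi : ℤ} (hle : lo ≤ hi) {f : (ι → ℤ) → ℝ} (hf : ∀ x, 0 < f x)
    (g : (ι → ℤ) → ℝ) {Pn : Finset ι} {e : ι} (he : e ∉ Pn) :
    VV lo hi f g Pn = VV lo hi f g (insert e Pn) + ∑ y ∈ reps lo hi Pn, ∑ k ∈ Icc lo hi,
      lev lo hi Pn e y f k *
        (lev lo hi Pn e y (fun x => f x * g x) k / lev lo hi Pn e y f k -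
          (∑ j ∈ Icc lo hi, lev lo hi Pn e y f j *
            (lev lo hi Pn e y (fun x => f x * g x) j / lev lo hi Pn e y f j)) /
          ∑ j ∈ Icc lo hi, lev lo hi Pn e y f j) ^ 2 := by
  unfold VV
  rw [sum_box hle he, sum_box hle he, ← sum_add_distrib]
  refine Finset.sum_congr rfl fun y hy => ?_
  have hyb := (mem_reps.1 hy).1
  rw [← sum_add_distrib]
  refine Finset.sum_congr rfl fun k hk => ?_
  obtain ⟨h1, h2⟩ := mem_Icc.1 hk
  have hm : cm lo hi f g Pn y = (∑ j ∈ Icc lo hi, lev lo hi Pn e y f j *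
      (lev lo hi Pn e y (fun x => f x * g x) j / lev lo hi Pn e y f j)) /
      ∑ j ∈ Icc lo hi, lev lo hi Pn e y f j := by
    unfold cm
    rw [sum_lvl he, sum_lvl he]
    congr 1
    · refine Finset.sum_congr rfl fun j hj => ?_
      rw [lev_zero he y _ (mem_Icc.1 hj).1 (mem_Icc.1 hj).2,
        mul_div_cancel₀ _ (lev_pos hle hyb hf j).ne']
    · exact Finset.sum_congr rfl fun j hj => lev_zero he y _ (mem_Icc.1 hj).1 (mem_Icc.1 hj).2
  rw [← hm, ← lev_zero he y f h1 h2, ← lev_zero he y (fun x => f x * g x) h1 h2]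
  have hne : ∑ x ∈ fib lo hi (insert e Pn) (Function.update y e k), f x ≠ 0 := by
    rw [lev_zero he y f h1 h2]; exact (lev_pos hle hyb hf k).ne'
  have e1 : ∑ x ∈ fib lo hi (insert e Pn) (Function.update y e k),
      f x * (g x - cm lo hi f g Pn x) ^ 2 =
      ∑ x ∈ fib lo hi (insert e Pn) (Function.update y e k),
      f x * (g x - cm lo hi f g Pn y) ^ 2 := by
    refine Finset.sum_congr rfl fun x hx => ?_
    unfold cm
    rw [fib_congr ((mem_lvl he).1 hx).2.2]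
  rw [e1, var_split _ f g _ hne]
  congr 1
  refine Finset.sum_congr rfl fun x hx => ?_
  unfold cm
  rw [fib_congr (mem_fib.1 hx).2]

/-- Every level is a cut of the dyadic grid for at most one offset. -/
theorem sum_offsets {m : ℕ} (s : Finset ℤ) (c : ℤ) (P : ℤ → ℝ) (hP : ∀ j, 0 ≤ P j) :
    ∑ o ∈ range m, ∑ j ∈ s.filter (fun j : ℤ => (j - (o : ℤ) - c) % (m : ℤ) = 0), P j ≤
      ∑ j ∈ s, P j := by
  simp only [sum_filter]
  rw [sum_comm]
  refine Finset.sum_le_sum fun j _ => ?_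
  rw [← sum_filter, sum_const, nsmul_eq_mul]
  have : ((range m).filter fun o : ℕ => (j - (o : ℤ) - c) % (m : ℤ) = 0).card ≤ 1 := by
    refine Finset.card_le_one.2 fun a ha b hb => ?_
    rw [mem_filter, mem_range] at ha hb
    have h1 := Int.dvd_of_emod_eq_zero ha.2
    have h2 := Int.dvd_of_emod_eq_zero hb.2
    have h3 : (m : ℤ) ∣ (a : ℤ) - b := by
      have := dvd_sub h2 h1
      rwa [show j - (b : ℤ) - c - (j - a - c) = a - b by ring] at this
    have h4 : (a : ℤ) - b = 0 := Int.eq_zero_of_abs_lt_dvd h3 (by rw [abs_lt]; omega)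
    omega
  have h' : (((range m).filter fun o : ℕ => (j - (o : ℤ) - c) % (m : ℤ) = 0).card : ℝ) ≤ 1 := by
    exact_mod_cast this
  nlinarith [hP j]

/-- Jensen for the square root. -/
theorem sum_sqrt_le {m : ℕ} {J : ℕ → ℝ} (hJ : ∀ o, 0 ≤ J o) {K E : ℝ} (hE : 0 ≤ E) (hK : 0 ≤ K)
    (h : ∑ o ∈ range m, J o ≤ m * K) :
    ∑ o ∈ range m, Real.sqrt (J o * E) ≤ m * Real.sqrt (K * E) := by
  refine Real.le_sqrt_of_sq_le ?_ |>.trans (le_of_eq (Real.sqrt_sq (by positivity)))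
  refine sq_sum_le_card_mul_sum_sq.trans ?_
  have e1 : ∑ o ∈ range m, Real.sqrt (J o * E) ^ 2 = (∑ o ∈ range m, J o) * E := by
    rw [sum_mul]
    exact Finset.sum_congr rfl fun o _ => Real.sq_sqrt (mul_nonneg (hJ o) hE)
  rw [e1, card_range, mul_pow, Real.sq_sqrt (mul_nonneg hK hE)]
  have := mul_le_mul_of_nonneg_right h hE
  have hm : (0 : ℝ) ≤ m := Nat.cast_nonneg m
  nlinarith [mul_le_mul_of_nonneg_left this hm]

/-- Charges on two coordinates. -/
def two {V : Type} [DecidableEq V] (p q : V) (A B : ℝ) : V → ℝ :=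
  fun a => (if a = p then A else 0) + if a = q then B else 0

theorem two_sum {V : Type} [Fintype V] [DecidableEq V] (p q : V) (A B : ℝ) (F : V → ℝ) :
    ∑ a, two p q A B a * F a = A * F p + B * F q := by
  unfold two
  simp [add_mul, sum_add_distrib]

theorem two_sum₂ {V : Type} [Fintype V] [DecidableEq V] (p q : V) (A B : ℝ) (F : V → V → ℝ) :
    ∑ a, ∑ b, two p q A B a * two p q A B b * F a b =
      A * (A * F p p + B * F p q) + B * (A * F q p + B * F q q) := by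
  simp only [mul_assoc, ← mul_sum, two_sum]

theorem two_ne {V : Type} [DecidableEq V] {p q a : V} (A B : ℝ) (h1 : a ≠ p) (h2 : a ≠ q) :
    two p q A B a = 0 := by
  unfold two
  simp [h1, h2]

theorem two_abs {V : Type} [DecidableEq V] {p q : V} (hpq : p ≠ q) {A B C : ℝ} (hA : |A| ≤ C)
    (hB : |B| ≤ C) (a : V) : |two p q A B a| ≤ C := by
  unfold two
  have hC : 0 ≤ C := (abs_nonneg _).trans hA
  by_cases h1 : a = p
  · subst h1; simpa [hpq] using hA
  · by_cases h2 : a = q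
    · subst h2; simpa [h1] using hB
    · simpa [h1, h2] using hC

theorem two_abs' {V : Type} [DecidableEq V] (p q : V) {A B C : ℝ} (hA : 0 ≤ A) (hA' : A ≤ C)
    (hB : B ≤ 0) (hB' : -C ≤ B) (a : V) : |two p q A B a| ≤ C := by
  unfold two
  rw [abs_le]
  split_ifs <;> constructor <;> linarith

/-- One step of the chain rule: the dyadic systems of charges of the pair `e`. -/
theorem step {φ : (Bool × ι → ℤ) → ℝ} (hφ : LC φ) {lo hi : ℤ} (hle : lo ≤ hi) {Pn : Finset ι}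
    {e : ι} (he : e ∉ Pn) {G : (Bool × ι → ℤ) → ℝ} (hG : ∀ z, 0 ≤ G z ∧ G z ≤ 1) {I : ℕ}
    (hI : 2 * (hi - lo + 1) ≤ 2 ^ I) :
    ∃ (w : ℕ → ℕ → (ι → ℤ) → Bool × ι → ℝ) (M : ℕ → ℕ → Bool × ι → ℝ),
      (∀ i o, Sys φ lo hi (-ev e) (insert e Pn) (w i o)) ∧
      (∀ i o, ∀ x ∈ box ι lo hi, ∀ a, |w i o x a| ≤ 2 ^ i) ∧
      (∀ i o, 1 ≤ i → ∀ h, ∀ Ψ : (Bool × ι → ℤ) → ℝ, (∀ z, 0 ≤ Ψ z ∧ Ψ z ≤ φ (z - ev h)) →
        -QF lo hi (-ev e) (w i o) Ψ ≤ 2 ^ (i + 2) * M i o h) ∧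
      (∀ i o h, 0 ≤ M i o h) ∧
      (∀ i h, ∑ o ∈ range (2 ^ i), M i o h ≤ ∑ x ∈ box ι lo hi, φ (lf (ev e) x - ev h)) ∧
      VV lo hi (fun x => φ (lf 0 x)) (fun x => G (lf 0 x)) Pn ≤
        VV lo hi (fun x => φ (lf 0 x)) (fun x => G (lf 0 x)) (insert e Pn) +
        2 * ∑ i ∈ Icc 1 I, (∑ o ∈ range (2 ^ i),
          LF lo hi (-ev e) (w i o) fun z => φ z * G z) / 2 ^ i := by
  set f : (ι → ℤ) → ℝ := fun x => φ (lf 0 x) with hf
  set g : (ι → ℤ) → ℝ := fun x => G (lf 0 x) with hg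
  have hfpos : ∀ x, 0 < f x := fun x => hφ.1 _
  have H : ∀ y ∈ box ι lo hi, _ := fun y hy => haar hle
    (N := lev lo hi Pn e y f)
    (g := fun k => lev lo hi Pn e y (fun x => f x * g x) k / lev lo hi Pn e y f k)
    (fun k _ _ => lev_pos hle hy hfpos k)
    (fun k h1 h2 => by
      rw [← lev_zero he y f h1 (by omega), ← lev_zero he y f (k := k + 1) (by omega) (by omega),
        ← lev_zero he y f (k := k + 2) (by omega) h2]
      exact level_lc hφ 0 he y h1 h2)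
    (fun k => ⟨div_nonneg (lev_nonneg (fun x => mul_nonneg (hfpos x).le (hG _).1) k)
        (lev_pos hle hy hfpos k).le,
      div_le_one_of_le₀ (lev_mono (fun x => mul_le_of_le_one_right (hfpos x).le (hG _).2) k)
        (lev_pos hle hy hfpos k).le⟩) hI
  choose! A B h0 hz hb hq hv using H
  have hrep : ∀ y ∈ reps lo hi Pn, ∀ k, ∀ x ∈ fib lo hi (insert e Pn) (Function.update y e k),
      rep lo Pn x = y ∧ x e = k := fun y hy k x hx =>
    ⟨(rep_congr ((mem_lvl he).1 hx).2.2).trans (mem_reps.1 hy).2, ((mem_lvl he).1 hx).2.1⟩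
  have l1 : ∀ x, lf (-ev e) x + ev (false, e) = lf 0 (x + ev e) := fun x => by
    rw [lf_false, neg_add_cancel]
  have l2 : ∀ x, lf (-ev e) x + ev (true, e) = lf 0 x := fun x => by
    rw [lf_true, neg_add_cancel]
  refine ⟨fun i o x => two (false, e) (true, e) (A (rep lo Pn x) i o (x e))
      (B (rep lo Pn x) i o (x e)),
    fun i o h => ∑ y ∈ reps lo hi Pn, ∑ j ∈ (Icc (lo + 1) hi).filter
      (fun j : ℤ => (j - (o : ℤ) - 2 ^ (i - 1)) % 2 ^ i = 0),
      lev lo hi Pn e y (fun x => φ (lf (ev e) x - ev h)) j, ?_, ?_, ?_, ?_, ?_, ?_⟩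
  · intro i o
    refine ⟨fun x x' hx => ?_, fun d hd x => ?_, fun y hy => ?_⟩
    · beta_reduce
      rw [rep_congr fun d hd => hx d (mem_insert_of_mem hd), hx e (mem_insert_self _ _)]
    · refine two_ne _ _ ?_ (by simp)
      intro h
      rw [Prod.mk.injEq] at h
      exact hd (h.2 ▸ mem_insert_self _ _)
    · have hyr : rep lo Pn y ∈ reps lo hi Pn :=
        mem_reps.2 ⟨rep_box hle Pn hy, rep_congr fun d hd => rep_mem y hd⟩
      have hfib : fib lo hi (insert e Pn) y =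
          fib lo hi (insert e Pn) (Function.update (rep lo Pn y) e (y e)) := by
        refine fib_congr fun d hd => ?_
        rcases mem_insert.1 hd with rfl | hd'
        · rw [Function.update_self]
        · rw [Function.update_of_ne (by rintro rfl; exact he hd'), rep_mem y hd']
      obtain ⟨k1, k2⟩ := mem_box.1 hy e
      rw [hfib]
      have e1 : ∀ x ∈ fib lo hi (insert e Pn) (Function.update (rep lo Pn y) e (y e)),
          ∑ a, two (false, e) (true, e) (A (rep lo Pn x) i o (x e)) (B (rep lo Pn x) i o (x e)) a *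
            φ (lf (-ev e) x + ev a) =
          A (rep lo Pn y) i o (y e) * f (x + ev e) + B (rep lo Pn y) i o (y e) * f x := by
        intro x hx
        rw [two_sum, l1, l2, (hrep _ hyr _ x hx).1, (hrep _ hyr _ x hx).2]
      rw [Finset.sum_congr rfl e1, sum_add_distrib, ← mul_sum, ← mul_sum, lev_one he _ f k1 k2,
        lev_zero he _ f k1 k2]
      rcases k2.lt_or_eq with k2 | k2
      · exact hz _ (rep_box hle Pn hy) i o _ k1 k2
      · rw [k2, (h0 _ (rep_box hle Pn hy) i o).1, (h0 _ (rep_box hle Pn hy) i o).2]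
        simp
  · intro i o x hx a
    obtain ⟨k1, k2⟩ := mem_box.1 hx e
    exact two_abs (by simp) (hb _ (rep_box hle Pn hx) i o _ k1 k2).1
      (hb _ (rep_box hle Pn hx) i o _ k1 k2).2 a
  · intro i o hi1 h Ψ hΨ
    have e1 : QF lo hi (-ev e) (fun x => two (false, e) (true, e) (A (rep lo Pn x) i o (x e))
        (B (rep lo Pn x) i o (x e))) Ψ = ∑ y ∈ reps lo hi Pn, ∑ k ∈ Icc lo hi,
        (A y i o k ^ 2 * lev lo hi Pn e y (fun x => Ψ (lf (ev e) x)) (k + 2) +
          2 * A y i o k * B y i o k * lev lo hi Pn e y (fun x => Ψ (lf (ev e) x)) (k + 1) +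
          B y i o k ^ 2 * lev lo hi Pn e y (fun x => Ψ (lf (ev e) x)) k) := by
      show ∑ x ∈ box ι lo hi, _ = _
      rw [sum_box hle he]
      refine Finset.sum_congr rfl fun y hy => Finset.sum_congr rfl fun k hk => ?_
      obtain ⟨k1, k2⟩ := mem_Icc.1 hk
      rw [← lev_two he y _ k1 k2, ← lev_one he y _ k1 k2, ← lev_zero he y _ k1 k2, mul_sum, mul_sum,
        mul_sum, ← sum_add_distrib, ← sum_add_distrib]
      refine Finset.sum_congr rfl fun x hx => ?_
      rw [two_sum₂ _ _ _ _ fun a b => Ψ (lf (-ev e) x + ev a + ev b), l1, l2, lf_false, lf_true,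
        lf_false, lf_true, zero_add, (hrep _ hy _ x hx).1, (hrep _ hy _ x hx).2]
      ring
    rw [e1, ← sum_neg_distrib, mul_sum]
    refine Finset.sum_le_sum fun y hy => ?_
    have := hq y (mem_reps.1 hy).1 i o hi1 (lev lo hi Pn e y (fun x => Ψ (lf (ev e) x)))
      (lev_nonneg fun x => (hΨ _).1)
    refine (neg_le.1 this).trans (mul_le_mul_of_nonneg_left ?_ (by positivity))
    exact Finset.sum_le_sum fun j _ => lev_mono (fun x => (hΨ _).2) j
  · intro i o h
    exact Finset.sum_nonneg fun y _ => Finset.sum_nonneg fun j _ =>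
      lev_nonneg (fun x => (hφ.1 _).le) j
  · intro i h
    rw [sum_comm, sum_box hle he]
    refine Finset.sum_le_sum fun y _ => ?_
    have := sum_offsets (m := 2 ^ i) (Icc (lo + 1) hi) (2 ^ (i - 1))
      (lev lo hi Pn e y fun x => φ (lf (ev e) x - ev h)) (lev_nonneg fun x => (hφ.1 _).le)
    push_cast at this
    refine this.trans ?_
    rw [Finset.sum_congr rfl fun k hk => lev_zero he y (fun x => φ (lf (ev e) x - ev h))
      (mem_Icc.1 hk).1 (mem_Icc.1 hk).2]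
    exact Finset.sum_le_sum_of_subset_of_nonneg (Icc_subset_Icc_left (by omega))
      fun j _ _ => lev_nonneg (fun x => (hφ.1 _).le) j
  · rw [VV_step hle hfpos g he]
    refine add_le_add_right ((Finset.sum_le_sum fun y hy => hv y (mem_reps.1 hy).1).trans
      (le_of_eq ?_)) _
    rw [← mul_sum, sum_comm]
    congr 1
    refine Finset.sum_congr rfl fun i _ => ?_
    rw [← sum_div, sum_comm]
    congr 1
    refine Finset.sum_congr rfl fun o _ => ?_
    show _ = ∑ x ∈ box ι lo hi, _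
    rw [sum_box hle he]
    refine Finset.sum_congr rfl fun y hy => Finset.sum_congr rfl fun k hk => ?_
    obtain ⟨k1, k2⟩ := mem_Icc.1 hk
    have hyb := (mem_reps.1 hy).1
    rw [mul_div_cancel₀ _ (lev_pos hle hyb hfpos _).ne',
      mul_div_cancel₀ _ (lev_pos hle hyb hfpos _).ne', ← lev_one he y _ k1 k2,
      ← lev_zero he y _ k1 k2, mul_sum, mul_sum, ← sum_add_distrib]
    refine Finset.sum_congr rfl fun x hx => ?_
    rw [two_sum _ _ _ _ fun a => φ (lf (-ev e) x + ev a) * G (lf (-ev e) x + ev a), l1, l2,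
      (hrep _ hy _ x hx).1, (hrep _ hy _ x hx).2]

end Crest.Agent.R302.WPI
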