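import Crest.Agent.R302.Refine
import Crest.Agent.R302.Flow
import Crest.Agent.R302.Haar
import Crest.Agent.R302.WPIAux

/-!
# Row 302: the weak Poincaré inequality for the ideal weight
-/

set_option autoImplicit false

namespace Crest.Agent.R302

open Finset

variable {ι : Type} [Fintype ι] [DecidableEq ι]

/-- A crude bound for all charges. -/
noncomputable def Bmax (ι : Type) [Fintype ι] (lo hi : ℤ) (Λ : ℝ) : ℝ :=
  4 * ((hi - lo + 1 : ℤ) : ℝ) * Λ ^ 2 *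
    (1 + 2 * Fintype.card ι * Λ ^ 2 * ((hi - lo + 1 : ℤ) : ℝ)) ^ Fintype.card ι

/-- A bound for the mass near the bad leaves. -/
noncomputable def epsB (ι : Type) [Fintype ι] [DecidableEq ι] (lo hi : ℤ) (Λ thr : ℝ) : ℝ :=
  (box ι lo hi).card * (Fintype.card (Bool × ι) : ℝ) ^ 2 * Λ ^ 3 * thr

/-- The hypotheses on the weight; `Gd e` are the good leaves and `κ e` the class weights for the
tail `e`. -/
structure Env (φ : (Bool × ι → ℤ) → ℝ) (lo hi : ℤ) (Tr : Tree (Bool × ι))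
    (Gd : ι → Finset (ι → ℤ)) (ρ σ y : Bool × ι → ℝ) (κ : ι → Bool × ι → ℝ)
    (Λ thr Ξ Cκ η : ℝ) : Prop where
  lc : LC φ
  le : lo ≤ hi
  one_le_Λ : 1 ≤ Λ
  lam : ∀ z a, φ (z + ev a) ≤ Λ * φ z ∧ φ z ≤ Λ * φ (z + ev a)
  sub : ∀ e, Gd e ⊆ box ι lo hi
  bad : ∀ e, ∀ x ∈ box ι lo hi, x ∉ Gd e → φ (lf (-ev e) x) ≤ thr
  thr0 : 0 ≤ thr
  reg : ∀ e, ∀ x ∈ Gd e, Reg φ Tr ρ σ y (lf (-ev e) x)
  ρ1 : ∀ h, 1 ≤ ρ h
  σ0 : ∀ b, 0 ≤ σ b
  Ξ0 : 0 ≤ Ξ
  σρ : ∀ b, Tr.rt b ≠ b → σ b * ρ b ≤ Ξ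
  σs : ∀ b, Tr.rt b ≠ b → 10 * (Fintype.card (Bool × ι) : ℝ) ^ 2 * σ b ^ 2 ≤ 1
  κr : ∀ e h, κ e h = κ e (Tr.rt h)
  one_le_C : 1 ≤ Cκ
  κl : ∀ e h, NN φ lo hi 0 ≤ Cκ * (κ e h * NN φ lo hi (ev h.2 - ev e))
  bdry : ∀ e p, ∑ x ∈ box ι lo hi, φ (lf (ev e) x - ev (false, p)) ≤ 2 * NN φ lo hi (ev e - ev p)
  small₁ : Bmax ι lo hi Λ ^ 2 * epsB ι lo hi Λ thr * (Cκ * Λ ^ 2) ≤ NN φ lo hi 0
  small₂ : Bmax ι lo hi Λ * epsB ι lo hi Λ thr ≤ η * NN φ lo hi 0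

/-- All energies of `G` are at most `E`. -/
def EnLe (φ : (Bool × ι → ℤ) → ℝ) (Tr : Tree (Bool × ι)) (Gd : ι → Finset (ι → ℤ))
    (ρ : Bool × ι → ℝ) (κ : ι → Bool × ι → ℝ) (G : (Bool × ι → ℤ) → ℝ) (E : ℝ) : Prop :=
  ∀ e, (∀ b, Tr.rt b ≠ b → ρ b ^ 2 * EnA φ Tr (Gd e) (lf (-ev e)) (κ e) G b ≤ E) ∧
    ∀ a b, Tr.rt a = a → Tr.rt b = b → ρ a ^ 2 * EnR φ (Gd e) (lf (-ev e)) (κ e) G a b ≤ E

variable {φ : (Bool × ι → ℤ) → ℝ} {lo hi : ℤ} {Tr : Tree (Bool × ι)} {Gd : ι → Finset (ι → ℤ)}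
  {ρ σ y : Bool × ι → ℝ} {κ : ι → Bool × ι → ℝ} {Λ thr Ξ Cκ η : ℝ}

namespace WPI

theorem NN_pos (h : Env φ lo hi Tr Gd ρ σ y κ Λ thr Ξ Cκ η) (t : ι → ℤ) : 0 < NN φ lo hi t :=
  Finset.sum_pos (fun _ _ => h.lc.1 _) (box_nonempty h.le)

theorem lam₂ (h : Env φ lo hi Tr Gd ρ σ y κ Λ thr Ξ Cκ η) (z : Bool × ι → ℤ) (a b : Bool × ι) :
    φ (z + ev a) ≤ Λ ^ 2 * φ (z + ev b) := by
  have h1 := (h.lam z a).1
  have h2 := mul_le_mul_of_nonneg_left (h.lam z b).2 (zero_le_one.trans h.one_le_Λ)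
  nlinarith

theorem NN_le (h : Env φ lo hi Tr Gd ρ σ y κ Λ thr Ξ Cκ η) (e p q : ι) :
    NN φ lo hi (ev p - ev e) ≤ Λ ^ 2 * NN φ lo hi (ev q - ev e) := by
  show ∑ x ∈ box ι lo hi, _ ≤ _ * ∑ x ∈ box ι lo hi, _
  rw [mul_sum]
  refine Finset.sum_le_sum fun x _ => ?_
  have := lam₂ h (lf (-ev e) x) (true, p) (true, q)
  rwa [lf_true, lf_true, neg_add_eq_sub, neg_add_eq_sub] at this

theorem κ_pos (h : Env φ lo hi Tr Gd ρ σ y κ Λ thr Ξ Cκ η) (e : ι) (a : Bool × ι) : 0 < κ e a := by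
  have h1 := (NN_pos h 0).trans_le (h.κl e a)
  have h2 := (mul_pos_iff_of_pos_left (zero_lt_one.trans_le h.one_le_C)).1 h1
  exact (mul_pos_iff_of_pos_right (NN_pos h _)).1 h2

theorem κ_ge (h : Env φ lo hi Tr Gd ρ σ y κ Λ thr Ξ Cκ η) (e : ι) (a : Bool × ι) :
    1 ≤ κ e a * (Cκ * Λ ^ 2) := by
  have h1 := h.κl e a
  have h2 := NN_le h e a.2 e
  rw [sub_self] at h2
  have h3 := mul_le_mul_of_nonneg_left h2
    (mul_nonneg (zero_le_one.trans h.one_le_C) (κ_pos h e a).le)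
  have h4 := NN_pos h 0
  by_contra hc
  push Not at hc
  nlinarith

theorem W_ge (h : Env φ lo hi Tr Gd ρ σ y κ Λ thr Ξ Cκ η) : (1 : ℝ) ≤ ((hi - lo + 1 : ℤ) : ℝ) := by
  have := h.le
  exact_mod_cast (by omega : (1 : ℤ) ≤ hi - lo + 1)

theorem Bmax_eq (ι : Type) [Fintype ι] (lo hi : ℤ) (Λ : ℝ) : Bmax ι lo hi Λ =
  4 * ((hi - lo + 1 : ℤ) : ℝ) * Λ ^ 2 *
    (1 + 2 * Fintype.card ι * Λ ^ 2 * ((hi - lo + 1 : ℤ) : ℝ)) ^ Fintype.card ι := rfl

theorem epsB_eq (ι : Type) [Fintype ι] [DecidableEq ι] (lo hi : ℤ) (Λ thr : ℝ) :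
    epsB ι lo hi Λ thr =
      (box ι lo hi).card * (Fintype.card (Bool × ι) : ℝ) ^ 2 * Λ ^ 3 * thr := rfl

theorem Bmax_nonneg (h : Env φ lo hi Tr Gd ρ σ y κ Λ thr Ξ Cκ η) : 0 ≤ Bmax ι lo hi Λ := by
  have := W_ge h
  rw [Bmax_eq]
  positivity

theorem epsB_nonneg (h : Env φ lo hi Tr Gd ρ σ y κ Λ thr Ξ Cκ η) : 0 ≤ epsB ι lo hi Λ thr := by
  have := h.one_le_Λ
  have := h.thr0
  rw [epsB_eq]
  positivity

theorem η_nonneg (h : Env φ lo hi Tr Gd ρ σ y κ Λ thr Ξ Cκ η) : 0 ≤ η * NN φ lo hi 0 :=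
  (mul_nonneg (Bmax_nonneg h) (epsB_nonneg h)).trans h.small₂

omit [DecidableEq ι] in
theorem v_ge (e : ι) : (1 : ℝ) ≤ Fintype.card (Bool × ι) := by
  exact_mod_cast Fintype.card_pos_iff.2 ⟨(true, e)⟩

/-- The mass of the states with the tail `a` removed. -/
theorem mass_le (h : Env φ lo hi Tr Gd ρ σ y κ Λ thr Ξ Cκ η) (e d : ι) (a : Bool × ι) :
    ∑ x ∈ box ι lo hi, φ (lf (ev d) x - ev a) ≤
      4 * Cκ * κ e a * NN φ lo hi (ev d - ev e) := by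
  have h1 : ∑ x ∈ box ι lo hi, φ (lf (ev d) x - ev a) ≤ 2 * NN φ lo hi (ev d - ev a.2) := by
    obtain ⟨s, p⟩ := a
    cases s
    · exact h.bdry d p
    · simp only [lf_sub_true]
      have := NN_pos h (ev d - ev p)
      show NN φ lo hi (ev d - ev p) ≤ _
      linarith
  have h2 := NN_tri h.lc h.le e a.2 d
  have h3 := mul_le_mul_of_nonneg_right (h.κl e a) (NN_pos h (ev d - ev a.2)).le
  have h4 := mul_le_mul_of_nonneg_left h2
    (mul_nonneg (zero_le_one.trans h.one_le_C) (κ_pos h e a).le)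
  have h5 : NN φ lo hi 0 * NN φ lo hi (ev d - ev a.2) ≤
      NN φ lo hi 0 * (2 * Cκ * κ e a * NN φ lo hi (ev d - ev e)) := by nlinarith
  have h6 := le_of_mul_le_mul_left h5 (NN_pos h 0)
  linarith

theorem E_nonneg {G : (Bool × ι → ℤ) → ℝ} {E : ℝ} (hE : EnLe φ Tr Gd ρ κ G E) (e : ι) :
    0 ≤ E := by
  have := (hE e).2 _ _ (Tr.rt_rt (true, e)) (Tr.rt_rt (true, e))
  have h0 : EnR φ (Gd e) (lf (-ev e)) (κ e) G (Tr.rt (true, e)) (Tr.rt (true, e)) = 0 :=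
    Finset.sum_eq_zero fun x _ => by simp
  rwa [h0, mul_zero] at this

/-- The pairing estimate for a system of charges at the tail `e`. -/
theorem pair (h : Env φ lo hi Tr Gd ρ σ y κ Λ thr Ξ Cκ η) {G : (Bool × ι → ℤ) → ℝ}
    (hG : ∀ z, 0 ≤ G z ∧ G z ≤ 1) {E : ℝ} (hE : EnLe φ Tr Gd ρ κ G E) (e : ι) {Pn : Finset ι}
    {w : (ι → ℤ) → Bool × ι → ℝ} (hw : Sys φ lo hi (-ev e) Pn w)
    (hB : ∀ x ∈ box ι lo hi, ∀ a, |w x a| ≤ 4 * ((hi - lo + 1 : ℤ) : ℝ) * Λ ^ 2) {J : ℝ}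
    (hJ0 : NN φ lo hi 0 ≤ J)
    (hJ : ∀ a, ∀ Ψ : (Bool × ι → ℤ) → ℝ, (∀ z, 0 ≤ Ψ z ∧ Ψ z ≤ φ (z - ev a)) →
      -QF lo hi (-ev e) w Ψ ≤ κ e a * J) :
    |LF lo hi (-ev e) w fun z => φ z * G z| ≤
      7 * (Fintype.card (Bool × ι) : ℝ) ^ 3 * (1 + Ξ) * Real.sqrt (J * E) + η * NN φ lo hi 0 := by
  obtain ⟨w', h1, h2, h3, h4⟩ := refine h.lc h.le (lam₂ h) hw hB
  have hΛ := h.one_le_Λ
  have hv := v_ge e
  have hthr := h.thr0
  have hcard : (((box ι lo hi \ Gd e).card : ℕ) : ℝ) ≤ (box ι lo hi).card := by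
    exact_mod_cast card_le_card sdiff_subset
  rw [← h4]
  refine (flow h.lc Tr h1 (Bmax_nonneg h) h2 (h.sub e) h.ρ1 h.σ0 (h.reg e) h.Ξ0 h.σρ h.σs
    (κ_pos h e) (h.κr e) (J := J) (ε := epsB ι lo hi Λ thr) (fun a Ψ hΨ => ?_) (fun c => ?_) ?_
    (fun a => ?_) hG (hE e).1 (hE e).2).trans (add_le_add_right h.small₂ _)
  · exact (neg_le_neg (h3 Ψ fun z => (hΨ z).1)).trans (hJ a Ψ hΨ)
  · have : ∀ x ∈ box ι lo hi \ Gd e, ∑ a, ∑ b, φ (lf (-ev e) x + ev a + ev b - ev c) ≤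
        (Fintype.card (Bool × ι) : ℝ) ^ 2 * Λ ^ 3 * thr := by
      intro x hx
      have hb := h.bad e x (mem_sdiff.1 hx).1 (mem_sdiff.1 hx).2
      have : ∀ a b, φ (lf (-ev e) x + ev a + ev b - ev c) ≤ Λ ^ 3 * thr := by
        intro a b
        have a1 := (h.lam (lf (-ev e) x + ev a + ev b - ev c) c).2
        rw [sub_add_cancel] at a1
        have a2 := (h.lam (lf (-ev e) x + ev a) b).1
        have a3 := (h.lam (lf (-ev e) x) a).1
        calc _ ≤ _ := a1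
          _ ≤ Λ * (Λ * (Λ * thr)) := by
            gcongr
            refine a2.trans ?_
            gcongr
            refine a3.trans ?_
            gcongr
          _ = _ := by ring
      refine (Finset.sum_le_sum fun a _ => Finset.sum_le_sum fun b _ => this a b).trans_eq ?_
      simp only [sum_const, card_univ, nsmul_eq_mul]
      ring
    refine (Finset.sum_le_sum this).trans ?_
    rw [sum_const, nsmul_eq_mul, epsB_eq, mul_assoc, mul_assoc, mul_assoc, ← mul_assoc (_ ^ 2)]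
    gcongr
  · have : ∀ x ∈ box ι lo hi \ Gd e, ∑ a, φ (lf (-ev e) x + ev a) ≤
        (Fintype.card (Bool × ι) : ℝ) ^ 2 * Λ ^ 3 * thr := by
      intro x hx
      have hb := h.bad e x (mem_sdiff.1 hx).1 (mem_sdiff.1 hx).2
      have : ∀ a, φ (lf (-ev e) x + ev a) ≤ Λ * thr := fun a =>
        (h.lam (lf (-ev e) x) a).1.trans (by gcongr)
      refine (Finset.sum_le_sum fun a _ => this a).trans ?_
      simp only [sum_const, card_univ, nsmul_eq_mul]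
      rw [mul_assoc]
      gcongr
      · exact le_self_pow₀ hv two_ne_zero
      · exact le_self_pow₀ hΛ three_ne_zero
    refine (Finset.sum_le_sum this).trans ?_
    rw [sum_const, nsmul_eq_mul, epsB_eq, mul_assoc, mul_assoc, mul_assoc, ← mul_assoc (_ ^ 2)]
    gcongr
  · have h5 := mul_le_mul_of_nonneg_left (κ_ge h e a)
      (mul_nonneg (sq_nonneg (Bmax ι lo hi Λ)) (epsB_nonneg h))
    have h6 := mul_le_mul_of_nonneg_left (h.small₁.trans hJ0) (κ_pos h e a).le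
    nlinarith

/-- One step of the chain rule. -/
theorem var_step (h : Env φ lo hi Tr Gd ρ σ y κ Λ thr Ξ Cκ η) {I : ℕ}
    (hI : 2 * (hi - lo + 1) ≤ 2 ^ I) (hI' : 2 ^ I ≤ 4 * (hi - lo + 1))
    {G : (Bool × ι → ℤ) → ℝ} (hG : ∀ z, 0 ≤ G z ∧ G z ≤ 1) {E : ℝ}
    (hE : EnLe φ Tr Gd ρ κ G E) {Pn : Finset ι} {e : ι} (he : e ∉ Pn) :
    VV lo hi (fun x => φ (lf 0 x)) (fun x => G (lf 0 x)) Pn ≤
      VV lo hi (fun x => φ (lf 0 x)) (fun x => G (lf 0 x)) (insert e Pn) +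
      I * (60 * (Fintype.card (Bool × ι) : ℝ) ^ 4 * (1 + Ξ) * Cκ *
        Real.sqrt (NN φ lo hi 0 * E) + 2 * η * NN φ lo hi 0) := by
  obtain ⟨w, M, h1, h2, h3, h4, h5, h6⟩ := step h.lc h.le he hG hI
  refine h6.trans (add_le_add_right ?_ _)
  have hv := v_ge e
  have hC := h.one_le_C
  have hΞ := h.Ξ0
  have hN := NN_pos h 0
  have hE0 := E_nonneg hE e
  have hκ := κ_pos h e
  set v : ℝ := (Fintype.card (Bool × ι) : ℝ) with hvdef
  set N := NN φ lo hi 0 with hNdef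
  have key : ∀ i ∈ Icc 1 I, (∑ o ∈ range (2 ^ i),
      LF lo hi (-ev e) (w i o) fun z => φ z * G z) / 2 ^ i ≤
      30 * v ^ 4 * (1 + Ξ) * Cκ * Real.sqrt (N * E) + η * N := by
    intro i hi'
    obtain ⟨i1, i2⟩ := mem_Icc.1 hi'
    set J : ℕ → ℝ := fun o => ∑ a, 2 ^ (i + 2) * M i o a / κ e a + N with hJdef
    have hterm : ∀ o a, 0 ≤ 2 ^ (i + 2) * M i o a / κ e a := fun o a =>
      div_nonneg (mul_nonneg (by positivity) (h4 i o a)) (hκ a).le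
    have hJN : ∀ o, N ≤ J o := fun o => le_add_of_nonneg_left (sum_nonneg fun a _ => hterm o a)
    have hp : ∀ o, |LF lo hi (-ev e) (w i o) fun z => φ z * G z| ≤
        7 * v ^ 3 * (1 + Ξ) * Real.sqrt (J o * E) + η * N := by
      intro o
      refine pair h hG hE e (h1 i o) (fun x hx a => (h2 i o x hx a).trans ?_) (hJN o)
        fun a Ψ hΨ => (h3 i o i1 a Ψ hΨ).trans ?_
      · have b1 : (2 : ℝ) ^ i ≤ 2 ^ I := pow_le_pow_right₀ one_le_two i2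
        have b2 : (2 : ℝ) ^ I ≤ 4 * ((hi - lo + 1 : ℤ) : ℝ) := by exact_mod_cast hI'
        have b3 := W_ge h
        have b4 : 1 ≤ Λ ^ 2 := one_le_pow₀ h.one_le_Λ
        nlinarith
      · rw [← div_le_iff₀' (hκ a)]
        exact (single_le_sum (fun b _ => hterm o b) (mem_univ a)).trans
          (le_add_of_nonneg_right hN.le)
    have hsum : ∑ o ∈ range (2 ^ i), J o ≤ ((2 ^ i : ℕ) : ℝ) * (17 * v * Cκ * N) := by
      simp only [hJdef]
      rw [sum_add_distrib, sum_comm, sum_const, card_range, nsmul_eq_mul]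
      have : ∀ a, ∑ o ∈ range (2 ^ i), 2 ^ (i + 2) * M i o a / κ e a ≤
          2 ^ (i + 2) * (4 * Cκ * N) := by
        intro a
        rw [← sum_div, ← mul_sum, div_le_iff₀ (hκ a), mul_assoc]
        gcongr
        have := (h5 i a).trans (mass_le h e e a)
        rw [sub_self] at this
        linarith
      refine (add_le_add_left (sum_le_sum fun a _ => this a) _).trans ?_
      rw [sum_const, card_univ, nsmul_eq_mul, ← hvdef]
      push_cast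
      have b1 : (0 : ℝ) < 2 ^ i * N := by positivity
      have b2 : 1 ≤ v * Cκ := one_le_mul_of_one_le_of_one_le hv hC
      rw [pow_add]
      nlinarith
    have hsq := sum_sqrt_le (fun o => hN.le.trans (hJN o)) hE0 (by positivity) hsum
    have hs : Real.sqrt (17 * v * Cκ * N * E) ≤ 30 / 7 * (v * Cκ) * Real.sqrt (N * E) := by
      rw [mul_assoc (17 * v * Cκ), Real.sqrt_mul (by positivity)]
      gcongr
      refine Real.sqrt_le_iff.2 ⟨by positivity, ?_⟩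
      have b2 : 1 ≤ v * Cκ := one_le_mul_of_one_le_of_one_le hv hC
      nlinarith
    rw [div_le_iff₀ (by positivity)]
    refine (sum_le_sum fun o _ => (le_abs_self _).trans (hp o)).trans ?_
    rw [sum_add_distrib, ← mul_sum, sum_const, card_range, nsmul_eq_mul]
    push_cast at hsq ⊢
    have b3 : 7 * v ^ 3 * (1 + Ξ) * ∑ o ∈ range (2 ^ i), Real.sqrt (J o * E) ≤
        7 * v ^ 3 * (1 + Ξ) * (2 ^ i * (30 / 7 * (v * Cκ) * Real.sqrt (N * E))) := by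
      gcongr
      exact hsq.trans (by gcongr)
    nlinarith
  have := sum_le_sum key
  rw [sum_const, Nat.card_Icc, nsmul_eq_mul, Nat.add_sub_cancel] at this
  nlinarith

end WPI

/-- The variance on the perfect states. -/
theorem Env.var (h : Env φ lo hi Tr Gd ρ σ y κ Λ thr Ξ Cκ η) {I : ℕ}
    (hI : 2 * (hi - lo + 1) ≤ 2 ^ I) (hI' : 2 ^ I ≤ 4 * (hi - lo + 1))
    {G : (Bool × ι → ℤ) → ℝ} (hG : ∀ z, 0 ≤ G z ∧ G z ≤ 1) {E : ℝ}
    (hE : EnLe φ Tr Gd ρ κ G E) :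
    ∑ x ∈ box ι lo hi, φ (lf 0 x) *
        (G (lf 0 x) - (∑ x ∈ box ι lo hi, φ (lf 0 x) * G (lf 0 x)) / NN φ lo hi 0) ^ 2 ≤
      Fintype.card ι * I * (60 * (Fintype.card (Bool × ι) : ℝ) ^ 4 * (1 + Ξ) * Cκ *
        Real.sqrt (NN φ lo hi 0 * E) + 2 * η * NN φ lo hi 0) := by
  have key : ∀ s : Finset ι,
      WPI.VV lo hi (fun x => φ (lf 0 x)) (fun x => G (lf 0 x)) sᶜ ≤
      s.card * (I * (60 * (Fintype.card (Bool × ι) : ℝ) ^ 4 * (1 + Ξ) * Cκ *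
        Real.sqrt (NN φ lo hi 0 * E) + 2 * η * NN φ lo hi 0)) := by
    intro s
    induction s using Finset.induction_on with
    | empty => rw [compl_empty, WPI.VV_univ lo hi fun x => h.lc.1 _]; simp
    | insert e s he ih =>
      have h1 := WPI.var_step h hI hI' hG hE (Pn := (insert e s)ᶜ) (e := e) (by simp)
      rw [insert_compl_insert he] at h1
      rw [card_insert_of_notMem he]
      push_cast
      linarith
  have := key univ
  rw [compl_univ, WPI.VV_empty, card_univ, ← mul_assoc] at this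
  exact this

/-- The mean on a hole class is close to the mean on the perfect states. -/
theorem Env.mean (h : Env φ lo hi Tr Gd ρ σ y κ Λ thr Ξ Cκ η)
    {G : (Bool × ι → ℤ) → ℝ} (hG : ∀ z, 0 ≤ G z ∧ G z ≤ 1) {E : ℝ}
    (hE : EnLe φ Tr Gd ρ κ G E) (e d : ι) :
    |NN φ lo hi 0 / NN φ lo hi (ev d - ev e) *
          ∑ x ∈ box ι lo hi, φ (lf (ev d - ev e) x) * G (lf (ev d - ev e) x) -
        ∑ x ∈ box ι lo hi, φ (lf 0 x) * G (lf 0 x)| ≤
      21 * (Fintype.card (Bool × ι) : ℝ) ^ 3 * (1 + Ξ) * Cκ * Real.sqrt (NN φ lo hi 0 * E) +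
        η * NN φ lo hi 0 := by
  have hN := WPI.NN_pos h 0
  have hD := WPI.NN_pos h (ev d - ev e)
  have hC := h.one_le_C
  have hΞ := h.Ξ0
  have hv := WPI.v_ge e
  have l1 : ∀ x, lf (-ev e) x + ev (true, d) = lf (ev d - ev e) x := fun x => by
    rw [WPI.lf_true, neg_add_eq_sub]
  have l2 : ∀ x, lf (-ev e) x + ev (true, e) = lf 0 x := fun x => by
    rw [WPI.lf_true, neg_add_cancel]
  set c := NN φ lo hi 0 / NN φ lo hi (ev d - ev e) with hc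
  have hc0 : 0 < c := div_pos hN hD
  have hcN : c * NN φ lo hi (ev d - ev e) = NN φ lo hi 0 := div_mul_cancel₀ _ hD.ne'
  have hΛ : 1 ≤ Λ ^ 2 := one_le_pow₀ h.one_le_Λ
  have hcΛ : c ≤ Λ ^ 2 := by
    rw [hc, div_le_iff₀ hD]
    have := WPI.NN_le h e e d
    rwa [sub_self] at this
  have hW := WPI.W_ge h
  have hp := WPI.pair h hG hE e (Pn := ∅) (w := fun _ => WPI.two (true, d) (true, e) c (-1))
    ⟨fun _ _ _ => rfl, fun p _ x => WPI.two_ne _ _ (by simp) (by simp), fun x _ => by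
      simp only [WPI.fib_empty, WPI.two_sum, l1, l2, sum_add_distrib, ← mul_sum]
      show c * NN φ lo hi (ev d - ev e) + -1 * NN φ lo hi 0 = 0
      rw [hcN]; ring⟩
    (fun x _ a => WPI.two_abs' _ _ hc0.le (by nlinarith) (by norm_num) (by nlinarith) a)
    (J := 8 * Cκ * NN φ lo hi 0) (by nlinarith) (fun a Ψ hΨ => by
      have h1 : -QF lo hi (-ev e) (fun _ => WPI.two (true, d) (true, e) c (-1)) Ψ ≤
          2 * c * ∑ x ∈ box ι lo hi, φ (lf (ev d) x - ev a) := by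
        show -∑ x ∈ box ι lo hi, _ ≤ _
        rw [← sum_neg_distrib, mul_sum]
        refine sum_le_sum fun x _ => ?_
        rw [WPI.two_sum₂ _ _ _ _ fun p q => Ψ (lf (-ev e) x + ev p + ev q), l1, l2,
          WPI.lf_true _ x e, WPI.lf_true 0 x d, sub_add_cancel, zero_add]
        have a1 := (hΨ (lf (ev d) x)).2
        have a2 := (hΨ (lf (ev d - ev e) x + ev (true, d))).1
        have a3 := (hΨ (lf 0 x + ev (true, e))).1
        nlinarith [mul_nonneg (mul_nonneg hc0.le hc0.le) a2, mul_le_mul_of_nonneg_left a1 hc0.le]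
      have h2 := mul_le_mul_of_nonneg_left (WPI.mass_le h e d a) (by positivity : 0 ≤ 2 * c)
      refine (h1.trans h2).trans_eq ?_
      rw [← hcN]; ring)
  have hL : LF lo hi (-ev e) (fun _ => WPI.two (true, d) (true, e) c (-1)) (fun z => φ z * G z) =
      c * ∑ x ∈ box ι lo hi, φ (lf (ev d - ev e) x) * G (lf (ev d - ev e) x) -
        ∑ x ∈ box ι lo hi, φ (lf 0 x) * G (lf 0 x) := by
    show ∑ x ∈ box ι lo hi, _ = _
    rw [mul_sum, ← sum_sub_distrib]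
    refine sum_congr rfl fun x _ => ?_
    rw [WPI.two_sum _ _ _ _ fun p => φ (lf (-ev e) x + ev p) * G (lf (-ev e) x + ev p), l1, l2]
    ring
  rw [hL] at hp
  refine hp.trans (add_le_add_left ?_ _)
  have hs : Real.sqrt (8 * Cκ * NN φ lo hi 0 * E) ≤ 3 * Cκ * Real.sqrt (NN φ lo hi 0 * E) := by
    rw [mul_assoc (8 * Cκ), Real.sqrt_mul (by positivity)]
    gcongr
    exact Real.sqrt_le_iff.2 ⟨by positivity, by nlinarith⟩
  calc _ ≤ 7 * (Fintype.card (Bool × ι) : ℝ) ^ 3 * (1 + Ξ) *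
      (3 * Cκ * Real.sqrt (NN φ lo hi 0 * E)) := by gcongr
    _ = _ := by ring

/-- The weak Poincaré inequality on all classes. -/
theorem Env.wpi (h : Env φ lo hi Tr Gd ρ σ y κ Λ thr Ξ Cκ η) {I : ℕ}
    (hI : 2 * (hi - lo + 1) ≤ 2 ^ I) (hI' : 2 ^ I ≤ 4 * (hi - lo + 1))
    {G : (Bool × ι → ℤ) → ℝ} (hG : ∀ z, 0 ≤ G z ∧ G z ≤ 1) {E : ℝ}
    (hE : EnLe φ Tr Gd ρ κ G E) :
    ∃ c : ℝ, 0 ≤ c ∧ c ≤ 1 ∧ ∀ e d : ι,
      ∑ x ∈ box ι lo hi, φ (lf (ev d - ev e) x) * (G (lf (ev d - ev e) x) - c) ^ 2 ≤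
        NN φ lo hi (ev d - ev e) / NN φ lo hi 0 * ((I + 1) * (Fintype.card (Bool × ι) : ℝ) *
          (60 * (Fintype.card (Bool × ι) : ℝ) ^ 4 * (1 + Ξ) * Cκ *
            Real.sqrt (NN φ lo hi 0 * E) + 2 * η * NN φ lo hi 0)) := by
  have hN := WPI.NN_pos h 0
  set c := (∑ x ∈ box ι lo hi, φ (lf 0 x) * G (lf 0 x)) / NN φ lo hi 0 with hc
  have hc0 : 0 ≤ c :=
    div_nonneg (sum_nonneg fun x _ => mul_nonneg (h.lc.1 _).le (hG _).1) hN.le
  have hc1 : c ≤ 1 := div_le_one_of_le₀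
    (sum_le_sum fun x _ => mul_le_of_le_one_right (h.lc.1 _).le (hG _).2) hN.le
  refine ⟨c, hc0, hc1, fun e d => ?_⟩
  have hD := WPI.NN_pos h (ev d - ev e)
  have hsq : ∀ z z', ((G z - c) ^ 2 - (G z' - c) ^ 2) ^ 2 ≤ 4 * (G z - G z') ^ 2 := by
    intro z z'
    have h1 : (G z + G z' - 2 * c) ^ 2 ≤ 4 := by
      nlinarith [(hG z).1, (hG z).2, (hG z').1, (hG z').2]
    nlinarith [mul_le_mul_of_nonneg_right h1 (sq_nonneg (G z - G z'))]
  have hE' : EnLe φ Tr Gd ρ κ (fun z => (G z - c) ^ 2) (4 * E) := by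
    intro p
    refine ⟨fun b hb => ?_, fun a b ha hb => ?_⟩
    · have h1 : EnA φ Tr (Gd p) (lf (-ev p)) (κ p) (fun z => (G z - c) ^ 2) b ≤
          4 * EnA φ Tr (Gd p) (lf (-ev p)) (κ p) G b := by
        show ∑ x ∈ Gd p, _ ≤ 4 * ∑ x ∈ Gd p, _
        rw [mul_sum]
        refine sum_le_sum fun x _ => ?_
        rw [mul_left_comm]
        exact mul_le_mul_of_nonneg_left (hsq _ _)
          (mul_nonneg (WPI.κ_pos h p b).le (h.lc.1 _).le)
      nlinarith [mul_le_mul_of_nonneg_left h1 (sq_nonneg (ρ b)), (hE p).1 b hb]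
    · have h1 : EnR φ (Gd p) (lf (-ev p)) (κ p) (fun z => (G z - c) ^ 2) a b ≤
          4 * EnR φ (Gd p) (lf (-ev p)) (κ p) G a b := by
        show ∑ x ∈ Gd p, _ ≤ 4 * ∑ x ∈ Gd p, _
        rw [mul_sum]
        refine sum_le_sum fun x _ => ?_
        rw [mul_left_comm]
        exact mul_le_mul_of_nonneg_left (hsq _ _)
          (le_min (mul_nonneg (WPI.κ_pos h p a).le (h.lc.1 _).le)
            (mul_nonneg (WPI.κ_pos h p b).le (h.lc.1 _).le))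
      nlinarith [mul_le_mul_of_nonneg_left h1 (sq_nonneg (ρ a)), (hE p).2 a b ha hb]
  have hm := h.mean (G := fun z => (G z - c) ^ 2) (fun z => ⟨sq_nonneg _, by
    nlinarith [(hG z).1, (hG z).2]⟩) hE' e d
  have hvar := h.var hI hI' hG hE
  rw [← hc] at hvar
  have hs : Real.sqrt (NN φ lo hi 0 * (4 * E)) = 2 * Real.sqrt (NN φ lo hi 0 * E) := by
    rw [mul_left_comm, Real.sqrt_mul (by norm_num), show (4 : ℝ) = 2 ^ 2 by norm_num,
      Real.sqrt_sq (by norm_num)]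
  rw [hs] at hm
  have hm' := (le_abs_self _).trans hm
  have hv := WPI.v_ge e
  have hn : (Fintype.card ι : ℝ) ≤ Fintype.card (Bool × ι) := by
    rw [Fintype.card_prod, Fintype.card_bool]
    push_cast
    linarith [(Nat.cast_nonneg (Fintype.card ι) : (0 : ℝ) ≤ _)]
  have hη := WPI.η_nonneg h
  have hC := h.one_le_C
  have hΞ := h.Ξ0
  set v : ℝ := (Fintype.card (Bool × ι) : ℝ)
  set R := Real.sqrt (NN φ lo hi 0 * E)
  have hR : 0 ≤ R := Real.sqrt_nonneg _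
  set X := 60 * v ^ 4 * (1 + Ξ) * Cκ * R + 2 * η * NN φ lo hi 0 with hX
  have b1 : 21 * v ^ 3 * (1 + Ξ) * Cκ * (2 * R) + η * NN φ lo hi 0 ≤ X := by
    have : v ^ 3 ≤ v ^ 4 := pow_le_pow_right₀ hv (by norm_num)
    have h3 : 0 ≤ (1 + Ξ) * Cκ * R := by positivity
    have h4 : 0 ≤ v ^ 3 := by positivity
    nlinarith [mul_le_mul_of_nonneg_right this h3, mul_nonneg h4 h3]
  have hX0 : 0 ≤ X := by
    have : 0 ≤ 60 * v ^ 4 * (1 + Ξ) * Cκ * R := by positivity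
    linarith
  have b2 : (Fintype.card ι : ℝ) * I * X + X ≤ (I + 1) * v * X := by
    have : (Fintype.card ι : ℝ) * I + 1 ≤ (I + 1) * v := by
      nlinarith [mul_le_mul_of_nonneg_right hn (Nat.cast_nonneg I : (0 : ℝ) ≤ I)]
    nlinarith [mul_le_mul_of_nonneg_right this hX0]
  have b3 : NN φ lo hi 0 / NN φ lo hi (ev d - ev e) *
      ∑ x ∈ box ι lo hi, φ (lf (ev d - ev e) x) * (G (lf (ev d - ev e) x) - c) ^ 2 ≤
      (I + 1) * v * X := by linarith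
  rw [div_mul_eq_mul_div, div_le_iff₀ hD] at b3
  rw [div_mul_eq_mul_div, le_div_iff₀ hN]
  linarith

end Crest.Agent.R302
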