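import Crest.Agent.R302.EDefs
import Crest.Agent.R302.Kern
import Crest.Agent.R302.Reg
import Crest.Agent.R302.WPI
import Crest.Agent.R302.EnergyAux

/-!
# Row 302: the energies of the smoothed function
-/

set_option autoImplicit false

namespace Crest.Agent.R302.Raw

open Finset EnAux

variable {R : Raw} {r : Bool → Finset R.E → ℤ} {x : Bool → R.E → ℝ} {Rm κ : ℕ} {j : ℕ}
  {t : List ℚ} {F : R.X → ℝ}

theorem En_Wx_eq (z : R.V → ℤ) (u : Fin (Bξ R.n R.m) → Bool) : R.Wx r j t z u =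
    (((if R.valid z then R.hw j (DD r (z - R.sh (R.dec (List.ofFn u)))) else 0) *
      t.getD (R.cls z) 0 : ℚ) : ℝ) := rfl

theorem Pz_eq (z : R.V → ℤ) : R.Pz r j t z =
    if R.valid z then (t.getD (R.cls z) 0 : ℝ) * R.ph r j z else 0 := by
  have e1 : R.Pz r j t z = (∑ u, R.Wx r j t z u) / Fintype.card (Fin (Bξ R.n R.m) → Bool) := rfl
  have e2 : R.ph r j z = (∑ ω : Fin (Bξ R.n R.m) → Bool,
      (R.hw j (DD r (z - R.sh (R.dec (List.ofFn ω)))) : ℝ)) / 2 ^ Bξ R.n R.m := rfl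
  rw [e1, e2]
  simp only [En_Wx_eq]
  split_ifs with hz
  · rw [Fintype.card_fun, Fintype.card_bool, Fintype.card_fin]
    push_cast
    rw [← sum_mul]
    ring
  · simp

theorem Valid.Wx_nonneg (h : R.Valid r x Rm κ) (ht : R.Good r j t) (z : R.V → ℤ)
    (u : Fin (Bξ R.n R.m) → Bool) : 0 ≤ R.Wx r j t z u := by
  rw [En_Wx_eq]
  split_ifs with hz
  · obtain ⟨-, e, d, he, hd, hps⟩ := hz
    rw [cls_eq he hd hps]
    push_cast
    exact mul_nonneg (by exact_mod_cast (h.hw_pos j _).1.le) (h.t_pos ht he hd).le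
  · simp

theorem Valid.Pz_nonneg (h : R.Valid r x Rm κ) (ht : R.Good r j t) (z : R.V → ℤ) :
    0 ≤ R.Pz r j t z :=
  div_nonneg (sum_nonneg fun u _ => h.Wx_nonneg ht z u) (Nat.cast_nonneg _)

theorem Valid.Ez_nonneg (h : R.Valid r x Rm κ) (ht : R.Good r j t) (v : R.V → ℤ) :
    0 ≤ R.Ez r j t F v :=
  AvgAux.En_nonneg (h.Pz_nonneg ht) v

theorem Valid.Fb_mem (h : R.Valid r x Rm κ) (ht : R.Good r j t) (hF : ∀ y, 0 ≤ F y ∧ F y ≤ 1)
    (z : R.V → ℤ) : 0 ≤ R.Fb r j t F z ∧ R.Fb r j t F z ≤ 1 :=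
  cm_mem (h.Wx_nonneg ht z) fun _ => hF _

theorem Valid.Gt_mem (h : R.Valid r x Rm κ) (ht : R.Good r j t) (hF : ∀ y, 0 ≤ F y ∧ F y ≤ 1)
    (z : R.V → ℤ) : 0 ≤ R.Gt r j t F z ∧ R.Gt r j t F z ≤ 1 :=
  sm_mem (len_pos j) (h.Fb_mem ht hF) _

theorem Pz_of_notMem {z : R.V → ℤ} (hz : z ∉ R.Ωz) : R.Pz r j t z = 0 := by
  rw [Pz_eq, if_neg fun hv => hz (mem_Ωz.2 hv)]

theorem Ez_zero : R.Ez r j t F 0 = 0 :=
  sum_eq_zero fun z _ => by rw [add_zero, sub_self]; ring

/-- The normal form of a non-negligible state with a worm, displaced inside the (symmetrised)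
smoothing box, is a valid state of comparable weight. -/
theorem Valid.le_Pz (h : R.Valid r x Rm κ) (ht : R.Good r j t) {z : R.V → ℤ}
    (hz : R.thr' ≤ R.φ r j z) {e : R.E} {a : R.V} (hps : ps z = ev a.2 - ev e)
    {s : R.V ⊕ R.E → ℤ} (hs : ∀ m, |s m| ≤ R.len j m)
    {k : R.E → ℤ} (hk : ∑ d, |k d| ≤ 8 * R.n) :
    R.kap j t e a * R.φ r j z ≤
      4 * R.Pz r j t (R.nf j z + ∑ m, s m • R.dir j m + ∑ d, k d • R.dir j (.inr d)) := by
  have hpw : ps (R.nf j z + ∑ m, s m • R.dir j m + ∑ d, k d • R.dir j (.inr d)) =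
      if R.hot j then ev (R.rt e) - ev (R.rt e) else ev (R.rt a.2) - ev (R.rt e) := by
    rw [ps_add, ps_add, ps_sum_zero _ _ _ h.ps_dir, ps_sum_zero _ _ _ fun d => h.ps_dir (.inr d),
      nf_of_ps hps, ps_sub, ps_add, hps, h.ps_cor, h.ps_cor]
    split_ifs <;> abel
  obtain ⟨K, v, hw, hK1, hK2, hv0, hv⟩ := h.displ hps hs hk
  rw [hw] at hpw ⊢
  have hm := h.m_ge2
  have hmR : 1000000 * ((R.n : ℝ) ^ 2 + R.n + 1) ≤ R.m := by exact_mod_cast hm
  have hn : (0 : ℝ) ≤ R.n := Nat.cast_nonneg _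
  have hm0 : (0 : ℝ) < R.m := by nlinarith
  have h1 : ∑ g, |(K g : ℝ)| / R.ℓ g ≤ (R.m : ℝ) / 16 := by
    have h2 : ∀ g ∈ (univ : Finset R.V), |(K g : ℝ)| / R.ℓ g ≤ 2 + 6 * R.n := fun g _ => by
      have h3 : (0 : ℝ) < R.ℓ g := by exact_mod_cast R.ℓ_pos g
      rw [div_le_iff₀ h3]
      exact_mod_cast hK2 g
    refine (sum_le_card_nsmul _ _ _ h2).trans ?_
    simp only [card_univ, Fintype.card_prod, Fintype.card_bool, Fintype.card_fin, nsmul_eq_mul]
    push_cast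
    nlinarith
  have h2 : R.tt j * ∑ g, |(v g : ℝ)| ≤ 1 / 8 := by
    by_cases hh : R.hot j
    · have h3 := (h.qs_le j).2.2 hh
      have h4 : ∑ g, |(v g : ℝ)| ≤ (2 + 18 * R.n) * R.qs j := by exact_mod_cast hv
      calc R.tt j * ∑ g, |(v g : ℝ)| ≤ R.tt j * ((2 + 18 * R.n) * R.qs j) :=
            mul_le_mul_of_nonneg_left h4 (h.tt_nonneg j)
        _ = (2 + 18 * R.n) * (R.tt j * R.qs j) := by ring
        _ ≤ (2 + 18 * R.n) * (1 / R.m) := by gcongr
        _ ≤ 1 / 8 := by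
            rw [mul_one_div, div_le_div_iff₀ hm0 (by norm_num)]
            nlinarith
    · simp [hv0 hh]
  have h3 := (h.φ_shift j hz hK1 h1 h2).1
  have h4 := h.φ_le_ph j (z + R.sh K + v)
  -- validity
  have hℓ : (1 : ℤ) ≤ R.ℓ0 := by
    have : 0 < R.ℓ0 := Nat.pow_pos two_pos
    exact_mod_cast this
  have hbox : ∀ g, |(z + R.sh K + v) g| ≤ (R.ℓ0 : ℤ) * R.G - 1 := by
    intro g
    have hnZ : (0 : ℤ) ≤ R.n := Nat.cast_nonneg _
    have hmZ : 1000000 * ((R.n : ℤ) ^ 2 + R.n + 1) ≤ R.m := by exact_mod_cast hm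
    have b1 := h.good_box j hz g
    have b2 : |R.sh K g| ≤ 2 * (2 * R.n * ((2 + 6 * R.n) * (2 * R.ℓ0))) := by
      refine (single_le_sum (f := fun g => |R.sh K g|) (fun _ _ => abs_nonneg _)
        (mem_univ g)).trans ((R.sum_abs_sh K).trans ?_)
      have b3 : ∀ g ∈ (univ : Finset R.V), |K g| ≤ (2 + 6 * R.n) * (2 * R.ℓ0) := fun g _ => by
        by_cases h0 : K g = 0
        · rw [h0, abs_zero]; positivity
        · refine (hK2 g).trans ?_
          have : (R.ℓ g : ℤ) ≤ 2 * R.ℓ0 := by exact_mod_cast h.ℓ_le_ℓ0 (hK1 g h0)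
          gcongr
      have b4 := sum_le_card_nsmul _ _ _ b3
      simp only [card_univ, Fintype.card_prod, Fintype.card_bool, Fintype.card_fin,
        nsmul_eq_mul] at b4
      push_cast at b4
      linarith
    have b5 : |v g| ≤ (2 + 18 * R.n) * (2 * R.ℓ0) := by
      refine (single_le_sum (f := fun g => |v g|) (fun _ _ => abs_nonneg _)
        (mem_univ g)).trans (hv.trans ?_)
      have : (R.qs j : ℤ) ≤ 2 * R.ℓ0 := by exact_mod_cast (h.qs_le j).2.1
      gcongr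
    have b6 : |(z + R.sh K + v) g| ≤ |z g| + |R.sh K g| + |v g| := abs_add_three _ _ _
    have hm1 : (1 : ℤ) ≤ R.m := by nlinarith
    have b7 : (R.m : ℤ) ≤ (R.m : ℤ) ^ 6 := le_self_pow₀ hm1 (by norm_num)
    have b8 : 6 * (R.m : ℤ) ^ 6 ≤ (R.m : ℤ) ^ 7 := by
      rw [pow_succ' _ 6]
      gcongr
      nlinarith
    have b9 : (48 * (R.n : ℤ) ^ 2 + 52 * R.n + 5) + 5 * (R.m : ℤ) ^ 6 ≤ (R.m : ℤ) ^ 7 := by
      nlinarith
    have b10 := mul_le_mul_of_nonneg_left b9 (zero_le_one.trans hℓ)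
    have hG : (R.G : ℤ) = (R.m : ℤ) ^ 7 := by
      change ((R.m ^ 7 : ℕ) : ℤ) = _
      push_cast
      rfl
    rw [hG]
    nlinarith
  have hval : R.valid (z + R.sh K + v) := by
    refine ⟨fun i => ?_, R.rt e, if R.hot j then R.rt e else R.rt a.2, h.rt_rt e, ?_, ?_⟩
    · have := abs_le.1 (hbox (false, i))
      change -((R.ℓ0 : ℤ) * R.G) ≤ _ ∧ _ ≤ (R.ℓ0 : ℤ) * R.G - 1
      omega
    · split_ifs <;> exact h.rt_rt _
    · rw [hpw]
      split_ifs <;> rfl
  have hcl : (t.getD (R.cls (z + R.sh K + v)) 0 : ℝ) = R.kap j t e a := by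
    unfold kap
    split_ifs with hh
    · rw [if_pos hh] at hpw
      rw [cls_eq (h.rt_rt e) (h.rt_rt e) hpw]
      have : R.cn (R.rt e) (R.rt e) = 0 := if_pos rfl
      rw [this, ht.1]
      norm_num
    · rw [if_neg hh] at hpw
      rw [cls_eq (h.rt_rt e) (h.rt_rt a.2) hpw]
  rw [Pz_eq, if_pos hval, hcl]
  have h5 := h.kap_pos ht e a
  nlinarith

theorem Valid.le_Pz' (h : R.Valid r x Rm κ) (ht : R.Good r j t) {z : R.V → ℤ}
    (hz : R.thr' ≤ R.φ r j z) {e : R.E} {a : R.V} (hps : ps z = ev a.2 - ev e)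
    {s : R.V ⊕ R.E → ℕ} (hs : ∀ m, s m ≤ R.len j m) :
    R.kap j t e a * R.φ r j z ≤ 4 * R.Pz r j t (R.nf j z + ∑ m, s m • R.dir j m) := by
  have := h.le_Pz ht hz hps (s := fun m => s m) (fun m => by
    rw [Nat.abs_cast]; exact_mod_cast hs m) (k := 0) (by simp)
  simpa only [natCast_zsmul, Pi.zero_apply, zero_smul, sum_const_zero, add_zero] using this

theorem Valid.thr'_le (h : R.Valid r x Rm κ) {e : R.E} {y : R.E → ℤ} (hy : y ∈ R.Gd r j e)
    (a : R.V) : R.thr' ≤ R.φ r j (lf (-ev e) y + ev a) := by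
  have h1 : R.thr ≤ R.φ r j (lf (-ev e) y) := (mem_filter.1 hy).2
  have h2 := (h.φ_lam j (lf (-ev e) y) a).2
  have h3 := (h.Λ_le j).2
  have h4 : (2 : ℝ) ^ (2 * R.m ^ 3) ≤ 2 ^ R.m ^ 4 := by
    refine pow_le_pow_right₀ one_le_two ?_
    rw [pow_succ' _ 3]
    have := h.m_ge2
    gcongr
    omega
  have h5 := ((h.φ_lc j).1 (lf (-ev e) y + ev a)).le
  change R.thr / 2 ^ R.m ^ 4 ≤ _
  rw [div_le_iff₀' (by positivity)]
  exact h1.trans (h2.trans (mul_le_mul_of_nonneg_right (h3.trans h4) h5))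

theorem nf_lf_injOn (e : R.E) (a : R.V) (A : Set (R.E → ℤ)) :
    Set.InjOn (fun y => R.nf j (lf (-ev e) y + ev a)) A := by
  intro y _ y' _ hy
  simp only [nf_lf_add] at hy
  exact lf_injective _ (add_right_cancel hy)

theorem Gt_eq (z : R.V → ℤ) :
    R.Gt r j t F z = sm (R.dir j) (R.len j) (R.Fb r j t F) (R.nf j z) := rfl

theorem Valid.enA (h : R.Valid r x Rm κ) (ht : R.Good r j t) {T : Tree R.V}
    (hT : R.IsTree r x j T) (e : R.E) {b : R.V} (hb : T.rt b ≠ b) :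
    (R.ℓ b : ℝ) ^ 2 * EnA (R.φ r j) T (R.Gd r j e) (lf (-ev e)) (R.kap j t e) (R.Gt r j t F) b ≤
      4 * R.tot (R.Ez r j t F) := by
  obtain ⟨hθ, hk⟩ := hT.ker hb
  have hlen : R.len j (.inl b) = R.ℓ b := by rw [len_inl', if_pos hθ]
  have hnf : ∀ y, R.nf j (lf (-ev e) y + ev (R.pa b)) + R.dir j (.inl b) =
      R.nf j (lf (-ev e) y + ev b) := by
    intro y
    rw [nf_lf_add, nf_lf_add, dir_inl', if_pos hθ]
    have h1 := h.ker_rt b hk
    simp only [cor, γ, pa, h1]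
    split_ifs <;> abel
  have key := sm_step (L := R.dir j) (q := R.len j) (Ω := R.Ωz) (p := R.Pz r j t)
    (F := R.Fb r j t F) (A := R.Gd r j e)
    (a := fun y => R.kap j t e b * R.φ r j (lf (-ev e) y + ev b))
    (c := fun y => R.nf j (lf (-ev e) y + ev (R.pa b))) (C := 4) (len_pos j) (h.Pz_nonneg ht)
    (fun z hz => Pz_of_notMem hz)
    (fun y _ => mul_nonneg (h.kap_pos ht e b).le ((h.φ_lc j).1 _).le) (nf_lf_injOn e _ _)
    (by norm_num) (fun y hy s hs => ?_) (.inl b)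
  · simp only [hnf, hlen] at key
    have h2 := (h.tot_ge_len (j := j) (h.Ez_nonneg (F := F) ht) Ez_zero (.inl b)).1
    rw [hlen] at h2
    refine le_trans (le_of_eq ?_) (key.trans (mul_le_mul_of_nonneg_left h2 (by norm_num)))
    simp only [EnA, Gt_eq, hT.par]
  · have h1 := h.le_Pz ht (h.thr'_le hy b) (ps_lf_add e y b)
      (s := fun m => (s m : ℤ) - ev (Sum.inl b : R.V ⊕ R.E) m) (fun m => ?_) (k := 0) (by simp)
    · simp only [sub_smul, sum_sub_distrib, sum_ev_smul, natCast_zsmul, Pi.zero_apply, zero_smul,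
        sum_const_zero, add_zero, ← hnf] at h1
      refine h1.trans (le_of_eq ?_)
      congr 2
      abel
    · have a1 := hs m
      have a2 := len_pos (R := R) j m
      simp only [ev, Pi.single_apply]
      rw [abs_le]
      split_ifs <;> omega

theorem Valid.enR_cold (h : R.Valid r x Rm κ) (ht : R.Good r j t) (hh : ¬ R.hot j) (e : R.E)
    (a b : R.V) :
    EnR (R.φ r j) (R.Gd r j e) (lf (-ev e)) (R.kap j t e) (R.Gt r j t F) a b ≤
      4 * R.tot (R.Ez r j t F) := by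
  have hnf : ∀ y, R.nf j (lf (-ev e) y + ev b) + (R.γ a - R.γ b) =
      R.nf j (lf (-ev e) y + ev a) := by
    intro y
    rw [nf_lf_add, nf_lf_add]
    simp only [cor, γ, hh, if_false]
    abel
  have key := sm_shift (L := R.dir j) (q := R.len j) (Ω := R.Ωz) (p := R.Pz r j t)
    (F := R.Fb r j t F) (A := R.Gd r j e)
    (a := fun y => min (R.kap j t e a * R.φ r j (lf (-ev e) y + ev a))
      (R.kap j t e b * R.φ r j (lf (-ev e) y + ev b)))
    (c := fun y => R.nf j (lf (-ev e) y + ev b)) (C := 4) (len_pos j) (h.Pz_nonneg ht)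
    (fun z hz => Pz_of_notMem hz)
    (fun y _ => le_min (mul_nonneg (h.kap_pos ht e a).le ((h.φ_lc j).1 _).le)
      (mul_nonneg (h.kap_pos ht e b).le ((h.φ_lc j).1 _).le)) (nf_lf_injOn e _ _)
    (by norm_num) (R.γ a - R.γ b) (fun y hy s hs => ?_)
  · simp only [hnf] at key
    exact key.trans (mul_le_mul_of_nonneg_left (tot_ge_γ (h.Ez_nonneg ht) a b) (by norm_num))
  · refine ⟨(min_le_right _ _).trans (h.le_Pz' ht (h.thr'_le hy b) (ps_lf_add e y b) hs), ?_⟩
    rw [add_right_comm, hnf]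
    exact (min_le_left _ _).trans (h.le_Pz' ht (h.thr'_le hy a) (ps_lf_add e y a) hs)

theorem Valid.enR_hot (h : R.Valid r x Rm κ) (ht : R.Good r j t) (hh : R.hot j) (e : R.E)
    (a b : R.V) :
    (R.qs j : ℝ) ^ 2 * EnR (R.φ r j) (R.Gd r j e) (lf (-ev e)) (R.kap j t e) (R.Gt r j t F) a b ≤
      256 * (R.n : ℝ) ^ 2 * R.tot (R.Ez r j t F) := by
  set w : R.V → ℤ := (ev a + R.cor j a.2) - (ev b + R.cor j b.2) with hw
  have hpw : ps w = 0 := by
    rw [hw, ps_sub, ps_add, ps_add, ps_ev, ps_ev, h.ps_cor, h.ps_cor, if_pos hh, if_pos hh]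
    abel
  have hw1 : ∑ d, |w (false, d)| ≤ 8 * R.n := by
    have h1 := two_mul_sum_of_ps hpw
    have h2 : ∀ d : R.E, ∑ g, |R.pth d g| ≤ 4 * R.n := fun d => by
      refine (R.sum_abs_sh (R.Pf d)).trans ?_
      have := sum_le_card_nsmul univ (fun g => |R.Pf d g|) 1 fun g _ => h.P_abs d g
      simp only [card_univ, Fintype.card_prod, Fintype.card_bool, Fintype.card_fin,
        nsmul_eq_mul] at this
      push_cast at this
      linarith
    have h3 : ∀ c : R.V, ∑ g, |(ev c + R.cor j c.2) g| ≤ 4 * R.n + 2 := fun c => by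
      have a1 := l1_add (ev c) (R.cor j c.2)
      have a2 := l1_sub (R.pth c.2) (ev ((true, R.rt c.2) : R.V))
      have a3 : R.cor j c.2 = R.pth c.2 - ev (true, R.rt c.2) := if_pos hh
      rw [sum_abs_ev] at a1 a2
      rw [← a3] at a2
      linarith [h2 c.2]
    have h4 := l1_sub (ev a + R.cor j a.2) (ev b + R.cor j b.2)
    have h5 : (1 : ℤ) ≤ R.n := by exact_mod_cast h.n_pos
    rw [← hw] at h4
    linarith [h3 a, h3 b]
  let k : R.V ⊕ R.E → ℤ := Sum.elim 0 fun d => w (false, d)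
  have hkw : ∑ m, k m • R.dir j m = w := by
    rw [Fintype.sum_sum_type]
    simp only [k, Sum.elim_inl, Sum.elim_inr, Pi.zero_apply, zero_smul, sum_const_zero, zero_add,
      dir_inr', if_pos hh]
    exact (eq_sum_of_ps hpw).symm
  have hnf : ∀ y, R.nf j (lf (-ev e) y + ev b) + ∑ m, k m • R.dir j m =
      R.nf j (lf (-ev e) y + ev a) := by
    intro y
    rw [nf_lf_add, nf_lf_add, hkw, hw]
    abel
  have key := sm_comb (L := R.dir j) (q := R.len j) (Ω := R.Ωz) (p := R.Pz r j t)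
    (F := R.Fb r j t F) (A := R.Gd r j e)
    (a := fun y => min (R.kap j t e a * R.φ r j (lf (-ev e) y + ev a))
      (R.kap j t e b * R.φ r j (lf (-ev e) y + ev b)))
    (c := fun y => R.nf j (lf (-ev e) y + ev b)) (C := 4) (len_pos j) (h.Pz_nonneg ht)
    (fun z hz => Pz_of_notMem hz)
    (fun y _ => le_min (mul_nonneg (h.kap_pos ht e a).le ((h.φ_lc j).1 _).le)
      (mul_nonneg (h.kap_pos ht e b).le ((h.φ_lc j).1 _).le)) (nf_lf_injOn e _ _)
    (by norm_num) k (q₀ := R.qs j) (fun m hm => ?_) (E := R.tot (R.Ez r j t F))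
    (fun m => (h.tot_ge_len (h.Ez_nonneg ht) Ez_zero m).1) (fun y hy s hs => ?_)
  · simp only [hnf] at key
    refine key.trans ?_
    have h1 : ∑ m, |(k m : ℝ)| ≤ 8 * R.n := by
      rw [Fintype.sum_sum_type]
      simp only [k, Sum.elim_inl, Sum.elim_inr, Pi.zero_apply, Int.cast_zero, abs_zero,
        sum_const_zero, zero_add]
      exact_mod_cast hw1
    have h2 : (∑ m, |(k m : ℝ)|) ^ 2 ≤ (8 * R.n) ^ 2 :=
      pow_le_pow_left₀ (sum_nonneg fun _ _ => abs_nonneg _) h1 2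
    have h3 := tot_nonneg (h.Ez_nonneg (F := F) ht)
    nlinarith
  · rcases m with g | d
    · exact absurd rfl hm
    · exact le_rfl
  · refine (min_le_right _ _).trans ?_
    let s' : R.V ⊕ R.E → ℤ := fun m => max (-(R.len j m : ℤ)) (min (R.len j m) (s m))
    have h1 := h.le_Pz ht (h.thr'_le hy b) (ps_lf_add e y b) (s := s') (fun m => ?_)
      (k := fun d => s (.inr d) - s' (.inr d)) (le_trans (sum_le_sum fun d _ => ?_) hw1)
    · refine h1.trans (le_of_eq ?_)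
      congr 2
      rw [add_assoc, Fintype.sum_sum_type, Fintype.sum_sum_type, add_assoc, ← sum_add_distrib]
      congr 2
      · refine sum_congr rfl fun g _ => ?_
        have := abs_le.1 (hs (.inl g))
        simp only [k, Sum.elim_inl, Pi.zero_apply, abs_zero, add_zero] at this
        have e1 : s' (.inl g) = s (.inl g) := by
          simp only [s']
          omega
        rw [e1]
      · refine sum_congr rfl fun d _ => ?_
        rw [← add_smul, add_sub_cancel]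
    · simp only [s']
      rw [abs_le]
      omega
    · have := abs_le.1 (hs (.inr d))
      simp only [k, Sum.elim_inr] at this
      have h0 := abs_nonneg (w (false, d))
      simp only [s']
      rw [abs_le]
      omega

theorem Valid.enLe (h : R.Valid r x Rm κ) (ht : R.Good r j t) {T : Tree R.V}
    (hT : R.IsTree r x j T) :
    EnLe (R.φ r j) T (R.Gd r j) (R.ρ j) (R.kap j t) (R.Gt r j t F)
      ((R.m : ℝ) ^ 24 * R.tot (R.Ez r j t F)) := by
  have hmR : 1000000 * ((R.n : ℝ) ^ 2 + R.n + 1) ≤ R.m := by exact_mod_cast h.m_ge2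
  have hn : (0 : ℝ) ≤ R.n := Nat.cast_nonneg _
  have hm6 : (1000000 : ℝ) ≤ R.m := by nlinarith
  have htot := tot_nonneg (h.Ez_nonneg (F := F) ht)
  have hρ : ∀ a, R.ρ j a = (R.m : ℝ) ^ 2 * (max (R.cf a + 1) (R.θ j) : ℕ) := fun _ => rfl
  -- the final numerical step
  have fin : ∀ {ρ q c D X : ℝ} {i : ℕ}, 0 ≤ ρ → ρ ≤ c * R.m ^ i * q → 0 ≤ X →
      q ^ 2 * X ≤ D * R.tot (R.Ez r j t F) → c ^ 2 * D * R.m ^ (2 * i) ≤ R.m ^ 24 →
      ρ ^ 2 * X ≤ (R.m : ℝ) ^ 24 * R.tot (R.Ez r j t F) := by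
    intro ρ q c D X i h0 h1 h2 h3 h4
    calc ρ ^ 2 * X ≤ (c * R.m ^ i * q) ^ 2 * X := by gcongr
      _ = c ^ 2 * R.m ^ (2 * i) * (q ^ 2 * X) := by ring
      _ ≤ c ^ 2 * R.m ^ (2 * i) * (D * R.tot (R.Ez r j t F)) := by gcongr
      _ = c ^ 2 * D * R.m ^ (2 * i) * R.tot (R.Ez r j t F) := by ring
      _ ≤ _ := by gcongr
  have fin2 : ∀ {c : ℝ} {i : ℕ}, c ≤ R.m → i + 1 ≤ 24 → c * R.m ^ i ≤ (R.m : ℝ) ^ 24 := by
    intro c i h1 h2
    calc c * R.m ^ i ≤ R.m * R.m ^ i := by gcongr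
      _ = R.m ^ (i + 1) := by ring
      _ ≤ _ := pow_le_pow_right₀ (by linarith) h2
  intro e
  refine ⟨fun b hb => ?_, fun a b ha _ => ?_⟩
  · obtain ⟨hθ, hk⟩ := hT.ker hb
    refine fin (c := 2) (i := 11) (by rw [hρ]; positivity) ?_
      (sum_nonneg fun y _ => mul_nonneg (mul_nonneg (h.kap_pos ht e b).le ((h.φ_lc j).1 _).le)
        (sq_nonneg _)) (h.enA ht hT e hb) (fin2 (by linarith) (by norm_num))
    rw [hρ, max_eq_left (by omega)]
    have h1 : ((R.cf b + 1 : ℕ) : ℝ) ≤ 2 * (R.ℓ b * R.m ^ 9) := by exact_mod_cast (h.ℓ_le hk).2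
    calc _ ≤ (R.m : ℝ) ^ 2 * (2 * (R.ℓ b * R.m ^ 9)) := by gcongr
      _ = _ := by ring
  · have hθ := (hT.root a).1 ha
    have hX : 0 ≤ EnR (R.φ r j) (R.Gd r j e) (lf (-ev e)) (R.kap j t e) (R.Gt r j t F) a b :=
      sum_nonneg fun y _ => mul_nonneg
        (le_min (mul_nonneg (h.kap_pos ht e a).le ((h.φ_lc j).1 _).le)
          (mul_nonneg (h.kap_pos ht e b).le ((h.φ_lc j).1 _).le)) (sq_nonneg _)
    by_cases hh : R.hot j
    · refine fin (c := 6) (i := 7) (by rw [hρ]; positivity) ?_ hX (h.enR_hot ht hh e a b)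
        (fin2 (by nlinarith) (by norm_num))
      rw [hρ, max_eq_right (by omega)]
      have h1 : (R.θ j : ℝ) ≤ 6 * R.m ^ 5 * R.qs j := by exact_mod_cast h.θ_hot hh
      calc _ ≤ (R.m : ℝ) ^ 2 * (6 * R.m ^ 5 * R.qs j) := by gcongr
        _ = _ := by ring
    · refine fin (c := 3) (i := 11) (q := 1) (D := 4) (by rw [hρ]; positivity) ?_ hX
        (by rw [one_pow, one_mul]; exact h.enR_cold ht hh e a b)
        (fin2 (by linarith) (by norm_num))
      rw [hρ, max_eq_right (by omega)]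
      have h1 : (R.θ j : ℝ) ≤ 3 * R.m ^ 9 := by exact_mod_cast h.θ_cold hh
      calc _ ≤ (R.m : ℝ) ^ 2 * (3 * R.m ^ 9) := by gcongr
        _ = _ := by ring

theorem Valid.cap_le_thr' (h : R.Valid r x Rm κ) : R.cap ≤ R.thr' :=
  (le_mul_of_one_le_right h.cap_le.1.le (one_le_pow₀ one_le_two)).trans h.cap_le.2

theorem Valid.t_le_kap (h : R.Valid r x Rm κ) (ht : R.Good r j t) {e d : R.E} (he : R.rt e = e)
    (hd : R.rt d = d) : (t.getD (R.cn e d) 0 : ℝ) ≤ 80 * R.kap j t e (true, d) := by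
  have h0 := h.t_pos ht he hd
  unfold kap
  split_ifs with hh
  · have h1 := (h.tab_bounds ht he hd).2
    have h2 := (h.N_hole j e d).1
    have h3 := h.N_pos j e d
    have hmR : 1000000 * ((R.n : ℝ) ^ 2 + R.n + 1) ≤ R.m := by exact_mod_cast h.m_ge2
    have hn : (0 : ℝ) ≤ R.n := Nat.cast_nonneg _
    have hm6 : (1000000 : ℝ) ≤ R.m := by nlinarith
    have h4 : R.Λ j ^ 2 ≤ 2 := by
      have h5 : R.tt j ≤ 1 / 4 := (h.tt_hot hh).trans
        (one_div_le_one_div_of_le (by norm_num) (by linarith))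
      have h6 : R.Λ j = Real.exp (R.tt j) := rfl
      rw [h6, ← Real.exp_nat_mul]
      have h7 := Real.log_two_gt_d9
      calc Real.exp ((2 : ℕ) * R.tt j) ≤ Real.exp (Real.log 2) := by
            refine Real.exp_le_exp.2 ?_
            push_cast
            linarith
        _ = 2 := Real.exp_log two_pos
    refine le_of_mul_le_mul_right ?_ h3
    nlinarith
  · rw [he, hd]
    linarith

theorem Valid.sub_class (h : R.Valid r x Rm κ) (ht : R.Good r j t) (hF : ∀ y, 0 ≤ F y ∧ F y ≤ 1)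
    {e d : R.E} (he : R.rt e = e) (hd : R.rt d = d) :
    ∑ y ∈ box R.E R.lo R.hi, R.Pz r j t (lf (ev d - ev e) y) *
        (R.Fb r j t F (lf (ev d - ev e) y) - R.Gt r j t F (lf (ev d - ev e) y)) ^ 2 ≤
      3200 * (1 + 9 * (R.n : ℝ) ^ 2) * R.tot (R.Ez r j t F) + 200 * R.N r j 0 / 2 ^ R.m ^ 4 := by
  have ht0 := h.t_pos ht he hd
  have hcap := h.cap_le_thr'
  have hthr' : 0 < R.thr' := h.cap_le.1.trans_le hcap
  have htot := tot_nonneg (h.Ez_nonneg (F := F) ht)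
  have hP : ∀ y ∈ box R.E R.lo R.hi, R.Pz r j t (lf (ev d - ev e) y) ≤
      (t.getD (R.cn e d) 0 : ℝ) * (4 * R.φ r j (lf (ev d - ev e) y) + R.thr') := by
    intro y hy
    rw [Pz_eq, if_pos (valid_lf he hd hy), cls_eq he hd (ps_lf _ _)]
    exact mul_le_mul_of_nonneg_left ((h.ph_le j _).trans (by linarith)) ht0.le
  rw [← sum_filter_add_sum_filter_not _ fun y => R.thr' ≤ R.φ r j (lf (ev d - ev e) y)]
  refine add_le_add ?_ ?_
  · set A := (box R.E R.lo R.hi).filter fun y => R.thr' ≤ R.φ r j (lf (ev d - ev e) y) with hA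
    set v : R.V → ℤ := if R.hot j then R.γ (true, e) - R.γ (true, d) else 0 with hv
    have hnf : ∀ y, R.nf j (lf (ev d - ev e) y) = lf (ev d - ev e) y + v := by
      intro y
      have p1 : R.pth d = 0 := by rw [pth, h.P_root d hd, En_sh_zero]
      have p2 : R.pth e = 0 := by rw [pth, h.P_root e he, En_sh_zero]
      rw [nf_of_ps (ps_lf _ _), hv]
      simp only [cor, γ, p1, p2, he, hd]
      split_ifs <;> abel
    have hEv : R.Ez r j t F v ≤ R.tot (R.Ez r j t F) := by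
      rw [hv]
      split_ifs
      · exact tot_ge_γ (h.Ez_nonneg ht) _ _
      · rw [Ez_zero]; exact htot
    have hgood : ∀ y ∈ A, ∀ s : R.V ⊕ R.E → ℕ, (∀ m, s m ≤ R.len j m) →
        R.Pz r j t (lf (ev d - ev e) y) ≤
          1600 * R.Pz r j t (lf (ev d - ev e) y + v + ∑ m, s m • R.dir j m) := by
      intro y hy s hs
      obtain ⟨hy1, hy2⟩ := mem_filter.1 hy
      have h1 := h.le_Pz' ht hy2 (e := e) (a := (true, d)) (ps_lf _ _) hs
      rw [hnf] at h1
      have h2 := hP y hy1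
      have h3 := h.t_le_kap ht he hd
      have h4 := mul_le_mul_of_nonneg_right h3 (hthr'.le.trans hy2)
      have h5 := mul_le_mul_of_nonneg_left hy2 ht0.le
      nlinarith
    have k1 := AvgAux.translate_le (Ω := R.Ωz) (p := R.Pz r j t) (F := R.Fb r j t F) (A := A)
      (a := fun y => R.Pz r j t (lf (ev d - ev e) y)) (c := lf (ev d - ev e)) (C := 1600)
      (h.Pz_nonneg ht) (fun z hz => Pz_of_notMem hz) (lf_injective _).injOn (by norm_num) 0 v
      (fun y hy => by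
        have h1 := h.Pz_nonneg ht (lf (ev d - ev e) y)
        have h2 := hgood y hy 0 fun _ => Nat.zero_le _
        simp only [Pi.zero_apply, zero_smul, sum_const_zero, add_zero] at h2 ⊢
        exact ⟨by linarith, h2⟩)
    have k2 := sm_sub (L := R.dir j) (q := R.len j) (Ω := R.Ωz) (p := R.Pz r j t)
      (F := R.Fb r j t F) (A := A) (a := fun y => R.Pz r j t (lf (ev d - ev e) y))
      (c := fun y => lf (ev d - ev e) y + v) (C := 1600) (len_pos j) (h.Pz_nonneg ht)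
      (fun z hz => Pz_of_notMem hz) (fun y _ => h.Pz_nonneg ht _)
      (fun y _ y' _ hy => lf_injective _ (add_right_cancel hy)) (by norm_num) hgood
    have k3 := sum_le_card_nsmul univ _ _ fun m (_ : m ∈ (univ : Finset (R.V ⊕ R.E))) =>
      (h.tot_ge_len (j := j) (h.Ez_nonneg (F := F) ht) Ez_zero m).2
    have hcard : (Fintype.card (R.V ⊕ R.E) : ℝ) = 3 * R.n := by
      simp only [Fintype.card_sum, Fintype.card_prod, Fintype.card_bool, Fintype.card_fin]
      push_cast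
      ring
    rw [card_univ, nsmul_eq_mul, hcard] at k3
    rw [hcard] at k2
    simp only [add_zero] at k1
    have k4 : 1600 * (3 * (R.n : ℝ)) * ∑ m, (∑ k ∈ range (R.len j m),
        En R.Ωz (R.Pz r j t) (R.Fb r j t F) (k • R.dir j m)) / R.len j m ≤
        1600 * (3 * (R.n : ℝ)) * (3 * R.n * R.tot (R.Ez r j t F)) :=
      mul_le_mul_of_nonneg_left k3 (by positivity)
    have k5 : ∑ y ∈ A, R.Pz r j t (lf (ev d - ev e) y) *
        (R.Fb r j t F (lf (ev d - ev e) y) - R.Gt r j t F (lf (ev d - ev e) y)) ^ 2 ≤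
        2 * ∑ y ∈ A, R.Pz r j t (lf (ev d - ev e) y) *
          (R.Fb r j t F (lf (ev d - ev e) y + v) - R.Fb r j t F (lf (ev d - ev e) y)) ^ 2 +
        2 * ∑ y ∈ A, R.Pz r j t (lf (ev d - ev e) y) *
          (R.Fb r j t F (lf (ev d - ev e) y + v) -
            sm (R.dir j) (R.len j) (R.Fb r j t F) (lf (ev d - ev e) y + v)) ^ 2 := by
      rw [mul_sum, mul_sum, ← sum_add_distrib]
      refine sum_le_sum fun y _ => ?_
      rw [Gt_eq, hnf]
      have h1 := mul_nonneg (h.Pz_nonneg ht (lf (ev d - ev e) y)) (sq_nonneg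
        (2 * R.Fb r j t F (lf (ev d - ev e) y + v) - R.Fb r j t F (lf (ev d - ev e) y) -
          sm (R.dir j) (R.len j) (R.Fb r j t F) (lf (ev d - ev e) y + v)))
      nlinarith
    have k6 : En R.Ωz (R.Pz r j t) (R.Fb r j t F) v ≤ R.tot (R.Ez r j t F) := hEv
    nlinarith
  · have h1 : ∀ y ∈ (box R.E R.lo R.hi).filter
        (fun y => ¬ R.thr' ≤ R.φ r j (lf (ev d - ev e) y)),
        R.Pz r j t (lf (ev d - ev e) y) *
          (R.Fb r j t F (lf (ev d - ev e) y) - R.Gt r j t F (lf (ev d - ev e) y)) ^ 2 ≤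
        5 * (t.getD (R.cn e d) 0 : ℝ) * R.thr' := by
      intro y hy
      obtain ⟨hy1, hy2⟩ := mem_filter.1 hy
      have a1 := h.Fb_mem ht hF (lf (ev d - ev e) y)
      have a2 := h.Gt_mem ht hF (lf (ev d - ev e) y)
      have a3 : (R.Fb r j t F (lf (ev d - ev e) y) - R.Gt r j t F (lf (ev d - ev e) y)) ^ 2 ≤ 1 := by
        rw [sq_le_one_iff_abs_le_one, abs_le]
        constructor <;> linarith [a1.1, a1.2, a2.1, a2.2]
      refine (mul_le_of_le_one_right (h.Pz_nonneg ht _) a3).trans ((hP y hy1).trans ?_)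
      have a4 := mul_le_mul_of_nonneg_left (not_le.1 hy2).le ht0.le
      nlinarith
    refine (sum_le_card_nsmul _ _ _ h1).trans ?_
    have h2 : (((box R.E R.lo R.hi).filter
        (fun y => ¬ R.thr' ≤ R.φ r j (lf (ev d - ev e) y))).card : ℝ) ≤
        (box R.E R.lo R.hi).card := by exact_mod_cast card_filter_le _ _
    have h3 := h.negl j e d
    have h4 := (h.tab_bounds ht he hd).2
    have h5 : R.thr' ≤ R.thr := div_le_self (by unfold thr; positivity) (one_le_pow₀ one_le_two)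
    rw [nsmul_eq_mul, le_div_iff₀ (by positivity)]
    calc _ ≤ ((box R.E R.lo R.hi).card : ℝ) * (5 * (t.getD (R.cn e d) 0 : ℝ) * R.thr) *
          2 ^ R.m ^ 4 := by gcongr
      _ = 5 * ((t.getD (R.cn e d) 0 : ℝ) *
          (((box R.E R.lo R.hi).card : ℝ) * R.thr * 2 ^ R.m ^ 4)) := by ring
      _ ≤ 5 * ((t.getD (R.cn e d) 0 : ℝ) * R.N r j (ev d - ev e)) := by gcongr
      _ ≤ _ := by linarith

theorem Valid.sub_Gt (h : R.Valid r x Rm κ) (ht : R.Good r j t) (hF : ∀ y, 0 ≤ F y ∧ F y ≤ 1) :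
    ∑ z ∈ R.Ωz, R.Pz r j t z * (R.Fb r j t F z - R.Gt r j t F z) ^ 2 ≤
      (R.m : ℝ) ^ 2 * R.tot (R.Ez r j t F) + R.N r j 0 / (R.m : ℝ) ^ 60 := by
  have htot := tot_nonneg (h.Ez_nonneg (F := F) ht)
  have hN : 0 < R.N r j 0 := lt_of_lt_of_le (by positivity) (h.N_zero j)
  have hmR : 1000000 * ((R.n : ℝ) ^ 2 + R.n + 1) ≤ R.m := by exact_mod_cast h.m_ge2
  have hn : (0 : ℝ) ≤ R.n := Nat.cast_nonneg _
  have hm6 : (1000000 : ℝ) ≤ R.m := by nlinarith
  refine (sum_Ωz_le (fun z => mul_nonneg (h.Pz_nonneg ht z) (sq_nonneg _)) (by positivity)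
    fun e d he hd => h.sub_class ht hF he hd).trans ?_
  rw [mul_add, ← mul_assoc]
  refine add_le_add (mul_le_mul_of_nonneg_right ?_ htot) ?_
  · have h1 : (1000 * ((R.n : ℝ) ^ 2 + 1)) ^ 2 ≤ (R.m : ℝ) ^ 2 :=
      pow_le_pow_left₀ (by positivity) (by nlinarith) 2
    nlinarith [sq_nonneg ((R.n : ℝ) ^ 2), sq_nonneg (R.n : ℝ)]
  · have h1 : R.m ^ 61 ≤ 2 ^ R.m ^ 4 := by
      have h2 : 61 * R.m ≤ R.m ^ 4 := by
        have h3 : 61 ≤ R.m := by have := h.m_ge2; omega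
        calc 61 * R.m ≤ R.m * R.m := Nat.mul_le_mul_right _ h3
          _ = R.m ^ 2 := by ring
          _ ≤ R.m ^ 4 := Nat.pow_le_pow_right (by omega) (by norm_num)
      calc R.m ^ 61 ≤ (2 ^ R.m) ^ 61 := Nat.pow_le_pow_left Nat.lt_two_pow_self.le 61
        _ = 2 ^ (61 * R.m) := by rw [← pow_mul, mul_comm]
        _ ≤ _ := Nat.pow_le_pow_right two_pos h2
    have h2 : (R.m : ℝ) ^ 61 ≤ 2 ^ R.m ^ 4 := by exact_mod_cast h1
    rw [← mul_div_assoc, div_le_div_iff₀ (by positivity) (by positivity)]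
    calc (R.n : ℝ) ^ 2 * (200 * R.N r j 0) * R.m ^ 60 =
          R.N r j 0 * ((200 * (R.n : ℝ) ^ 2) * R.m ^ 60) := by ring
      _ ≤ R.N r j 0 * (R.m * R.m ^ 60) := by
          gcongr
          nlinarith
      _ = R.N r j 0 * R.m ^ 61 := by ring
      _ ≤ _ := by gcongr

end Crest.Agent.R302.Raw
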