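import Crest.Agent.R302.Reg
import Crest.Agent.R302.Kern
import Crest.Agent.R302.WPI

/-!
# Row 302: the ideal weight satisfies the hypotheses of the weak Poincaré inequality
-/

set_option autoImplicit false

namespace Crest.Agent.R302.Raw

open Finset

variable {R : Raw} {r : Bool → Finset R.E → ℤ} {x : Bool → R.E → ℝ} {Rm κ : ℕ}

namespace EnvOk

theorem m_facts (h : R.Valid r x Rm κ) :
    10000 ≤ R.m ∧ 10000 * R.n ≤ R.m ∧ 10000 * R.n ^ 5 ≤ R.m := by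
  have h1 := h.m_ge
  have h2 : R.n + 2 ≤ (R.n + 2) ^ 10 := Nat.le_self_pow (by norm_num) _
  have h3 : R.n ^ 5 ≤ (R.n + 2) ^ 10 :=
    (Nat.pow_le_pow_left (Nat.le_add_right _ 2) 5).trans
      (Nat.pow_le_pow_right (by omega) (by norm_num))
  omega

theorem card_V (R : Raw) : (Fintype.card (Bool × R.E) : ℝ) = 2 * R.n := by simp

theorem sum_ps (e : R.E) (y : R.E → ℤ) : ∑ i, |ps (lf (-ev e) y) i| ≤ 1 := by
  have h1 : ∀ i, |ps (lf (-ev e) y) i| = if i = e then 1 else 0 := fun i => by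
    by_cases hi : i = e <;> simp [ps, lf, ev, hi]
  simp [h1]

theorem N_pos (h : R.Valid r x Rm κ) (j : ℕ) (t : R.E → ℤ) : 0 < R.N r j t := by
  refine Finset.sum_pos (fun _ _ => (h.φ_lc j).1 _) ⟨fun _ => R.lo, ?_⟩
  exact Fintype.mem_piFinset.2 fun _ => mem_Icc.2 ⟨le_rfl, h.lo_le_hi⟩

theorem kap_lower (h : R.Valid r x Rm κ) {j : ℕ} {t : List ℚ} (ht : R.Good r j t) (e : R.E)
    (a : R.V) : R.N r j 0 ≤ 128 * (R.kap j t e a * R.N r j (ev a.2 - ev e)) := by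
  have hN := N_pos h j (ev a.2 - ev e)
  unfold kap
  split_ifs with hj
  · have hm : (1 : ℝ) ≤ R.m := by exact_mod_cast (by norm_num : 1 ≤ 10000).trans (m_facts h).1
    have h1 : (R.m : ℝ) ^ 4 * R.τ j ≤ 1 := by exact_mod_cast hj
    have h2 : (0 : ℝ) < R.τ j := by exact_mod_cast h.τ_pos j
    have h3 : (R.τ j : ℝ) ≤ 1 := (le_mul_of_one_le_left h2.le (one_le_pow₀ hm)).trans h1
    have h4 : R.tt j ≤ 1 := (h.tt_le j).trans ((div_le_self h2.le hm).trans h3)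
    have h5 : R.Λ j ≤ 3 :=
      (Real.exp_le_exp.2 h4).trans (Real.exp_one_lt_d9.le.trans (by norm_num))
    have h6 : R.Λ j ^ 2 ≤ 128 :=
      (pow_le_pow_left₀ (Real.exp_pos _).le h5 2).trans (by norm_num)
    rw [one_mul]
    exact (h.N_hole j e a.2).1.trans (mul_le_mul_of_nonneg_right h6 hN.le)
  · have h1 := (h.tab_bounds ht (h.rt_rt e) (h.rt_rt a.2)).1
    have h2 := h.N_root j e a.2
    have h3 := N_pos h j 0
    have h4 := N_pos h j (ev (R.rt a.2) - ev (R.rt e))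
    generalize (t.getD (R.cn (R.rt e) (R.rt a.2)) 0 : ℝ) = k at h1 ⊢
    have hk : 0 < k := by
      by_contra hk
      nlinarith [mul_nonneg (neg_nonneg.2 (not_lt.1 hk)) h4.le]
    nlinarith [mul_le_mul_of_nonneg_left h2 hk.le, mul_pos hk hN]

/-- All crude factors are bounded by powers of `2 ^ m ^ 3`. -/
theorem crude (h : R.Valid r x Rm κ) (j : ℕ) : ∃ A : ℝ, (R.m : ℝ) ≤ A ∧ R.Λ j ≤ A ^ 2 ∧
    0 ≤ Bmax R.E R.lo R.hi (R.Λ j) ∧ Bmax R.E R.lo R.hi (R.Λ j) ≤ A ^ (6 * R.n + 6) ∧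
    (box R.E R.lo R.hi).card * R.thr * A ^ R.m ≤ R.N r j 0 := by
  obtain ⟨hm1, hm2, -⟩ := m_facts h
  have hm3 : R.m ≤ R.m ^ 3 := Nat.le_self_pow (by norm_num) _
  have hW : ((R.hi - R.lo + 1 : ℤ) : ℝ) ≤ 2 ^ R.m ^ 3 := by
    have h1 : ((R.hi - R.lo + 1 : ℤ) : ℝ) ≤ 2 ^ R.m := by exact_mod_cast h.width_le
    exact h1.trans (pow_le_pow_right₀ one_le_two hm3)
  have hW1 : (1 : ℝ) ≤ ((R.hi - R.lo + 1 : ℤ) : ℝ) := by
    have := h.lo_le_hi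
    exact_mod_cast (by omega : 1 ≤ R.hi - R.lo + 1)
  have hA : (R.m : ℝ) ≤ 2 ^ R.m ^ 3 := by
    exact_mod_cast hm3.trans Nat.lt_two_pow_self.le
  have hΛ : R.Λ j ≤ (2 ^ R.m ^ 3) ^ 2 := by
    rw [← pow_mul, mul_comm]; exact (h.Λ_le j).2
  have hΛ1 := (h.Λ_le j).1
  refine ⟨2 ^ R.m ^ 3, hA, hΛ, by unfold Bmax; positivity, ?_, ?_⟩
  · unfold Bmax
    rw [Fintype.card_fin]
    generalize ((R.hi - R.lo + 1 : ℤ) : ℝ) = W at hW hW1
    generalize (2 : ℝ) ^ R.m ^ 3 = A at hW hA hΛ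
    have h4 : (4 : ℝ) ≤ A := le_trans (by exact_mod_cast (by omega : 4 ≤ R.m)) hA
    have hn : (1 + 2 * R.n : ℝ) ≤ A := le_trans (by exact_mod_cast (by omega : 1 + 2 * R.n ≤ R.m)) hA
    have hA0 : 0 ≤ A := by linarith
    have h1 : 4 * W * R.Λ j ^ 2 ≤ A ^ 6 :=
      calc 4 * W * R.Λ j ^ 2 ≤ A * A * (A ^ 2) ^ 2 := by gcongr
        _ = A ^ 6 := by ring
    have h2 : 1 + 2 * R.n * R.Λ j ^ 2 * W ≤ A ^ 6 :=
      calc 1 + 2 * R.n * R.Λ j ^ 2 * W ≤ (1 + 2 * R.n) * R.Λ j ^ 2 * W := by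
            have : 1 ≤ R.Λ j ^ 2 * W := one_le_mul_of_one_le_of_one_le (one_le_pow₀ hΛ1) hW1
            linarith
        _ ≤ A * (A ^ 2) ^ 2 * A := by gcongr
        _ = A ^ 6 := by ring
    calc _ ≤ A ^ 6 * (A ^ 6) ^ R.n := by gcongr
      _ = _ := by ring
  · have h1 := h.negl j ⟨0, h.n_pos⟩ ⟨0, h.n_pos⟩
    rw [sub_self] at h1
    rw [← pow_mul, ← pow_succ]
    exact h1

theorem small (h : R.Valid r x Rm κ) (j : ℕ) :
    Bmax R.E R.lo R.hi (R.Λ j) ^ 2 * epsB R.E R.lo R.hi (R.Λ j) R.thr * (128 * R.Λ j ^ 2) ≤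
        R.N r j 0 ∧
      Bmax R.E R.lo R.hi (R.Λ j) * epsB R.E R.lo R.hi (R.Λ j) R.thr ≤
        1 / (R.m : ℝ) ^ 60 * R.N r j 0 := by
  obtain ⟨hm1, hm2, -⟩ := m_facts h
  obtain ⟨A, hA, hΛ, hB0, hB, hN⟩ := crude h j
  have hΛ0 : 0 ≤ R.Λ j := (Real.exp_pos _).le
  have hm : (128 : ℝ) ≤ R.m := by exact_mod_cast (by omega : 128 ≤ R.m)
  have hn : (2 * R.n : ℝ) ≤ A := le_trans (by exact_mod_cast (by omega : 2 * R.n ≤ R.m)) hA
  have h128 : (128 : ℝ) ≤ A := hm.trans hA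
  have hA1 : 1 ≤ A := by linarith
  have hc : 0 ≤ (box R.E R.lo R.hi).card * R.thr := by unfold thr; positivity
  unfold epsB
  rw [card_V]
  generalize Bmax R.E R.lo R.hi (R.Λ j) = B at hB0 hB
  constructor
  · calc _ = (box R.E R.lo R.hi).card * R.thr * (B ^ 2 * (2 * R.n) ^ 2 * R.Λ j ^ 5 * 128) := by ring
      _ ≤ (box R.E R.lo R.hi).card * R.thr *
          ((A ^ (6 * R.n + 6)) ^ 2 * A ^ 2 * (A ^ 2) ^ 5 * A) := by gcongr
      _ = (box R.E R.lo R.hi).card * R.thr * A ^ (12 * R.n + 25) := by ring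
      _ ≤ (box R.E R.lo R.hi).card * R.thr * A ^ R.m :=
          mul_le_mul_of_nonneg_left (pow_le_pow_right₀ hA1 (by omega)) hc
      _ ≤ _ := hN
  · rw [one_div, inv_mul_eq_div, le_div_iff₀ (by positivity)]
    calc _ = (box R.E R.lo R.hi).card * R.thr * (B * (2 * R.n) ^ 2 * R.Λ j ^ 3 * R.m ^ 60) := by
          ring
      _ ≤ (box R.E R.lo R.hi).card * R.thr *
          (A ^ (6 * R.n + 6) * A ^ 2 * (A ^ 2) ^ 3 * A ^ 60) := by gcongr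
      _ = (box R.E R.lo R.hi).card * R.thr * A ^ (6 * R.n + 74) := by ring
      _ ≤ (box R.E R.lo R.hi).card * R.thr * A ^ R.m :=
          mul_le_mul_of_nonneg_left (pow_le_pow_right₀ hA1 (by omega)) hc
      _ ≤ _ := hN

end EnvOk

open EnvOk

theorem Valid.env (h : R.Valid r x Rm κ) {j : ℕ} {T : Tree R.V} (hT : R.IsTree r x j T)
    {t : List ℚ} (ht : R.Good r j t) :
    Env (R.φ r j) R.lo R.hi T (R.Gd r j) (R.ρ j) R.σ (fun a => ∑ q ∈ T.S a, x q.1 q.2)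
      (R.kap j t) (R.Λ j) R.thr (26 * (R.m : ℝ) ^ 10) 128 (1 / (R.m : ℝ) ^ 60) := by
  obtain ⟨hm1, hm2, -⟩ := m_facts h
  have hm : (1 : ℝ) ≤ R.m := by exact_mod_cast (by omega : 1 ≤ R.m)
  have hℓ : ∀ b, (1 : ℝ) ≤ R.ℓ b := fun b => by exact_mod_cast R.ℓ_pos b
  refine ⟨h.φ_lc j, h.lo_le_hi, (h.Λ_le j).1, h.φ_lam j, fun e => filter_subset _ _,
    fun e y hy hy' => (not_le.1 fun h1 => hy' (mem_filter.2 ⟨hy, h1⟩)).le,
    by unfold thr; positivity, fun e y hy => h.reg hT (mem_filter.1 hy).2 (sum_ps e y),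
    fun a => ?_, fun b => by unfold σ; positivity, by positivity, fun b hb => ?_, fun b _ => ?_,
    fun e a => by unfold kap; rw [h.rt_eq hT], by norm_num, kap_lower h ht, h.bdry j,
    (small h j).1, (small h j).2⟩
  · refine one_le_mul_of_one_le_of_one_le (one_le_pow₀ hm) ?_
    exact_mod_cast (by omega : 1 ≤ max (R.cf a + 1) (R.θ j))
  · obtain ⟨h1, h2⟩ := hT.ker hb
    have h3 : ((max (R.cf b + 1) (R.θ j) : ℕ) : ℝ) ≤ 2 * (R.ℓ b * R.m ^ 9) := by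
      have := (h.ℓ_le h2).2
      exact_mod_cast (by omega : max (R.cf b + 1) (R.θ j) ≤ 2 * (R.ℓ b * R.m ^ 9))
    have h4 := hℓ b
    unfold σ ρ
    calc _ ≤ 13 / ((R.m : ℝ) * R.ℓ b) * ((R.m : ℝ) ^ 2 * (2 * (R.ℓ b * R.m ^ 9))) := by gcongr
      _ = _ := by field_simp; ring
  · have h1 : R.σ b ≤ 13 / R.m := by
      unfold σ
      exact div_le_div_of_nonneg_left (by norm_num) (by linarith)
        (le_mul_of_one_le_right (by linarith) (hℓ b))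
    have h2 : 0 ≤ R.σ b := by unfold σ; positivity
    have h3 : (10000 * R.n : ℝ) ≤ R.m := by exact_mod_cast hm2
    have h4 : (10000 * R.n : ℝ) ^ 2 ≤ (R.m : ℝ) ^ 2 := by gcongr
    rw [card_V]
    calc _ ≤ 10 * (2 * R.n : ℝ) ^ 2 * (13 / R.m) ^ 2 := by gcongr
      _ = 6760 * (R.n : ℝ) ^ 2 / (R.m : ℝ) ^ 2 := by ring
      _ ≤ 1 := by
          rw [div_le_one (by positivity)]
          nlinarith [sq_nonneg (R.n : ℝ)]

/-- The weak Poincaré inequality for the ideal weight with explicit constants. -/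
theorem Valid.wpi (h : R.Valid r x Rm κ) {j : ℕ} {T : Tree R.V} (hT : R.IsTree r x j T)
    {t : List ℚ} (ht : R.Good r j t) {G : (R.V → ℤ) → ℝ} (hG : ∀ z, 0 ≤ G z ∧ G z ≤ 1) {E : ℝ}
    (hE : EnLe (R.φ r j) T (R.Gd r j) (R.ρ j) (R.kap j t) G E) :
    ∃ c : ℝ, 0 ≤ c ∧ c ≤ 1 ∧ ∀ e d : R.E,
      ∑ y ∈ box R.E R.lo R.hi, R.φ r j (lf (ev d - ev e) y) * (G (lf (ev d - ev e) y) - c) ^ 2 ≤
        R.N r j (ev d - ev e) / R.N r j 0 *
          ((R.m : ℝ) ^ 13 * Real.sqrt (R.N r j 0 * E) + R.N r j 0 / (R.m : ℝ) ^ 58) := by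
  obtain ⟨hm1, hm2, hm3⟩ := m_facts h
  obtain ⟨W, hW⟩ : ∃ W : ℕ, R.hi - R.lo + 1 = W :=
    ⟨(R.hi - R.lo + 1).toNat, by have := h.lo_le_hi; omega⟩
  have hW1 : 1 ≤ W := by have := h.lo_le_hi; omega
  have hW2 : W ≤ 2 ^ R.m := by have := h.width_le; rw [hW] at this; exact_mod_cast this
  have hI1 : 2 * W ≤ 2 ^ Nat.clog 2 (2 * W) := Nat.le_pow_clog one_lt_two _
  have hI2 : 2 ^ Nat.clog 2 (2 * W) ≤ 4 * W := by
    have h1 := Nat.pow_pred_clog_lt_self one_lt_two (by omega : 1 < 2 * W)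
    have h2 := Nat.clog_pos one_lt_two (by omega : 2 ≤ 2 * W)
    rw [← Nat.succ_pred_eq_of_pos h2, pow_succ]
    omega
  have hI3 : Nat.clog 2 (2 * W) ≤ R.m + 1 :=
    (Nat.clog_le_iff_le_pow one_lt_two).2 (by rw [pow_succ]; omega)
  generalize Nat.clog 2 (2 * W) = I at hI1 hI2 hI3
  obtain ⟨c, hc0, hc1, hc⟩ := (h.env hT ht).wpi (I := I) (by rw [hW]; exact_mod_cast hI1)
    (by rw [hW]; exact_mod_cast hI2) hG hE
  refine ⟨c, hc0, hc1, fun e d => (hc e d).trans (mul_le_mul_of_nonneg_left ?_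
    (div_pos (N_pos h j _) (N_pos h j _)).le)⟩
  rw [card_V]
  change _ * (_ * √(R.N r j 0 * E) + _ * R.N r j 0) ≤ _
  have hN := (N_pos h j 0).le
  have hs := Real.sqrt_nonneg (R.N r j 0 * E)
  generalize √(R.N r j 0 * E) = s at hs
  generalize R.N r j 0 = N at hN
  have hI : (I + 1 : ℝ) ≤ 2 * R.m := by exact_mod_cast (by omega : I + 1 ≤ 2 * R.m)
  have h1 : (10000 : ℝ) ≤ R.m := by exact_mod_cast hm1
  have h2 : (10000 * R.n : ℝ) ≤ R.m := by exact_mod_cast hm2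
  have h3 : (10000 * (R.n : ℝ) ^ 5 : ℝ) ≤ R.m := by exact_mod_cast hm3
  have hn : (0 : ℝ) ≤ R.n := Nat.cast_nonneg _
  generalize (R.m : ℝ) = m at hI h1 h2 h3
  generalize (R.n : ℝ) = n at h2 h3 hn
  have hm0 : 0 < m := by linarith
  have h4 : 1 + 26 * m ^ 10 ≤ 27 * m ^ 10 := by
    have : 1 ≤ m ^ 10 := one_le_pow₀ (by linarith)
    linarith
  have h5 : 13271040 * n ^ 5 ≤ m ^ 2 := by
    have : 10000 * (10000 * n ^ 5) ≤ m * m := by gcongr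
    nlinarith [pow_nonneg hn 5]
  have h6 : (I + 1 : ℝ) * (2 * n) * (60 * (2 * n) ^ 4 * (1 + 26 * m ^ 10) * 128) ≤ m ^ 13 :=
    calc _ ≤ 2 * m * (2 * n) * (60 * (2 * n) ^ 4 * (27 * m ^ 10) * 128) := by gcongr
      _ = 13271040 * n ^ 5 * m ^ 11 := by ring
      _ ≤ m ^ 2 * m ^ 11 := by gcongr
      _ = _ := by ring
  have h7 : (I + 1 : ℝ) * (2 * n) * (2 * (1 / m ^ 60)) ≤ 1 / m ^ 58 :=
    calc _ ≤ 2 * m * (2 * n) * (2 * (1 / m ^ 60)) := by gcongr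
      _ = m * (8 * n) / m ^ 60 := by ring
      _ ≤ m * m / m ^ 60 := by gcongr; linarith
      _ = _ := by field_simp
  calc _ = (I + 1 : ℝ) * (2 * n) * (60 * (2 * n) ^ 4 * (1 + 26 * m ^ 10) * 128) * s +
        (I + 1 : ℝ) * (2 * n) * (2 * (1 / m ^ 60)) * N := by ring
    _ ≤ m ^ 13 * s + 1 / m ^ 58 * N := by gcongr
    _ = _ := by ring

end Crest.Agent.R302.Raw
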