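import Crest.Agent.R302.OPoly
import Crest.Agent.R302.Anneal

/-!
# Row 302: the abstract annealing scheme is polynomial time relative to the oracle
-/

set_option autoImplicit false
set_option linter.unusedSectionVars false

namespace Crest.Agent.R302

open Crest.Agent.Lib.PolyTime Crest.Agent.R309

namespace ImplA

variable {α α' α'' β γ : Type} [Ctx α] [Ctx α'] [Ctx α''] [PEnc β] [PEnc γ]

/-- Maps of contexts. -/
structure Ext (φ : α' → α) : Prop where
  orc : ∀ a, orc (φ a) = orc a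
  code : OPoly fun a => code (φ a)

theorem Ext.op {φ : α' → α} (h : Ext φ) {f : α → β} (hf : OPoly f) : OPoly fun a => f (φ a) :=
  hf.reindex h.orc h.code

theorem Ext.pb {φ : α' → α} (h : Ext φ) {f : α → ℕ} (hf : OPB f) : OPB fun a => f (φ a) :=
  hf.reindex h.code

theorem Ext.id : Ext fun a : α => a := ⟨fun _ => rfl, OPoly.code'⟩

theorem Ext.comp {φ : α' → α} {ψ : α'' → α'} (h : Ext φ) (h' : Ext ψ) : Ext fun a => φ (ψ a) :=
  ⟨fun a => (h.orc _).trans (h'.orc a), h'.op h.code⟩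

theorem Ext.fst : Ext fun p : α × β => p.1 := ⟨fun _ => rfl, OPoly.code_fst⟩

theorem Ext.sig {σ : α → Type} [∀ a, PEnc (σ a)] : Ext fun p : Σ a, σ a => p.1 :=
  ⟨fun _ => rfl, OPoly.code_sigmaFst⟩

theorem Ext.val {P : α → Prop} : Ext fun p : Subtype P => p.1 :=
  ⟨fun _ => rfl, OPoly.code'.restrict P⟩

theorem Ext.pair {φ : α' → α} (h : Ext φ) {g : α' → β} (hg : OPoly g) :
    Ext fun a => (φ a, g a) := ⟨h.orc, (h.code.pair hg).of_enc fun _ => rfl⟩

theorem Ext.sigma {σ : α → Type} [∀ a, PEnc (σ a)] {φ : α' → α} (h : Ext φ)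
    {g : ∀ a, σ (φ a)} (hg : OPoly fun a => enc (g a)) :
    Ext fun a => (⟨φ a, g a⟩ : Σ a, σ a) := ⟨h.orc, (h.code.pair hg).of_enc fun _ => rfl⟩

theorem Ext.sub {P : α → Prop} {φ : α' → α} (h : Ext φ) (hP : ∀ a, P (φ a)) :
    Ext fun a => (⟨φ a, hP a⟩ : Subtype P) := ⟨h.orc, h.code⟩

theorem sigSnd {σ : α → Type} [∀ a, PEnc (σ a)] : OPoly fun p : Σ a, σ a => enc p.2 :=
  (OPoly.comp (h := V.right) (Poly.right Poly.id') OPoly.code').of_enc fun _ => rfl

theorem left {f : α → V} (hf : OPoly f) : OPoly fun a => (f a).left :=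
  OPoly.comp (h := V.left) (Poly.left Poly.id') hf

theorem right {f : α → V} (hf : OPoly f) : OPoly fun a => (f a).right :=
  OPoly.comp (h := V.right) (Poly.right Poly.id') hf

/-- Numbers that can be computed in unary. -/
def UP (n : α → ℕ) : Prop := OPoly fun a => (⟨n a⟩ : Un)

theorem UP.op {n : α → ℕ} (h : UP n) : OPoly n :=
  OPoly.comp (h := fun u : Un => u.n) (by fun_prop) h

theorem UP.pb {n : α → ℕ} (h : UP n) : OPB n :=
  OPB.of_pb (g := fun u : Un => u.n) (by fun_prop) h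

theorem UP.const (k : ℕ) : UP fun _ : α => k := OPoly.const _

theorem UP.add {n m : α → ℕ} (h : UP n) (h' : UP m) : UP fun a => n a + m a :=
  OPoly.comp₂ (h := fun u v : Un => (⟨u.n + v.n⟩ : Un)) (by fun_prop) h h'

theorem UP.mul {n m : α → ℕ} (h : UP n) (h' : UP m) : UP fun a => n a * m a :=
  OPoly.comp₂ (h := fun u v : Un => (⟨u.n * v.n⟩ : Un)) (by fun_prop) h h'

theorem UP.pred {n : α → ℕ} (h : UP n) : UP fun a => n a - 1 :=
  OPoly.comp (h := fun u : Un => (⟨u.n - 1⟩ : Un)) (by fun_prop) h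

theorem UP.length {l : α → List β} (h : OPoly l) : UP fun a => (l a).length :=
  OPoly.comp (h := fun l : List β => (⟨l.length⟩ : Un)) (by fun_prop) h

theorem UP.ext {n : α → ℕ} (h : UP n) {φ : α' → α} (hφ : Ext φ) : UP fun a => n (φ a) := hφ.op h

/-- Loops over a state space that depends on the context. -/
theorem foldl_dep {σ : α → Type} [∀ a, PEnc (σ a)] {l : α → List β} {s : ∀ a, σ a}
    {step : ∀ a, σ a → β → σ a} {B : α → ℕ} (I : ∀ a, σ a → Prop) (hl : OPoly l)
    (hs : OPoly fun a => enc (s a))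
    (hstep : OPoly fun p : {p : (Σ a, σ a) × β // I p.1.1 p.1.2} =>
      enc (step p.1.1.1 p.1.1.2 p.1.2)) (hB : OPB B)
    (hI : ∀ a l', l' <+: l a → I a (l'.foldl (step a) (s a)) ∧
      sz (l'.foldl (step a) (s a)) ≤ B a) :
    OPoly fun a => enc ((l a).foldl (step a) (s a)) := by
  classical
  let h : α → V → β → V := fun a v b =>
    if hx : ∃ x : σ a, enc x = v then enc (step a hx.choose b) else v
  have key : ∀ a (x : σ a) b, h a (enc x) b = enc (step a x b) := fun a x b => by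
    have hx : ∃ y : σ a, enc y = enc x := ⟨x, rfl⟩
    simp only [h, dif_pos hx, enc_inj.1 hx.choose_spec]
  have key2 : ∀ a (l' : List β) (x : σ a),
      l'.foldl (h a) (enc x) = enc (l'.foldl (step a) x) := fun a l' => by
    induction l' with
    | nil => exact fun _ => rfl
    | cons b l' ih => intro x; rw [List.foldl_cons, key, ih, List.foldl_cons]
  refine (OPoly.foldl_inv (h := h) (fun a v _ => ∃ x : σ a, enc x = v ∧ I a x) hl hs ?_
    (fun a l' b hp => ⟨_, (key2 a l' _).symm, (hI a l' ((List.prefix_append _ _).trans hp)).1⟩) hB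
    fun a l' hp => ?_).congr fun a => key2 a _ _
  · have e : Ext fun p : {p : α × V × β // ∃ x : σ p.1, enc x = p.2.1 ∧ I p.1 x} => p.1 := Ext.val
    have e1 := (Ext.fst (α := α) (β := V × β)).comp e
    have e2 := e.op (OPoly.snd (α := α) (β := V × β))
    have e3 := ((e1.sigma (σ := σ) (g := fun p => p.2.choose)
      ((OPoly.comp (h := fun q : V × β => q.1) (by fun_prop) e2).of_enc fun p =>
        p.2.choose_spec.1.symm)).pair
      (OPoly.comp (h := fun q : V × β => q.2) (by fun_prop) e2)).sub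
      (P := fun p : (Σ a, σ a) × β => I p.1.1 p.1.2) fun p => p.2.choose_spec.2
    refine (e3.op hstep).congr fun p => ?_
    exact (key _ _ _).symm.trans (congrArg (fun v => h p.1.1 v p.1.2.2) p.2.choose_spec.1)
  · rw [key2]
    exact (hI a l' hp).2

theorem chunks_op {B t : α → ℕ} {u : α → List Bool} (hB : OPoly B) (ht : UP t) (hu : OPoly u) :
    OPoly fun a => chunks (B a) (t a) (u a) :=
  OPoly.comp (h := fun q : ℕ × Un × List Bool => chunks q.1 q.2.1.n q.2.2) (by fun_prop)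
    (hB.pair (OPoly.pair ht hu))

theorem foldT_dep {σ : α → Type} [∀ a, PEnc (σ a)] {s : ∀ a, σ a}
    {step : ∀ a, σ a → List Bool → σ a} {B t S : α → ℕ} {u : α → List Bool}
    (I : ∀ a, σ a → Prop) (hB : OPoly B) (ht : UP t) (hu : OPoly u)
    (hs : OPoly fun a => enc (s a))
    (hstep : OPoly fun p : {p : (Σ a, σ a) × List Bool // I p.1.1 p.1.2} =>
      enc (step p.1.1.1 p.1.1.2 p.1.2)) (hS : OPB S)
    (hI : ∀ a j, j ≤ t a → I a (foldT (step a) (B a) j (s a) (u a)) ∧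
      sz (foldT (step a) (B a) j (s a) (u a)) ≤ S a) :
    OPoly fun a => enc (foldT (step a) (B a) (t a) (s a) (u a)) := by
  refine foldl_dep I (chunks_op hB ht hu) hs hstep hS fun a l hl => ?_
  have h1 : l.length ≤ t a := by simpa [chunks] using hl.length_le
  have h2 : l = chunks (B a) l.length (u a) := by
    rw [List.prefix_iff_eq_take.1 hl]
    simp [chunks, ← List.map_take, List.take_range, h1]
  rw [h2]
  exact hI a _ h1

section Anneal

variable {X : α → Type} [∀ a, AddCommGroup (X a)] [∀ a, DecidableEq (X a)] [∀ a, PEnc (X a)]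

/-- The components of the scheme are computable. -/
structure Spec (A : ∀ a, AData (X a)) (S : α → ℕ) : Prop where
  w : OPoly fun p : (Σ a, X a) × Un => (A p.1.1).w p.2.n p.1.2
  cl : OPoly fun p : Σ a, X a => (A p.1).cl p.2
  mv : OPoly fun p : (Σ a, X a) × List Bool => enc (p.1.2 + (A p.1.1).prop p.2)
  init : OPoly fun p : α × List Bool => enc ((A p.1).init p.2)
  nC : UP fun a => (A a).nC
  Bp : UP fun a => (A a).Bp
  ba : UP fun a => (A a).ba
  Bi : UP fun a => (A a).Bi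
  Ls : UP fun a => (A a).Ls
  Tn : UP fun a => (A a).Tn
  Rs : UP fun a => (A a).Rs
  C0 : OPoly fun a => (A a).C0
  w0 : ∀ a j x, 0 ≤ (A a).w j x
  pb : OPB S
  sw : ∀ a j x, (A a).w j x ≠ 0 → sz x ≤ S a

variable {A : ∀ a, AData (X a)} {S : α → ℕ} {φ : α' → α} {x : ∀ a, X (φ a)} {j : α' → ℕ}
  {t : α' → List ℚ} {ts : α' → List (List ℚ)} {u : α' → List Bool}

theorem Spec.Bs (H : Spec A S) : UP fun a => (A a).Bs := ((UP.const 1).add H.Bp).add H.ba

theorem Spec.Bsamp (H : Spec A S) : UP fun a => (A a).Bsamp :=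
  H.Bi.add ((H.Ls.add (UP.const 1)).mul (H.Tn.mul H.Bs))

theorem Spec.Bstage (H : Spec A S) : UP fun a => (A a).Bstage := H.Rs.mul H.Bsamp

theorem Spec.w' (H : Spec A S) (hφ : Ext φ) (hj : UP j) (hx : OPoly fun a => enc (x a)) :
    OPoly fun a => (A (φ a)).w (j a) (x a) := ((hφ.sigma hx).pair hj).op H.w

theorem Spec.cl' (H : Spec A S) (hφ : Ext φ) (hx : OPoly fun a => enc (x a)) :
    OPoly fun a => (A (φ a)).cl (x a) := (hφ.sigma hx).op H.cl

theorem Spec.W' (H : Spec A S) (hφ : Ext φ) (hj : UP j) (ht : OPoly t)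
    (hx : OPoly fun a => enc (x a)) : OPoly fun a => (A (φ a)).W (j a) (t a) (x a) :=
  OPoly.comp (h := fun q : ℚ × List ℚ × ℕ => q.1 * q.2.1.getD q.2.2 0) (by fun_prop)
    ((H.w' hφ hj hx).pair (ht.pair (H.cl' hφ hx)))

theorem Spec.mstep' (H : Spec A S) (hφ : Ext φ) (hj : UP j) (ht : OPoly t)
    (hx : OPoly fun a => enc (x a)) (hu : OPoly u) :
    OPoly fun a => enc (mstep ((A (φ a)).W (j a) (t a)) (A (φ a)).prop (A (φ a)).Bp
      (A (φ a)).ba (x a) (u a)) := by
  have hB := (H.Bp.ext hφ).op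
  have hy : OPoly fun a => enc (x a + (A (φ a)).prop (((u a).drop 1).take (A (φ a)).Bp)) :=
    ((hφ.sigma hx).pair (OPoly.comp₂ (h := fun (B : ℕ) (u : List Bool) => (u.drop 1).take B)
      (by fun_prop) hB hu)).op H.mv
  have hc := OPoly.comp (h := fun q : (List Bool × ℕ × Un) × ℚ × ℚ => decide
      (q.1.1.headD false = true ∧ (toNat ((q.1.1.drop (q.1.2.1 + 1)).take q.1.2.2.n) : ℚ) * q.2.1 <
        2 ^ q.1.2.2.n * q.2.2)) (by fun_prop)
    ((hu.pair (hB.pair (H.ba.ext hφ))).pair ((H.W' hφ hj ht hx).pair (H.W' hφ hj ht hy)))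
  refine (OPoly.ite hc hy hx).congr fun a => ?_
  unfold mstep
  split_ifs <;> rfl

theorem Spec.sz_mstep (H : Spec A S) {a : α} {j : ℕ} {t : List ℚ} (ht : ∀ c, 0 ≤ t.getD c 0)
    {x : X a} {K : ℕ} (hx : sz x ≤ K) (hK : S a ≤ K) (u : List Bool) :
    sz (mstep ((A a).W j t) (A a).prop (A a).Bp (A a).ba x u) ≤ K := by
  unfold mstep
  split_ifs with h
  · refine (H.sw a j _ fun h0 => ?_).trans hK
    have h1 := h.2
    rw [AData.W, AData.W, h0, zero_mul, mul_zero] at h1
    exact absurd h1 (not_lt.2 (mul_nonneg (by positivity) (mul_nonneg (H.w0 _ _ _) (ht _))))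
  · exact hx

theorem Spec.sz_fold (H : Spec A S) {a : α} {j : ℕ} {t : List ℚ} (ht : ∀ c, 0 ≤ t.getD c 0)
    {x : X a} {K : ℕ} (hx : sz x ≤ K) (hK : S a ≤ K) (k : ℕ) (u : List Bool) :
    sz (foldT (mstep ((A a).W j t) (A a).prop (A a).Bp (A a).ba) (A a).Bs k x u) ≤ K :=
  foldT_inv (fun _ y => sz y ≤ K) hx (fun _ _ v hy => H.sz_mstep ht hy hK v) k u

theorem Spec.run' (H : Spec A S) (hφ : Ext φ) (hj : UP j) (ht : OPoly t)
    (ht0 : ∀ a c, 0 ≤ (t a).getD c 0) (hx : OPoly fun a => enc (x a)) (hu : OPoly u) :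
    OPoly fun a => enc ((A (φ a)).run (j a) (t a) (x a) (u a)) := by
  have e0 : Ext fun p : {p : (Σ a, X (φ a)) × List Bool // True} => p.1 := Ext.val
  have e1 := (Ext.fst (α := Σ a, X (φ a)) (β := List Bool)).comp e0
  have e := (Ext.sig (σ := fun a => X (φ a))).comp e1
  exact foldT_dep (σ := fun a => X (φ a)) (S := fun a => sz (enc (x a)) + S (φ a))
    (fun _ _ => True) (H.Bs.ext hφ).op (H.Tn.ext hφ) hu hx
    (H.mstep' (hφ.comp e) (hj.ext e) (e.op ht) (e1.op sigSnd) (e0.op OPoly.snd))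
    (hx.sz_le.add (hφ.pb H.pb)) fun a k _ =>
      ⟨trivial, H.sz_fold (ht0 a) (Nat.le_add_right _ _) (Nat.le_add_left _ _) _ _⟩

theorem samp_eq {Y : Type} [AddCommGroup Y] [DecidableEq Y] (A : AData Y) (ts : List (List ℚ))
    (u : List Bool) : A.samp ts u = (foldT (fun (s : Un × Y) v =>
      ((⟨s.1.n + 1⟩ : Un), A.run s.1.n (ts.getD s.1.n []) s.2 v)) (A.Tn * A.Bs) ts.length
      (⟨0⟩, A.init (u.take A.Bi)) (u.drop A.Bi)).2 := by
  unfold AData.samp
  exact congrArg Prod.snd (foldT_sim (fun s : Un × Y => (s.1.n, s.2)) (fun _ _ => rfl)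
    _ _ (⟨0⟩, A.init (u.take A.Bi)) _)

/-- All entries of the tables are nonnegative. -/
def Pos (ts : List (List ℚ)) : Prop := ∀ i c, 0 ≤ (ts.getD i []).getD c 0

theorem Spec.samp' (H : Spec A S) (hφ : Ext φ) (hts : OPoly ts) (h0 : ∀ a, Pos (ts a))
    (hu : OPoly u) : OPoly fun a => enc ((A (φ a)).samp (ts a) (u a)) := by
  have e0 : Ext fun p : {p : (Σ a, Un × X (φ a)) × List Bool // True} => p.1 := Ext.val
  have e1 := (Ext.fst (α := Σ a, Un × X (φ a)) (β := List Bool)).comp e0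
  have e := (Ext.sig (σ := fun a => Un × X (φ a))).comp e1
  have hi := (H.Bi.ext hφ).op
  have hx : OPoly fun a => enc ((A (φ a)).init ((u a).take (A (φ a)).Bi)) :=
    (hφ.pair (OPoly.comp₂ (h := fun (B : ℕ) (u : List Bool) => u.take B) (by fun_prop) hi hu)).op
      H.init
  have c1 : UP fun p : {p : (Σ a, Un × X (φ a)) × List Bool // True} => p.1.1.2.1.n :=
    (left (e1.op sigSnd)).of_enc fun _ => rfl
  have c2 : OPoly fun p : {p : (Σ a, Un × X (φ a)) × List Bool // True} => enc p.1.1.2.2 :=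
    (right (e1.op sigSnd)).of_enc fun _ => rfl
  simp only [samp_eq]
  refine (right (foldT_dep (σ := fun a => Un × X (φ a))
    (step := fun a s v => ((⟨s.1.n + 1⟩ : Un),
      (A (φ a)).run s.1.n ((ts a).getD s.1.n []) s.2 v))
    (s := fun a => (⟨0⟩, (A (φ a)).init ((u a).take (A (φ a)).Bi)))
    (S := fun a => 2 * (ts a).length + 2 +
      (sz (enc ((A (φ a)).init ((u a).take (A (φ a)).Bi))) + S (φ a)))
    (fun _ _ => True) ((H.Tn.mul H.Bs).ext hφ).op (UP.length hts)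
    (OPoly.comp₂ (h := fun (B : ℕ) (u : List Bool) => u.drop B) (by fun_prop) hi hu)
    (((OPoly.const (⟨0⟩ : Un)).pair hx).of_enc fun _ => rfl)
    ((OPoly.pair (c1.add (UP.const 1)) (H.run' (hφ.comp e) c1
      (OPoly.comp₂ (h := fun (ts : List (List ℚ)) (i : ℕ) => ts.getD i []) (by fun_prop)
        (e.op hts) c1.op) (fun p => h0 _ _) c2 (e0.op OPoly.snd))).of_enc fun _ => rfl)
    ((((OPB.const 2).mul (UP.length hts).pb).add (OPB.const 2)).add
      (hx.sz_le.add (hφ.pb H.pb))) fun a k hk => ⟨trivial, ?_⟩)).of_enc fun _ => rfl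
  have := foldT_inv (step := fun (s : Un × X (φ a)) v => ((⟨s.1.n + 1⟩ : Un),
      (A (φ a)).run s.1.n ((ts a).getD s.1.n []) s.2 v)) (B := (A (φ a)).Tn * (A (φ a)).Bs)
    (s := (⟨0⟩, (A (φ a)).init ((u a).take (A (φ a)).Bi)))
    (fun i y => y.1.n = i ∧
      sz y.2 ≤ sz (enc ((A (φ a)).init ((u a).take (A (φ a)).Bi))) + S (φ a))
    ⟨rfl, Nat.le_add_right _ _⟩
    (fun i y v hy => ⟨by rw [← hy.1], H.sz_fold (h0 a _) hy.2 (Nat.le_add_left _ _) _ _⟩) k
    ((u a).drop (A (φ a)).Bi)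
  rw [sz_prod, sz_un, this.1]
  have := this.2
  omega

end Anneal

section Stage

variable {Y : Type} [AddCommGroup Y] [DecidableEq Y] (A : AData Y)

/-- The classes of the samples. -/
def cls (ts : List (List ℚ)) (u : List Bool) : List ℕ :=
  (chunks A.Bsamp A.Rs u).map fun v => A.cl (A.samp ts v)

/-- The ratios of the weights of the samples. -/
def rat (ts : List (List ℚ)) (u : List Bool) : List ℚ :=
  (chunks A.Bsamp A.Rs u).map fun v => if A.cl (A.samp ts v) = 0 then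
    A.w ts.length (A.samp ts v) / A.w (ts.length - 1) (A.samp ts v) else 0

/-- The new list of tables. -/
def st1 (ts : List (List ℚ)) (u : List Bool) : List (List ℚ) :=
  ts ++ [(List.range A.nC).map fun c =>
    (ts.getD (ts.length - 1) []).getD c 0 * (cls A ts u).count 0 / (cls A ts u).count c]

/-- The new factor of the estimate. -/
def fac (ts : List (List ℚ)) (u : List Bool) : ℚ := (rat A ts u).sum / (cls A ts u).count 0

theorem cnt_eq (ts : List (List ℚ)) (u : List Bool) (c : ℕ) :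
    A.cnt (draws (A.samp ts) A.Bsamp A.Rs u) c = (cls A ts u).count c := by
  rw [AData.cnt, draws, List.countP_map, cls, List.count, List.countP_map]
  congr 1

theorem foldT_stage (B j : ℕ) (ts : List (List ℚ)) (q : ℚ) (u : List Bool) :
    foldT A.stage B j (ts, q) u = (foldT (st1 A) B j ts u,
      q * ∏ i ∈ Finset.range j, fac A (foldT (st1 A) B i ts u) (blk B i u)) := by
  induction j with
  | zero => simp [foldT_zero]
  | succ j ih =>
    rw [foldT_succ, ih, foldT_succ, Finset.prod_range_succ, ← mul_assoc]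
    simp only [AData.stage, AData.upd, cnt_eq]
    simp only [st1, fac, mul_div_assoc, rat, draws, List.map_map]
    rfl

theorem ht_natCast_le {n N : ℕ} (h : n ≤ N) : ht (n : ℚ) ≤ 2 ^ N := by
  refine le_trans ?_ (Nat.pow_le_pow_right (by norm_num) h)
  rw [ht_rat]
  simpa using Nat.lt_two_pow_self (n := n)

theorem ht_inv (q : ℚ) : ht q⁻¹ ≤ ht q := by
  rw [ht_rat, ht_rat, Rat.num_inv, Rat.den_inv]
  split_ifs with h
  · simp [h, Nat.one_le_iff_ne_zero]
  · rw [Int.natAbs_mul, Int.natAbs_sign_of_ne_zero h]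
    simp [add_comm]

theorem getD_mem_or {β : Type} (l : List β) (i : ℕ) (d : β) : l.getD i d ∈ l ∨ l.getD i d = d := by
  by_cases h : i < l.length
  · exact Or.inl (by rw [List.getD_eq_getElem _ _ h]; exact List.getElem_mem h)
  · exact Or.inr (List.getD_eq_default _ _ (not_lt.1 h))

theorem getD_getD {ts : List (List ℚ)} {p : ℚ → Prop} (h0 : p 0) (h : ∀ t ∈ ts, ∀ z ∈ t, p z)
    (i c : ℕ) : p ((ts.getD i []).getD c 0) := by
  rcases getD_mem_or (ts.getD i []) c 0 with h1 | h1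
  · rcases getD_mem_or ts i [] with h2 | h2
    · exact h _ h2 _ h1
    · rw [h2] at h1
      simp at h1
  · rwa [h1]

theorem tabs_inv (B k : ℕ) (u : List Bool) :
    (foldT (st1 A) B k [List.replicate A.nC 1] u).length = k + 1 ∧
      ∀ t ∈ foldT (st1 A) B k [List.replicate A.nC 1] u, t.length ≤ A.nC ∧
        ∀ z ∈ t, 0 ≤ z ∧ ht z ≤ 2 ^ (1 + k * (A.Rs + A.Rs)) := by
  refine foldT_inv (fun k (ts : List (List ℚ)) => ts.length = k + 1 ∧ ∀ t ∈ ts, t.length ≤ A.nC ∧
    ∀ z ∈ t, 0 ≤ z ∧ ht z ≤ 2 ^ (1 + k * (A.Rs + A.Rs))) ⟨rfl, fun t ht' => ?_⟩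
    (fun i ts v h => ⟨by simp [st1, h.1], fun t ht' => ?_⟩) k u
  · rw [List.mem_singleton.1 ht']
    refine ⟨by simp, fun z hz => ?_⟩
    rw [List.eq_of_mem_replicate hz]
    simp [ht_rat]
  · rcases List.mem_append.1 ht' with h1 | h1
    · refine ⟨(h.2 t h1).1, fun z hz => ⟨((h.2 t h1).2 z hz).1, ((h.2 t h1).2 z hz).2.trans
        (Nat.pow_le_pow_right (by norm_num) ?_)⟩⟩
      rw [Nat.succ_mul]
      omega
    · rw [List.mem_singleton.1 h1]
      refine ⟨by simp, fun z hz => ?_⟩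
      obtain ⟨c, -, rfl⟩ := List.mem_map.1 hz
      have h2 := getD_getD (p := fun z => 0 ≤ z ∧ ht z ≤ 2 ^ (1 + i * (A.Rs + A.Rs)))
        ⟨le_rfl, Nat.one_le_two_pow⟩ (fun t ht' => (h.2 t ht').2) (ts.length - 1) c
      have h3 : ∀ c, (cls A ts v).count c ≤ A.Rs := fun c =>
        List.count_le_length.trans (by simp [cls, chunks])
      refine ⟨div_nonneg (mul_nonneg h2.1 (by positivity)) (by positivity), ?_⟩
      rw [div_eq_mul_inv, Nat.succ_mul, ← add_assoc, ← add_assoc, pow_add, pow_add]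
      exact (ht_mul _ _).trans (Nat.mul_le_mul ((ht_mul _ _).trans (Nat.mul_le_mul h2.2
        (ht_natCast_le (h3 _)))) ((ht_inv _).trans (ht_natCast_le (h3 _))))

theorem tabs_pos (B k : ℕ) (u : List Bool) : Pos (foldT (st1 A) B k [List.replicate A.nC 1] u) :=
  getD_getD (p := fun z => 0 ≤ z) le_rfl fun t ht' z hz => (((tabs_inv A B k u).2 t ht').2 z hz).1

theorem tabs_sz (B : ℕ) {k K : ℕ} (hk : k ≤ K) (u : List Bool) :
    sz (foldT (st1 A) B k [List.replicate A.nC 1] u) ≤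
      (K + 1) * (A.nC * (8 * (1 + K * (A.Rs + A.Rs)) + 16 + 1) + 1 + 1) + 1 := by
  obtain ⟨h1, h2⟩ := tabs_inv A B k u
  refine (sz_list_le (B := A.nC * (8 * (1 + K * (A.Rs + A.Rs)) + 16 + 1) + 1)
    fun t ht' => ?_).trans (by rw [h1]; gcongr)
  refine (sz_list_le (B := 8 * (1 + K * (A.Rs + A.Rs)) + 16) fun z hz =>
    PArith.sz_le _ _ ((((h2 t ht').2 z hz).2).trans
      (Nat.pow_le_pow_right (by norm_num) (by gcongr)))).trans ?_
  gcongr
  exact (h2 t ht').1

end Stage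

section Anneal

variable {X : α → Type} [∀ a, AddCommGroup (X a)] [∀ a, DecidableEq (X a)] [∀ a, PEnc (X a)]
  {A : ∀ a, AData (X a)} {S : α → ℕ} {φ : α' → α} {j : α' → ℕ}
  {ts : α' → List (List ℚ)} {u : α' → List Bool}

theorem Spec.cls' (H : Spec A S) (hφ : Ext φ) (hts : OPoly ts) (h0 : ∀ a, Pos (ts a))
    (hu : OPoly u) : OPoly fun a => cls (A (φ a)) (ts a) (u a) := by
  have e := Ext.fst (α := α') (β := List Bool)
  exact (chunks_op (H.Bsamp.ext hφ).op (H.Rs.ext hφ) hu).map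
    (H.cl' (hφ.comp e) (H.samp' (hφ.comp e) (e.op hts) (fun _ => h0 _) OPoly.snd))

theorem Spec.rat' (H : Spec A S) (hφ : Ext φ) (hts : OPoly ts) (h0 : ∀ a, Pos (ts a))
    (hu : OPoly u) : OPoly fun a => rat (A (φ a)) (ts a) (u a) := by
  have e := Ext.fst (α := α') (β := List Bool)
  have hx := H.samp' (hφ.comp e) (e.op hts) (fun _ => h0 _) OPoly.snd
  have hl := UP.length (e.op hts)
  exact (chunks_op (H.Bsamp.ext hφ).op (H.Rs.ext hφ) hu).map
    (OPoly.comp (h := fun q : ℕ × ℚ × ℚ => if q.1 = 0 then q.2.1 / q.2.2 else 0) (by fun_prop)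
      ((H.cl' (hφ.comp e) hx).pair ((H.w' (hφ.comp e) hl hx).pair (H.w' (hφ.comp e) hl.pred hx))))

theorem Spec.st1' (H : Spec A S) (hφ : Ext φ) (hts : OPoly ts) (h0 : ∀ a, Pos (ts a))
    (hu : OPoly u) : OPoly fun a => st1 (A (φ a)) (ts a) (u a) :=
  OPoly.comp (h := fun q : List (List ℚ) × Un × List ℕ => q.1 ++ [(List.range q.2.1.n).map fun c =>
    (q.1.getD (q.1.length - 1) []).getD c 0 * (q.2.2.count 0 : ℕ) / (q.2.2.count c : ℕ)])
    (by fun_prop) (hts.pair (OPoly.pair (H.nC.ext hφ) (H.cls' hφ hts h0 hu)))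

theorem Spec.fac' (H : Spec A S) (hφ : Ext φ) (hts : OPoly ts) (h0 : ∀ a, Pos (ts a))
    (hu : OPoly u) : OPoly fun a => fac (A (φ a)) (ts a) (u a) :=
  OPoly.comp₂ (h := fun (l : List ℚ) (c : List ℕ) => l.sum / (c.count 0 : ℕ)) (by fun_prop)
    (H.rat' hφ hts h0 hu) (H.cls' hφ hts h0 hu)

theorem Spec.tabs' (H : Spec A S) (hφ : Ext φ) (hj : UP j) (hu : OPoly u) :
    OPoly fun a => foldT (st1 (A (φ a))) (A (φ a)).Bstage (j a)
      [List.replicate (A (φ a)).nC 1] (u a) := by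
  have e0 : Ext fun p : {p : (Σ _ : α', List (List ℚ)) × List Bool // Pos p.1.2} => p.1 := Ext.val
  have e1 := (Ext.fst (α := Σ _ : α', List (List ℚ)) (β := List Bool)).comp e0
  have e := (Ext.sig (σ := fun _ : α' => List (List ℚ))).comp e1
  have bC := (H.nC.ext hφ).pb
  have bR := (H.Rs.ext hφ).pb
  refine (foldT_dep (σ := fun _ : α' => List (List ℚ)) (step := fun a => st1 (A (φ a)))
    (fun _ ts => Pos ts) (H.Bstage.ext hφ).op hj hu
    ((OPoly.comp (h := fun n : Un => [List.replicate n.n (1 : ℚ)]) (by fun_prop)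
      (H.nC.ext hφ)).of_enc fun _ => rfl)
    ((H.st1' (hφ.comp e) (ts := fun p => p.1.1.2) ((e1.op sigSnd).of_enc fun _ => rfl)
      (fun p => p.2) (e0.op OPoly.snd)).of_enc fun _ => rfl)
    (((hj.pb.add (OPB.const 1)).mul (((bC.mul ((((OPB.const 8).mul ((OPB.const 1).add
      (hj.pb.mul (bR.add bR)))).add (OPB.const 16)).add (OPB.const 1))).add (OPB.const 1)).add
        (OPB.const 1))).add (OPB.const 1))
    fun a k hk => ⟨tabs_pos _ _ _ _, tabs_sz _ _ hk _⟩).of_enc fun _ => rfl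

theorem Spec.est' (H : Spec A S) {u : α → List Bool} (hu : OPoly u) :
    OPoly fun a => (A a).est (u a) := by
  have e := Ext.fst (α := α) (β := Un)
  have hi : UP fun p : α × Un => p.2.n := OPoly.snd
  have hl := (OPoly.comp (h := fun n : Un => (List.range n.n).map Un.mk)
    (Poly.urange (by fun_prop) (by fun_prop)) H.Ls).map
    (f := fun a i => fac (A a) (foldT (st1 (A a)) (A a).Bstage i.n
      [List.replicate (A a).nC 1] (u a)) (blk (A a).Bstage i.n (u a)))
    (H.fac' e (H.tabs' e hi (e.op hu)) (fun _ => tabs_pos _ _ _ _)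
      (OPoly.comp (h := fun q : ℕ × ℕ × List Bool => blk q.1 q.2.1 q.2.2) (by fun_prop)
        ((H.Bstage.ext e).op.pair (hi.op.pair (e.op hu)))))
  refine (OPoly.comp₂ (h := fun (q : ℚ) (l : List ℚ) => q * l.prod) (by fun_prop) H.C0 hl).congr
    fun a => ?_
  rw [AData.est, foldT_stage, List.map_map, Finset.prod_range, ← List.prod_ofFn,
    ofFn_eq_map_range _ fun i => fac (A a) (foldT (st1 (A a)) (A a).Bstage i
      [List.replicate (A a).nC 1] (u a)) (blk (A a).Bstage i (u a))]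
  rfl

end Anneal

end ImplA

end Crest.Agent.R302
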