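import Crest.Agent.R302.Model

/-!
# Row 302: the oracle-free parts of the chain are polynomial time computable
-/

set_option autoImplicit false

namespace Crest.Agent.R302

open Crest.Agent.Lib.PolyTime Crest.Agent.R309

namespace ImplB

variable {α : Type} [PEnc α]

theorem cst {β : Type} [PEnc β] (b : β) : Poly fun _ : α => b := Lib.PolyTime.Poly.const b

/-- The two sides as lists. -/
def encZ {n : ℕ} (z : Bool × Fin n → ℤ) : List ℤ × List ℤ :=
  (List.ofFn (side z false), List.ofFn (side z true))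

theorem encZ_inj {n : ℕ} : Function.Injective (encZ (n := n)) := by
  intro z z' h
  simp only [encZ, Prod.mk.injEq, List.ofFn_inj] at h
  funext ⟨s, i⟩
  cases s
  · exact congrFun h.1 i
  · exact congrFun h.2 i

section Gen

variable {n : α → ℕ}

/-- Computable vectors. -/
def PV (x : ∀ a, Bool × Fin (n a) → ℤ) : Prop := Poly fun a => encZ (x a)
/-- Computable indices. -/
def PI (h : ∀ a, Bool × Fin (n a)) : Prop := Poly fun a => ((h a).1, ((h a).2 : ℕ))

theorem ctx : Poly fun p : Σ a, Fin (n a) => p.1 := Poly.id'.sigmaFst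
theorem idx : Poly fun p : Σ a, Fin (n a) => (p.2 : ℕ) := Poly.id'.sigmaFinVal
theorem ctxV : Poly fun p : Σ a, Bool × Fin (n a) => p.1 := Poly.id'.sigmaFst
theorem idxV : PI (n := fun p : Σ a, Bool × Fin (n a) => n p.1) fun p => p.2 :=
  (Poly.sigmaSnd_enc Poly.id').of_enc fun _ => rfl

variable {x y : ∀ a, Bool × Fin (n a) → ℤ} {h g : ∀ a, Bool × Fin (n a)}

theorem PI.mk {s : α → Bool} {i : ∀ a, Fin (n a)} (hs : Poly s) (hi : Poly fun a => (i a : ℕ)) :
    PI fun a => (s a, i a) := hs.pair hi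

theorem PI.comp {β : Type} [PEnc β] (hh : PI h) {f : β → α} (hf : Poly f) :
    PI (n := fun b => n (f b)) fun b => h (f b) := Poly.comp hh hf

theorem PV.comp {β : Type} [PEnc β] (hx : PV x) {f : β → α} (hf : Poly f) :
    PV (n := fun b => n (f b)) fun b => x (f b) := Poly.comp hx hf

theorem PV.app (hx : PV x) (hh : PI h) : Poly fun a => x a (h a) :=
  (Poly.cond (Poly.fst hh) (Poly.app_fin (Poly.snd hx) (Poly.snd hh))
    (Poly.app_fin (Poly.fst hx) (Poly.snd hh))).congr fun a => by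
      rcases e : h a with ⟨_ | _, i⟩ <;> simp [side]

theorem at_side {β : Type} [PEnc β] {f : ∀ a, Bool × Fin (n a) → β}
    (hf : Poly fun p : Σ a, Bool × Fin (n a) => f p.1 p.2) (s : Bool) :
    Poly fun p : Σ a, Fin (n a) => f p.1 (s, p.2) :=
  hf.comp (g := fun p : Σ a, Fin (n a) => (⟨p.1, (s, p.2)⟩ : Σ a, Bool × Fin (n a)))
    (Poly.sigmaMk ctx (((cst s).pair idx).of_enc fun _ => rfl))

theorem PV.mk (hn : Poly n) (bn : PB n) (hx : Poly fun p : Σ a, Bool × Fin (n a) => x p.1 p.2) :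
    PV x := (Poly.ofFn hn bn (at_side hx false)).pair (Poly.ofFn hn bn (at_side hx true))

theorem sumV {f : ∀ a, Bool × Fin (n a) → ℤ} (hn : Poly n) (bn : PB n)
    (hf : Poly fun p : Σ a, Bool × Fin (n a) => f p.1 p.2) : Poly fun a => ∑ v, f a v :=
  ((Poly.sum_fin hn bn (at_side hf true)).intAdd (Poly.sum_fin hn bn (at_side hf false))).congr
    fun a => by rw [Fintype.sum_prod_type, Fintype.sum_bool]

theorem PV.add (hn : Poly n) (bn : PB n) (hx : PV x) (hy : PV y) : PV fun a => x a + y a :=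
  PV.mk hn bn (((hx.comp ctxV).app idxV).intAdd ((hy.comp ctxV).app idxV))

theorem PV.sub (hn : Poly n) (bn : PB n) (hx : PV x) (hy : PV y) : PV fun a => x a - y a :=
  PV.mk hn bn (((hx.comp ctxV).app idxV).intSub ((hy.comp ctxV).app idxV))

theorem p_ev (hh : PI h) (hg : PI g) : Poly fun a => ev (h a) (g a) :=
  (Poly.ite (Poly.decide_eq hg hh) (cst (1 : ℤ)) (cst 0)).congr fun a => by
    simp [ev, Pi.single_apply, Prod.ext_iff, Fin.ext_iff]

theorem p_evE {i j : ∀ a, Fin (n a)} (hi : Poly fun a => (i a : ℕ))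
    (hj : Poly fun a => (j a : ℕ)) : Poly fun a => ev (i a) (j a) :=
  (Poly.ite (Poly.decide_eq hj hi) (cst (1 : ℤ)) (cst 0)).congr fun a => by
    simp [ev, Pi.single_apply, Fin.ext_iff]

theorem p_finEq {j k : ∀ a, Fin (n a)} (hj : Poly fun a => (j a : ℕ))
    (hk : Poly fun a => (k a : ℕ)) : Poly fun a => decide (j a = k a) :=
  Poly.decide_congr (Poly.decide_eq hj hk) fun _ => Fin.ext_iff.symm

theorem p_psEq (hn : Poly n) (bn : PB n) (hx : PV x) {e d : ∀ a, Fin (n a)}
    (he : Poly fun a => (e a : ℕ)) (hd : Poly fun a => (d a : ℕ))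
    [∀ a, Decidable (ps (x a) = ev (d a) - ev (e a))] :
    Poly fun a => decide (ps (x a) = ev (d a) - ev (e a)) :=
  Poly.decide_congr (Poly.decide_eq
    (Poly.ofFn (f := fun a => ps (x a)) hn bn (((hx.comp ctx).app (PI.mk (cst false) idx)).intAdd
      ((hx.comp ctx).app (PI.mk (cst true) idx))))
    (Poly.ofFn (f := fun a => ev (d a) - ev (e a)) hn bn
      ((p_evE (hd.comp ctx) idx).intSub (p_evE (he.comp ctx) idx)))) fun _ => List.ofFn_inj

end Gen

variable {R : α → Raw}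

theorem tup (hR : Poly R) : Poly fun a => (R a).tup := hR.of_enc fun _ => rfl

@[fun_prop] theorem p_nU (hR : Poly R) : Poly fun a => (R a).nU := (tup hR).fst
@[fun_prop] theorem p_mU (hR : Poly R) : Poly fun a => (R a).mU := (tup hR).snd.fst
@[fun_prop] theorem p_L0 (hR : Poly R) : Poly fun a => (R a).L0 := (tup hR).snd.snd.fst
@[fun_prop] theorem p_par (hR : Poly R) : Poly fun a => (R a).par := (tup hR).snd.snd.snd.fst
@[fun_prop] theorem p_c (hR : Poly R) : Poly fun a => (R a).c := (tup hR).snd.snd.snd.snd.fst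
@[fun_prop] theorem p_root (hR : Poly R) : Poly fun a => (R a).root :=
  (tup hR).snd.snd.snd.snd.snd.fst
@[fun_prop] theorem p_P (hR : Poly R) : Poly fun a => (R a).P := (tup hR).snd.snd.snd.snd.snd.snd

theorem p_n (hR : Poly R) : Poly fun a => (R a).n := (p_nU hR).unVal
theorem b_n (hR : Poly R) : PB fun a => (R a).n := PB.unVal (p_nU hR)
theorem p_m (hR : Poly R) : Poly fun a => (R a).m := (p_mU hR).unVal
theorem b_m (hR : Poly R) : PB fun a => (R a).m := PB.unVal (p_mU hR)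

section Bits
variable {n m : α → ℕ}

@[fun_prop] theorem p_Bb (hm : Poly m) : Poly fun a => Bb (m a) := by unfold Bb; fun_prop
@[fun_prop] theorem b_Bb (hm : PB m) : PB fun a => Bb (m a) := by unfold Bb; fun_prop
@[fun_prop] theorem p_Bξ (hn : Poly n) (hm : Poly m) : Poly fun a => Bξ (n a) (m a) := by
  unfold Bξ; fun_prop
@[fun_prop] theorem b_Bξ (hn : PB n) (hm : PB m) : PB fun a => Bξ (n a) (m a) := by
  unfold Bξ; fun_prop
@[fun_prop] theorem p_Bprop (hn : Poly n) (hm : Poly m) : Poly fun a => Bprop (n a) (m a) := by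
  unfold Bprop; fun_prop
theorem b_Bprop (hn : Poly n) (hm : Poly m) (bn : PB n) (bm : PB m) :
    PB fun a => Bprop (n a) (m a) := by
  unfold Bprop; fun_prop

end Bits

section Idx
variable {h g : ∀ a, (R a).V} {d e : ∀ a, (R a).E} {k j : α → ℕ} {u : α → List Bool}
  {ξ z : ∀ a, (R a).V → ℤ}

theorem p_idx (hR : Poly R) (hh : PI h) : Poly fun a => (R a).idx (h a) :=
  Poly.ite (Poly.decide_true (Poly.fst hh)) ((p_n hR).add (Poly.snd hh)) (Poly.snd hh)

theorem p_el (hR : Poly R) (hd : Poly fun a => (d a : ℕ)) (hk : Poly k) :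
    Poly fun a => ((R a).el (d a) (k a) : ℕ) :=
  (Poly.ite (Poly.decide_lt hk (p_n hR)) hk hd).congr fun a => by
    unfold Raw.el
    split_ifs <;> rfl

theorem p_pa (hR : Poly R) (hh : PI h) : PI fun a => (R a).pa (h a) :=
  PI.mk (Poly.fst hh) (p_el hR (Poly.snd hh) ((p_par hR).listGetD (p_idx hR hh) (cst 0)))

theorem p_cf (hR : Poly R) (hh : PI h) : Poly fun a => (R a).cf (h a) :=
  (p_c hR).listGetD (p_idx hR hh) (cst 0)

theorem p_mpow (hR : Poly R) (k : ℕ) : Poly fun a => (R a).m ^ k :=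
  (p_m hR).pow (cst k) (PB.const k)

theorem b_mpow (hR : Poly R) (k : ℕ) : PB fun a => (R a).m ^ k := (b_m hR).pow k

theorem p_ker (hR : Poly R) (hh : PI h) : Poly fun a => decide ((R a).ker (h a)) :=
  Poly.decide_le (p_mpow hR 9) (p_cf hR hh)

theorem p_ℓ (hR : Poly R) (hh : PI h) : Poly fun a => (R a).ℓ (h a) :=
  (cst 2).pow ((cst 2).log ((p_cf hR hh).div (p_mpow hR 9)))
    (PB.log _ ((p_cf hR hh).div (p_mpow hR 9)))

theorem p_rt (hR : Poly R) (hd : Poly fun a => (d a : ℕ)) :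
    Poly fun a => ((R a).rt (d a) : ℕ) := p_el hR hd ((p_root hR).listGetD hd (cst 0))

theorem p_Pf (hR : Poly R) (hd : Poly fun a => (d a : ℕ)) : PV fun a => (R a).Pf (d a) :=
  PV.mk (p_n hR) (b_n hR) ((((p_P hR).listGetD hd (cst [])).comp ctxV).listGetD
    (p_idx (hR.comp ctxV) idxV) (cst 0))

theorem p_sh (hR : Poly R) (hξ : PV ξ) : PV fun a => (R a).sh (ξ a) := by
  have c := ctxV (n := fun p : Σ a, (R a).V => (R p.1).n)
  have i := idxV (n := fun p : Σ a, (R a).V => (R p.1).n)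
  have o := (idxV (n := fun a => (R a).n)).comp c
  refine PV.mk (p_n hR) (b_n hR) ((sumV (f := fun (p : Σ a, (R a).V) b =>
    ξ p.1 b * (ev b p.2 - ev ((R p.1).pa b) p.2)) (p_n (hR.comp ctxV)) (b_n (hR.comp ctxV))
    ((((hξ.comp ctxV).comp c).app i).intMul ((p_ev i o).intSub
      (p_ev (p_pa ((hR.comp ctxV).comp c) i) o)))).congr fun p => ?_)
  simp [Raw.sh, shf, Finset.sum_apply]

theorem p_γ (hR : Poly R) (hh : PI h) (hg : PI g) : Poly fun a => (R a).γ (h a) (g a) :=
  (p_ev hh hg).intAdd ((p_sh hR (p_Pf hR (Poly.snd hh))).app hg)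

theorem p_ϱ (hR : Poly R) : Poly fun a => (R a).ϱ :=
  (cst 1).ratAdd ((cst 1).ratDiv (p_m hR).natCastRat)

theorem p_zpow (hR : Poly R) {k : α → ℤ} {b : α → ℕ} (hk : Poly k) (hb : PB b)
    (h : ∀ a, (k a).natAbs ≤ b a) : Poly fun a => (R a).ϱ ^ k a :=
  Poly.ratZPow (p_ϱ hR) hk (hb.mono h)

theorem p_tabK (hR : Poly R) : Poly fun a => (R a).tabK := by
  have c : Poly fun p : α × Un => R p.1 := hR.comp Poly.id'.fst
  have i : Poly fun p : α × Un => (p.2.n : ℤ) - (R p.1).G :=
    Poly.id'.snd.unVal.natCastInt.intSub (p_mpow c 7).natCastInt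
  have b : PB fun p : α × Un => p.2.n + (R p.1).G := (PB.unVal Poly.id'.snd).add (b_mpow c 7)
  exact Poly.map_range ((cst 2).mul (p_mpow hR 7)) ((PB.const 2).mul (b_mpow hR 7))
    ((cst 1).ratDiv ((p_zpow c i b fun _ => by omega).ratAdd
      (p_zpow c i.intNeg b fun _ => by omega)))

theorem p_tab0 (hR : Poly R) : Poly fun a => (R a).tab0 := by
  have c : Poly fun p : α × Un => R p.1 := hR.comp Poly.id'.fst
  have i : Poly fun p : α × Un => (p.2.n : ℤ) - (R p.1).G :=
    Poly.id'.snd.unVal.natCastInt.intSub (p_mpow c 7).natCastInt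
  have b : PB fun p : α × Un => p.2.n + (R p.1).G := (PB.unVal Poly.id'.snd).add (b_mpow c 7)
  exact Poly.map_range ((cst 2).mul (p_mpow hR 7)) ((PB.const 2).mul (b_mpow hR 7))
    (p_zpow c i.intAbs.intNeg b fun _ => by rw [Int.natAbs_neg, Int.natAbs_abs]; omega)

theorem p_dec (hR : Poly R) (hu : Poly u) : PV fun a => (R a).dec (u a) := by
  have c := hR.comp (ctxV (n := fun a => (R a).n))
  exact PV.mk (p_n hR) (b_n hR) (Poly.ite (p_ker c idxV)
    (poly_blockS (p_tabK c) (p_mpow c 7) (p_ℓ c idxV) (p_mpow c 7) (b_mpow c 7) (p_m c)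
      (poly_blk (p_Bb (p_m c)) (p_idx c idxV) (hu.comp ctxV))) (cst 0))

theorem p_ℓ0 (hR : Poly R) : Poly fun a => (R a).ℓ0 :=
  (cst 2).pow ((p_L0 hR).unVal.add (cst 1)) ((PB.unVal (p_L0 hR)).add (PB.const 1))

theorem p_lo (hR : Poly R) : Poly fun a => (R a).lo :=
  ((p_ℓ0 hR).natCastInt.intMul (p_mpow hR 7).natCastInt).intNeg

theorem p_hi (hR : Poly R) : Poly fun a => (R a).hi :=
  ((p_ℓ0 hR).natCastInt.intMul (p_mpow hR 7).natCastInt).intSub (cst 1)

theorem p_cond (hR : Poly R) (hz : PV z) (he : Poly fun a => (e a : ℕ))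
    (hd : Poly fun a => (d a : ℕ)) : Poly fun a => decide ((R a).rt (e a) = e a ∧
      (R a).rt (d a) = d a ∧ ps (z a) = ev (d a) - ev (e a)) :=
  Poly.decide_and (p_finEq (p_rt hR he) he) (Poly.decide_and (p_finEq (p_rt hR hd) hd)
    (p_psEq (p_n hR) (b_n hR) hz he hd))

theorem p_cls (hR : Poly R) (hz : PV z) : Poly fun a => (R a).cls (z a) := by
  have c := ctx (n := fun p : Σ a, (R a).E => (R p.1).n)
  have hR2 := (hR.comp (ctx (n := fun a => (R a).n))).comp c
  have he := (idx (n := fun a => (R a).n)).comp c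
  have hd := idx (n := fun p : Σ a, (R a).E => (R p.1).n)
  exact Poly.sum_fin (p_n hR) (b_n hR) (Poly.sum_fin (p_n (hR.comp ctx)) (b_n (hR.comp ctx))
    (Poly.ite (p_cond hR2 ((hz.comp ctx).comp c) he hd) (Poly.ite (p_finEq he hd) (cst 0)
      (((cst 1).add (he.mul (p_n hR2))).add hd)) (cst 0)))

theorem p_valid (hR : Poly R) (hz : PV z) : Poly fun a => decide ((R a).valid (z a)) := by
  have c := ctx (n := fun p : Σ a, (R a).E => (R p.1).n)
  have hR2 := (hR.comp (ctx (n := fun a => (R a).n))).comp c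
  have he := (idx (n := fun a => (R a).n)).comp c
  have hd := idx (n := fun p : Σ a, (R a).E => (R p.1).n)
  have hv := (hz.comp (ctx (n := fun a => (R a).n))).app (PI.mk (cst false) idx)
  exact Poly.decide_congr (Poly.decide_and (Poly.decide_forall_fin (p_n hR) (b_n hR)
    (Poly.decide_and (Poly.decide_intLe (p_lo (hR.comp ctx)) hv)
      (Poly.decide_intLe hv (p_hi (hR.comp ctx)))))
    (Poly.decide_exists_fin (p_n hR) (b_n hR) (Poly.decide_exists_fin (p_n (hR.comp ctx))
      (b_n (hR.comp ctx)) (p_cond hR2 ((hz.comp ctx).comp c) he hd)))) fun _ => Iff.rfl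

theorem p_τ (hR : Poly R) (hj : Poly j) (bj : PB j) : Poly fun a => (R a).τ (j a) := by
  have hm := (p_m hR).natCastRat
  exact (((cst 1).ratDiv ((cst 2).ratMul (p_ℓ0 hR).natCastRat)).ratMul (Poly.monoidPow
    ((cst 1).ratAdd ((cst 1).ratDiv (Poly.monoidPow hm (cst 8) (PB.const 8)))) hj bj)).ratMin
    (Poly.monoidPow hm (cst 4) (PB.const 4))

theorem p_hw (hR : Poly R) (hj : Poly j) (bj : PB j) {k : α → ℤ} (hk : Poly k) :
    Poly fun a => (R a).hw (j a) (k a) :=
  Poly.monoidPow ((cst 1).ratDiv (p_ϱ hR))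
    ((p_mpow hR 8).natMin ((p_τ hR hj bj).ratMul hk.intCastRat).ratNatFloor)
    ((b_mpow hR 8).min_left _)

theorem p_seed (hR : Poly R) (hu : Poly u) : Poly fun a => List.ofFn ((R a).seed (u a)) :=
  Poly.ofFn (p_Bξ (p_n hR) (p_m hR)) (b_Bξ (b_n hR) (b_m hR))
    ((hu.comp ctx).listGetD idx (cst false))

theorem p_stp (hR : Poly R) (hu : Poly u) : Poly fun a => (R a).stp (u a) := by
  have hs := (p_m hR).size
  have hi := poly_toNat (Poly.take hs (Poly.drop (cst 2) hu))
  have bi : PB fun a => toNat (((u a).drop 2).take (R a).m.size) :=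
    (((PB.const 2).mul (b_m hR)).add (PB.const 1)).mono fun a => by
      have h1 := toNat_lt (((u a).drop 2).take (R a).m.size)
      have h2 : 2 ^ (((u a).drop 2).take (R a).m.size).length ≤ 2 ^ (R a).m.size :=
        Nat.pow_le_pow_right (by norm_num) (by simp)
      have h3 : 2 ^ (R a).m.size ≤ 2 * (R a).m + 1 := by
        rcases Nat.eq_zero_or_pos (R a).m with h | h
        · simp [h]
        · have h4 := Nat.lt_size.1 (show (R a).m.size - 1 < (R a).m.size by
            have := Nat.size_pos.2 h; omega)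
          have h5 : (R a).m.size = (R a).m.size - 1 + 1 := by have := Nat.size_pos.2 h; omega
          rw [h5, pow_succ]
          omega
      omega
  have hp := (cst 2).pow hi bi
  exact (Poly.ite (Poly.decide_true (hu.listGetD (cst 0) (cst false))) (cst (1 : ℤ))
    (cst (-1))).intMul (Poly.ite (Poly.decide_true (hu.listGetD (cst 1) (cst false))) hp
      ((poly_toNat (Poly.take (p_m hR) (Poly.drop ((cst 2).add hs) hu))).mod hp)).natCastInt

theorem p_prop1 (hR : Poly R) (hu : Poly u) : PV fun a => ((R a).prop (u a)).1 := by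
  have c1 := ctxV (n := fun a => (R a).n)
  have c2 := ctxV (n := fun p : Σ a, (R a).V => (R p.1).n)
  have c3 := ctxV (n := fun p : Σ p : Σ a, (R a).V, (R p.1).V => (R p.1.1).n)
  have hR3 := ((hR.comp c1).comp c2).comp c3
  have hu3 := ((hu.comp c1).comp c2).comp c3
  have hg := ((idxV (n := fun a => (R a).n)).comp c2).comp c3
  have hh := (idxV (n := fun p : Σ a, (R a).V => (R p.1).n)).comp c3
  have hh' := idxV (n := fun p : Σ p : Σ a, (R a).V, (R p.1).V => (R p.1.1).n)
  have hs := ((cst 2).mul (p_n hR3)).size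
  have k3 := (Poly.ite (Poly.decide_and
    (Poly.decide_eq (p_idx hR3 hh) (poly_toNat (Poly.take hs hu3)))
    (Poly.decide_eq (p_idx hR3 hh') (poly_toNat (Poly.take hs (Poly.drop hs hu3)))))
    (p_stp hR3 (Poly.drop ((cst 2).mul hs) hu3)) (cst 0)).intMul
    ((p_γ hR3 hh hg).intSub (p_γ hR3 hh' hg))
  let F : ∀ a, (R a).V → (R a).V → (R a).V → ℤ := fun a g h h' =>
    (if (R a).idx h = toNat ((u a).take (2 * (R a).n).size) ∧
        (R a).idx h' = toNat (((u a).drop (2 * (R a).n).size).take (2 * (R a).n).size) then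
      (R a).stp ((u a).drop (2 * (2 * (R a).n).size)) else 0) * ((R a).γ h g - (R a).γ h' g)
  have k2 := sumV (f := fun (q : Σ p : Σ a, (R a).V, (R p.1).V) h' => F q.1.1 q.1.2 q.2 h')
    (p_n ((hR.comp c1).comp c2)) (b_n ((hR.comp c1).comp c2)) k3
  refine PV.mk (p_n hR) (b_n hR) ((sumV (f := fun (p : Σ a, (R a).V) h => ∑ h', F p.1 p.2 h h')
    (p_n (hR.comp c1)) (b_n (hR.comp c1)) k2).congr fun p => ?_)
  simp only [F, Raw.prop, Finset.sum_apply, Pi.smul_apply, Pi.sub_apply, smul_eq_mul]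

theorem p_prop2 (hR : Poly R) (hu : Poly u) : Poly fun a => List.ofFn ((R a).prop (u a)).2 :=
  p_seed hR (Poly.drop (((((cst 2).mul ((cst 2).mul (p_n hR)).size).add (cst 2)).add
    (p_m hR).size).add (p_m hR)) hu)

theorem p_init1 (hR : Poly R) (hu : Poly u) : PV fun a => ((R a).init (u a)).1 := by
  have c := hR.comp (ctxV (n := fun a => (R a).n))
  have hb := poly_blockS (p_tab0 c) (p_mpow c 7) (p_ℓ0 c) (p_mpow c 7) (b_mpow c 7) (p_m c)
    (poly_blk (p_Bb (p_m c)) (Poly.snd idxV) (hu.comp ctxV))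
  exact PV.mk (p_n hR) (b_n hR) (Poly.ite (Poly.decide_true (Poly.fst idxV))
    ((cst 0).intSub hb) hb)

theorem p_init2 (hR : Poly R) (hu : Poly u) : Poly fun a => List.ofFn ((R a).init (u a)).2 :=
  p_seed hR (Poly.drop ((p_n hR).mul (p_Bb (p_m hR))) hu)

theorem p_C0 (hR : Poly R) : Poly fun a => (((R a).ℓ0 : ℚ) * (R a).tab0.sum) ^ (R a).n :=
  Poly.monoidPow ((p_ℓ0 hR).natCastRat.ratMul (p_tab0 hR).listSum) (p_n hR) (b_n hR)

end Idx

theorem p_xor {B : α → ℕ} {s s' : ∀ a, Fin (B a) → Bool} (hB : Poly B) (bB : PB B)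
    (hs : Poly fun a => List.ofFn (s a)) (hs' : Poly fun a => List.ofFn (s' a)) :
    Poly fun a => List.ofFn (s a + s' a) :=
  Poly.ofFn hB bB ((Poly.comp (f := fun q : Bool × Bool => q.1 + q.2) (Poly.of_finite _)
    ((Poly.app_fin (hs.comp ctx) idx).pair (Poly.app_fin (hs'.comp ctx) idx))))

end ImplB

end Crest.Agent.R302
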