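import Crest.Agent.R302.Model
import Crest.Agent.R302.Cap
import Crest.Agent.R302.ImplA
import Crest.Agent.R302.ImplB

/-!
# Row 302: the estimator is polynomial time relative to the oracle
-/

set_option autoImplicit false

namespace Crest.Agent.R302

open Finset Crest.Agent.Lib.PolyTime

namespace Impl

open ImplA ImplB

/-- States are encoded by their two sides. -/
@[reducible] def zEnc {n : ℕ} : PEnc (Bool × Fin n → ℤ) := PEnc.ofInj encZ encZ_inj
/-- Seeds are encoded as lists. -/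
@[reducible] def sEnc {n : ℕ} : PEnc (Fin n → Bool) := PEnc.ofInj List.ofFn List.ofFn_injective

attribute [local instance] zEnc sEnc

theorem ctxX : Poly fun p : Σ R : Raw, R.X => p.1 := Poly.id'.sigmaFst

theorem stX : PV (n := fun p : Σ R : Raw, R.X => p.1.n) fun p => p.2.1 :=
  (Poly.sigmaSnd_enc Poly.id').left.of_enc fun _ => rfl

theorem sdX : Poly fun p : Σ R : Raw, R.X => List.ofFn p.2.2 :=
  (Poly.sigmaSnd_enc Poly.id').right.of_enc fun _ => rfl

theorem p_mv : Poly fun p : (Σ R : Raw, R.X) × List Bool => enc (p.1.2 + p.1.1.prop p.2) := by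
  have c : Poly fun p : (Σ R : Raw, R.X) × List Bool => p.1 := Poly.id'.fst
  have hR := ctxX.comp c
  exact (Poly.pair (PV.add (p_n hR) (b_n hR) (stX.comp c) (p_prop1 hR Poly.id'.snd))
    (p_xor (p_Bξ (p_n hR) (p_m hR)) (b_Bξ (b_n hR) (b_m hR)) (sdX.comp c)
      (p_prop2 hR Poly.id'.snd))).of_enc fun _ => rfl

theorem p_init : Poly fun p : Raw × List Bool => enc (p.1.init p.2) :=
  (Poly.pair (p_init1 Poly.id'.fst Poly.id'.snd) (p_init2 Poly.id'.fst Poly.id'.snd)).of_enc
    fun _ => rfl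

theorem p_hub : Poly fun p : Σ R : Raw, R.X =>
    encZ (p.2.1 - p.1.sh (p.1.dec (List.ofFn p.2.2))) :=
  PV.sub (p_n ctxX) (b_n ctxX) stX (p_sh ctxX (p_dec ctxX sdX))

theorem p_wt : Poly fun p : (Σ R : Raw, R.X) × Un × ℤ =>
    if p.1.1.valid p.1.2.1 then p.1.1.hw p.2.1.n p.2.2 else 0 := by
  have c : Poly fun p : (Σ R : Raw, R.X) × Un × ℤ => p.1 := Poly.id'.fst
  exact Poly.ite (p_valid (ctxX.comp c) (stX.comp c)) (p_hw (ctxX.comp c) Poly.id'.snd.fst.unVal
    (PB.unVal Poly.id'.snd.fst) Poly.id'.snd.snd) (cst 0)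

/-- Bound for the size of valid states. -/
def bd (R : Raw) : ℕ :=
  2 * (R.n * (4 * sz (R.ℓ0 * R.G + 2) + 4 + 1) + 1) + 1 + (4 * Bξ R.n R.m + 1) + 1

theorem b_bd : PB bd := by
  have h := ((((p_ℓ0 Poly.id').mul (p_mpow Poly.id' 7)).add (cst 2))).pb_sz
  have h2 := b_Bξ (b_n Poly.id') (b_m Poly.id')
  exact ((((PB.const 2).mul (((b_n Poly.id').mul ((((PB.const 4).mul h).add (PB.const 4)).add
    (PB.const 1))).add (PB.const 1))).add (PB.const 1)).add
      (((PB.const 4).mul h2).add (PB.const 1))).add (PB.const 1)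

theorem sz_valid {R : Raw} {x : R.X} (h : R.valid x.1) : sz x ≤ bd R := by
  have key : ∀ s, sz (List.ofFn (side x.1 s)) ≤ R.n * (4 * sz (R.ℓ0 * R.G + 2) + 4 + 1) + 1 := by
    intro s
    have := sz_list_le (l := List.ofFn (side x.1 s)) (B := 4 * sz (R.ℓ0 * R.G + 2) + 4)
      fun y hy => by
        obtain ⟨i, rfl⟩ := List.mem_ofFn.1 hy
        refine (sz_int_le _).trans (Nat.add_le_add_right (sz_le_of_le ?_) 4)
        obtain ⟨h1, e, d, -, -, h2⟩ := h
        have h3 := h1 i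
        have h4 := congrFun h2 i
        have h5 : |(ev d - ev e : R.E → ℤ) i| ≤ 1 := by
          simp only [ev, Pi.sub_apply, Pi.single_apply]
          split_ifs <;> simp
        rw [← h4, abs_le] at h5
        simp only [ps, Raw.lo, Raw.hi] at h3 h5
        cases s <;> simp only [side] <;> zify <;> rw [abs_le] <;> constructor <;> linarith
    rwa [List.length_ofFn] at this
  have h1 := key false
  have h2 := key true
  have h3 := sz_listBool_le (List.ofFn x.2)
  rw [List.length_ofFn] at h3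
  change sz (List.ofFn (side x.1 false)) + sz (List.ofFn (side x.1 true)) + 1 +
    sz (List.ofFn x.2) + 1 ≤ _
  unfold bd
  omega

variable {α : Type} [Ctx α] {R : α → Raw} {r : ∀ a, Bool → Finset (Fin (R a).n) → ℤ} {Rm : α → ℕ}

theorem up {f : Raw → ℕ} (hR : OPoly R) (hf : Poly f) (bf : PB f) : UP fun a => f (R a) :=
  OPoly.comp (h := fun R => (⟨f R⟩ : Un)) (Poly.unMk hf bf) hR

theorem spec (hR : OPoly R) (hRm : OPoly Rm)
    (hsub : ∀ a s, Sub (r a s)) (hb : ∀ a s A, |r a s A| ≤ Rm a)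
    (hr : OPoly fun p : α × Bool × List Bool => r p.1 p.2.1 (setOf (R p.1).n p.2.2)) :
    Spec (fun a => (R a).ann (DD (r a))) fun a => bd (R a) := by
  have e := Ext.sig (α := α) (σ := fun a => (R a).X)
  have hX : OPoly fun p : Σ a, (R a).X => (⟨R p.1, p.2⟩ : Σ R : Raw, R.X) :=
    ((e.op hR).pair sigSnd).of_enc fun _ => rfl
  have n1 := p_n (Poly.id' (α := Raw))
  have n2 := b_n (Poly.id' (α := Raw))
  have m1 := p_m (Poly.id' (α := Raw))
  have m2 := b_m (Poly.id' (α := Raw))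
  have hD : OPoly fun p : Σ a, (R a).X =>
      DD (r p.1) (p.2.1 - (R p.1).sh ((R p.1).dec (List.ofFn p.2.2))) := by
    have hn := (up hR n1 n2).ext e
    have hh := OPoly.comp p_hub hX
    have hf : ∀ s : Bool, OPoly fun q : (Σ a, (R a).X) × List Bool =>
        r q.1.1 s (setOf (R q.1.1).n q.2) := fun s =>
      ((e.comp Ext.fst).pair ((OPoly.const s).pair OPoly.snd)).op hr
    refine (OPoly.comp₂ (h := fun x y : ℤ => x + y) (by fun_prop)
      (opoly_distA (f := fun p l => r p.1 false (setOf (R p.1).n l)) hn.op hn.pb (e.op hRm) (hf false)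
        (OPoly.comp (h := fun q : List ℤ × List ℤ => q.1) (by fun_prop) hh))
      (opoly_distA (f := fun p l => r p.1 true (setOf (R p.1).n l)) hn.op hn.pb (e.op hRm) (hf true)
        (OPoly.comp (h := fun q : List ℤ × List ℤ => q.2) (by fun_prop) hh))).congr fun p => ?_
    simp only [encZ]
    rw [distA_eq (hsub _ _) (hb _ _), distA_eq (hsub _ _) (hb _ _), DD]
  exact {
    w := OPoly.comp p_wt (hX.fst.pair (OPoly.snd.pair hD.fst))
    cl := OPoly.comp (h := fun p : Σ R : Raw, R.X => p.1.cls p.2.1) (p_cls ctxX stX) hX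
    mv := OPoly.comp p_mv (hX.fst.pair OPoly.snd)
    init := OPoly.comp p_init (hR.fst.pair OPoly.snd)
    nC := up hR ((n1.pow (cst 2) (PB.const 2)).add (cst 1)) ((n2.pow 2).add (PB.const 1))
    Bp := up hR (p_Bprop n1 m1) (b_Bprop n1 m1 n2 m2)
    ba := up hR (p_mpow Poly.id' 2) (m2.pow 2)
    Bi := up hR ((n1.mul (p_Bb m1)).add (p_Bξ n1 m1)) ((n2.mul (b_Bb m2)).add (b_Bξ n2 m2))
    Ls := up hR (p_mpow Poly.id' 9) (m2.pow 9)
    Tn := up hR (p_mpow Poly.id' 310) (m2.pow 310)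
    Rs := up hR (p_mpow Poly.id' 35) (m2.pow 35)
    C0 := OPoly.comp (p_C0 Poly.id') hR
    w0 := fun a j x => by
      change 0 ≤ (R a).wt _ j x
      unfold Raw.wt Raw.hw Raw.ϱ
      split_ifs
      · positivity
      · exact le_rfl
    pb := OPB.of_pb b_bd hR
    sw := fun a j x hx => sz_valid (by
      by_contra hv
      exact hx (if_neg hv)) }

end Impl

theorem opoly_est {α : Type} [Ctx α] {R : α → Raw} {r : ∀ a, Bool → Finset (Fin (R a).n) → ℤ}
    {Rm : α → ℕ} {u : α → List Bool} (hR : OPoly R) (hRm : OPoly Rm) (hu : OPoly u)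
    (hsub : ∀ a s, Sub (r a s)) (hb : ∀ a s A, |r a s A| ≤ Rm a)
    (hr : OPoly fun p : α × Bool × List Bool => r p.1 p.2.1 (setOf (R p.1).n p.2.2)) :
    OPoly fun a => (R a).est (DD (r a)) (u a) :=
  letI : ∀ a, PEnc (R a).X := fun _ => @instPEncProd _ _ Impl.zEnc Impl.sEnc
  (Impl.spec hR hRm hsub hb hr).est' hu

theorem poly_Btot : Poly (fun p : Un × Un => Btot p.1.n p.2.n) ∧
    PB fun p : Un × Un => Btot p.1.n p.2.n := by
  have n1 : Poly fun p : Un × Un => p.1.n := by fun_prop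
  have m1 : Poly fun p : Un × Un => p.2.n := by fun_prop
  have n2 : PB fun p : Un × Un => p.1.n := by fun_prop
  have m2 : PB fun p : Un × Un => p.2.n := by fun_prop
  have h1 := ImplB.p_Bprop n1 m1
  have h2 := ImplB.b_Bprop n1 m1 n2 m2
  have h3 := ImplB.p_Bb m1
  have h4 := ImplB.b_Bb m2
  have h5 := ImplB.p_Bξ n1 m1
  have h6 := ImplB.b_Bξ n2 m2
  have c : ∀ k : ℕ, Poly fun _ : Un × Un => k := fun k => ImplB.cst k
  have pw : ∀ k : ℕ, Poly fun p : Un × Un => p.2.n ^ k := fun k => m1.pow (c k) (PB.const k)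
  exact ⟨(pw 9).mul ((pw 35).mul (((n1.mul h3).add h5).add (((pw 9).add (c 1)).mul
      ((pw 310).mul (((c 1).add h1).add (pw 2)))))),
    (m2.pow 9).mul ((m2.pow 35).mul (((n2.mul h4).add h6).add (((m2.pow 9).add (PB.const 1)).mul
      ((m2.pow 310).mul (((PB.const 1).add h2).add (m2.pow 2))))))⟩

end Crest.Agent.R302
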