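import Crest.Agent.R309.RamC
import Crest.Prelude.Def_OracleRAM

/-!
# Row 302: an oracle word-RAM program that replays a decision tree
-/

set_option autoImplicit false

namespace Crest.Agent.R302.MachAux

open Function Crest.WordRAM Crest.OracleRAM Crest.Agent.Lib.PolyTime Crest.Agent.Lib.RamC
open Crest.Agent.R309.RamC

section ostep
variable {P : OProgram} {n : ℕ} {O : Bool → Finset (Fin n) → ℕ} {w : ℕ} {ρ : ℕ → ℕ}

theorem ostep_halted {c : OCfg P.numRegs} (h : c.cfg.halted = true) : ostep P n O w ρ c = c := by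
  simp [ostep, h]

theorem step_fixed {Q : Program} {c : Cfg Q.numRegs} (h : c.halted = true) (k : ℕ) :
    (step Q w ρ)^[k] c = c :=
  iterate_fixed (by simp [step, h]) k

theorem base_code (P : OProgram) (i : ℕ) :
    (baseProgram P).code[i]? = (P.code[i]?).map OInstr.toBase := List.getElem?_map

theorem ostep_halt (c : Cfg P.numRegs) (k : ℕ) (hc : c.halted = false)
    (h : P.code[c.pc]? = some (.base .halt)) :
    ostep P n O w ρ ⟨c, k⟩ = ⟨{ c with halted := true }, k⟩ := by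
  have h1 : (baseProgram P).code[c.pc]? = some Instr.halt := by rw [base_code, h]; rfl
  have h2 : step (baseProgram P) w ρ c = { c with halted := true } := by
    simp only [step, hc, h1]; rfl
  simp only [ostep, hc, h, h2]; rfl

theorem ostep_base (c : Cfg P.numRegs) (k : ℕ)
    (h : (step (baseProgram P) w ρ c).halted = false) :
    ostep P n O w ρ ⟨c, k⟩ = ⟨step (baseProgram P) w ρ c, k⟩ := by
  have hc : c.halted = false := by
    by_contra hc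
    have hc' : c.halted = true := by simpa using hc
    have := step_fixed (Q := baseProgram P) (w := w) (ρ := ρ) hc' 1
    rw [iterate_one] at this
    rw [this, hc'] at h
    exact absurd h (by simp)
  unfold ostep
  simp only [hc, Bool.false_eq_true, if_false]
  cases hi : P.code[c.pc]? with
  | none =>
    exfalso
    have : (baseProgram P).code[c.pc]? = none := by rw [base_code, hi]; rfl
    simp [step, hc, this] at h
  | some i =>
    cases i with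
    | base i => rfl
    | query b a d =>
      exfalso
      have : (baseProgram P).code[c.pc]? = some Instr.halt := by rw [base_code, hi]; rfl
      simp [step, hc, this] at h

theorem ostep_iter (T : ℕ) (c : Cfg P.numRegs) (k : ℕ)
    (h : ((step (baseProgram P) w ρ)^[T] c).halted = false) :
    (ostep P n O w ρ)^[T] ⟨c, k⟩ = ⟨(step (baseProgram P) w ρ)^[T] c, k⟩ := by
  induction T generalizing c with
  | zero => rfl
  | succ T ih =>
    rw [iterate_succ_apply] at h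
    have h1 : (step (baseProgram P) w ρ c).halted = false := by
      by_contra hc
      have hc' : (step (baseProgram P) w ρ c).halted = true := by simpa using hc
      rw [step_fixed hc', hc'] at h
      exact absurd h (by simp)
    rw [iterate_succ_apply, iterate_succ_apply, ostep_base c k h1, ih _ h]

theorem orun_of_halted {x : List ℕ} {k T : ℕ} (h : (orun P n O w ρ x k).cfg.halted = true)
    (hT : k ≤ T) : orun P n O w ρ x T = orun P n O w ρ x k := by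
  obtain ⟨j, rfl⟩ := Nat.exists_eq_add_of_le' hT
  unfold orun
  rw [iterate_add_apply]
  exact iterate_fixed (ostep_halted h) j

end ostep

variable {w : ℕ} {ρ : ℕ → ℕ}

/-- Register `11` := the word length in unary. -/
def wl : Stmt := .whl 12 (.seq (.op (.add 12 12 12)) (cons 11 10 11))

theorem tr_wl (j i : ℕ) (hi : i + j = w) (σ : St) (hg : Good w σ (2 * j)) (h10 : σ.R 10 = 0)
    (h12 : σ.R 12 = 2 ^ i % 2 ^ w) (hl : Rep σ.M (σ.R 2) (enc (List.replicate i ())) (σ.R 11)) :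
    Tr w ρ wl σ fun σ' => Rep σ'.M (σ'.R 2) (enc (List.replicate w ())) (σ'.R 11) ∧
      Fr 11 σ σ' (2 * j) (8 * j + 2) 0 := by
  induction j generalizing i σ with
  | zero =>
    obtain rfl : i = w := by omega
    exact .whl_stop (by rw [h12, Nat.mod_self]) ⟨hl, (Fr.tick 11 σ).mono le_rfl (by omega) (by omega) rfl⟩
  | succ j ih =>
    have hlt : 2 ^ i < 2 ^ w := Nat.pow_lt_pow_right (by norm_num) (by omega)
    rw [Nat.mod_eq_of_lt hlt] at h12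
    refine .whl_next (by rw [h12]; positivity) (.seq ((tr_add (σ := σ.tick) (by omega)).mono
      fun σ₁ u₁ => ?_))
    have F₁ := (Fr.tick 12 σ).trans u₁.fr
    refine (tr_cons (l := .nil) (hg.fr F₁ (by omega) (by omega)) (by omega) (by omega)
      ((F₁.regs 10 (by omega) (by omega)).trans h10) (F₁.repR (by omega) (by omega) hl)).mono
      fun σ₂ ⟨r₂, n₂, f₂⟩ => ?_
    have F₂ := F₁.trans f₂
    refine (ih (i + 1) (by omega) σ₂ (hg.fr F₂ (by omega) (by omega))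
      ((F₂.regs 10 (by omega) (by omega)).trans h10) ?_ r₂).mono fun σ₃ ⟨r₃, f₃⟩ =>
      ⟨r₃, (F₂.trans f₃).mono (by omega) (by omega) (by omega) rfl⟩
    rw [n₂ _ (by omega) (by omega), u₁.val, St.tick_R, h12, pow_succ, Nat.mul_two]

/-- The invariant at the start of each round of the replay loop. -/
structure Inv2 (s : V) (σ : St) : Prop where
  one : σ.R 3 = 1
  pos : 0 < σ.R 2
  cst : Cst σ
  sta : Rep σ.M (σ.R 2) s (σ.R 6)

/-- Initial phase. -/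
def ini2 (c₀ c₁ c₂ : Code) : Stmt :=
  .seq (ini c₀ c₁) <| .seq (rnd c₂) <| .seq (.op (.const 10 0)) <| .seq (cons 5 10 10) <|
  .seq (.op (.const 11 0)) <| .seq (.op (.const 12 1)) <| .seq wl <| .seq (cons 11 11 10)
    (cons 6 9 11)

theorem tr_ini2 {c₀ c₁ c₂ : Code} {x : List ℕ} {m G n₀ n₁ n₂ : ℕ} {v : V} (hx : Fits w x)
    (hG : sz x ≤ G) (hm : m ≤ G) (hwG : w ≤ G)
    (h₀ : Ev c₀ (enc (x.map fun a => a.bits.reverse)) (enc x) n₀) (hn₀ : n₀ ≤ G)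
    (h₁ : Ev c₁ (enc x) (enc (List.replicate m ())) n₁) (hn₁ : n₁ ≤ G)
    (h₂ : Ev c₂ (enc (x, (lows w ρ 0 m).reverse)) v n₂) (hn₂ : n₂ ≤ G) (hw : 24 * G < 2 ^ w) :
    Tr w ρ (ini2 c₀ c₁ c₂) (st₀ w x) fun σ =>
      Inv2 (.node v (.node (enc (List.replicate w ())) .nil)) σ ∧ σ.R 2 ≤ 24 * G ∧
        σ.time ≤ (cK c₀ + cK c₁ + cK c₂ + 80) * G := by
  have hG1 : 1 ≤ G := (one_le_sz x).trans hG
  refine (tr_ini hx hG h₀ hn₀ h₁ hn₁ (by omega)).bind fun σ₀ ⟨i₀, d₀, t₀⟩ => ?_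
  refine (tr_rnd (v := v) (n := n₂) i₀ hG1 hm (by rw [d₀]; exact h₂) (by omega)).bind
    fun σ₁ ⟨i₁, r₁, p₁, b₁, _, t₁⟩ => ?_
  have hg : Good w σ₁ (6 + 2 * w) := ⟨i₁.one, p₁, by omega⟩
  refine (tr_const (by omega) 0).bind fun σ₂ u₂ => ?_
  have e₂ : σ₂.R 10 = 0 := by rw [u₂.val, Nat.zero_mod]
  refine (tr_cons (l := .nil) (r := .nil) (hg.fr u₂.fr (by omega) (by omega)) (by omega) (by omega)
    e₂ e₂).bind fun σ₃ ⟨r₃, n₃, f₃⟩ => ?_
  have F₃ := u₂.fr.trans f₃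
  have v₃ : Rep σ₃.M (σ₃.R 2) v (σ₃.R 9) := by
    rw [n₃ 9 (by omega) (by omega), u₂.ne 9 (by omega)]; exact F₃.rep r₁
  have e₃ : σ₃.R 10 = 0 := by rw [n₃ 10 (by omega) (by omega), e₂]
  have c₃ : Cst σ₃ := ⟨(F₃.regs 4 (by omega) (by omega)).trans i₁.two, r₃⟩
  have g₃ : Good w σ₃ (4 + 2 * w) := hg.fr F₃ (by omega) (by omega)
  refine (tr_const (by omega) 0).bind fun σ₄ u₄ => ?_
  refine (tr_const (by omega) 1).bind fun σ₅ u₅ => ?_
  have F₅ := u₄.fr.trans u₅.fr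
  refine (tr_wl w 0 (by omega) σ₅ (g₃.fr F₅ (by omega) (by omega))
    ((F₅.regs 10 (by omega) (by omega)).trans e₃) (by rw [u₅.val, pow_zero])
    (by rw [u₅.ne 11 (by omega), u₄.val]; exact Nat.zero_mod _)).bind fun σ₆ ⟨r₆, f₆⟩ => ?_
  have F₆ := F₅.trans f₆
  refine (tr_cons (r := .nil) (g₃.fr F₆ (by omega) (by omega)) (by omega) (by omega) r₆
    ((F₆.regs 10 (by omega) (by omega)).trans e₃)).bind fun σ₇ ⟨r₇, _, f₇⟩ => ?_
  have F₇ := F₆.trans f₇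
  refine (tr_cons (g₃.fr F₇ (by omega) (by omega)) (by omega) (by omega)
    (F₇.repR (by omega) (by omega) v₃) r₇).mono fun σ₈ ⟨r₈, _, f₈⟩ => ?_
  have F₈ := F₇.trans f₈
  have g₈ : Good w σ₈ 0 := g₃.fr F₈ (by omega) (by omega)
  refine ⟨⟨g₈.one, g₈.pos, c₃.fr F₈ (by omega), r₈⟩, ?_, ?_⟩
  · have := F₃.hp_le; have := F₈.hp_le; omega
  · have := F₃.time
    have := F₈.time
    have := Nat.mul_le_mul_left (cK c₂) hn₂
    simp only [Nat.add_mul] at t₀ ⊢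
    omega

/-- First half of a round: write the words of the query or of the output. -/
def rout (c₃ : Code) : Stmt :=
  .seq (.op (.copy 9 6)) <| .seq (cc c₃ 9) <| .seq (.op (.load 7 9)) <| .seq (next 9) <|
  .seq (.op (.copy 1 2)) <| .seq (outp 9) (.op (.sub 0 2 1))

theorem tr_rout {c₃ : Code} {s : V} {b : Bool} {ws : List ℕ} {k G : ℕ} {σ : St} (hi : Inv2 s σ)
    (h : Ev c₃ s (enc (b, ws)) k) (hk : k ≤ G) (hw : σ.R 2 + 3 * G < 2 ^ w)
    (hws : ∀ a ∈ ws, a < 2 ^ w) :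
    Tr w ρ (rout c₃) σ fun σ' => Inv2 s σ' ∧ (σ'.R 7 = 0 ↔ b = false) ∧ σ'.R 0 = ws.length ∧
      (∀ j (h : j < ws.length), σ'.M (σ'.R 1 + j) = ws[j]) ∧ σ'.R 2 ≤ σ.R 2 + 3 * G ∧
      σ'.time ≤ σ.time + (cK c₃ + 15) * G := by
  have hs : sz b + sz ws + 1 ≤ k := h.size_out
  have hl := length_lt_sz ws
  have hg : Good w σ (3 * G) := ⟨hi.one, hi.pos, hw⟩
  refine (tr_copy (by omega)).bind fun σ₁ u₁ => ?_
  refine (tr_cc h 9 (by omega) σ₁ (hg.fr u₁.fr (by omega) (by omega))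
    (by rw [u₁.val]; exact u₁.fr.rep hi.sta)).bind fun σ₂ ⟨r₂, f₂⟩ => ?_
  have F₂ := u₁.fr.trans f₂
  rw [enc_pair] at r₂
  refine (tr_load (by omega)).bind fun σ₃ u₃ => ?_
  have F₃ := F₂.trans u₃.fr
  have g₃ : Good w σ₃ G := hg.fr F₃ (by omega) (by omega)
  have e₃ : σ₃.R 9 = σ₂.R 9 := u₃.ne 9 (by omega)
  have h2₃ : σ₃.R 2 = σ₂.R 2 := u₃.ne 2 (by omega)
  refine (tr_next (by omega) g₃.one (by have := r₂.2.1; have := g₃.room; omega)).bind
    fun σ₄ ⟨e₄, n₄, m₄, f₄⟩ => ?_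
  have F₄ := F₃.trans f₄
  refine (tr_copy (by omega)).bind fun σ₅ u₅ => ?_
  have h2₅ : σ₅.R 2 = σ₂.R 2 := by rw [u₅.ne 2 (by omega), n₄ 2 (by omega), h2₃]
  have m₅ : σ₅.M = σ₂.M := by rw [u₅.mem, m₄, u₃.mem]
  have g₅ : Good w σ₅ ws.length :=
    ⟨by rw [u₅.ne 3 (by omega), n₄ 3 (by omega), g₃.one], by have := g₃.pos; omega,
      by have := g₃.room; omega⟩
  refine (tr_outp (k := 9) (H := σ₅.R 2) (by omega) ws σ₅ le_rfl g₅
    (by rw [u₅.ne 9 (by omega), e₄, e₃, u₃.mem, m₅, h2₅]; exact r₂.2.2.2) hws).bind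
    fun σ₆ ⟨e₆, m₆, f₆⟩ => ?_
  have e1 : σ₆.R 1 = σ₅.R 2 := by
    rw [f₆.regs 1 (by omega) (by omega), u₅.val, u₅.ne 2 (by omega)]
  refine (tr_sub (by omega)).mono fun σ₇ u₇ => ?_
  have hR : ∀ j, 3 ≤ j → j < 7 → σ₇.R j = σ.R j := fun j h1 h2 => by
    rw [u₇.ne j (by omega), f₆.regs j (by omega) (by omega), u₅.ne j (by omega),
      F₄.regs j (by omega) (by omega)]
  have F₇ := ((F₄.trans u₅.fr).trans f₆).trans u₇.fr
  refine ⟨⟨(hR 3 (by omega) (by omega)).trans hi.one, hi.pos.trans_le F₇.hp_ge,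
    ⟨(hR 4 (by omega) (by omega)).trans hi.cst.two, ?_⟩, ?_⟩, ?_, ?_, ?_, ?_, ?_⟩
  · rw [hR 5 (by omega) (by omega)]; exact F₇.rep hi.cst.tru
  · rw [hR 6 (by omega) (by omega)]; exact F₇.rep hi.sta
  · rw [u₇.ne 7 (by omega), f₆.regs 7 (by omega) (by omega), u₅.ne 7 (by omega), n₄ 7 (by omega),
      u₃.val]
    have := r₂.2.2.1
    cases b with
    | false => exact iff_of_true this rfl
    | true => exact iff_of_false this.1.ne' (by simp)
  · rw [u₇.val, e₆, e1, Nat.add_sub_cancel_left]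
  · intro j hj
    rw [u₇.ne 1 (by omega), u₇.mem, e1]
    exact m₆ j hj
  · have := F₇.hp_le; omega
  · have := F₇.time
    have := Nat.mul_le_mul_left (cK c₃) hk
    rw [Nat.add_mul]
    omega

/-- Second half of a round: record the answers. -/
def rupd (c₄ : Code) : Stmt :=
  .seq (.op (.const 9 0)) <| .seq (.op (.copy 10 7)) <| .seq (bitsR 9) <|
  .seq (.op (.const 10 0)) <| .seq (.op (.copy 11 8)) <| .seq (bitsR 10) <|
  .seq (cons 9 9 10) <| .seq (cons 9 6 9) <| .seq (cc c₄ 9) (.op (.copy 6 9))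

theorem tr_rupd {c₄ : Code} {s s' : V} {k G : ℕ} {σ : St} (hi : Inv2 s σ)
    (h : Ev c₄ (.node s (enc ((σ.R 7).bits.reverse, (σ.R 8).bits.reverse))) s' k) (hk : k ≤ G)
    (hw : σ.R 2 + 8 * G < 2 ^ w) :
    Tr w ρ (rupd c₄) σ fun σ' => Inv2 s' σ' ∧ σ'.R 2 ≤ σ.R 2 + 8 * G ∧
      σ'.time ≤ σ.time + (cK c₄ + 40) * G := by
  have hs : s.size + (sz (σ.R 7).bits.reverse + sz (σ.R 8).bits.reverse + 1) + 1 ≤ k := h.size_in
  have h7 := length_lt_sz (σ.R 7).bits.reverse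
  have h8 := length_lt_sz (σ.R 8).bits.reverse
  rw [List.length_reverse] at h7 h8
  have hg : Good w σ (8 * G) := ⟨hi.one, hi.pos, hw⟩
  refine (tr_const (by omega) 0).bind fun σ₁ u₁ => ?_
  refine (tr_copy (by omega)).bind fun σ₂ u₂ => ?_
  have F₂ := u₁.fr.trans u₂.fr
  refine (tr_bitsR (k := 9) (by omega) (σ.R 7) σ₂ [] (hg.fr F₂ (by omega) (by omega))
    (hi.cst.fr F₂ (by omega)) (by rw [u₂.val, u₁.ne 7 (by omega)])
    (by rw [u₂.ne 9 (by omega), u₁.val]; exact Nat.zero_mod _)).bind fun σ₃ ⟨r₃, f₃⟩ => ?_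
  have F₃ := F₂.trans f₃
  refine (tr_const (by omega) 0).bind fun σ₄ u₄ => ?_
  refine (tr_copy (by omega)).bind fun σ₅ u₅ => ?_
  have F₅ := (F₃.trans u₄.fr).trans u₅.fr
  refine (tr_bitsR (k := 10) (by omega) (σ.R 8) σ₅ [] (hg.fr F₅ (by omega) (by omega))
    (hi.cst.fr F₅ (by omega)) (by rw [u₅.val, u₄.ne 8 (by omega), F₃.regs 8 (by omega) (by omega)])
    (by rw [u₅.ne 10 (by omega), u₄.val]; exact Nat.zero_mod _)).bind fun σ₆ ⟨r₆, f₆⟩ => ?_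
  have F₆ := F₅.trans f₆
  rw [List.append_nil] at r₃ r₆
  refine (tr_cons (hg.fr F₆ (by omega) (by omega)) (by omega) (by omega)
    (((u₄.fr.trans u₅.fr).trans f₆).repR (by omega) (by omega) r₃) r₆).bind
    fun σ₇ ⟨r₇, _, f₇⟩ => ?_
  have F₇ := F₆.trans f₇
  refine (tr_cons (hg.fr F₇ (by omega) (by omega)) (by omega) (by omega)
    (F₇.repR (by omega) (by omega) hi.sta) r₇).bind fun σ₈ ⟨r₈, _, f₈⟩ => ?_
  have F₈ := F₇.trans f₈
  refine (tr_cc h 9 (by omega) σ₈ (hg.fr F₈ (by omega) (by omega)) r₈).bind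
    fun σ₉ ⟨r₉, f₉⟩ => ?_
  have F₉ := F₈.trans f₉
  refine (tr_copy (by omega)).mono fun σ' u' => ?_
  have F' := F₉.trans u'.fr
  have g' : Good w σ' 0 := hg.fr F' (by omega) (by omega)
  refine ⟨⟨g'.one, g'.pos, hi.cst.fr F' (by omega), by rw [u'.val]; exact u'.fr.rep r₉⟩,
    by have := F'.hp_le; omega, ?_⟩
  have := F'.time
  have := Nat.mul_le_mul_left (cK c₄) hk
  rw [Nat.add_mul]
  omega

/-- The set presented to the oracle. -/
def qset (n : ℕ) (ws : List ℕ) : Finset (Fin n) :=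
  Finset.univ.filter fun j : Fin n => ws.getD j 0 ≠ 0

/-- The rounds of the replay loop. -/
inductive Rounds (c₃ c₄ : Code) (n : ℕ) (O : Bool → Finset (Fin n) → ℕ) (w G : ℕ) :
    V → List ℕ → ℕ → Prop
  | stop {s : V} {out : List ℕ} {k : ℕ} (J : ℕ) : Ev c₃ s (enc (false, out)) k → k ≤ G →
      (∀ a ∈ out, a < 2 ^ w) → Rounds c₃ c₄ n O w G s out J
  | next {s s' : V} {ws out : List ℕ} {k k' J : ℕ} : Ev c₃ s (enc (true, ws)) k → k ≤ G →
      (∀ a ∈ ws, a < 2 ^ w) → ws.length = n →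
      Ev c₄ (.node s (enc ((O false (qset n ws)).bits.reverse, (O true (qset n ws)).bits.reverse)))
        s' k' → k' ≤ G → Rounds c₃ c₄ n O w G s' out J → Rounds c₃ c₄ n O w G s out (J + 1)

theorem ostep_query {N n : ℕ} {O : Bool → Finset (Fin n) → ℕ} {code : List (OInstr (N + 1))}
    {p a d : ℕ} {b : Bool} (ha : a ≤ N) (hd : d ≤ N)
    (h : code[p]? = some (.query b (rg N a) (rg N d))) (σ : St) (k : ℕ) :
    ostep ⟨N + 1, code⟩ n O w ρ ⟨σ.cfg N p, k⟩ =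
      ⟨(⟨update σ.R d (O b (Finset.univ.filter fun j : Fin n => σ.M (σ.R a + j) ≠ 0) % 2 ^ w),
        σ.M, σ.drawn, σ.time⟩ : St).cfg N (p + 1), k + 1⟩ := by
  simp [ostep, St.cfg, h, writeReg_rg hd, rg_val ha]

theorem orun_base {N n : ℕ} {O : Bool → Finset (Fin n) → ℕ} {ocode : List (OInstr (N + 1))}
    {T p q : ℕ} {σ σ' : St} (k : ℕ)
    (h : (step ⟨N + 1, ocode.map OInstr.toBase⟩ w ρ)^[T] (σ.cfg N p) = σ'.cfg N q) :
    (ostep ⟨N + 1, ocode⟩ n O w ρ)^[T] ⟨σ.cfg N p, k⟩ = ⟨σ'.cfg N q, k⟩ := by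
  have h' : (step (baseProgram ⟨N + 1, ocode⟩) w ρ)^[T] (σ.cfg N p) = σ'.cfg N q := h
  rw [ostep_iter (P := ⟨N + 1, ocode⟩) T _ k (by rw [h']; rfl), h']

theorem loop {c₃ c₄ : Code} {N L₁ L₂ L₃ : ℕ} {ocode : List (OInstr (N + 1))}
    (hN₃ : (rout c₃).mr ≤ N) (hN₄ : (rupd c₄).mr ≤ N) (hN : 9 ≤ N)
    (hL₂ : L₂ = L₁ + (rout c₃).len) (hL₃ : L₃ = L₂ + 3 + (rupd c₄).len)
    (A₂ : At (ocode.map OInstr.toBase) L₁ ((rout c₃).flat N L₁))
    (A₃ : (ocode.map OInstr.toBase)[L₂]? = some (.jumpIfZero (rg N 7) (L₃ + 1)))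
    (O₁ : ocode[L₂ + 1]? = some (.query false (rg N 1) (rg N 7)))
    (O₂ : ocode[L₂ + 1 + 1]? = some (.query true (rg N 1) (rg N 8)))
    (A₄ : At (ocode.map OInstr.toBase) (L₂ + 3) ((rupd c₄).flat N (L₂ + 3)))
    (A₅ : (ocode.map OInstr.toBase)[L₃]? = some (.jump L₁))
    (O₃ : ocode[L₃ + 1]? = some (.base .halt))
    {n : ℕ} {O : Bool → Finset (Fin n) → ℕ} {G : ℕ} {s : V} {out : List ℕ} {J : ℕ}
    (h : Rounds c₃ c₄ n O w G s out J) (hO : ∀ b A, O b A < 2 ^ w) (hG : 1 ≤ G) (σ : St) (k : ℕ)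
    (hi : Inv2 s σ) (hw : σ.R 2 + (J + 1) * (11 * G) < 2 ^ w) :
    ∃ T, T ≤ (J + 1) * ((cK c₃ + cK c₄ + 60) * G) ∧
      ((ostep ⟨N + 1, ocode⟩ n O w ρ)^[T] ⟨σ.cfg N L₁, k⟩).cfg.halted = true ∧
      ((ostep ⟨N + 1, ocode⟩ n O w ρ)^[T] ⟨σ.cfg N L₁, k⟩).cfg.output = out := by
  induction h generalizing σ k with
  | @stop s out k₃ J h₃ hk₃ hout =>
    rw [Nat.succ_mul] at hw
    obtain ⟨σ₁, he, -, h7, h0, hM, -, ht⟩ := tr_rout (ρ := ρ) hi h₃ hk₃ (by omega) hout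
    obtain ⟨T, hT, e⟩ := he.flat hN₃ L₁ A₂
    have e₁ : (step ⟨N + 1, ocode.map OInstr.toBase⟩ w ρ)^[1 + T] (σ.cfg N L₁) =
        σ₁.cfg N (L₃ + 1) := by
      rw [iterate_add_apply, e, iterate_one, ← hL₂, step_jz_z (by omega) A₃ σ₁ (h7.2 rfl)]
    have e₂ : (ostep ⟨N + 1, ocode⟩ n O w ρ)^[1 + (1 + T)] ⟨σ.cfg N L₁, k⟩ =
        ⟨{ σ₁.cfg N (L₃ + 1) with halted := true }, k⟩ := by
      rw [iterate_add_apply, orun_base k e₁, iterate_one]
      exact ostep_halt (P := ⟨N + 1, ocode⟩) _ k rfl O₃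
    refine ⟨1 + (1 + T), ?_, by rw [e₂], ?_⟩
    · rw [Nat.succ_mul]
      simp only [Nat.add_mul] at ht ⊢
      omega
    rw [e₂]
    have h1 : 1 < N + 1 := by omega
    simp only [Cfg.output, Cfg.reg, St.cfg, h1, Nat.zero_lt_succ, dif_pos, h0]
    refine List.ext_getElem (by simp) fun j h1 h2 => ?_
    simp only [List.getElem_map, List.getElem_range]
    exact hM j h2
  | @next s s' ws out k₃ k₄ J h₃ hk₃ hws hlen h₄ hk₄ _ ih =>
    rw [Nat.succ_mul] at hw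
    obtain ⟨σ₁, he, i₁, h7, h0, hM, hH, ht⟩ := tr_rout (ρ := ρ) hi h₃ hk₃ (by omega) hws
    obtain ⟨T, hT, e⟩ := he.flat hN₃ L₁ A₂
    have e₁ : (step ⟨N + 1, ocode.map OInstr.toBase⟩ w ρ)^[1 + T] (σ.cfg N L₁) =
        σ₁.cfg N (L₂ + 1) := by
      rw [iterate_add_apply, e, iterate_one, ← hL₂,
        step_jz_nz (by omega) A₃ σ₁ (fun h => by simpa using h7.1 h)]
    have hq : (Finset.univ.filter fun j : Fin n => σ₁.M (σ₁.R 1 + j) ≠ 0) = qset n ws := by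
      refine Finset.filter_congr fun j _ => ?_
      rw [hM j (by rw [hlen]; exact j.2), List.getD_eq_getElem]
    obtain ⟨σ₂, hσ₂⟩ : ∃ σ₂ : St, σ₂ = ⟨update (update σ₁.R 7 (O false (qset n ws))) 8
      (O true (qset n ws)), σ₁.M, σ₁.drawn, σ₁.time⟩ := ⟨_, rfl⟩
    have e₂ : (ostep ⟨N + 1, ocode⟩ n O w ρ)^[1 + (1 + (1 + T))] ⟨σ.cfg N L₁, k⟩ =
        ⟨σ₂.cfg N (L₂ + 3), k + 2⟩ := by
      rw [iterate_add_apply, iterate_add_apply, orun_base k e₁, iterate_one,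
        ostep_query (by omega) (by omega) O₁, ostep_query (by omega) (by omega) O₂, hσ₂]
      simp only [update_of_ne (show (1 : ℕ) ≠ 7 by omega), hq, Nat.mod_eq_of_lt (hO _ _)]
    have hR : ∀ j, j < 7 → σ₂.R j = σ₁.R j := fun j hj => by
      simp only [hσ₂]
      rw [update_of_ne (by omega), update_of_ne (by omega)]
    have hM₂ : σ₂.M = σ₁.M := by rw [hσ₂]
    have ht₂ : σ₂.time = σ₁.time := by rw [hσ₂]
    have i₂ : Inv2 s σ₂ :=
      ⟨(hR 3 (by omega)).trans i₁.one, by rw [hR 2 (by omega)]; exact i₁.pos,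
        ⟨(hR 4 (by omega)).trans i₁.cst.two,
          by rw [hR 2 (by omega), hR 5 (by omega), hM₂]; exact i₁.cst.tru⟩,
        by rw [hR 2 (by omega), hR 6 (by omega), hM₂]; exact i₁.sta⟩
    have r7 : σ₂.R 7 = O false (qset n ws) := by
      simp only [hσ₂]
      rw [update_of_ne (by omega), update_self]
    have r8 : σ₂.R 8 = O true (qset n ws) := by simp only [hσ₂, update_self]
    have r2 := hR 2 (by omega)
    obtain ⟨σ₃, he₃, i₃, hH₃, ht₃⟩ := tr_rupd (ρ := ρ) (w := w) i₂ (by rw [r7, r8]; exact h₄) hk₄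
      (by omega)
    obtain ⟨T₃, hT₃, e₃⟩ := he₃.flat hN₄ (L₂ + 3) A₄
    have e₄ : (step ⟨N + 1, ocode.map OInstr.toBase⟩ w ρ)^[1 + T₃] (σ₂.cfg N (L₂ + 3)) =
        σ₃.cfg N L₁ := by
      rw [iterate_add_apply, e₃, iterate_one, ← hL₃, step_jump A₅]
    obtain ⟨T₅, hT₅, h₅⟩ := ih σ₃ (k + 2) i₃ (by omega)
    refine ⟨T₅ + ((1 + T₃) + (1 + (1 + (1 + T)))), ?_, ?_⟩
    · rw [Nat.succ_mul (J + 1)]
      generalize (J + 1) * ((cK c₃ + cK c₄ + 60) * G) = X at hT₅ ⊢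
      simp only [Nat.add_mul] at ht ht₃ ⊢
      omega
    · rw [iterate_add_apply, iterate_add_apply _ (1 + T₃), e₂, orun_base _ e₄]
      exact h₅

theorem main (c₀ c₁ c₂ c₃ c₄ : Code) : ∃ (P : OProgram) (K : ℕ), ∀ (n : ℕ)
    (O : Bool → Finset (Fin n) → ℕ) (x : List ℕ) (w G m J : ℕ) (ρ : ℕ → ℕ) (v : V) (out : List ℕ),
    Fits w x → sz x ≤ G → m ≤ G → w ≤ G → J ≤ G → (∀ b A, O b A < 2 ^ w) →
    (∃ k, k ≤ G ∧ Ev c₀ (enc (x.map fun a => a.bits.reverse)) (enc x) k) →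
    (∃ k, k ≤ G ∧ Ev c₁ (enc x) (enc (List.replicate m ())) k) →
    (∃ k, k ≤ G ∧ Ev c₂ (enc (x, (lows w ρ 0 m).reverse)) v k) →
    Rounds c₃ c₄ n O w G (.node v (.node (enc (List.replicate w ())) .nil)) out J →
    K * G ^ 2 < 2 ^ w →
    ∃ T, T ≤ K * G ^ 2 ∧ (orun P n O w ρ x T).cfg.halted = true ∧
      (orun P n O w ρ x T).cfg.output = out := by
  obtain ⟨N, hN⟩ : ∃ N, N = max (ini2 c₀ c₁ c₂).mr (max (rout c₃).mr (max (rupd c₄).mr 9)) :=
    ⟨_, rfl⟩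
  obtain ⟨L₁, hL₁⟩ : ∃ L, L = (ini2 c₀ c₁ c₂).len := ⟨_, rfl⟩
  obtain ⟨L₂, hL₂⟩ : ∃ L, L = L₁ + (rout c₃).len := ⟨_, rfl⟩
  obtain ⟨L₃, hL₃⟩ : ∃ L, L = L₂ + 3 + (rupd c₄).len := ⟨_, rfl⟩
  obtain ⟨A, hA⟩ : ∃ A : List (Instr (N + 1)), A = (ini2 c₀ c₁ c₂).flat N 0 ++
    ((rout c₃).flat N L₁ ++ [.jumpIfZero (rg N 7) (L₃ + 1)]) := ⟨_, rfl⟩
  obtain ⟨B, hB⟩ : ∃ B : List (Instr (N + 1)), B = (rupd c₄).flat N (L₂ + 3) ++
    [.jump L₁, .halt] := ⟨_, rfl⟩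
  obtain ⟨ocode, hocode⟩ : ∃ ocode : List (OInstr (N + 1)), ocode = A.map .base ++
    (.query false (rg N 1) (rg N 7) :: .query true (rg N 1) (rg N 8) :: B.map .base) := ⟨_, rfl⟩
  have hcode : ocode.map OInstr.toBase = A ++ (.halt :: .halt :: B) := by
    simp [hocode, OInstr.toBase, Function.comp_def]
  have hlA : A.length = L₂ + 1 := by simp [hA, hL₂, hL₁]; omega
  have A₀ : At (ocode.map OInstr.toBase) 0 (A ++ (.halt :: .halt :: B)) :=
    ⟨[], [], by simp [hcode], rfl⟩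
  have A₀' := A₀.left
  rw [hA] at A₀'
  have A₁ := A₀'.left
  have A₂' := A₀'.right
  rw [Stmt.length_flat, Nat.zero_add, ← hL₁] at A₂'
  have A₂ := A₂'.left
  have A₃ := A₂'.right.head
  rw [Stmt.length_flat, ← hL₂] at A₃
  have A₄' : At _ (0 + A.length + 1 + 1) B := A₀.right.tail.tail
  rw [hlA, Nat.zero_add, hB] at A₄'
  have A₄ : At _ (L₂ + 3) ((rupd c₄).flat N (L₂ + 3)) := A₄'.left
  have A₅' : At _ (L₂ + 3 + ((rupd c₄).flat N (L₂ + 3)).length) [Instr.jump L₁, .halt] :=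
    A₄'.right
  rw [Stmt.length_flat, ← hL₃] at A₅'
  have A₅ := A₅'.head
  have O₀ : At ocode 0 (A.map .base ++
      (.query false (rg N 1) (rg N 7) :: .query true (rg N 1) (rg N 8) :: B.map .base)) :=
    ⟨[], [], by simp [hocode], rfl⟩
  have O₁' := O₀.right
  rw [List.length_map, hlA, Nat.zero_add] at O₁'
  have O₁ := O₁'.head
  have O₂ := O₁'.tail.head
  have O₃ : ocode[L₃ + 1]? = some (.base .halt) := by
    have h1 := O₁'.tail.tail
    rw [hB, List.map_append] at h1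
    have h2 := h1.right
    rw [List.length_map, Stmt.length_flat, List.map_cons, List.map_cons] at h2
    rw [hL₃]
    exact h2.tail.head
  refine ⟨⟨N + 1, ocode⟩, cK c₀ + cK c₁ + cK c₂ + 2 * (cK c₃ + cK c₄) + 200, ?_⟩
  rintro n O x w G m J ρ v out hx hG hm hwG hJ hO ⟨n₀, hn₀, h₀⟩ ⟨n₁, hn₁, h₁⟩ ⟨n₂, hn₂, h₂⟩ hR hw
  have hG1 : 1 ≤ G := (one_le_sz x).trans hG
  have hG2 : G ≤ G ^ 2 := Nat.le_self_pow (by norm_num) G
  have hJ2 : (J + 1) * G ≤ 2 * G ^ 2 := by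
    rw [sq, ← Nat.mul_assoc]; exact Nat.mul_le_mul_right _ (by omega)
  have hw' : 200 * G ^ 2 < 2 ^ w := lt_of_le_of_lt (Nat.mul_le_mul_right _ (by omega)) hw
  obtain ⟨σ, he, hi, hH, ht⟩ := tr_ini2 (ρ := ρ) hx hG hm hwG h₀ hn₀ h₁ hn₁ h₂ hn₂ (by omega)
  obtain ⟨T, hT, e⟩ := he.flat (N := N) (by omega) 0 A₁
  rw [Nat.zero_add, ← hL₁] at e
  obtain ⟨T', hT', h'⟩ := loop (ρ := ρ) (by omega) (by omega) (by omega) hL₂ hL₃ A₂ A₃ O₁ O₂ A₄ A₅
    O₃ hR hO hG1 σ 0 hi (by rw [Nat.mul_left_comm]; omega)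
  refine ⟨T' + T, ?_, ?_⟩
  · have h1 : (st₀ w x).time = 0 := rfl
    have h2 := Nat.mul_le_mul_left (cK c₃ + cK c₄ + 60) hJ2
    have h3 := Nat.mul_le_mul_left (cK c₀ + cK c₁ + cK c₂ + 80) hG2
    rw [Nat.mul_left_comm] at hT'
    rw [Nat.mul_left_comm _ 2] at h2
    generalize (J + 1) * G = X at hT' h2
    generalize G ^ 2 = Y at h2 h3 ⊢
    simp only [Nat.add_mul, Nat.mul_add, Nat.mul_assoc] at ht h2 h3 hT' ⊢
    omega
  · have e' : orun ⟨N + 1, ocode⟩ n O w ρ x (T' + T) =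
        (ostep ⟨N + 1, ocode⟩ n O w ρ)^[T'] ⟨σ.cfg N L₁, 0⟩ := by
      unfold orun
      rw [iterate_add_apply]
      exact congrArg _ (orun_base 0 e)
    rw [e']
    exact h'

end Crest.Agent.R302.MachAux
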