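import Crest.Agent.R302.OPoly
import Crest.Agent.R302.MachAuxRam

/-!
# Row 302: the functions computed in the replay loop
-/

set_option autoImplicit false

namespace Crest.Agent.R302.MachAux

open Crest.OracleRAM Crest.Agent.Lib.PolyTime

/-! ### Replaying a decision tree -/

section tree
variable {β : Type} {O : Qry → ℕ}

/-- Size of the part of the transcript that is not yet in the table. -/
def rem (O : Qry → ℕ) (tab : List (Qry × ℕ)) : OT β → ℕ
  | .ret _ => 0
  | .ask q k => (if tab.lookup q = none then sz q + sz (O q) + 2 else 0) + rem O tab (k (O q))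

/-- The table holds true answers. -/
def Corr (O : Qry → ℕ) (tab : List (Qry × ℕ)) : Prop := ∀ q a, tab.lookup q = some a → a = O q

theorem rem_le (tab : List (Qry × ℕ)) (t : OT β) : rem O tab t ≤ t.load O := by
  induction t with
  | ret b => exact le_rfl
  | ask q k ih =>
    have := ih (O q)
    simp only [rem, OT.load]
    split_ifs <;> omega

theorem lookup_cons_none {tab : List (Qry × ℕ)} {q q' : Qry} {a : ℕ}
    (h : ((q, a) :: tab).lookup q' = none) : tab.lookup q' = none := by
  rw [List.lookup_cons] at h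
  cases hq : q' == q with
  | true => rw [hq] at h; exact absurd h (by simp)
  | false => rw [hq] at h; exact h

theorem rem_mono (tab : List (Qry × ℕ)) (q : Qry) (a : ℕ) (t : OT β) :
    rem O ((q, a) :: tab) t ≤ rem O tab t := by
  induction t with
  | ret b => exact le_rfl
  | ask q' k ih =>
    have := ih (O q')
    simp only [rem]
    by_cases h : ((q, a) :: tab).lookup q' = none
    · rw [if_pos h, if_pos (lookup_cons_none h)]; omega
    · rw [if_neg h]; omega

theorem Corr.cons {tab : List (Qry × ℕ)} (h : Corr O tab) (q : Qry) : Corr O ((q, O q) :: tab) := by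
  intro q' a h'
  rw [List.lookup_cons] at h'
  cases hq : q' == q with
  | true =>
    rw [hq] at h'
    rw [beq_iff_eq.1 hq]
    exact (Option.some.inj h').symm
  | false => rw [hq] at h'; exact h q' a h'

theorem sim_inr {tab : List (Qry × ℕ)} (h : Corr O tab) {t : OT β} {y : β}
    (hs : t.sim tab = .inr y) : y = t.run O := by
  induction t with
  | ret b => exact (Sum.inr.inj hs).symm
  | ask q k ih =>
    simp only [OT.sim] at hs
    cases hq : tab.lookup q with
    | none => rw [hq] at hs; exact absurd hs (by simp)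
    | some a =>
      rw [hq] at hs
      obtain rfl := h q a hq
      exact ih _ hs

theorem sim_inl {tab : List (Qry × ℕ)} (h : Corr O tab) {t : OT β} {q : Qry}
    (hs : t.sim tab = .inl q) :
    rem O ((q, O q) :: tab) t + (sz q + sz (O q) + 2) ≤ rem O tab t := by
  induction t with
  | ret b => exact absurd hs (by simp [OT.sim])
  | ask q' k ih =>
    simp only [OT.sim] at hs
    cases hq : tab.lookup q' with
    | none =>
      rw [hq] at hs
      obtain rfl : q' = q := Sum.inl.inj hs
      have := rem_mono (O := O) tab q' (O q') (k (O q'))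
      simp only [rem, hq, if_true]
      rw [if_neg (by simp)]
      omega
    | some a =>
      rw [hq] at hs
      obtain rfl := h q' a hq
      have := ih _ hs
      simp only [rem]
      rw [if_neg (fun h' => by simp [lookup_cons_none h'] at hq), if_neg (by simp [hq])]
      omega

end tree

/-! ### Decoding numbers, digits, query words -/

/-- A tree read as a list of trees. -/
def toL : V → List V
  | .nil => []
  | .node l r => l :: toL r

theorem enc_toL (v : V) : enc (toL v) = enc v := by
  induction v with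
  | nil => rfl
  | node l r _ ih => simp [toL, ih]

/-- A tree read as a number. -/
def decNat (v : V) : ℕ := ofBits ((toL v).map fun x => decide (x ≠ .nil))

theorem decNat_enc (a : ℕ) : decNat (enc a) = a := by
  have key : ∀ l : List Bool, (toL (enc l)).map (fun x => decide (x ≠ .nil)) = l := by
    intro l
    induction l with
    | nil => rfl
    | cons b l ih => rw [enc_cons, toL, List.map_cons, ih]; cases b <;> simp
  rw [decNat, enc_nat, key, ofBits_bits]

theorem poly_decNat : Poly decNat := by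
  have : Poly toL := Poly.cast enc_toL
  unfold decNat
  fun_prop

/-- Digits in base `2 ^ W`. -/
def dig (W a : ℕ) : List ℕ := (List.range (sz a)).map fun i => a / 2 ^ (W * i) % 2 ^ W

theorem wordsVal_range (W k a : ℕ) :
    wordsVal W ((List.range k).map fun i => a / 2 ^ (W * i) % 2 ^ W) = a % 2 ^ (W * k) := by
  induction k generalizing a with
  | zero => simp [wordsVal, Nat.mod_one]
  | succ k ih =>
    rw [List.range_succ_eq_map, List.map_cons, List.map_map, wordsVal]
    have : ((fun i => a / 2 ^ (W * i) % 2 ^ W) ∘ Nat.succ) =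
        fun i => a / 2 ^ W / 2 ^ (W * i) % 2 ^ W := by
      funext i
      simp only [Function.comp, Nat.succ_eq_add_one]
      rw [Nat.div_div_eq_div_mul, ← pow_add, Nat.mul_succ, Nat.add_comm]
    rw [this, ih, Nat.mul_zero, pow_zero, Nat.div_one, Nat.mul_succ, Nat.add_comm (W * k), pow_add,
      Nat.mod_mul]

theorem wordsVal_dig {W : ℕ} (hW : 1 ≤ W) (a : ℕ) : wordsVal W (dig W a) = a := by
  rw [dig, wordsVal_range]
  refine Nat.mod_eq_of_lt ((lt_two_pow_sz a).trans_le (Nat.pow_le_pow_right (by norm_num) ?_))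
  exact Nat.le_mul_of_pos_left _ hW

/-- The output words of the fraction `a / b`. -/
def outL (W a b : ℕ) : List ℕ := sz a :: (dig W a ++ dig W b)

theorem decodeRat_outL {W : ℕ} (hW : 1 ≤ W) {z : ℚ} (hz : 0 ≤ z) :
    decodeRat W (outL W z.num.natAbs z.den) = some z := by
  have hl : (dig W z.num.natAbs).length = sz z.num.natAbs := by simp [dig]
  simp only [outL, decodeRat]
  rw [List.drop_left' hl, List.take_left' hl, wordsVal_dig hW, wordsVal_dig hW, if_neg z.den_nz]
  congr 1
  have : (z.num.natAbs : ℚ) = z.num := by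
    rw [← Int.cast_natCast, Int.natAbs_of_nonneg (Rat.num_nonneg.2 hz)]
  rw [this, Rat.num_div_den]

theorem outL_lt {W a b : ℕ} (ha : sz a < 2 ^ W) : ∀ c ∈ outL W a b, c < 2 ^ W := by
  intro c hc
  simp only [outL, dig, List.mem_cons, List.mem_append, List.mem_map] at hc
  rcases hc with rfl | ⟨i, -, rfl⟩ | ⟨i, -, rfl⟩
  · exact ha
  · exact Nat.mod_lt _ (by positivity)
  · exact Nat.mod_lt _ (by positivity)

theorem poly_dig : Poly fun p : Un × ℕ => dig p.1.n p.2 := by
  unfold dig
  refine Poly.map_range (f := fun (p : Un × ℕ) i => p.2 / 2 ^ (p.1.n * i) % 2 ^ p.1.n)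
    (by fun_prop) (by fun_prop) (by fun_prop)

theorem poly_outL : Poly fun p : Un × ℕ × ℕ => outL p.1.n p.2.1 p.2.2 := by
  have h1 : Poly fun p : Un × ℕ × ℕ => dig p.1.n p.2.1 :=
    poly_dig.comp (g := fun p : Un × ℕ × ℕ => (p.1, p.2.1)) (by fun_prop)
  have h2 : Poly fun p : Un × ℕ × ℕ => dig p.1.n p.2.2 :=
    poly_dig.comp (g := fun p : Un × ℕ × ℕ => (p.1, p.2.2)) (by fun_prop)
  unfold outL
  fun_prop

/-- The indicator words of a query. -/
def qw (n : ℕ) (l : List Bool) : List ℕ :=
  (List.range n).map fun i => if l.getD i false = true then 1 else 0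

theorem qset_qw (n : ℕ) (l : List Bool) : qset n (qw n l) = setOf n l := by
  refine Finset.filter_congr fun j _ => ?_
  rw [List.getD_eq_getElem _ _ (by simp [qw])]
  simp [qw]

/-- States of the replay loop. -/
abbrev Sta := ((List ℕ × Un) × List Bool) × Un × List (Qry × ℕ)

/-- The words written in a round. -/
def outF (p : V → OT V) (s : Sta) : Bool × List ℕ :=
  Sum.elim (fun q : Qry => (true, qw (min (s.1.1.1.headD 0) s.1.1.2.n) q.2))
    (fun y : V => (false, outL s.2.1.n (decNat y.left.right) (decNat y.right)))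
    ((p (enc s.1)).sim s.2.2)

/-- The update of the table. -/
def updF (p : V → OT V) (s : Sta × List Bool × List Bool) : Sta :=
  (s.1.1, s.1.2.1, Sum.elim
    (fun q : Qry => (q, ofBits (bif q.1 then s.2.2 else s.2.1).reverse) :: s.1.2.2)
    (fun _ : V => s.1.2.2) ((p (enc s.1.1)).sim s.1.2.2))

theorem poly_outF {p : V → OT V} (hp : Poly fun x : V × List (Qry × ℕ) => (p x.1).sim x.2) :
    Poly (outF p) := by
  have hs : Poly fun s : Sta => (p (enc s.1)).sim s.2.2 :=
    hp.comp (g := fun s : Sta => (enc s.1, s.2.2)) (by fun_prop)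
  have hd := poly_decNat
  unfold outF
  refine Poly.sumElim (f := fun (s : Sta) (q : Qry) =>
      (true, qw (min (s.1.1.1.headD 0) s.1.1.2.n) q.2))
    (g := fun (s : Sta) (y : V) =>
      (false, outL s.2.1.n (decNat y.left.right) (decNat y.right))) hs ?_ ?_
  · refine Poly.pair (by fun_prop) ?_
    unfold qw
    refine Poly.map_range (f := fun (x : Sta × Qry) i => if x.2.2.getD i false = true then 1 else 0)
      (by fun_prop) (by fun_prop) (by fun_prop)
  · refine Poly.pair (by fun_prop) ?_
    exact poly_outL.comp (g := fun x : Sta × V =>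
      (x.1.2.1, decNat x.2.left.right, decNat x.2.right)) (by fun_prop)

theorem poly_updF {p : V → OT V} (hp : Poly fun x : V × List (Qry × ℕ) => (p x.1).sim x.2) :
    Poly (updF p) := by
  have hs : Poly fun s : Sta × List Bool × List Bool => (p (enc s.1.1)).sim s.1.2.2 :=
    hp.comp (g := fun s : Sta × List Bool × List Bool => (enc s.1.1, s.1.2.2)) (by fun_prop)
  unfold updF
  refine Poly.pair (by fun_prop) (Poly.pair (by fun_prop) ?_)
  exact Poly.sumElim (f := fun (s : Sta × List Bool × List Bool) (q : Qry) =>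
      (q, ofBits (bif q.1 then s.2.2 else s.2.1).reverse) :: s.1.2.2)
    (g := fun (s : Sta × List Bool × List Bool) (_ : V) => s.1.2.2) hs (by fun_prop) (by fun_prop)

/-- The replay loop on an actual context. -/
theorem rounds {p : V → OT V} {c₃ c₄ : Code} {p₃ p₄ : Polynomial ℕ}
    (h₃ : ∀ s, ∃ k, k ≤ p₃.eval (sz s) ∧ Ev c₃ (enc s) (enc (outF p s)) k)
    (h₄ : ∀ s, ∃ k, k ≤ p₄.eval (sz s) ∧ Ev c₄ (enc s) (enc (updF p s)) k)
    {n w G B L : ℕ} {O : Bool → Finset (Fin n) → ℕ} {v : (List ℕ × Un) × List Bool} {z : ℚ}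
    (hn : min (v.1.1.headD 0) v.1.2.n = n) (hw : 1 ≤ w)
    (hz : (p (enc v)).run (fun q => O q.1 (setOf n q.2)) = enc z) (hz' : sz z < 2 ^ w)
    (hO : ∀ b A, sz (O b A) ≤ B) (hB : sz v + 2 * w + L + 4 ≤ B) (hG₃ : p₃.eval B ≤ G)
    (hG₄ : p₄.eval (3 * B + 2) ≤ G) (J : ℕ) (tab : List (Qry × ℕ))
    (hc : Corr (fun q => O q.1 (setOf n q.2)) tab)
    (hJ : rem (fun q => O q.1 (setOf n q.2)) tab (p (enc v)) ≤ J)
    (hL : sz tab + rem (fun q => O q.1 (setOf n q.2)) tab (p (enc v)) ≤ L + 1) :
    Rounds c₃ c₄ n O w G (enc ((v, ⟨w⟩, tab) : Sta)) (outL w z.num.natAbs z.den) J := by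
  induction J generalizing tab with
  | zero => ?_
  | succ J ih => ?_
  all_goals
    have hsz : sz ((v, ⟨w⟩, tab) : Sta) ≤ B := by
      simp only [sz_pair, sz_un]; omega
    obtain ⟨k, hk, e₃⟩ := h₃ (v, ⟨w⟩, tab)
    replace hk := hk.trans ((eval_mono p₃ hsz).trans hG₃)
    cases hs : (p (enc v)).sim tab with
    | inr y =>
      have hy := sim_inr hc hs
      rw [hz] at hy
      have : outF p (v, ⟨w⟩, tab) = (false, outL w z.num.natAbs z.den) := by
        simp only [outF, hs, Sum.elim_inr, hy]
        rw [show (enc z : V).left.right = enc z.num.natAbs from rfl,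
          show (enc z : V).right = enc z.den from rfl, decNat_enc, decNat_enc]
      rw [this] at e₃
      refine .stop _ e₃ hk (outL_lt (lt_of_le_of_lt ?_ hz'))
      have := sz_natAbs_le z.num
      rw [sz_rat, sz_pair]
      omega
    | inl q => ?_
  · have := sim_inl hc hs
    omega
  · have h1 := sim_inl hc hs
    have : outF p (v, ⟨w⟩, tab) = (true, qw n q.2) := by simp only [outF, hs, Sum.elim_inl, hn]
    rw [this] at e₃
    obtain ⟨k', hk', e₄⟩ := h₄ ((v, ⟨w⟩, tab), (O false (setOf n q.2)).bits.reverse,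
      (O true (setOf n q.2)).bits.reverse)
    have hu : updF p ((v, ⟨w⟩, tab), (O false (setOf n q.2)).bits.reverse,
        (O true (setOf n q.2)).bits.reverse) = (v, ⟨w⟩, (q, O q.1 (setOf n q.2)) :: tab) := by
      obtain ⟨b, l⟩ := q
      cases b <;> simp [updF, hs]
    rw [hu] at e₄
    refine .next e₃ hk (fun a ha => ?_) (by simp [qw]) (by rw [qset_qw]; exact e₄)
      (hk'.trans ((eval_mono p₄ ?_).trans hG₄)) (ih _ (hc.cons q) (by omega) ?_)
    · have h2 : 2 ^ 1 ≤ 2 ^ w := Nat.pow_le_pow_right (by norm_num) hw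
      simp only [qw, List.mem_map] at ha
      obtain ⟨i, -, rfl⟩ := ha
      split_ifs <;> omega
    · have := hO false (setOf n q.2)
      have := hO true (setOf n q.2)
      rw [sz_pair, sz_pair (List.reverse _), sz_reverse, sz_reverse, ← sz_nat, ← sz_nat]
      omega
    · rw [sz_cons, sz_pair]
      omega

/-! ### The unary pad -/

theorem cmp_un : ∃ q : Polynomial ℕ, Cmp (fun k : ℕ => (⟨k⟩ : Un)) fun k => q.eval k := by
  have hs : Poly fun s : ℕ × Un =>
      (if s.1 = 0 then Sum.inl s.2 else Sum.inr (s.1 - 1, ⟨s.2.n + 1⟩) : Un ⊕ ℕ × Un) := by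
    fun_prop
  have hi : Poly fun k : ℕ => (k, (⟨0⟩ : Un)) := by fun_prop
  obtain ⟨p, q, h⟩ := Poly.loop_cmp hi hs
  have key : ∀ B k j : ℕ, 6 * (k + j) + 3 ≤ B → Runs (fun s : ℕ × Un =>
      (if s.1 = 0 then Sum.inl s.2 else Sum.inr (s.1 - 1, ⟨s.2.n + 1⟩) : Un ⊕ ℕ × Un)) B
      (k, ⟨j⟩) ⟨k + j⟩ (k + 1) := by
    intro B k
    induction k with
    | zero =>
      intro j hj
      refine .stop 0 ?_ (by simp)
      have := sz_le_self 0
      rw [sz_pair, sz_un]; simp only; omega
    | succ k ih =>
      intro j hj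
      refine .next (s' := (k, ⟨j + 1⟩)) ?_ (by simp) ?_
      · have := sz_le_self (k + 1)
        rw [sz_pair, sz_un]; simp only; omega
      · rw [show k + 1 + j = k + (j + 1) by omega]
        exact ih (j + 1) (by omega)
  refine ⟨p.comp (4 * Polynomial.X + 1) + (Polynomial.X + 1) * q.comp (6 * Polynomial.X + 3),
    (h (N := fun k => k + 1) (B := fun k => 6 * k + 3) fun k => key _ k 0 (by omega)).mono
      fun k => ?_⟩
  have := eval_mono p (sz_le_self k)
  simpa using this

/-- An exponential beats a polynomial. -/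
theorem exists_c (A D : ℕ) : ∃ c, 1 ≤ c ∧ ∀ l, 1 ≤ l → A * ((c + 9) * 2 ^ l) ^ D < 2 ^ (c * l) := by
  obtain ⟨m, hm⟩ : ∃ m, m = A + 2 * D + 9 := ⟨_, rfl⟩
  have h1 : m + 1 ≤ 2 ^ m := Nat.lt_two_pow_self
  have h2 : (m + 1) * (m + 1) ≤ 2 ^ (2 * m) := by
    rw [two_mul, pow_add]; exact Nat.mul_le_mul h1 h1
  obtain ⟨c, hc⟩ : ∃ c, 2 ^ (2 * m) = c + 9 := ⟨2 ^ (2 * m) - 9, by
    have : 10 * 10 ≤ (m + 1) * (m + 1) := Nat.mul_le_mul (by omega) (by omega)
    omega⟩
  have h3 : A + 2 * m * D + D ≤ c := by nlinarith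
  refine ⟨c, by nlinarith, fun l hl => ?_⟩
  rw [← hc, ← pow_add, ← pow_mul]
  calc A * 2 ^ ((2 * m + l) * D) < 2 ^ A * 2 ^ ((2 * m + l) * D) :=
        Nat.mul_lt_mul_of_pos_right Nat.lt_two_pow_self (by positivity)
    _ = 2 ^ (A + (2 * m + l) * D) := by rw [← pow_add]
    _ ≤ 2 ^ (c * l) := Nat.pow_le_pow_right (by norm_num) (by
        have h4 := Nat.mul_le_mul_right l h3
        have h5 : A + 2 * m * D ≤ (A + 2 * m * D) * l := Nat.le_mul_of_pos_right _ hl
        nlinarith)

end Crest.Agent.R302.MachAux
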