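import Crest.Agent.R302.OPoly
import Crest.Agent.R309.RamProb
import Crest.Agent.Lib.RamC.IO
import Crest.Prelude.Def_OracleRAM
import Crest.Prelude.Def_Polymatroid
import Crest.Agent.R302.MachAuxPure

/-!
# Row 302: oracle polynomial time on the oracle word RAM
-/

set_option autoImplicit false

namespace Crest.Agent.R302

open Crest.Agent.Lib.PolyTime Crest.Polymatroid Crest.OracleRAM

/-- An instance: the input words and the pair of oracles. -/
structure Inst where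
  n : ℕ
  R : ℕ
  ε : ℚ
  δ : ℚ
  O : Bool → Finset (Fin n) → ℕ
  ε0 : 0 < ε
  ε1 : ε < 1
  δ0 : 0 < δ
  δ1 : δ < 1
  O_le : ∀ b A, O b A ≤ R + 1

/-- The input words together with the size parameter in unary. -/
def Inst.inp (I : Inst) : List ℕ × Un := (countInput I.n I.R I.ε I.δ, ⟨sizeParam I.n I.R I.ε I.δ⟩)

/-- The word length. -/
def Inst.w (I : Inst) (c₀ : ℕ) : ℕ :=
  c₀ * Nat.clog 2 (I.n + I.R + I.ε.num.natAbs + I.ε.den + I.δ.num.natAbs + I.δ.den + 2)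

theorem Inst.sz_O (I : Inst) (b : Bool) (A : Finset (Fin I.n)) :
    sz (I.O b A) ≤ 2 * (enc I.inp).size + 4 := by
  have h1 : I.O b A < 2 ^ Nat.clog 2 (I.R + 2) :=
    lt_of_lt_of_le (by have := I.O_le b A; omega) (Nat.le_pow_clog (by norm_num) (I.R + 2))
  have h2 := sz_le_of_lt_two_pow h1
  rw [size_enc, Inst.inp, sz_pair, sz_un]
  simp only [sizeParam]
  omega

instance : Ctx Inst where
  code I := enc I.inp
  orc I q := I.O q.1 (setOf I.n q.2)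
  bnd := ⟨2 * Polynomial.X + 4, fun I q => by simpa using I.sz_O q.1 _⟩

namespace MachAux

/-- The size parameter as a function of the input words. -/
def padF (x : List ℕ) : ℕ :=
  x.getD 0 0 + Nat.clog 2 (x.getD 1 0 + 2) + Nat.clog 2 (x.getD 2 0 + 2) +
    Nat.clog 2 (x.getD 3 0 + 2) + Nat.clog 2 (x.getD 4 0 + 2) + Nat.clog 2 (x.getD 5 0 + 2) +
    ⌈((x.getD 3 0 : ℕ) : ℚ) / ((x.getD 2 0 : ℕ) : ℚ)⌉₊

theorem poly_padF : Poly padF := by unfold padF; fun_prop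

theorem inv_eq {ε : ℚ} (h : 0 < ε) : ε⁻¹ = (ε.den : ℚ) / (ε.num.natAbs : ℚ) := by
  have : (ε.num.natAbs : ℚ) = ε.num := by
    rw [← Int.cast_natCast, Int.natAbs_of_nonneg (Rat.num_nonneg.2 h.le)]
  rw [this, ← inv_div, Rat.num_div_den]

theorem padF_eq (I : Inst) : padF (countInput I.n I.R I.ε I.δ) = sizeParam I.n I.R I.ε I.δ := by
  simp [padF, countInput, sizeParam, inv_eq I.ε0]

theorem facts (I : Inst) {S l : ℕ} (hS : S = sizeParam I.n I.R I.ε I.δ)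
    (hl : l = Nat.clog 2 (I.n + I.R + I.ε.num.natAbs + I.ε.den + I.δ.num.natAbs + I.δ.den + 2)) :
    1 ≤ l ∧ S ≤ 7 * 2 ^ l ∧ l ≤ S + 3 ∧ sz (countInput I.n I.R I.ε I.δ) ≤ 4 * S + 13 ∧
      (∀ a ∈ countInput I.n I.R I.ε I.δ, a < 2 ^ l) ∧ I.R + 1 < 2 ^ l ∧ I.n ≤ S := by
  have hN : I.n + I.R + I.ε.num.natAbs + I.ε.den + I.δ.num.natAbs + I.δ.den + 2 ≤ 2 ^ l :=
    hl ▸ Nat.le_pow_clog (by norm_num) _
  have k1 : ∀ y : ℕ, Nat.clog 2 (y + 2) ≤ y + 2 := fun y =>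
    (Nat.clog_le_iff_le_pow (by norm_num)).2 Nat.lt_two_pow_self.le
  have k2 : ∀ y : ℕ, y + 2 ≤ 2 ^ Nat.clog 2 (y + 2) := fun y => Nat.le_pow_clog (by norm_num) _
  have k3 : ∀ y : ℕ, Nat.clog 2 (y + 2) ≤ S → y + 2 ≤ 2 ^ S := fun y h =>
    (k2 y).trans (Nat.pow_le_pow_right (by norm_num) h)
  have k4 : ∀ y : ℕ, sz y ≤ 4 * Nat.clog 2 (y + 2) + 1 := fun y =>
    sz_le_of_lt_two_pow (by have := k2 y; omega)
  have k5 : ⌈I.ε⁻¹⌉₊ ≤ I.ε.den := by
    rw [Nat.ceil_le, inv_eq I.ε0]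
    refine div_le_self (by positivity) ?_
    have := Rat.num_pos.2 I.ε0
    exact_mod_cast (by omega : 1 ≤ I.ε.num.natAbs)
  unfold sizeParam at hS
  refine ⟨hl ▸ Nat.clog_pos (by norm_num) (by omega), ?_, ?_, ?_, ?_, by omega, by omega⟩
  · have := k1 I.R
    have := k1 I.ε.num.natAbs
    have := k1 I.ε.den
    have := k1 I.δ.num.natAbs
    have := k1 I.δ.den
    omega
  · rw [hl, Nat.clog_le_iff_le_pow (by norm_num), pow_add]
    have := k3 I.R (by omega)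
    have := k3 I.ε.num.natAbs (by omega)
    have := k3 I.ε.den (by omega)
    have := k3 I.δ.num.natAbs (by omega)
    have := k3 I.δ.den (by omega)
    have : I.n < 2 ^ S := Nat.lt_two_pow_self.trans_le (Nat.pow_le_pow_right (by norm_num) (by omega))
    omega
  · have := sz_le_self I.n
    have := k4 I.R
    have := k4 I.ε.num.natAbs
    have := k4 I.ε.den
    have := k4 I.δ.num.natAbs
    have := k4 I.δ.den
    simp only [countInput, sz_cons, sz_nil]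
    omega
  · simp only [countInput, List.mem_cons, List.not_mem_nil, or_false]
    rintro a (rfl | rfl | rfl | rfl | rfl | rfl) <;> omega

theorem oprobAfter_eq (P : OProgram) (n : ℕ) (O : Bool → Finset (Fin n) → ℕ) (w : ℕ) (x : List ℕ)
    (T : ℕ) (E : OCfg P.numRegs → Prop) :
    oprobAfter P n O w x T E = R309.RP.Av (2 ^ w) T fun ρ => R309.ind (E (orun P n O w ρ x T)) := by
  simp only [oprobAfter, Crest.FinProb.uniformProb, R309.RP.Av, R309.ind, Fintype.card_fun,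
    Fintype.card_fin, Set.mem_ofPred_eq]
  rw [Finset.card_filter]
  push_cast
  congr!

theorem exists_bound {g : ℕ → ℕ} (hg : PB fun u : Un => g u.n) :
    ∃ C d : ℕ, ∀ s, g s ≤ C * (2 * s + 1) ^ d := by
  obtain ⟨p, hp⟩ := hg
  obtain ⟨C, d, h⟩ := R309.RamC.eval_le_pow p
  exact ⟨C, d, fun s => (hp ⟨s⟩).trans (by rw [sz_un]; exact h _ (by omega))⟩

end MachAux

/-- A randomised algorithm that is polynomial time relative to the oracle is implemented by an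
oracle word-RAM program. -/
theorem exists_oram (P : Inst → Prop) {m : List ℕ × Un → Un} (hm : Poly m)
    {F : Subtype P × List Bool → ℚ}
    (hF : OPoly fun p : {p : Subtype P × List Bool // p.2.length = (m p.1.1.inp).n} => F p.1)
    (h0 : ∀ p, 0 ≤ F p) :
    ∃ (prog : OProgram) (c₀ C d : ℕ), ∀ I : Subtype P,
      (∀ ρ : ℕ → ℕ, (orun prog I.1.n I.1.O (I.1.w c₀) ρ (countInput I.1.n I.1.R I.1.ε I.1.δ)
        (C * (sizeParam I.1.n I.1.R I.1.ε I.1.δ + 1) ^ d)).cfg.halted = true) ∧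
      (∀ ρ : ℕ → ℕ, ∃ u : List Bool, decodeRat (I.1.w c₀)
        (orun prog I.1.n I.1.O (I.1.w c₀) ρ (countInput I.1.n I.1.R I.1.ε I.1.δ)
          (C * (sizeParam I.1.n I.1.R I.1.ε I.1.δ + 1) ^ d)).cfg.output = some (F (I, u))) ∧
      ∀ E : ℚ → Prop, oprobAfter prog I.1.n I.1.O (I.1.w c₀) (countInput I.1.n I.1.R I.1.ε I.1.δ)
          (C * (sizeParam I.1.n I.1.R I.1.ε I.1.δ + 1) ^ d)
          (fun c => ∃ z : ℚ, decodeRat (I.1.w c₀) c.cfg.output = some z ∧ E z) =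
        R309.Pr (m I.1.inp).n fun u => E (F (I, u)) := by
  obtain ⟨p, hp, hrun, ⟨pL, hL⟩, ⟨pz, hz⟩⟩ := hF
  have hpre : Poly fun y : List (List Bool) => y.map List.reverse := by fun_prop
  have hfst : Poly fun y : List ℕ × List Bool => y.1 := by fun_prop
  have hrev : Poly fun y : List ℕ × List Bool => y.2.reverse := by fun_prop
  obtain ⟨p₀, c₀, hc₀⟩ := hpre.exists_poly
  obtain ⟨pa, hpa⟩ := MachAux.poly_padF.exists_poly
  obtain ⟨q, hq⟩ := MachAux.cmp_un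
  obtain ⟨p₁, hp₁⟩ := hm.exists_poly
  obtain ⟨pf, hpf⟩ := hfst.exists_poly
  obtain ⟨pr, hpr⟩ := hrev.exists_poly
  obtain ⟨p₃, c₃, hc₃⟩ := (MachAux.poly_outF hp).exists_poly
  obtain ⟨p₄, c₄, hc₄⟩ := (MachAux.poly_updF hp).exists_poly
  have hinp := (Cmp.cast (f := fun x : List ℕ => x) fun _ => rfl).pair (hq.comp hpa)
  obtain ⟨c₁, hc₁⟩ := hp₁.comp hinp
  obtain ⟨c₂, hc₂⟩ := (hinp.comp hpf).pair hpr
  obtain ⟨prog, K, hprog⟩ := MachAux.main c₀ c₁ c₂ c₃ c₄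
  obtain ⟨Y, hY⟩ : ∃ Y : ℕ → ℕ, Y = fun a => a + 4 * p₁.eval a + 2 := ⟨_, rfl⟩
  obtain ⟨B, hB⟩ : ∃ B : ℕ → ℕ, B = fun a => Y a + 4 * a + pL.eval (Y a) + 8 := ⟨_, rfl⟩
  obtain ⟨G, hG⟩ : ∃ G : ℕ → ℕ, G = fun a => 2 * a + p₀.eval a + pa.eval a + q.eval a +
    p₁.eval a + pf.eval (Y a) + pr.eval (Y a) + 2 + pL.eval (Y a) + pz.eval (Y a) +
    p₃.eval (B a) + p₄.eval (3 * B a + 2) := ⟨_, rfl⟩
  obtain ⟨C, d, hC⟩ := MachAux.exists_bound (g := fun s => (K + 1) * G (16 * s) ^ 2)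
    (by simp only [hG, hB, hY]; fun_prop)
  obtain ⟨c, hc1, hc⟩ := MachAux.exists_c (C * 2 ^ d) d
  refine ⟨prog, c, C * (6 * c + 3) ^ d, d, fun I => ?_⟩
  obtain ⟨S, hS⟩ : ∃ S, S = sizeParam I.1.n I.1.R I.1.ε I.1.δ := ⟨_, rfl⟩
  obtain ⟨l, hl⟩ : ∃ l, l = Nat.clog 2 (I.1.n + I.1.R + I.1.ε.num.natAbs + I.1.ε.den +
    I.1.δ.num.natAbs + I.1.δ.den + 2) := ⟨_, rfl⟩
  obtain ⟨f1, f2, f3, f4, f5, f6, f7⟩ := MachAux.facts I.1 hS hl
  have hpad := MachAux.padF_eq I.1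
  obtain ⟨x, hx⟩ : ∃ x, x = countInput I.1.n I.1.R I.1.ε I.1.δ := ⟨_, rfl⟩
  have hinp' : I.1.inp = (x, ⟨S⟩) := by rw [hx, hS]; rfl
  have hxl : x.length = 6 := by rw [hx]; rfl
  have hxh : x.headD 0 = I.1.n := by rw [hx]; rfl
  obtain ⟨w, hw⟩ : ∃ w, w = c * l := ⟨_, rfl⟩
  have hw' : I.1.w c = w := by rw [hw, hl]; rfl
  rw [← hS, ← hx] at hpad
  rw [← hx] at f4 f5
  rw [hw', ← hS, ← hx]
  obtain ⟨a, ha⟩ : ∃ a, a = 16 * (S + w + 1) := ⟨_, rfl⟩
  have hlw : l ≤ w := hw ▸ Nat.le_mul_of_pos_left _ hc1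
  have hlw' : 2 ^ l ≤ 2 ^ w := Nat.pow_le_pow_right (by norm_num) hlw
  have hGa := hC (S + w + 1)
  simp only [← ha] at hGa
  have hroom : (K + 1) * G a ^ 2 < 2 ^ w := by
    refine lt_of_le_of_lt (hGa.trans ?_) (hw ▸ hc l f1)
    rw [Nat.mul_assoc, ← mul_pow]
    refine Nat.mul_le_mul_left _ (Nat.pow_le_pow_left ?_ _)
    have h1 : c * l ≤ c * 2 ^ l := Nat.mul_le_mul_left _ Nat.lt_two_pow_self.le
    have h2 : 1 ≤ 2 ^ l := Nat.one_le_two_pow
    rw [Nat.add_mul]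
    omega
  obtain ⟨T, hT⟩ : ∃ T, T = C * (6 * c + 3) ^ d * (S + 1) ^ d := ⟨_, rfl⟩
  have htime : (K + 1) * G a ^ 2 ≤ T := by
    refine hGa.trans ?_
    rw [hT, Nat.mul_assoc, ← mul_pow]
    refine Nat.mul_le_mul_left _ (Nat.pow_le_pow_left ?_ _)
    have h1 : c * l ≤ c * (3 * (S + 1)) := Nat.mul_le_mul_left _ (by omega)
    nlinarith
  rw [← hT]
  have hG2 : G a ≤ G a ^ 2 := Nat.le_self_pow (by norm_num) _
  rw [Nat.add_mul, Nat.one_mul] at hroom htime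
  have hsi : sz (x, (⟨S⟩ : Un)) ≤ a := by rw [sz_pair, sz_un]; simp only; omega
  have hsx : sz x ≤ a := by omega
  have e₀ := eval_mono p₀ hsx
  have ea := eval_mono pa hsx
  have eq := eval_mono q (show S ≤ a by omega)
  have e₁ := eval_mono p₁ hsi
  obtain ⟨m₀, hm₀⟩ : ∃ m₀, m₀ = (m I.1.inp).n := ⟨_, rfl⟩
  have hm₁ : m₀ ≤ p₁.eval a := by
    have h1 := hp₁.sz_le I.1.inp
    rw [sz_un, ← hm₀, hinp'] at h1
    omega
  have hGe : G a = 2 * a + p₀.eval a + pa.eval a + q.eval a +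
    p₁.eval a + pf.eval (Y a) + pr.eval (Y a) + 2 + pL.eval (Y a) + pz.eval (Y a) +
    p₃.eval (B a) + p₄.eval (3 * B a + 2) := by rw [hG]
  have hYe : Y a = a + 4 * p₁.eval a + 2 := by rw [hY]
  have hBe : B a = Y a + 4 * a + pL.eval (Y a) + 8 := by rw [hB]
  have key : ∀ ρ : ℕ → ℕ, (orun prog I.1.n I.1.O w ρ x T).cfg.halted = true ∧
      decodeRat w (orun prog I.1.n I.1.O w ρ x T).cfg.output =
        some (F (I, Lib.RamC.lows w ρ 0 m₀)) := by
    intro ρ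
    obtain ⟨u, hu⟩ : ∃ u, u = Lib.RamC.lows w ρ 0 m₀ := ⟨_, rfl⟩
    have hul : u.length = m₀ := by rw [hu, Lib.RamC.length_lows]
    have hsu : sz u ≤ 4 * p₁.eval a + 1 := by have := sz_listBool_le u; omega
    have hsv : sz ((x, (⟨S⟩ : Un)), u) ≤ Y a := by rw [sz_pair]; omega
    have hsy : sz (x, u.reverse) ≤ Y a := by rw [sz_pair, sz_reverse]; omega
    have hcode : code (⟨(I, u), hul.trans hm₀⟩ :
        {p : Subtype P × List Bool // p.2.length = (m p.1.1.inp).n}) =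
        enc ((x, (⟨S⟩ : Un)), u) := by rw [← hinp']; rfl
    have h1 := hrun ⟨(I, u), hul.trans hm₀⟩
    have h2 := hL ⟨(I, u), hul.trans hm₀⟩
    have h3 := hz ⟨(I, u), hul.trans hm₀⟩
    simp only [hcode, size_enc] at h1 h2 h3
    replace h2 : (p (enc ((x, (⟨S⟩ : Un)), u))).load (fun q => I.1.O q.1 (setOf I.1.n q.2)) ≤
      pL.eval (Y a) := h2.trans (eval_mono pL hsv)
    replace h3 := h3.trans (eval_mono pz hsv)
    have h4 := (MachAux.rem_le (O := fun q => I.1.O q.1 (setOf I.1.n q.2)) [] _).trans h2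
    have hR := MachAux.rounds (n := I.1.n) (w := w) (G := G a) (B := B a) (L := pL.eval (Y a))
      (O := I.1.O) (v := ((x, ⟨S⟩), u)) (z := F (I, u)) hc₃ hc₄ (by simp only [hxh]; omega)
      (by omega) h1 (by omega)
      (fun b A => by have := I.1.sz_O b A; rw [size_enc, hinp'] at this; omega)
      (by omega) (by omega) (by omega) (pL.eval (Y a)) [] (fun q a h => by simp at h) h4
      (by rw [sz_nil]; omega)
    have H₀ : ∃ k, k ≤ G a ∧ Ev c₀ (enc (x.map fun a => a.bits.reverse)) (enc x) k := by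
      obtain ⟨k, hk, h⟩ := hc₀ (x.map fun a => a.bits.reverse)
      simp only [R309.RamC.sz_map_rev] at hk
      refine ⟨k, by omega, ?_⟩
      rw [← R309.RamC.enc_map_bits x]
      simpa [List.map_map, Function.comp_def] using h
    have H₁ : ∃ k, k ≤ G a ∧ Ev c₁ (enc x) (enc (List.replicate m₀ ())) k := by
      obtain ⟨k, hk, h⟩ := hc₁ x
      simp only [hpad] at hk h
      rw [← hinp', enc_un, ← hm₀] at h
      exact ⟨k, by omega, h⟩
    have H₂ : ∃ k, k ≤ G a ∧ Ev c₂ (enc (x, (Lib.RamC.lows w ρ 0 m₀).reverse))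
        (enc ((x, (⟨S⟩ : Un)), u)) k := by
      obtain ⟨k, hk, h⟩ := hc₂ (x, u.reverse)
      simp only [hpad, List.reverse_reverse] at hk h
      have := eval_mono pf hsy
      have := eval_mono pr hsy
      rw [← hu]
      exact ⟨k, by omega, h⟩
    obtain ⟨T', hT', h5, h6⟩ := hprog I.1.n I.1.O x w (G a) m₀ _ ρ (enc ((x, (⟨S⟩ : Un)), u)) _
      ⟨by omega, fun b hb => (f5 b hb).trans_le hlw'⟩ (by omega) (by omega) (by omega) (by omega)
      (fun b A => by have := I.1.O_le b A; omega) H₀ H₁ H₂ hR (by omega)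
    rw [MachAux.orun_of_halted h5 (by omega), h6, ← hu]
    exact ⟨h5, MachAux.decodeRat_outL (by omega) (h0 _)⟩
  refine ⟨fun ρ => (key ρ).1, fun ρ => ⟨_, (key ρ).2⟩, fun E => ?_⟩
  rw [MachAux.oprobAfter_eq, ← hm₀, R309.Pr,
    ← R309.RP.Av_bits (w := w) (by omega) (show m₀ ≤ T by omega)]
  congr 1
  funext ρ
  rw [(key ρ).2]
  congr 1
  simp only [Option.some.injEq, exists_eq_left']
  rfl

end Crest.Agent.R302
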