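import Crest.Agent.R302.Mach

/-!
# Row 302: matroid rank functions from independence oracles
-/

set_option autoImplicit false

namespace Crest.Agent.R302

open Finset Crest.Agent.Lib.PolyTime Crest.Polymatroid

/-- The rank function of a matroid on `Fin n`. -/
noncomputable def mrk {n : ℕ} (M : Matroid (Fin n)) (A : Finset (Fin n)) : ℕ :=
  (M.eRk (A : Set (Fin n))).toNat

theorem coe_mrk {n : ℕ} (M : Matroid (Fin n)) (A : Finset (Fin n)) :
    (mrk M A : ℕ∞) = M.eRk (A : Set (Fin n)) :=
  ENat.natCast_toNat (ne_top_of_le_ne_top (by simp) (M.eRk_le_encard _))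

theorem mrk_poly {n r : ℕ} {M : Matroid (Fin n)} (hE : M.E = Set.univ) (hr : M.eRank = r) :
    IsPolymatroidRank (mrk M) ∧ mrk M univ = r := by
  refine ⟨⟨by simp [mrk], fun A B h => ?_, fun A B => ?_⟩, ?_⟩
  · have := M.eRk_mono (Finset.coe_subset.2 h)
    rw [← coe_mrk, ← coe_mrk] at this
    exact_mod_cast this
  · have := M.eRk_inter_add_eRk_union_le (A : Set (Fin n)) B
    rw [← Finset.coe_inter, ← Finset.coe_union, ← coe_mrk, ← coe_mrk, ← coe_mrk, ← coe_mrk,
      add_comm] at this
    exact_mod_cast this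
  · simp [mrk, hr]

theorem mrk_of_isBasis {n : ℕ} {M : Matroid (Fin n)} {I X : Finset (Fin n)}
    (h : M.IsBasis (I : Set (Fin n)) X) : mrk M X = I.card := by
  have := h.eRk_eq_encard
  rw [← coe_mrk, Set.encard_coe_eq_coe_finsetCard] at this
  exact_mod_cast this

theorem mrk_singleton_le {n : ℕ} (M : Matroid (Fin n)) (j : Fin n) : mrk M {j} ≤ 1 := by
  have := M.eRk_singleton_le j
  rw [← Finset.coe_singleton, ← coe_mrk] at this
  exact_mod_cast this

theorem isBase_iff_mrk {n r : ℕ} {M : Matroid (Fin n)} (hr : M.eRank = r) (B : Finset (Fin n)) :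
    M.IsBase (B : Set (Fin n)) ↔ B.card = r ∧ ∀ A : Finset (Fin n), (A ∩ B).card ≤ mrk M A := by
  constructor
  · intro h
    refine ⟨?_, fun A => ?_⟩
    · have := h.encard_eq_eRank
      rw [hr, Set.encard_coe_eq_coe_finsetCard] at this
      exact_mod_cast this
    · have := (h.indep.subset (Finset.coe_subset.2 (inter_subset_right (s₁ := A)))).encard_le_eRk_of_subset
        (Finset.coe_subset.2 (inter_subset_left (s₂ := B)))
      rw [← coe_mrk, Set.encard_coe_eq_coe_finsetCard] at this
      exact_mod_cast this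
  · rintro ⟨h1, h2⟩
    have h3 := h2 B
    rw [inter_self] at h3
    have h4 : (B : Set (Fin n)).encard ≤ M.eRk (B : Set (Fin n)) := by
      rw [← coe_mrk, Set.encard_coe_eq_coe_finsetCard]
      exact_mod_cast h3
    have hI : M.Indep (B : Set (Fin n)) :=
      (M.isRkFinite_of_finite B.finite_toSet).indep_of_encard_le_eRk h4
    refine hI.isBase_of_eRk_ge B.finite_toSet ?_
    rw [hr, ← h1, ← Set.encard_coe_eq_coe_finsetCard]
    exact h4

theorem sum_eq_card_supp {n : ℕ} {x : Fin n → ℕ} (hx : ∀ j, x j ≤ 1) (A : Finset (Fin n)) :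
    ∑ j ∈ A, x j = (A ∩ univ.filter fun j => x j ≠ 0).card := by
  have : (A ∩ univ.filter fun j => x j ≠ 0) = A.filter fun j => x j ≠ 0 := by
    ext j; simp
  rw [this, card_filter]
  refine sum_congr rfl fun j _ => ?_
  have := hx j
  split_ifs with h <;> omega

theorem numCommon_eq {n r : ℕ} {M₁ M₂ : Matroid (Fin n)} (h₁ : M₁.E = Set.univ)
    (h₂ : M₂.E = Set.univ) (r₁ : M₁.eRank = r) (r₂ : M₂.eRank = r) :
    numCommonIntBases r (mrk M₁) (mrk M₂) = numCommonBases M₁ M₂ := by
  classical
  unfold numCommonIntBases numCommonBases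
  have hle : ∀ x : Fin n → Fin (r + 1), (∀ A : Finset (Fin n),
      (∑ j ∈ A, (x j : ℕ)) ≤ mrk M₁ A ∧ (∑ j ∈ A, (x j : ℕ)) ≤ mrk M₂ A) →
      ∀ j, (x j : ℕ) ≤ 1 := fun x hx j => by
    have := (hx {j}).1.trans (mrk_singleton_le M₁ j)
    simpa using this
  refine card_bij (fun x _ => univ.filter fun j => (x j : ℕ) ≠ 0) (fun x hx => ?_)
    (fun x hx y hy h => ?_) (fun B hB => ?_)
  · simp only [mem_filter, mem_univ, true_and] at hx ⊢
    have h1 := hle x hx.2
    have h2 := hx.1
    rw [sum_eq_card_supp h1, univ_inter] at h2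
    rw [isBase_iff_mrk r₁, isBase_iff_mrk r₂]
    exact ⟨⟨h2, fun A => sum_eq_card_supp h1 A ▸ (hx.2 A).1⟩,
      ⟨h2, fun A => sum_eq_card_supp h1 A ▸ (hx.2 A).2⟩⟩
  · simp only [mem_filter, mem_univ, true_and] at hx hy
    funext j
    have h1 := hle x hx.2 j
    have h2 := hle y hy.2 j
    have h3 : (x j : ℕ) ≠ 0 ↔ (y j : ℕ) ≠ 0 := by
      have := Finset.ext_iff.1 h j
      simpa only [mem_filter, mem_univ, true_and] using this
    apply Fin.ext
    omega
  · simp only [mem_filter, mem_univ, true_and] at hB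
    rw [isBase_iff_mrk r₁, isBase_iff_mrk r₂] at hB
    obtain ⟨⟨hc, hB1⟩, -, hB2⟩ := hB
    let x : Fin n → Fin (r + 1) := fun j => ⟨if j ∈ B then 1 else 0, by
      split_ifs with h
      · have := card_pos.2 ⟨j, h⟩
        omega
      · omega⟩
    have hx : ∀ j, (x j : ℕ) ≤ 1 := fun j => by
      simp only [x]
      split_ifs <;> omega
    have hs : (univ.filter fun j => (x j : ℕ) ≠ 0) = B := by
      ext j
      simp [x]
    refine ⟨x, ?_, hs⟩
    simp only [mem_filter, mem_univ, true_and]
    refine ⟨?_, fun A => ?_⟩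
    · rw [sum_eq_card_supp hx, hs, univ_inter, hc]
    · rw [sum_eq_card_supp hx, hs]
      exact ⟨hB1 A, hB2 A⟩

theorem setOf_nil (n : ℕ) : setOf n [] = ∅ := by
  ext j; simp [setOf]

theorem setOf_take (n : ℕ) (l : List Bool) : setOf n (l.take n) = setOf n l := by
  ext j
  simp [setOf, List.getD_eq_getElem?_getD]

theorem setOf_concat_false (n : ℕ) (l : List Bool) : setOf n (l ++ [false]) = setOf n l := by
  ext j
  simp only [setOf, mem_filter, mem_univ, true_and, List.getD_eq_getElem?_getD]
  rcases lt_trichotomy (j : ℕ) l.length with h | h | h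
  · rw [List.getElem?_append_left h]
  · rw [h]; simp
  · rw [List.getElem?_eq_none (by simp; omega), List.getElem?_eq_none h.le]

theorem setOf_concat_true {n : ℕ} (l : List Bool) (h : l.length < n) :
    setOf n (l ++ [true]) = insert ⟨l.length, h⟩ (setOf n l) := by
  ext j
  simp only [setOf, mem_filter, mem_univ, true_and, List.getD_eq_getElem?_getD, mem_insert,
    Fin.ext_iff]
  rcases lt_trichotomy (j : ℕ) l.length with h | h | h
  · rw [List.getElem?_append_left h]
    simp [h.ne]
  · rw [h]; simp
  · rw [List.getElem?_eq_none (by simp; omega), List.getElem?_eq_none h.le]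
    simp [h.ne']

theorem notMem_setOf {n : ℕ} (l : List Bool) (h : l.length < n) :
    (⟨l.length, h⟩ : Fin n) ∉ setOf n l := by
  simp [setOf]

/-- One step of the greedy algorithm. -/
def gstep (O : List Bool → ℕ) (I : List Bool) (b : Bool) : List Bool :=
  I ++ [b && decide (O (I ++ [true]) = 1)]

theorem length_foldl_gstep (O : List Bool → ℕ) (l : List Bool) :
    (l.foldl (gstep O) []).length = l.length := by
  induction l using List.reverseRecOn with
  | nil => rfl
  | append_singleton l b ih => simp [gstep, ih]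

theorem greedy_spec {n : ℕ} {M : Matroid (Fin n)} (hE : M.E = Set.univ) {O : List Bool → ℕ}
    (hO : ∀ I, O I = 1 ↔ M.Indep (setOf n I : Set (Fin n))) (l : List Bool) (hl : l.length ≤ n) :
    M.IsBasis (setOf n (l.foldl (gstep O) []) : Set (Fin n)) (setOf n l) ∧
      (setOf n (l.foldl (gstep O) [])).card = (l.foldl (gstep O) []).count true := by
  induction l using List.reverseRecOn with
  | nil => simp [setOf_nil]
  | append_singleton l b ih =>
    have hl' : l.length < n := by simp at hl; omega
    obtain ⟨ih1, ih2⟩ := ih hl'.le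
    rw [List.foldl_append, List.foldl_cons, List.foldl_nil]
    have hlen := length_foldl_gstep O l
    set I := l.foldl (gstep O) [] with hI
    have hI' : I.length < n := hlen ▸ hl'
    have hj : (⟨I.length, hI'⟩ : Fin n) = ⟨l.length, hl'⟩ := Fin.ext hlen
    cases b with
    | false =>
      simp only [gstep, Bool.false_and, setOf_concat_false]
      exact ⟨ih1, by simp [ih2]⟩
    | true =>
      by_cases h : O (I ++ [true]) = 1
      · simp only [gstep, h, decide_true, Bool.and_self]
        rw [hO, setOf_concat_true I hI', coe_insert] at h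
        rw [setOf_concat_true I hI', setOf_concat_true l hl', card_insert_of_notMem
          (notMem_setOf I hI'), coe_insert, coe_insert, ← hj]
        exact ⟨ih1.insert_isBasis_insert h, by simp [ih2]⟩
      · simp only [gstep, h, decide_false, Bool.and_false, setOf_concat_false]
        rw [hO, setOf_concat_true I hI', coe_insert] at h
        refine ⟨?_, by simp [ih2]⟩
        rw [setOf_concat_true l hl', coe_insert, ← hj]
        refine ih1.indep.isBasis_of_subset_of_subset_closure
          (ih1.subset.trans (Set.subset_insert _ _)) (Set.insert_subset ?_ ih1.subset_closure)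
        rw [ih1.indep.mem_closure_iff']
        exact ⟨by simp [hE], fun h' => absurd h' h⟩

theorem opoly_inp : OPoly fun I : Inst => I.inp := OPoly.code'.of_enc fun _ => rfl

theorem opoly_n : OPoly (fun I : Inst => I.n) ∧ OPB fun I : Inst => I.n := by
  refine ⟨(OPoly.comp (h := fun p : List ℕ × Un => p.1.headD 0) (by fun_prop) opoly_inp).congr
    fun I => rfl, ?_⟩
  refine (OPB.of_pb (g := fun p : List ℕ × Un => p.2.n) (by fun_prop) opoly_inp).mono fun I => ?_
  simp only [Inst.inp, sizeParam]
  omega

/-- The rank is computed greedily from the independence oracle. -/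
theorem opoly_mrk (P : Inst → Prop) (M : ∀ I : Subtype P, Bool → Matroid (Fin I.1.n))
    (hE : ∀ I s, (M I s).E = Set.univ) (hO : ∀ I, I.1.O = indepOracle (M I false) (M I true)) :
    OPoly fun p : Subtype P × Bool × List Bool => mrk (M p.1 p.2.1) (setOf p.1.1.n p.2.2) := by
  have hn : OPoly fun p : Subtype P × Bool × List Bool => p.1.1.n := (opoly_n.1.restrict P).fst
  have hl : OPoly fun p : Subtype P × Bool × List Bool => p.2.2.take p.1.1.n :=
    OPoly.comp₂ (h := fun (n : ℕ) (q : Bool × List Bool) => q.2.take n) (by fun_prop) hn OPoly.snd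
  have hq : OPoly fun p : (Subtype P × Bool × List Bool) × List Bool × Bool =>
      orc p ((p.1.2.1, p.2.1 ++ [true]) : Qry) :=
    OPoly.query (OPoly.comp₂
      (h := fun (a : Bool × List Bool) (b : List Bool × Bool) => ((a.1, b.1 ++ [true]) : Qry))
      (by fun_prop) OPoly.snd.fst OPoly.snd)
  have hstep : OPoly fun p : (Subtype P × Bool × List Bool) × List Bool × Bool =>
      gstep (fun I => p.1.1.1.O p.1.2.1 (setOf p.1.1.1.n I)) p.2.1 p.2.2 :=
    (OPoly.comp₂ (h := fun (a : ℕ) (b : List Bool × Bool) => b.1 ++ [b.2 && decide (a = 1)])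
      (by fun_prop) hq OPoly.snd).congr fun _ => rfl
  have hf := OPoly.foldl
    (h := fun (p : Subtype P × Bool × List Bool) => gstep fun I => p.1.1.O p.2.1 (setOf p.1.1.n I))
    hl (OPoly.const ([] : List Bool)) hstep
    ((((OPB.const 4).mul hl.sz_le)).add (OPB.const 1)) fun a l' hl' => by
      refine (sz_listBool_le _).trans ?_
      rw [length_foldl_gstep]
      have := hl'.length_le.trans (length_le_sz _)
      omega
  refine (OPoly.comp (h := fun l : List Bool => l.count true) (by fun_prop) hf).congr fun p => ?_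
  have hO' : ∀ I, p.1.1.O p.2.1 (setOf p.1.1.n I) = 1 ↔
      (M p.1 p.2.1).Indep (setOf p.1.1.n I : Set (Fin p.1.1.n)) := by
    intro I
    rw [hO]
    unfold indepOracle
    cases p.2.1 <;> simp
  obtain ⟨h1, h2⟩ := greedy_spec (hE p.1 p.2.1) hO' (p.2.2.take p.1.1.n) (by simp)
  rw [← h2, ← mrk_of_isBasis h1, setOf_take]

end Crest.Agent.R302
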