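import Crest.Agent.R302.Defs

/-!
# Row 302: base polytopes, the sandwich theorem and the distance function
-/

set_option autoImplicit false

namespace Crest.Agent.R302

open Finset

variable {ι : Type} [Fintype ι] [DecidableEq ι]

namespace SandAux

omit [Fintype ι] in
/-- Eliminating the element `s` with value `v`. -/
theorem red {f : Finset ι → ℤ} (hf : Sub f) (s : ι) {v : ℤ} (hv : v ≤ f {s}) :
    Sub fun A => min (f (A.erase s)) (f (insert s A) - v) := by
  refine ⟨by simpa [hf.1] using hv, fun A B => ?_⟩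
  have e1 : A.erase s ∪ B.erase s = (A ∪ B).erase s := by
    ext; simp only [mem_union, mem_inter, mem_erase, mem_insert]; tauto
  have e2 : A.erase s ∩ B.erase s = (A ∩ B).erase s := by
    ext; simp only [mem_union, mem_inter, mem_erase, mem_insert]; tauto
  have e3 : insert s A ∪ B.erase s = insert s (A ∪ B) := by
    ext; simp only [mem_union, mem_inter, mem_erase, mem_insert]; tauto
  have e4 : insert s A ∩ B.erase s = (A ∩ B).erase s := by
    ext; simp only [mem_union, mem_inter, mem_erase, mem_insert]; tauto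
  have e5 : A.erase s ∪ insert s B = insert s (A ∪ B) := by
    ext; simp only [mem_union, mem_inter, mem_erase, mem_insert]; tauto
  have e6 : A.erase s ∩ insert s B = (A ∩ B).erase s := by
    ext; simp only [mem_union, mem_inter, mem_erase, mem_insert]; tauto
  have e7 : insert s A ∪ insert s B = insert s (A ∪ B) := by
    ext; simp only [mem_union, mem_inter, mem_erase, mem_insert]; tauto
  have e8 : insert s A ∩ insert s B = insert s (A ∩ B) := by
    ext; simp only [mem_union, mem_inter, mem_erase, mem_insert]; tauto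
  have h1 := hf.2 (A.erase s) (B.erase s)
  have h2 := hf.2 (insert s A) (B.erase s)
  have h3 := hf.2 (A.erase s) (insert s B)
  have h4 := hf.2 (insert s A) (insert s B)
  rw [e1, e2] at h1
  rw [e3, e4] at h2
  rw [e5, e6] at h3
  rw [e7, e8] at h4
  dsimp only
  omega

/-- Symmetric form of the sandwich theorem, on the subsets of `U`. -/
theorem two (U : Finset ι) : ∀ {f g : Finset ι → ℤ}, Sub f → Sub g → (∀ A, 0 ≤ f A + g A) →
    ∃ x : ι → ℤ, ∀ A ⊆ U, ∑ i ∈ A, x i ≤ f A ∧ -∑ i ∈ A, x i ≤ g A := by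
  induction U using Finset.induction_on with
  | empty =>
    intro f g hf hg _
    refine ⟨0, fun A hA => ?_⟩
    simp [subset_empty.1 hA, hf.1, hg.1]
  | insert s U hs ih =>
    intro f g hf hg h
    obtain ⟨B, -, hB⟩ := exists_min_image univ (fun B => f (insert s B) + g (B.erase s))
      univ_nonempty
    set v := f (insert s B) + g (B.erase s) with hv
    have h1 : ∀ A, v ≤ f (insert s A) + g (A.erase s) := fun A => hB A (mem_univ A)
    have h2 : ∀ A, -v ≤ g (insert s A) + f (A.erase s) := fun A => by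
      have e1 : insert s A ∪ B.erase s = A.erase s ∪ insert s B := by
        ext; simp only [mem_union, mem_inter, mem_erase, mem_insert]; tauto
      have e2 : insert s A ∩ B.erase s = A.erase s ∩ insert s B := by
        ext; simp only [mem_union, mem_inter, mem_erase, mem_insert]; tauto
      have k1 := hg.2 (insert s A) (B.erase s)
      have k2 := hf.2 (A.erase s) (insert s B)
      rw [e1, e2] at k1
      linarith [h (A.erase s ∪ insert s B), h (A.erase s ∩ insert s B)]
    obtain ⟨x, hx⟩ := ih (red hf s (v := v) (by simpa [hg.1] using h1 ∅))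
      (red hg s (v := -v) (by simpa [hf.1] using h2 ∅)) fun A => by
        have := h1 A
        have := h2 A
        have := h (A.erase s)
        have := h (insert s A)
        omega
    refine ⟨Function.update x s v, fun A hA => ?_⟩
    have h3 := hx (A.erase s) (subset_insert_iff.1 hA)
    rw [erase_idem] at h3
    by_cases hsA : s ∈ A
    · rw [insert_erase hsA] at h3
      rw [sum_update_of_mem hsA, sdiff_singleton_eq_erase]
      omega
    · rw [erase_eq_of_notMem hsA] at h3
      rw [sum_update_of_notMem hsA]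
      omega

theorem dual {r : Finset ι → ℤ} (hr : Sub r) : Sub fun A => r Aᶜ - r univ := by
  refine ⟨by simp, fun A B => ?_⟩
  have := hr.2 Aᶜ Bᶜ
  simp only [compl_union, compl_inter]
  linarith

end SandAux

/-- Frank's discrete sandwich theorem. -/
theorem sandwich {f g : Finset ι → ℤ} (hf : Sub f) (hg : Sub fun A => -g A) (h : ∀ A, g A ≤ f A) :
    ∃ x : ι → ℤ, ∀ A, g A ≤ ∑ i ∈ A, x i ∧ ∑ i ∈ A, x i ≤ f A := by
  obtain ⟨x, hx⟩ := SandAux.two univ hf hg (fun A => by linarith [h A])
  exact ⟨x, fun A => ⟨by linarith [(hx A (subset_univ A)).2], (hx A (subset_univ A)).1⟩⟩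

/-- Edmonds' integral intersection theorem. -/
theorem exists_common {r₀ r₁ : Finset ι → ℤ} (h₀ : Sub r₀) (h₁ : Sub r₁)
    (ht : r₀ univ + r₁ univ = 0) (h : ∀ A, 0 ≤ r₀ A + r₁ A) :
    ∃ x : ι → ℤ, InB r₀ x ∧ InB r₁ (-x) := by
  obtain ⟨x, hx⟩ := SandAux.two univ h₀ h₁ h
  have h2 := hx univ subset_rfl
  refine ⟨x, ⟨fun A => (hx A (subset_univ A)).1, by linarith [h2.1, h2.2]⟩, fun A => ?_, ?_⟩
  · simpa using (hx A (subset_univ A)).2
  · simp only [Pi.neg_apply, sum_neg_distrib]
    linarith [h2.1, h2.2]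

theorem le_dp (r : Finset ι → ℤ) (α : ι → ℤ) (A : Finset ι) : ∑ i ∈ A, α i - r A ≤ dp r α := by
  exact le_sup' (fun A : Finset ι => ∑ i ∈ A, α i - r A) (mem_univ A)

theorem exists_dp (r : Finset ι → ℤ) (α : ι → ℤ) : ∃ A, dp r α = ∑ i ∈ A, α i - r A := by
  obtain ⟨A, -, hA⟩ := exists_mem_eq_sup' univ_nonempty (fun A : Finset ι => ∑ i ∈ A, α i - r A)
  exact ⟨A, hA⟩

theorem dp_nonneg {r : Finset ι → ℤ} (hr : Sub r) (α : ι → ℤ) : 0 ≤ dp r α := by
  simpa [hr.1] using le_dp r α ∅

theorem dist_nonneg {r : Finset ι → ℤ} (hr : Sub r) (α : ι → ℤ) : 0 ≤ dist r α := by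
  have h1 := dp_nonneg hr α
  have h2 := le_dp r α univ
  unfold dist
  linarith

theorem dist_eq_zero {r : Finset ι → ℤ} (hr : Sub r) (α : ι → ℤ) : dist r α = 0 ↔ InB r α := by
  have h1 := dp_nonneg hr α
  have h2 := le_dp r α univ
  unfold dist
  constructor
  · intro h
    exact ⟨fun A => by linarith [le_dp r α A], by linarith⟩
  · rintro ⟨h3, h4⟩
    obtain ⟨A, hA⟩ := exists_dp r α
    linarith [h3 A]

theorem dist_lip (r : Finset ι → ℤ) (α v : ι → ℤ) : |dist r (α + v) - dist r α| ≤ ∑ i, |v i| := by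
  have key : ∀ β u : ι → ℤ, dist r (β + u) ≤ dist r β + ∑ i, |u i| := by
    intro β u
    obtain ⟨A, hA⟩ := exists_dp r (β + u)
    have h1 := le_dp r β A
    have h2 := sum_add_sum_compl A u
    have h3 := sum_add_sum_compl A fun i => |u i|
    have h4 : ∑ i ∈ A, u i ≤ ∑ i ∈ A, |u i| := sum_le_sum fun i _ => le_abs_self _
    have h5 : -∑ i ∈ Aᶜ, u i ≤ ∑ i ∈ Aᶜ, |u i| := by
      rw [← sum_neg_distrib]
      exact sum_le_sum fun i _ => neg_le_abs _
    simp only [dist, hA, Pi.add_apply, sum_add_distrib]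
    linarith
  have h1 := key α v
  have h2 := key (α + v) (-v)
  simp only [add_neg_cancel_right, Pi.neg_apply, abs_neg] at h2
  rw [abs_le]
  constructor <;> linarith

/-- A maximal point of the polyhedron below `α`. -/
theorem exists_below {r : Finset ι → ℤ} (hr : Sub r) (α : ι → ℤ) :
    ∃ y : ι → ℤ, (∀ i, y i ≤ α i) ∧ (∀ A, ∑ i ∈ A, y i ≤ r A) ∧ ∑ i, y i = ∑ i, α i - dp r α := by
  let f : Finset ι → ℤ := fun A =>
    A.powerset.inf' (powerset_nonempty A) (fun B => r B - ∑ i ∈ B, α i) + ∑ i ∈ A, α i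
  have hle : ∀ A B, B ⊆ A → f A ≤ r B - ∑ i ∈ B, α i + ∑ i ∈ A, α i := fun A B h =>
    add_le_add_left (inf'_le (fun B => r B - ∑ i ∈ B, α i) (mem_powerset.2 h)) _
  have hex : ∀ A, ∃ B ⊆ A, f A = r B - ∑ i ∈ B, α i + ∑ i ∈ A, α i := fun A => by
    obtain ⟨B, hB, h⟩ := exists_mem_eq_inf' (powerset_nonempty A) (fun B => r B - ∑ i ∈ B, α i)
    exact ⟨B, mem_powerset.1 hB, congrArg (· + ∑ i ∈ A, α i) h⟩
  have hf : Sub f := by
    refine ⟨?_, fun A A' => ?_⟩
    · obtain ⟨B, hB, h⟩ := hex ∅
      rw [h, subset_empty.1 hB, hr.1]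
      simp
    · obtain ⟨B, hB, h⟩ := hex A
      obtain ⟨B', hB', h'⟩ := hex A'
      have h1 := hle _ _ (union_subset_union hB hB')
      have h2 := hle _ _ (inter_subset_inter hB hB')
      have h3 := sum_union_inter (s₁ := A) (s₂ := A') (f := α)
      have h4 := sum_union_inter (s₁ := B) (s₂ := B') (f := α)
      linarith [hr.2 B B']
  obtain ⟨y, hy, -⟩ := exists_common hf (SandAux.dual hf) (by simp [hf.1]) fun A => by
    have := hf.2 A Aᶜ
    rw [union_compl, inter_compl, hf.1] at this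
    linarith
  refine ⟨y, fun i => ?_, fun A => ?_, ?_⟩
  · have h1 := hy.1 {i}
    have h2 := hle {i} ∅ (empty_subset _)
    simp only [sum_singleton, sum_empty, hr.1] at h1 h2
    linarith
  · linarith [hy.1 A, hle A A subset_rfl]
  · obtain ⟨B, -, h⟩ := hex univ
    obtain ⟨A, hA⟩ := exists_dp r α
    linarith [hy.2, le_dp r α B, hle univ A (subset_univ A)]

theorem exists_near {r : Finset ι → ℤ} (hr : Sub r) (α : ι → ℤ) :
    ∃ y, InB r y ∧ ∑ i, |α i - y i| ≤ dist r α := by
  obtain ⟨y', h1, h2, h3⟩ := exists_below hr α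
  obtain ⟨z, k1, k2, k3⟩ := exists_below (SandAux.dual hr) (-y')
  have k4 : dp (fun A => r Aᶜ - r univ) (-y') = r univ - ∑ i, y' i := by
    refine le_antisymm ?_ ?_
    · obtain ⟨A, hA⟩ := exists_dp (fun A => r Aᶜ - r univ) (-y')
      have := sum_add_sum_compl A y'
      rw [hA]
      simp only [Pi.neg_apply, sum_neg_distrib]
      linarith [h2 Aᶜ]
    · have := le_dp (fun A => r Aᶜ - r univ) (-y') univ
      simp only [Pi.neg_apply, sum_neg_distrib, compl_univ, hr.1] at this
      linarith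
  simp only [k4, Pi.neg_apply, sum_neg_distrib] at k1 k3
  refine ⟨-z, ⟨fun A => ?_, ?_⟩, ?_⟩
  · have := k2 Aᶜ
    have h4 := sum_add_sum_compl A z
    simp only [compl_compl] at this
    simp only [Pi.neg_apply, sum_neg_distrib]
    linarith
  · simp only [Pi.neg_apply, sum_neg_distrib]
    linarith
  · refine le_trans (sum_le_sum (g := fun i => (α i - y' i) + (-z i - y' i)) fun i _ => ?_) ?_
    · rw [Pi.neg_apply, abs_le]
      constructor <;> linarith [h1 i, k1 i]
    · simp only [sum_add_distrib, sum_sub_distrib, sum_neg_distrib, dist]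
      linarith

theorem dist_le {r : Finset ι → ℤ} (hr : Sub r) {y : ι → ℤ} (hy : InB r y) (α : ι → ℤ) :
    dist r α ≤ ∑ i, |α i - y i| := by
  have h1 := dist_lip r y (α - y)
  rw [add_sub_cancel, (dist_eq_zero hr y).2 hy, sub_zero] at h1
  exact (le_abs_self _).trans h1

theorem DD_nonneg {r : Bool → Finset ι → ℤ} (hr : ∀ s, Sub (r s)) (z : Bool × ι → ℤ) :
    0 ≤ DD r z := by
  exact add_nonneg (dist_nonneg (hr _) _) (dist_nonneg (hr _) _)

theorem DD_eq_zero {r : Bool → Finset ι → ℤ} (hr : ∀ s, Sub (r s)) (z : Bool × ι → ℤ) :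
    DD r z = 0 ↔ ∀ s, InB (r s) (side z s) := by
  rw [DD, add_eq_zero_iff_of_nonneg (dist_nonneg (hr _) _) (dist_nonneg (hr _) _),
    dist_eq_zero (hr _), dist_eq_zero (hr _), Bool.forall_bool]

theorem DD_lip (r : Bool → Finset ι → ℤ) (z v : Bool × ι → ℤ) :
    |DD r (z + v) - DD r z| ≤ ∑ a, |v a| := by
  have h1 := dist_lip (r false) (side z false) (side v false)
  have h2 := dist_lip (r true) (side z true) (side v true)
  have h3 : ∀ s, side (z + v) s = side z s + side v s := fun s => rfl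
  rw [Fintype.sum_prod_type, Fintype.sum_bool, DD, DD, h3, h3]
  simp only [side] at h1 h2 ⊢
  rw [abs_le] at h1 h2 ⊢
  constructor <;> linarith [h1.1, h1.2, h2.1, h2.2]

theorem Sub.cr {r : Finset ι → ℤ} (hr : Sub r) : Sub (cr r) := by
  refine ⟨by simp [R302.cr, hr.1], fun A B => ?_⟩
  simp only [R302.cr]
  exact_mod_cast hr.2 A B

theorem inB_cr {r : Finset ι → ℤ} {y : ι → ℤ} : InB (cr r) (cv y) ↔ InB r y := by
  simp only [InB, cr, cv]
  norm_cast

theorem side_lf_false (t x : ι → ℤ) : side (lf t x) false = x := by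
  funext i; simp [side, lf]

theorem side_lf_true (t x : ι → ℤ) : side (lf t x) true = t - x := by
  funext i; simp [side, lf]

theorem ps_lf (t x : ι → ℤ) : ps (lf t x) = t := by
  funext i; simp [ps, lf]

theorem lf_ps (z : Bool × ι → ℤ) : lf (ps z) (side z false) = z := by
  funext ⟨s, i⟩; cases s <;> simp [ps, lf, side]

theorem lf_add_true (t x : ι → ℤ) (d : ι) : lf t x + ev (true, d) = lf (t + ev d) x := by
  funext ⟨s, i⟩
  cases s <;> by_cases h : i = d <;> simp [lf, ev, h, Pi.single_apply] <;> ring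

theorem lf_add_false (t x : ι → ℤ) (d : ι) :
    lf t x + ev (false, d) = lf (t + ev d) (x + ev d) := by
  funext ⟨s, i⟩
  cases s <;> by_cases h : i = d <;> simp [lf, ev, h, Pi.single_apply]

end Crest.Agent.R302
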