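import Crest.Agent.R302.Model
import Crest.Agent.R302.Center
import Crest.Agent.R302.Sand
import Crest.Agent.R309.Forest

/-!
# Row 302: the preprocessing
-/

set_option autoImplicit false

namespace Crest.Agent.R302

open Finset Crest.Agent.Lib.PolyTime

/-- The master parameter. -/
def mOf (n Rm κ : ℕ) : ℕ := 10000 * (n + 2) ^ 10 * ((Rm + 2).size + 1) * κ

/-- The lists `par, c, root, P` completed to a `Raw`. -/
def mkRaw (n Rm κ : ℕ) (p : List ℕ × List ℕ × List ℕ × List (List ℤ)) : Raw :=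
  ⟨⟨n⟩, ⟨mOf n Rm κ⟩, ⟨(Rm + 2).size⟩, p.1, p.2.1, p.2.2.1, p.2.2.2⟩

namespace PreAux

/-! ### The forest -/

/-- The specification of the forest on an abstract set of arcs. -/
structure FSpec {n : ℕ} {A : Type} [Fintype A] (tl hd : A → Fin n) (q : A → ℕ)
    (rt : Fin n → Fin n) (P : Fin n → A → ℤ) : Prop where
  dv : ∀ d, ∑ a, P d a • (ev (hd a) - ev (tl a)) = ev (rt d) - ev d
  abs : ∀ d a, |P d a| ≤ 1
  ker : ∀ d a, P d a ≠ 0 → 0 < q a
  rt_rt : ∀ d, rt (rt d) = rt d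
  root : ∀ d, rt d = d → ∀ a, P d a = 0
  big_rt : ∀ a, 0 < q a → rt (tl a) = rt (hd a)
  mono : ∀ a g, 0 < q a → P (hd a) g ≠ P (tl a) g → q a ≤ q g

theorem exists_forest' : ∃ f : List (ℕ × ℕ × ℕ) × Un → List ℕ × List (List ℤ), Poly f ∧
    ∀ (n : ℕ) {A : Type} [Fintype A] (es : List (ℕ × ℕ × ℕ)) (ix : A → ℕ) (tl hd : A → Fin n)
      (q : A → ℕ), 1 ≤ n → (∀ a, ix a < es.length) → Function.Injective ix →
      (∀ k < es.length, ∃ a, ix a = k) →
      (∀ a, es.getD (ix a) (0, 0, 0) = ((tl a : ℕ), (hd a : ℕ), q a)) →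
      ∃ rt : Fin n → Fin n, (∀ d : Fin n, (f (es, ⟨n⟩)).1.getD d 0 = rt d) ∧
        FSpec tl hd q rt fun d a => ((f (es, ⟨n⟩)).2.getD d []).getD (ix a) 0 := by
  obtain ⟨f, hf, sf⟩ := R309.exists_forest
  refine ⟨fun p => ((List.range p.2.n).map fun v => (f (p.1, ⟨p.2.n - 1⟩)).2.1.getD v 0 % p.2.n,
    (f (p.1, ⟨p.2.n - 1⟩)).2.2), by fun_prop, ?_⟩
  intro n A _ es ix tl hd q hn hlt hinj hsurj hes
  obtain ⟨n', rfl⟩ : ∃ n', n = n' + 1 := ⟨n - 1, by omega⟩
  have h := sf (es, ⟨n'⟩)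
  simp only [Nat.add_sub_cancel]
  let j : A → Fin es.length := fun a => ⟨ix a, hlt a⟩
  have hj : Function.Bijective j := ⟨fun a b hab => hinj (congrArg Fin.val hab), fun k => by
    obtain ⟨a, ha⟩ := hsurj k k.2
    exact ⟨a, Fin.ext ha⟩⟩
  have hget : ∀ a, es.get (j a) = ((tl a : ℕ), (hd a : ℕ), q a) := fun a => by
    rw [← hes a, List.getD_eq_getElem _ _ (hlt a)]
    rfl
  have htl : ∀ a, (R309.FIn.G (es, ⟨n'⟩)).tl (j a) = tl a := fun a => by
    simp only [R309.FIn.G, hget, Fin.ofNat_val_eq_self]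
  have hhd : ∀ a, (R309.FIn.G (es, ⟨n'⟩)).hd (j a) = hd a := fun a => by
    simp only [R309.FIn.G, hget, Fin.ofNat_val_eq_self]
  have hq : ∀ a, R309.FIn.q (es, ⟨n'⟩) (j a) = q a := fun a => by
    simp only [R309.FIn.q, hget]
  refine ⟨fun v => Fin.ofNat (n' + 1) ((f (es, ⟨n'⟩)).2.1.getD v 0), fun d => ?_,
    ⟨fun d => ?_, fun d a => h.P_abs d (j a), fun d a ha => ?_, h.rt_rt, fun d hd a => ?_,
      fun a ha => ?_, fun a g ha hg => ?_⟩⟩
  · simp [d.2]
  · refine Eq.trans ?_ (h.dv_P d)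
    unfold R309.Net.dv
    refine Fintype.sum_bijective j hj _ _ fun a => ?_
    rw [R309.Net.bd, htl, hhd]
    rfl
  · rw [← hq]
    exact h.tr_q _ (h.P_tree d (j a) ha)
  · exact congrFun (h.P_root d hd) (j a)
  · have := h.big_rt (j a) (by rwa [hq])
    rwa [htl, hhd] at this
  · have := h.big_mono (j a) (j g) (by rwa [hq]) (by rw [htl, hhd]; exact hg)
    rwa [hq, hq] at this

/-! ### Lists -/

theorem getD_le_foldr_max (l : List ℕ) (p : ℕ) : l.getD p 0 ≤ l.foldr max 0 := by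
  induction l generalizing p with
  | nil => simp
  | cons a l ih =>
    cases p with
    | zero => simp
    | succ p => exact (ih p).trans (le_max_right _ _)

theorem foldr_max_mem (l : List ℕ) (h : l.foldr max 0 ≠ 0) : l.foldr max 0 ∈ l := by
  induction l with
  | nil => simp at h
  | cons a l ih =>
    rw [List.foldr_cons] at h ⊢
    rcases le_total a (l.foldr max 0) with h1 | h1
    · rw [max_eq_right h1] at h ⊢
      exact List.mem_cons_of_mem _ (ih h)
    · rw [max_eq_left h1]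
      exact List.mem_cons_self

theorem getD_ne_of_lt_idxOf {l : List ℕ} {c p : ℕ} (h : p < l.idxOf c) : l.getD p 0 ≠ c := by
  have h1 : p < l.length := h.trans_le List.idxOf_le_length
  have := List.not_of_lt_findIdx (p := (· == c)) (xs := l) h
  rw [List.getD_eq_getElem _ _ h1]
  simpa using this

theorem getD_map_range {β : Type} {n i : ℕ} (h : i < n) (F : ℕ → β) (d : β) :
    ((List.range n).map F).getD i d = F i := by
  simp [h]

/-! ### Indices of sides -/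

theorem idx_lt (R : Raw) (a : R.V) : R.idx a < 2 * R.n := by
  have := a.2.2
  unfold Raw.idx
  split_ifs <;> omega

theorem idx_mod (R : Raw) (a : R.V) : R.idx a % R.n = a.2 := by
  have := a.2.2
  unfold Raw.idx
  split_ifs
  · rw [Nat.add_mod_left, Nat.mod_eq_of_lt this]
  · exact Nat.mod_eq_of_lt this

theorem idx_side (R : Raw) (a : R.V) : decide (R.n ≤ R.idx a) = a.1 := by
  have := a.2.2
  unfold Raw.idx
  cases h : a.1 <;> simp

theorem idx_inj (R : Raw) : Function.Injective R.idx := fun a b h => by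
  refine Prod.ext ?_ (Fin.ext ?_)
  · rw [← idx_side, h, idx_side]
  · rw [← idx_mod, h, idx_mod]

theorem idx_surj (R : Raw) (k : ℕ) (hk : k < 2 * R.n) : ∃ a, R.idx a = k := by
  by_cases h : k < R.n
  · exact ⟨(false, ⟨k, h⟩), rfl⟩
  · exact ⟨(true, ⟨k - R.n, by omega⟩), by simp only [Raw.idx, if_true]; omega⟩

theorem ps_shf {ι : Type} [Fintype ι] [DecidableEq ι] (par : Bool × ι → ι) (ξ : Bool × ι → ℤ) :
    ps (shf (fun a => (a.1, par a)) ξ) = ∑ a, ξ a • (ev a.2 - ev (par a)) := by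
  funext i
  simp only [ps, shf, Finset.sum_apply, ← sum_add_distrib]
  refine sum_congr rfl fun a _ => ?_
  obtain ⟨s, j⟩ := a
  cases s <;> simp [ev, Pi.single_apply]

/-! ### The semantic part -/

theorem valid_of (R : Raw) {r : Bool → Finset R.E → ℤ} {x : Bool → R.E → ℝ} {Rm κ : ℕ}
    (hn : 1 ≤ R.n) (hκ : 1 ≤ κ) (hr : Feas r Rm) (l1 : ∀ s y, InB (r s) y → ∑ i, |y i| ≤ Rm)
    (hx : Centred r x) (T : R.V → List ℕ) (hlen : ∀ a, (T a).length = a.2)
    (hT : ∀ (a : R.V) (p : R.E), p < a.2 → ∀ k : ℕ, 1 ≤ k →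
      (Sym (cr (r a.1)) (x a.1) k a.2 p ↔ k ≤ (T a).getD p 0))
    (hc : ∀ a, R.cf a = (T a).foldr max 0)
    (hp : ∀ a, (R.parf a : ℕ) = (T a).idxOf (R.cf a))
    (hF : FSpec R.parf (fun a => a.2) (fun a => if R.m ^ 9 ≤ R.cf a then R.cf a else 0) R.rt R.Pf)
    (hm : 10000 * (R.n + 2) ^ 10 * (R.L0.n + 1) * κ ≤ R.m) (hR : Rm + 2 ≤ 2 ^ R.L0.n) :
    R.Valid r x Rm κ := by
  have hm1 : 10000 * (R.n + 2) ^ 10 ≤ R.m := by
    refine le_trans ?_ hm
    rw [mul_assoc]
    exact Nat.le_mul_of_pos_right _ (by positivity)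
  have hm0 : 0 < R.m := lt_of_lt_of_le (by positivity) hm1
  have hker : ∀ a, (0 < if R.m ^ 9 ≤ R.cf a then R.cf a else 0) ↔ R.ker a := fun a => by
    unfold Raw.ker
    have : 0 < R.m ^ 9 := by positivity
    split_ifs with h
    · exact ⟨fun _ => h, fun _ => by omega⟩
    · simp [h]
  have harc : ∀ a, R.cf a ≠ 0 → R.parf a < a.2 ∧
      Sym (cr (r a.1)) (x a.1) (R.cf a) a.2 (R.parf a) ∧
      ∀ p, p < R.parf a → ¬ Sym (cr (r a.1)) (x a.1) (R.cf a) a.2 p := fun a ha => by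
    have h1 : R.cf a ∈ T a := by
      rw [hc] at ha ⊢
      exact foldr_max_mem _ ha
    have h2 := List.idxOf_lt_length_of_mem h1
    have h3 : R.parf a < a.2 := by
      rw [Fin.lt_def, hp, ← hlen]
      exact h2
    have h4 : 1 ≤ R.cf a := Nat.one_le_iff_ne_zero.2 ha
    refine ⟨h3, (hT a _ h3 _ h4).2 ?_, fun p hp' hs => ?_⟩
    · rw [hp, List.getD_eq_getElem _ _ h2, List.getElem_idxOf]
    · have h5 := (hT a p (hp'.trans h3) _ h4).1 hs
      have h6 := getD_le_foldr_max (T a) p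
      rw [Fin.lt_def, hp] at hp'
      have h7 := getD_ne_of_lt_idxOf hp'
      rw [← hc] at h6
      omega
  refine ⟨hn, hr.sub, hr.tot, hr.bnd, l1, exists_common (hr.sub _) (hr.sub _) hr.tot hr.feas,
    hx.cen, hx.dfc, fun τ hτ s p q h1 h2 => ?_, harc, fun a p hp' hs => ?_, fun a => ?_,
    fun d => ?_, hF.abs, fun d a h => (hker a).1 (hF.ker d a h), hF.rt_rt,
    fun d hd => funext (hF.root d hd), fun a ha => (hF.big_rt a ((hker a).2 ha)).symm,
    fun a g ha hg => ?_, hκ, hm, hR⟩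
  · have e1 : (10000 * ((R.n : ℝ) + 2) ^ 10) ≤ R.m := by exact_mod_cast hm1
    have e0 : (1 : ℝ) ≤ R.n := by exact_mod_cast hn
    have e2 : (R.n : ℝ) ^ 6 ≤ ((R.n : ℝ) + 2) ^ 10 :=
      (pow_le_pow_left₀ (by positivity) (by linarith) 6).trans
        (pow_le_pow_right₀ (by linarith) (by norm_num))
    have e3 : (R.n : ℝ) ^ 3 ≤ (R.n : ℝ) ^ 6 := pow_le_pow_right₀ e0 (by norm_num)
    have e4 : (1 : ℝ) ≤ (R.n : ℝ) ^ 3 := one_le_pow₀ e0
    refine (hx.cp τ (by linarith) s p q h1 h2).mono ?_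
    exact div_le_div_of_nonneg_left (by linarith) (by linarith) (by linarith)
  · have h5 := (hT a p hp' _ (by omega)).1 hs
    have h6 := getD_le_foldr_max (T a) p
    rw [← hc] at h6
    omega
  · by_cases ha : R.cf a = 0
    · omega
    obtain ⟨h1, h2, -⟩ := harc a ha
    have h3 := h2.1 {a.2} (mem_singleton_self _) (by simpa using h1.ne)
    have hb : ∀ A, |cr (r a.1) A| ≤ (Rm : ℝ) := fun A => by
      simp only [cr]
      exact_mod_cast hr.bnd a.1 A
    have h4 := abs_le.1 (Center.coord_le (hx.cen a.1) hb a.2)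
    have h5 := abs_le.1 (hb {a.2})
    rw [sum_singleton] at h3
    have : (R.cf a : ℝ) ≤ 3 * Rm := by linarith
    exact_mod_cast this
  · rw [← hF.dv d]
    exact ps_shf R.parf (R.Pf d)
  · have h1 := hF.mono a g ((hker a).2 ha) hg
    have h2 : R.m ^ 9 ≤ R.cf a := ha
    rw [if_pos h2] at h1
    split_ifs at h1 <;> omega

/-! ### The construction -/

/-- The symmetric capacity, rounded down. -/
def cp2 (n M Q : ℕ) (f : List Bool → ℤ) (X : List ℤ) (i p : ℕ) : ℕ :=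
  (min (capA n M f X i p) (capA n M f X p i)).toNat / Q

theorem arc_iff {n Q R : ℕ} {r : Finset (Fin n) → ℤ} (hQ : 0 < Q) (hr : Sub r)
    (hR : ∀ A, |r A| ≤ R) (X : List ℤ) (t : ℕ) {p q : Fin n} (hpq : p ≠ q) :
    ((Q * t : ℕ) : ℤ) ≤ capA n (Q * R) (fun l => Q * r (setOf n l)) X p q ↔
      Arc (cr r) (fun i => (X.getD i 0 : ℝ) / Q) t p q := by
  rw [← Center.gm_iff hQ hr hR]
  simp [ent, Center.gm, Fin.val_ne_of_ne hpq]

theorem sym_iff {n Q R : ℕ} {r : Finset (Fin n) → ℤ} (hQ : 0 < Q) (hr : Sub r)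
    (hR : ∀ A, |r A| ≤ R) (X : List ℤ) {t : ℕ} (ht : 1 ≤ t) {p q : Fin n} (hpq : p ≠ q) :
    Sym (cr r) (fun i => (X.getD i 0 : ℝ) / Q) t p q ↔
      t ≤ cp2 n (Q * R) Q (fun l => Q * r (setOf n l)) X p q := by
  unfold Sym cp2
  rw [← arc_iff hQ hr hR X t hpq, ← arc_iff hQ hr hR X t hpq.symm, ← le_min_iff,
    Nat.le_div_iff_mul_le hQ, mul_comm t Q]
  have : 0 < Q * t := by positivity
  omega

/-- The table of capacities. -/
def tab (n Rm : ℕ) (F : Bool → List Bool → ℤ) (C : (List ℤ × List ℤ) × ℕ) : List (List ℕ) :=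
  (List.range (2 * n)).map fun k => (List.range (k % n)).map fun p =>
    cp2 n (C.2 * Rm) C.2 (fun l => C.2 * F (decide (n ≤ k)) l)
      (bif decide (n ≤ k) then C.1.2 else C.1.1) (k % n) p

/-- The capacities of the arcs. -/
def cL (T : List (List ℕ)) : List ℕ := T.map fun l => l.foldr max 0

/-- The parents. -/
def pL (T : List (List ℕ)) : List ℕ := T.map fun l => l.idxOf (l.foldr max 0)

/-- The arcs handed to the forest algorithm. -/
def eL (n m : ℕ) (T : List (List ℕ)) : List (ℕ × ℕ × ℕ) :=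
  T.mapIdx fun k l => (l.idxOf (l.foldr max 0), k % n,
    if m ^ 9 ≤ l.foldr max 0 then l.foldr max 0 else 0)

/-- The output from the table. -/
def out (f : List (ℕ × ℕ × ℕ) × Un → List ℕ × List (List ℤ)) (u : Un) (m : ℕ)
    (T : List (List ℕ)) : List ℕ × List ℕ × List ℕ × List (List ℤ) :=
  (pL T, cL T, f (eL u.n m T, u))

theorem poly_out {f : List (ℕ × ℕ × ℕ) × Un → List ℕ × List (List ℤ)} (hf : Poly f) :
    Poly fun p : Un × ℕ × List (List ℕ) => out f p.1 p.2.1 p.2.2 := by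
  unfold out pL cL eL
  fun_prop

theorem opoly_cp2 {α : Type} [Ctx α] {n M Q i p : α → ℕ} {f : α → List Bool → ℤ}
    {X : α → List ℤ} (hn : OPoly n) (bn : OPB n) (hM : OPoly M) (hQ : OPoly Q)
    (hf : OPoly fun p : α × List Bool => f p.1 p.2) (hX : OPoly X) (hi : OPoly i) (hp : OPoly p) :
    OPoly fun a => cp2 (n a) (M a) (Q a) (f a) (X a) (i a) (p a) := by
  have c1 := opoly_capA hn bn hM hf hX hi hp
  have c2 := opoly_capA hn bn hM hf hX hp hi
  have h : Poly fun x : (ℤ × ℤ) × ℕ => (min x.1.1 x.1.2).toNat / x.2 := by fun_prop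
  exact (OPoly.comp h ((c1.pair c2).pair hQ)).congr fun a => by simp only [cp2]

theorem opoly_tab {α : Type} [Ctx α] {n Rm : α → ℕ} {F : α → Bool → List Bool → ℤ}
    {C : α → (List ℤ × List ℤ) × ℕ} (hn : OPoly n) (bn : OPB n) (h1 : ∀ a, 1 ≤ n a)
    (hR : OPoly Rm) (hF : OPoly fun p : α × Bool × List Bool => F p.1 p.2.1 p.2.2)
    (hC : OPoly C) : OPoly fun a => tab (n a) (Rm a) (F a) (C a) := by
  have hi : OPoly fun p : α × ℕ => p.2 % n p.1 :=
    OPoly.comp₂ (h := fun x y : ℕ => x % y) (by fun_prop) OPoly.snd hn.fst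
  have hs : OPoly fun p : α × ℕ => decide (n p.1 ≤ p.2) :=
    OPoly.comp₂ (h := fun x y : ℕ => decide (x ≤ y)) (by fun_prop) hn.fst OPoly.snd
  have hQ : OPoly fun a => (C a).2 := OPoly.comp (h := Prod.snd) (by fun_prop) hC
  have hM : OPoly fun a => (C a).2 * Rm a := OPoly.comp₂ (h := (· * ·)) (by fun_prop) hQ hR
  have hX : OPoly fun p : α × ℕ => bif decide (n p.1 ≤ p.2) then (C p.1).1.2 else (C p.1).1.1 :=
    OPoly.comp₂ (h := fun (s : Bool) (c : (List ℤ × List ℤ) × ℕ) => bif s then c.1.2 else c.1.1)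
      (by fun_prop) hs hC.fst
  have hf : OPoly fun p : ((α × ℕ) × ℕ) × List Bool =>
      ((C p.1.1.1).2 : ℤ) * F p.1.1.1 (decide (n p.1.1.1 ≤ p.1.1.2)) p.2 :=
    OPoly.comp₂ (h := fun (x : ℕ) (y : ℤ) => (x : ℤ) * y) (by fun_prop) hQ.fst.fst.fst
      (OPoly.call (f := fun a (y : Bool × List Bool) => F a y.1 y.2) hF
        (φ := fun p : ((α × ℕ) × ℕ) × List Bool => p.1.1.1) (fun _ => rfl)
        OPoly.code_fst.fst.fst (hs.fst.fst.pair OPoly.snd))
  have h2 := opoly_cp2 (α := (α × ℕ) × ℕ)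
    (f := fun p l => ((C p.1.1).2 : ℤ) * F p.1.1 (decide (n p.1.1 ≤ p.1.2)) l)
    hn.fst.fst bn.fst.fst hM.fst.fst hQ.fst.fst hf hX.fst hi.fst OPoly.snd
  have h3 := OPoly.map (f := fun (p : α × ℕ) (j : ℕ) => cp2 (n p.1) ((C p.1).2 * Rm p.1) (C p.1).2
      (fun l => ((C p.1).2 : ℤ) * F p.1 (decide (n p.1 ≤ p.2)) l)
      (bif decide (n p.1 ≤ p.2) then (C p.1).1.2 else (C p.1).1.1) (p.2 % n p.1) j)
    (OPoly.range hi (bn.fst.mono fun p => (Nat.mod_lt _ (h1 p.1)).le)) h2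
  have h4 : OPoly fun a => 2 * n a := OPoly.comp (h := fun x : ℕ => 2 * x) (by fun_prop) hn
  exact OPoly.map (f := fun (a : α) (k : ℕ) => (List.range (k % n a)).map fun j =>
      cp2 (n a) ((C a).2 * Rm a) (C a).2 (fun l => ((C a).2 : ℤ) * F a (decide (n a ≤ k)) l)
        (bif decide (n a ≤ k) then (C a).1.2 else (C a).1.1) (k % n a) j)
    (OPoly.range h4 ((OPB.const 2).mul bn)) h3

theorem poly_mOf_aux (c k : ℕ) :
    Poly fun x : ℕ × ℕ × ℕ => c * (x.1 + 2) ^ k * ((x.2.1 + 2).size + 1) * x.2.2 := by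
  fun_prop

theorem opoly_mOf_aux {α : Type} [Ctx α] {n Rm κ : α → ℕ} (hn : OPoly n) (hR : OPoly Rm)
    (hκ : OPoly κ) (c k : ℕ) :
    OPoly fun a => c * (n a + 2) ^ k * ((Rm a + 2).size + 1) * κ a :=
  OPoly.comp (poly_mOf_aux c k) (hn.pair (hR.pair hκ))

theorem opoly_mOf {α : Type} [Ctx α] {n Rm κ : α → ℕ} (hn : OPoly n) (hR : OPoly Rm)
    (hκ : OPoly κ) : OPoly fun a => mOf (n a) (Rm a) (κ a) := by
  unfold mOf
  exact opoly_mOf_aux hn hR hκ 10000 10

end PreAux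

open PreAux in
theorem exists_pre : ∃ pre : ℕ → ℕ → ℕ → (Bool → List Bool → ℤ) →
      List ℕ × List ℕ × List ℕ × List (List ℤ),
    (∀ (n Rm κ : ℕ) (r : Bool → Finset (Fin n) → ℤ), 1 ≤ n → 1 ≤ κ → Feas r Rm →
      (∀ s y, InB (r s) y → ∑ i, |y i| ≤ Rm) →
      ∃ x, (mkRaw n Rm κ (pre n Rm κ fun s l => r s (setOf n l))).Valid r x Rm κ) ∧
    ∀ {α : Type} [Ctx α] {n Rm κ : α → ℕ} {r : ∀ a, Bool → Finset (Fin (n a)) → ℤ},
      OPoly n → OPB n → OPoly Rm → OPoly κ → OPB κ → (∀ a, 1 ≤ n a ∧ Feas (r a) (Rm a)) →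
      (OPoly fun p : α × Bool × List Bool => r p.1 p.2.1 (setOf (n p.1) p.2.2)) →
      OPoly fun a => mkRaw (n a) (Rm a) (κ a)
        (pre (n a) (Rm a) (κ a) fun s l => r a s (setOf (n a) l)) := by
  obtain ⟨cen, hc1, hc2⟩ := exists_center
  obtain ⟨f, hf1, hf2⟩ := exists_forest'
  refine ⟨fun n Rm κ F => out f ⟨n⟩ (mOf n Rm κ) (tab n Rm F (cen n Rm F)), ?_, ?_⟩
  · intro n Rm κ r hn hκ hr l1
    obtain ⟨hQ, hx⟩ := hc1 n Rm r hn hr
    set C := cen n Rm fun s l => r s (setOf n l) with hC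
    set T := tab n Rm (fun s l => r s (setOf n l)) C with hT
    set R := mkRaw n Rm κ (out f ⟨n⟩ (mOf n Rm κ) T) with hR
    have hTl : T.length = 2 * n := by simp [hT, tab]
    have hlt : ∀ a : R.V, R.idx a < T.length := fun a => hTl ▸ idx_lt R a
    have hTa : ∀ a : R.V, T[R.idx a]'(hlt a) = (List.range a.2).map fun p =>
        cp2 n (C.2 * Rm) C.2 (fun l => C.2 * r a.1 (setOf n l))
          (bif a.1 then C.1.2 else C.1.1) a.2 p := fun a => by
      have e1 : R.idx a % n = a.2 := idx_mod R a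
      have e2 : decide (n ≤ R.idx a) = a.1 := idx_side R a
      simp only [hT, tab, List.getElem_map, List.getElem_range, e1, e2]
    have hlen : ∀ a : R.V, (T[R.idx a]'(hlt a)).length = a.2 := fun a => by
      rw [hTa]; simp
    have hc : ∀ a : R.V, R.cf a = (T[R.idx a]'(hlt a)).foldr max 0 := fun a => by
      show (cL T).getD (R.idx a) 0 = _
      simp [cL, hlt a]
    have hp : ∀ a : R.V, (R.parf a : ℕ) = (T[R.idx a]'(hlt a)).idxOf (R.cf a) := fun a => by
      have e : R.par.getD (R.idx a) 0 = (T[R.idx a]'(hlt a)).idxOf (R.cf a) := by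
        show (pL T).getD (R.idx a) 0 = _
        simp [pL, hlt a, hc]
      have h1 : (T[R.idx a]'(hlt a)).idxOf (R.cf a) < R.n :=
        (List.idxOf_le_length.trans (hlen a).le).trans_lt a.2.2
      unfold Raw.parf Raw.el
      rw [e, dif_pos h1]
    obtain ⟨rt, hrt, hF⟩ := hf2 n (eL n (mOf n Rm κ) T) R.idx R.parf (fun a => a.2)
      (fun a => if R.m ^ 9 ≤ R.cf a then R.cf a else 0) hn
      (fun a => by simpa [eL] using hlt a) (idx_inj R)
      (fun k hk => idx_surj R k (show k < 2 * n by simpa [eL, hTl] using hk)) fun a => by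
        have e1 : R.idx a % n = a.2 := idx_mod R a
        rw [List.getD_eq_getElem _ _ (by simpa [eL] using hlt a)]
        simp only [eL, List.getElem_mapIdx, e1, hp, hc]
        rfl
    have hrt' : R.rt = rt := funext fun d => by
      have e : R.root.getD d 0 = rt d := hrt d
      unfold Raw.rt Raw.el
      rw [e]
      exact dif_pos (rt d).2
    refine ⟨frac n C, valid_of R hn hκ hr l1 hx (fun a => T[R.idx a]'(hlt a)) hlen
      (fun a p hp' k hk => ?_) hc hp (hrt' ▸ hF) le_rfl (Nat.lt_size_self _).le⟩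
    rw [hTa, getD_map_range hp']
    exact sym_iff hQ (hr.sub a.1) (hr.bnd a.1) _ hk (Fin.ne_of_gt hp')
  · intro α _ n Rm κ r hn bn hR hκ bκ h hF
    have hC := hc2 hn bn hR h hF
    have hT := opoly_tab (F := fun a s l => r a s (setOf (n a) l)) hn bn (fun a => (h a).1)
      hR hF hC
    have hs : OPoly fun a => (Rm a + 2).size :=
      OPoly.comp (h := fun x : ℕ => (x + 2).size) (by fun_prop) hR
    have bs : OPB fun a => (Rm a + 2).size :=
      OPB.of_pb (g := fun x : ℕ => (x + 2).size) (by fun_prop) hR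
    have hm := opoly_mOf hn hR hκ
    have bm : OPB fun a => mOf (n a) (Rm a) (κ a) :=
      (((OPB.const 10000).mul ((bn.add (OPB.const 2)).pow 10)).mul (bs.add (OPB.const 1))).mul bκ
    have ho := OPoly.comp (poly_out hf1) ((hn.un bn).pair (hm.pair hT))
    exact ((hn.un bn).pair ((hm.un bm).pair ((hs.un bs).pair ho))).of_enc fun _ => rfl

end Crest.Agent.R302
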