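import Crest.Agent.R302.Core
import Crest.Agent.R302.Impl
import Crest.Agent.R302.Pre
import Crest.Agent.R302.Mach
import Crest.Agent.R302.Matroid

/-!
# Row 302: the complete algorithm relative to rank functions that are computable from the oracle
-/

set_option autoImplicit false

namespace Crest.Agent.R302

open Finset Crest.Agent.Lib.PolyTime Crest.Polymatroid Crest.OracleRAM

namespace FinalAux

open Crest.Agent.R309

section comb

variable {n R : ℕ} {rk : Bool → Finset (Fin n) → ℕ}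

/-- The pair of integral set functions: the first rank function and the dual of the second one. -/
def rz (R : ℕ) (rk : Bool → Finset (Fin n) → ℕ) (s : Bool) (A : Finset (Fin n)) : ℤ :=
  if s then (rk true Aᶜ : ℤ) - R else rk false A

theorem rz_false (A : Finset (Fin n)) : rz R rk false A = rk false A := rfl

theorem rz_true (A : Finset (Fin n)) : rz R rk true A = (rk true Aᶜ : ℤ) - R := rfl

theorem sub_cast {r : Finset (Fin n) → ℕ} (h : IsPolymatroidRank r) : Sub fun A => (r A : ℤ) :=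
  ⟨by simp [h.1], fun A B => by beta_reduce; exact_mod_cast h.2.2 A B⟩

theorem rz_sub (h : ∀ s, IsPolymatroidRank (rk s) ∧ rk s univ = R) (s : Bool) :
    Sub (rz R rk s) := by
  cases s
  · exact sub_cast (h false).1
  · have := SandAux.dual (sub_cast (h true).1)
    rw [(h true).2] at this
    exact this

theorem rz_tot (h : ∀ s, IsPolymatroidRank (rk s) ∧ rk s univ = R) :
    rz R rk false univ + rz R rk true univ = 0 := by
  rw [rz_false, rz_true, (h false).2, compl_univ, (h true).1.1]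
  simp

theorem rk_le (h : ∀ s, IsPolymatroidRank (rk s) ∧ rk s univ = R) (s : Bool)
    (A : Finset (Fin n)) : rk s A ≤ R :=
  ((h s).1.2.1 A univ (subset_univ A)).trans_eq (h s).2

theorem rz_bnd (h : ∀ s, IsPolymatroidRank (rk s) ∧ rk s univ = R) (s : Bool)
    (A : Finset (Fin n)) : |rz R rk s A| ≤ R := by
  cases s
  · have := rk_le h false A
    rw [rz_false, abs_le]
    omega
  · have := rk_le h true Aᶜ
    rw [rz_true, abs_le]
    omega

theorem inB_true (h : ∀ s, IsPolymatroidRank (rk s) ∧ rk s univ = R) (x : Fin n → ℤ) :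
    InB (rz R rk true) (-x) ↔ InB (fun A => (rk true A : ℤ)) x := by
  have h0 : rz R rk true univ = -(R : ℤ) := by
    rw [rz_true, compl_univ, (h true).1.1]
    simp
  simp only [InB, h0, (h true).2, Pi.neg_apply, sum_neg_distrib, neg_inj, rz_true]
  refine and_congr_left fun hx => ⟨fun H A => ?_, fun H A => ?_⟩
  · have h1 := H Aᶜ
    have h2 := sum_add_sum_compl A x
    rw [compl_compl] at h1
    linarith
  · have h1 := H Aᶜ
    have h2 := sum_add_sum_compl A x
    linarith

theorem inB_nonneg (h : ∀ s, IsPolymatroidRank (rk s) ∧ rk s univ = R) {s : Bool} {x : Fin n → ℤ}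
    (hx : InB (fun A => (rk s A : ℤ)) x) (i : Fin n) : 0 ≤ x i := by
  have h1 := hx.1 {i}ᶜ
  have h2 := hx.2
  have h3 := sum_add_sum_compl {i} x
  have h4 := rk_le h s {i}ᶜ
  rw [sum_singleton] at h3
  simp only [(h s).2] at h1 h2
  omega

theorem inB_le (h : ∀ s, IsPolymatroidRank (rk s) ∧ rk s univ = R) {s : Bool} {x : Fin n → ℤ}
    (hx : InB (fun A => (rk s A : ℤ)) x) (i : Fin n) : x i ≤ R := by
  have h1 := hx.1 {i}
  have h4 := rk_le h s {i}
  rw [sum_singleton] at h1
  beta_reduce at h1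
  omega

theorem inB_cast (h : ∀ s, IsPolymatroidRank (rk s) ∧ rk s univ = R) {s : Bool} {x : Fin n → ℤ} :
    InB (fun A => (rk s A : ℤ)) x ↔ (∀ A, ∑ i ∈ A, x i ≤ rk s A) ∧ ∑ i, x i = R := by
  simp only [InB, (h s).2]

theorem rz_l1 (h : ∀ s, IsPolymatroidRank (rk s) ∧ rk s univ = R) (s : Bool) (y : Fin n → ℤ)
    (hy : InB (rz R rk s) y) : ∑ i, |y i| ≤ R := by
  cases s
  · have h1 : InB (fun A => (rk false A : ℤ)) y := hy
    rw [sum_congr rfl fun i _ => abs_of_nonneg (inB_nonneg h h1 i), ((inB_cast h).1 h1).2]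
  · have h1 : InB (fun A => (rk true A : ℤ)) (-y) := (inB_true h _).1 (by rwa [neg_neg])
    have h2 : ∀ i, |y i| = (-y) i := fun i => by
      rw [← abs_neg]
      exact abs_of_nonneg (inB_nonneg h h1 i)
    rw [sum_congr rfl fun i _ => h2 i, ((inB_cast h).1 h1).2]

open Classical in
theorem card_eq (h : ∀ s, IsPolymatroidRank (rk s) ∧ rk s univ = R) {lo hi : ℤ} (hlo : lo ≤ 0)
    (hhi : (R : ℤ) ≤ hi) :
    ((box (Fin n) lo hi).filter fun x => InB (rz R rk false) x ∧ InB (rz R rk true) (-x)).card =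
      numCommonIntBases R (rk false) (rk true) := by
  unfold numCommonIntBases
  symm
  refine card_bij (fun x _ => fun j => ((x j : ℕ) : ℤ)) (fun x hx => ?_) (fun x _ y _ e => ?_)
    fun y hy => ?_
  · simp only [mem_filter, mem_univ, true_and] at hx
    have hB : ∀ s, InB (fun A => (rk s A : ℤ)) fun j => ((x j : ℕ) : ℤ) := fun s =>
      (inB_cast h).2 ⟨fun A => by
        cases s
        exacts [by exact_mod_cast (hx.2 A).1, by exact_mod_cast (hx.2 A).2],
        by exact_mod_cast hx.1⟩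
    refine mem_filter.2 ⟨Fintype.mem_piFinset.2 fun j => mem_Icc.2 ⟨?_, ?_⟩, hB false,
      (inB_true h _).2 (hB true)⟩
    · exact hlo.trans (Int.natCast_nonneg _)
    · exact (inB_le h (hB false) j).trans hhi
  · funext j
    exact Fin.ext (by exact_mod_cast congrFun e j)
  · obtain ⟨-, h1, h2⟩ := mem_filter.1 hy
    have h3 : InB (fun A => (rk false A : ℤ)) y := h1
    have h4 := (inB_true h _).1 h2
    have h5 : ∀ j, (((y j).toNat : ℕ) : ℤ) = y j := fun j =>
      Int.toNat_of_nonneg (inB_nonneg h h3 j)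
    refine ⟨fun j => ⟨(y j).toNat, by have := inB_le h h3 j; omega⟩,
      mem_filter.2 ⟨mem_univ _, ?_, fun A => ⟨?_, ?_⟩⟩, funext h5⟩
    · zify
      simpa only [h5] using ((inB_cast h).1 h3).2
    · zify
      simpa only [h5] using h3.1 A
    · zify
      simpa only [h5] using h4.1 A

theorem count_infeas (h : ∀ s, IsPolymatroidRank (rk s) ∧ rk s univ = R) {A : Finset (Fin n)}
    (hA : rz R rk false A + rz R rk true A < 0) :
    numCommonIntBases R (rk false) (rk true) = 0 := by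
  classical
  rw [← card_eq h le_rfl le_rfl, card_eq_zero, filter_eq_empty_iff]
  rintro x - ⟨h1, h2⟩
  have h3 := h1.1 A
  have h4 := h2.1 A
  simp only [Pi.neg_apply, sum_neg_distrib] at h4
  linarith

theorem count_feas (h : ∀ s, IsPolymatroidRank (rk s) ∧ rk s univ = R)
    (hA : ∀ A, 0 ≤ rz R rk false A + rz R rk true A) :
    numCommonIntBases R (rk false) (rk true) ≠ 0 := by
  classical
  obtain ⟨x, h1, h2⟩ := exists_common (rz_sub h false) (rz_sub h true) (rz_tot h) hA
  rw [← card_eq h le_rfl le_rfl]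
  exact card_ne_zero.2 ⟨x, mem_filter.2 ⟨Fintype.mem_piFinset.2 fun j =>
    mem_Icc.2 ⟨inB_nonneg h (s := false) h1 j, inB_le h (s := false) h1 j⟩, h1, h2⟩⟩

theorem count_zero (h : ∀ s, IsPolymatroidRank (rk s) ∧ rk s univ = R) (hn : n = 0) :
    numCommonIntBases R (rk false) (rk true) = 1 := by
  subst hn
  have hR : R = 0 := by rw [← (h false).2, univ_eq_empty, (h false).1.1]
  unfold numCommonIntBases
  rw [filter_true_of_mem fun x _ => ⟨by simp [hR], fun A => by
    simp [Subsingleton.elim A ∅]⟩]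
  simp

/-- The feasibility test. -/
def tst (R : ℕ) (rk : Bool → Finset (Fin n) → ℕ) : ℤ :=
  sfm n (2 * R) fun l => rz R rk false (setOf n l) + rz R rk true (setOf n l)

theorem tst_spec (h : ∀ s, IsPolymatroidRank (rk s) ∧ rk s univ = R) :
    0 ≤ tst R rk ↔ ∀ A, 0 ≤ rz R rk false A + rz R rk true A := by
  have h1 := rz_sub h false
  have h2 := rz_sub h true
  obtain ⟨⟨A, hA⟩, hB⟩ := sfm_spec (n := n) (M := 2 * R)
    (f := fun A => rz R rk false A + rz R rk true A)
    ⟨by simp only [h1.1, h2.1, add_zero], fun A B => by linarith [h1.2 A B, h2.2 A B]⟩ fun A => by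
      have h3 := rz_bnd h false A
      have h4 := rz_bnd h true A
      push_cast
      linarith [abs_add_le (rz R rk false A) (rz R rk true A)]
  exact ⟨fun h0 B => h0.trans (hB B), fun h0 => (h0 A).trans_eq hA.symm⟩

theorem setOf_not (n : ℕ) (l : List Bool) :
    setOf n ((List.range n).map fun i => !l.getD i false) = (setOf n l)ᶜ := by
  ext j
  simp [setOf]

end comb

theorem n_le (I : Inst) : I.n ≤ I.inp.2.n := by
  simp only [Inst.inp, sizeParam]
  omega

/-- Length of the tape of one run. -/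
theorem exists_blen : ∃ blen : List ℕ × Un → ℕ, Poly blen ∧ PB blen ∧
    ∀ I : Inst, Btot I.n (mOf I.n I.R I.inp.2.n) ≤ blen I.inp := by
  have h0 : Poly (fun x : List ℕ × Un => min (x.1.headD 0) x.2.n) ∧
      PB fun x : List ℕ × Un => min (x.1.headD 0) x.2.n :=
    ⟨by fun_prop, PB.min_right _ (by fun_prop)⟩
  obtain ⟨h1, h2⟩ := h0
  have hR : Poly fun x : List ℕ × Un => x.1.getD 1 0 + 2 := by fun_prop
  have h3 : Poly fun x : List ℕ × Un => mOf (min (x.1.headD 0) x.2.n) (x.1.getD 1 0) x.2.n :=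
    (((Lib.PolyTime.Poly.const 10000).mul ((h1.add (Lib.PolyTime.Poly.const 2)).pow (Lib.PolyTime.Poly.const 10) (PB.const 10))).mul
      (hR.size.add (Lib.PolyTime.Poly.const 1))).mul Poly.id'.snd.unVal
  have h4 : PB fun x : List ℕ × Un => mOf (min (x.1.headD 0) x.2.n) (x.1.getD 1 0) x.2.n :=
    (((PB.const 10000).mul ((h2.add (PB.const 2)).pow 10)).mul
      ((PB.size hR).add (PB.const 1))).mul (PB.unVal Poly.id'.snd)
  have h := (h1.unMk h2).pair (h3.unMk h4)
  refine ⟨_, poly_Btot.1.comp h, poly_Btot.2.comp h, fun I => ?_⟩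
  have h5 : min (I.inp.1.headD 0) I.inp.2.n = I.n := min_eq_left (n_le I)
  have h6 : I.inp.1.getD 1 0 = I.R := rfl
  simp only [h5, h6, le_refl]

theorem ceil_le (I : Inst) : ⌈I.ε⁻¹⌉₊ ≤ I.inp.2.n := by
  simp only [Inst.inp, sizeParam]
  omega

theorem one_le_S (I : Inst) : 1 ≤ I.inp.2.n :=
  (Nat.one_le_ceil_iff.2 (inv_pos.2 I.ε0)).trans (ceil_le I)

theorem one_le_mul_S (I : Inst) : (1 : ℝ) ≤ I.ε * (I.inp.2.n : ℕ) := by
  have h : (1 : ℚ) ≤ I.ε * (I.inp.2.n : ℕ) := by
    rw [← mul_inv_cancel₀ I.ε0.ne']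
    exact mul_le_mul_of_nonneg_left ((Nat.le_ceil _).trans (by exact_mod_cast ceil_le I)) I.ε0.le
  exact_mod_cast h

theorem half_pow_le (I : Inst) : (1 / 2 : ℝ) ^ I.inp.2.n ≤ I.δ := by
  have h0 : Nat.clog 2 (I.δ.den + 2) ≤ I.inp.2.n := by
    simp only [Inst.inp, sizeParam]
    omega
  have h1 : I.δ.den ≤ 2 ^ I.inp.2.n :=
    (Nat.le_add_right _ 2).trans ((Nat.le_pow_clog one_lt_two _).trans
      (Nat.pow_le_pow_right two_pos h0))
  have h1' : (I.δ.den : ℝ) ≤ 2 ^ I.inp.2.n := by exact_mod_cast h1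
  have h2 : (1 : ℝ) ≤ I.δ.num := by exact_mod_cast Rat.num_pos.2 I.δ0
  have h3 : (0 : ℝ) < I.δ.den := by exact_mod_cast I.δ.den_pos
  rw [Rat.cast_def, one_div, inv_pow, inv_eq_one_div]
  exact div_le_div₀ (by linarith) h2 h3 h1'

theorem opoly_R : OPoly fun I : Inst => I.R :=
  (OPoly.comp (h := fun p : List ℕ × Un => p.1.getD 1 0) (by fun_prop) opoly_inp).congr
    fun _ => rfl

theorem opoly_S : OPoly (fun I : Inst => I.inp.2.n) ∧ OPB fun I : Inst => I.inp.2.n :=
  ⟨OPoly.comp (h := fun p : List ℕ × Un => p.2.n) (by fun_prop) opoly_inp,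
    OPB.of_pb (g := fun p : List ℕ × Un => p.2.n) (by fun_prop) opoly_inp⟩

theorem opoly_rz {α : Type} [Ctx α] {n R : α → ℕ} {rk : ∀ a, Bool → Finset (Fin (n a)) → ℕ}
    (hn : OPoly n) (bn : OPB n) (hR : OPoly R)
    (hp : OPoly fun p : α × Bool × List Bool => rk p.1 p.2.1 (setOf (n p.1) p.2.2)) :
    OPoly fun p : α × Bool × List Bool => rz (R p.1) (rk p.1) p.2.1 (setOf (n p.1) p.2.2) := by
  have h1 : OPoly fun p : α × Bool × List Bool => ((p.2.1, if p.2.1 then
      (List.range (n p.1)).map fun i => !p.2.2.getD i false else p.2.2) : Bool × List Bool) :=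
    OPoly.comp₂ (h := fun (u : Un) (q : Bool × List Bool) => ((q.1, if q.1 then
      (List.range u.n).map fun i => !q.2.getD i false else q.2) : Bool × List Bool))
      (by fun_prop) (OPoly.un hn bn).fst OPoly.snd
  have h2 := OPoly.call (f := fun a (q : Bool × List Bool) => rk a q.1 (setOf (n a) q.2)) hp
    (φ := fun p : α × Bool × List Bool => p.1) (fun _ => rfl) OPoly.code_fst h1
  refine (OPoly.comp (h := fun x : ℕ × ℕ × Bool × List Bool =>
    if x.2.2.1 then (x.1 : ℤ) - x.2.1 else x.1) (by fun_prop)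
    (h2.pair (hR.fst.pair OPoly.snd))).congr ?_
  rintro ⟨a, s, l⟩
  cases s
  · rfl
  · simp only [if_true, setOf_not, rz_true]

theorem opoly_tst {α : Type} [Ctx α] {n R : α → ℕ} {rk : ∀ a, Bool → Finset (Fin (n a)) → ℕ}
    (hn : OPoly n) (bn : OPB n) (hR : OPoly R)
    (hp : OPoly fun p : α × Bool × List Bool => rk p.1 p.2.1 (setOf (n p.1) p.2.2)) :
    OPoly fun a => tst (R a) (rk a) := by
  have h1 := opoly_rz hn bn hR hp
  have h2 := Center.opoly_side (F := fun a s l => rz (R a) (rk a) s (setOf (n a) l)) h1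
  exact opoly_sfm hn bn (OPoly.comp (h := fun x : ℕ => 2 * x) (by fun_prop) hR)
    (OPoly.comp₂ (h := fun x y : ℤ => x + y) (by fun_prop) (h2 false) (h2 true))

/-- The median of independent runs is accurate. -/
theorem med_good (I : Inst) {g : List Bool → ℚ} {B N : ℕ}
    (h : 31 / 32 ≤ Pr B fun u => |(g u : ℝ) - N| ≤ N / (I.inp.2.n : ℕ)) :
    1 - (I.δ : ℝ) ≤ Pr (I.inp.2.n * B) fun u =>
      (1 - I.ε) * N ≤ medQ (draws g B I.inp.2.n u) ∧
        medQ (draws g B I.inp.2.n u) ≤ (1 + I.ε) * N := by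
  have hb := Pr_half_bad g (fun x => !(decide ((1 - I.ε) * N ≤ x) && decide (x ≤ (1 + I.ε) * N)))
    (le_refl (I.inp.2.n * B)) (by
      refine (Pr_mono (q := fun u => ¬ |(g u : ℝ) - N| ≤ N / (I.inp.2.n : ℕ))
        fun u _ hu hc => ?_).trans (by rw [Pr_not]; linarith)
      have a2 : (N : ℝ) / (I.inp.2.n : ℕ) ≤ I.ε * N := by
        rw [div_le_iff₀ (by exact_mod_cast one_le_S I), mul_right_comm]
        exact le_mul_of_one_le_left (Nat.cast_nonneg _) (one_le_mul_S I)
      obtain ⟨a5, a6⟩ := abs_le.1 (hc.trans a2)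
      have a7 : (1 - I.ε) * N ≤ g u := by
        rw [← Rat.cast_le (K := ℝ)]; push_cast; linarith
      have a8 : g u ≤ (1 + I.ε) * N := by
        rw [← Rat.cast_le (K := ℝ)]; push_cast; linarith
      simp [a7, a8] at hu)
  refine le_trans ((sub_le_sub_left (hb.trans (half_pow_le I)) 1).trans_eq (Pr_not _ _).symm)
    (Pr_mono fun u _ hu => medQ_between ?_)
  rw [length_draws]
  exact not_le.1 hu

theorem Pr_of_forall (I : Inst) {N : ℕ} {p : List Bool → Prop} (h : ∀ u, p u) :
    1 - (I.δ : ℝ) ≤ Pr N p := by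
  have h1 : Pr N p = 1 := by
    unfold Pr
    simp only [ind_true (h _), Ex_const]
  have h2 : (0 : ℝ) < I.δ := by exact_mod_cast I.δ0
  linarith

end FinalAux

open FinalAux Crest.Agent.R309 in
/-- `rk I` is a pair of polymatroid rank functions of total rank `I.R` computable from the oracle
of `I`; then their common integer bases are counted by an oracle program. -/
theorem exists_counter (P : Inst → Prop) (rk : ∀ I : Subtype P, Bool → Finset (Fin I.1.n) → ℕ)
    (hrk : ∀ I s, IsPolymatroidRank (rk I s) ∧ rk I s univ = I.1.R)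
    (hp : OPoly fun p : Subtype P × Bool × List Bool => rk p.1 p.2.1 (setOf p.1.1.n p.2.2)) :
    ∃ (prog : OProgram) (c₀ C d : ℕ), ∀ I : Subtype P,
      (∀ ρ : ℕ → ℕ, (orun prog I.1.n I.1.O (I.1.w c₀) ρ (countInput I.1.n I.1.R I.1.ε I.1.δ)
        (C * (sizeParam I.1.n I.1.R I.1.ε I.1.δ + 1) ^ d)).cfg.halted = true) ∧
      (∀ ρ : ℕ → ℕ, ∃ z : ℚ, 0 ≤ z ∧ decodeRat (I.1.w c₀)
        (orun prog I.1.n I.1.O (I.1.w c₀) ρ (countInput I.1.n I.1.R I.1.ε I.1.δ)
          (C * (sizeParam I.1.n I.1.R I.1.ε I.1.δ + 1) ^ d)).cfg.output = some z) ∧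
      (numCommonIntBases I.1.R (rk I false) (rk I true) = 0 → ∀ ρ : ℕ → ℕ, decodeRat (I.1.w c₀)
        (orun prog I.1.n I.1.O (I.1.w c₀) ρ (countInput I.1.n I.1.R I.1.ε I.1.δ)
          (C * (sizeParam I.1.n I.1.R I.1.ε I.1.δ + 1) ^ d)).cfg.output = some 0) ∧
      1 - (I.1.δ : ℝ) ≤ oprobAfter prog I.1.n I.1.O (I.1.w c₀)
        (countInput I.1.n I.1.R I.1.ε I.1.δ) (C * (sizeParam I.1.n I.1.R I.1.ε I.1.δ + 1) ^ d)
        (fun c => ∃ z : ℚ, decodeRat (I.1.w c₀) c.cfg.output = some z ∧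
          (1 - I.1.ε) * numCommonIntBases I.1.R (rk I false) (rk I true) ≤ z ∧
          z ≤ (1 + I.1.ε) * numCommonIntBases I.1.R (rk I false) (rk I true)) := by
  obtain ⟨pre, hpre, hpoly⟩ := exists_pre
  obtain ⟨blen, hb1, hb2, hb3⟩ := exists_blen
  let r : ∀ I : Subtype P, Bool → Finset (Fin I.1.n) → ℤ := fun I => rz I.1.R (rk I)
  let W : Subtype P → Raw := fun I => mkRaw I.1.n I.1.R I.1.inp.2.n
    (pre I.1.n I.1.R I.1.inp.2.n fun s l => r I s (setOf I.1.n l))
  let Q : Subtype P → Prop := fun I => 1 ≤ I.1.n ∧ 0 ≤ tst I.1.R (rk I)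
  let F : Subtype P × List Bool → ℚ := fun p =>
    if Q p.1 then medQ (draws ((W p.1).est (DD (r p.1))) (blen p.1.1.inp) p.1.1.inp.2.n p.2)
    else if p.1.1.n = 0 then 1 else 0
  have hFeas : ∀ I, Q I → Feas (r I) I.1.R := fun I hI =>
    ⟨rz_sub (hrk I), rz_tot (hrk I), rz_bnd (hrk I), (tst_spec (hrk I)).1 hI.2⟩
  have hn := opoly_n.1.restrict P
  have bn : OPB fun I : Subtype P => I.1.n :=
    opoly_n.2.reindex (φ := fun I : Subtype P => I.1) OPoly.code'
  have hR := opoly_R.restrict P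
  have hS := opoly_S.1.restrict P
  have bS : OPB fun I : Subtype P => I.1.inp.2.n :=
    opoly_S.2.reindex (φ := fun I : Subtype P => I.1) OPoly.code'
  have hr := opoly_rz hn bn hR hp
  have hQ : OPoly fun I : Subtype P => decide (Q I) :=
    OPoly.comp₂ (h := fun (n : ℕ) (t : ℤ) => decide (1 ≤ n ∧ 0 ≤ t)) (by fun_prop) hn
      (opoly_tst hn bn hR hp)
  have hrQ : OPoly fun p : Subtype Q × Bool × List Bool =>
      r p.1.1 p.2.1 (setOf p.1.1.1.n p.2.2) :=
    OPoly.call (f := fun I (q : Bool × List Bool) => r I q.1 (setOf I.1.n q.2)) hr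
      (φ := fun p : Subtype Q × Bool × List Bool => p.1.1) (fun _ => rfl) OPoly.code_fst OPoly.snd
  have hW : OPoly fun I : Subtype Q => W I.1 :=
    hpoly (r := fun I : Subtype Q => r I.1) (hn.restrict Q)
      (bn.reindex (φ := fun I : Subtype Q => I.1) OPoly.code') (hR.restrict Q) (hS.restrict Q)
      (bS.reindex (φ := fun I : Subtype Q => I.1) OPoly.code') (fun I => ⟨I.2.1, hFeas _ I.2⟩) hrQ
  have hE : OPoly fun p : Subtype Q × List Bool => (W p.1.1).est (DD (r p.1.1)) p.2 :=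
    opoly_est (R := fun p : Subtype Q × List Bool => W p.1.1) (r := fun p => r p.1.1)
      (Rm := fun p => p.1.1.1.R) hW.fst (hR.restrict Q).fst OPoly.snd
      (fun p => rz_sub (hrk p.1.1)) (fun p => rz_bnd (hrk p.1.1))
      (Center.lift (f := fun (I : Subtype Q) (q : Bool × List Bool) =>
        r I.1 q.1 (setOf I.1.1.n q.2)) hrQ)
  have hM : OPoly fun p : Subtype Q × List Bool =>
      medQ (draws ((W p.1.1).est (DD (r p.1.1))) (blen p.1.1.1.inp) p.1.1.1.inp.2.n p.2) := by
    refine OPoly.comp (h := medQ) (poly_medQ Poly.id') (OPoly.map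
      (f := fun (p : Subtype Q × List Bool) v => (W p.1.1).est (DD (r p.1.1)) v) ?_
      (Center.lift (f := fun (I : Subtype Q) v => (W I.1).est (DD (r I.1)) v) hE))
    exact OPoly.comp₂ (h := fun (x : List ℕ × Un) u => chunks (blen x) x.2.n u) (by fun_prop)
      ((opoly_inp.restrict P).restrict Q).fst OPoly.snd
  have hF : OPoly F := by
    refine OPoly.dite (P := fun p : Subtype P × List Bool => Q p.1)
      (f := fun p _ => medQ (draws ((W p.1).est (DD (r p.1))) (blen p.1.1.inp) p.1.1.inp.2.n p.2))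
      (g := fun p _ => if p.1.1.n = 0 then (1 : ℚ) else 0) hQ.fst ?_ ?_
    · exact hM.reindex (φ := fun p : {p : Subtype P × List Bool // Q p.1} => (⟨p.1.1, p.2⟩, p.1.2))
        (fun _ => rfl) OPoly.code'
    · exact (OPoly.comp (h := fun n : ℕ => if n = 0 then (1 : ℚ) else 0) (by fun_prop)
        hn.fst).restrict _
  have h0 : ∀ p, 0 ≤ F p := by
    intro p
    simp only [F]
    split_ifs
    · rcases medQ_mem_or (draws ((W p.1).est (DD (r p.1))) (blen p.1.1.inp) p.1.1.inp.2.n p.2)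
        with h | h
      · obtain ⟨v, -, hv⟩ := List.mem_map.1 h
        rw [← hv]
        exact Raw.est_nonneg _ _ _
      · exact h.ge
    · exact zero_le_one
    · exact le_rfl
  have hnQ : ∀ I u, ¬ Q I → F (I, u) = numCommonIntBases I.1.R (rk I false) (rk I true) := by
    intro I u hI
    simp only [F, if_neg hI]
    split_ifs with h
    · rw [count_zero (hrk I) h, Nat.cast_one]
    · have h1 : ¬ ∀ A, 0 ≤ r I false A + r I true A := fun h1 =>
        hI ⟨Nat.one_le_iff_ne_zero.2 h, (tst_spec (hrk I)).2 h1⟩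
      obtain ⟨A, hA⟩ := not_forall.1 h1
      rw [count_infeas (hrk I) (not_le.1 hA), Nat.cast_zero]
  obtain ⟨prog, c₀, C, d, h⟩ := exists_oram P (m := fun x => ⟨x.2.n * blen x⟩) (by fun_prop)
    (F := F) (hF.restrict _) h0
  refine ⟨prog, c₀, C, d, fun I => ⟨(h I).1, fun ρ => ?_, fun hc ρ => ?_, ?_⟩⟩
  · obtain ⟨u, hu⟩ := (h I).2.1 ρ
    exact ⟨_, h0 _, hu⟩
  · obtain ⟨u, hu⟩ := (h I).2.1 ρ
    rw [hu, hnQ I u fun hI => count_feas (hrk I) (hFeas I hI).feas hc, hc, Nat.cast_zero]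
  · rw [(h I).2.2 fun z => (1 - I.1.ε) * numCommonIntBases I.1.R (rk I false) (rk I true) ≤ z ∧
      z ≤ (1 + I.1.ε) * numCommonIntBases I.1.R (rk I false) (rk I true)]
    by_cases hI : Q I
    · have hI' : ∀ u, F (I, u) =
          medQ (draws ((W I).est (DD (r I))) (blen I.1.inp) I.1.inp.2.n u) := fun u => if_pos hI
      simp only [hI']
      refine med_good I.1 (g := (W I).est (DD (r I))) (B := blen I.1.inp)
        (N := numCommonIntBases I.1.R (rk I false) (rk I true)) ?_
      obtain ⟨x, hx⟩ := hpre I.1.n I.1.R I.1.inp.2.n (r I) hI.1 (one_le_S I.1) (hFeas I hI)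
        (rz_l1 (hrk I))
      have h1 := hx.est_good (N := blen I.1.inp) (hb3 I.1)
      have h2 : (W I).cnt (r I) = numCommonIntBases I.1.R (rk I false) (rk I true) := by
        have h3 : 2 * (I.1.R + 2) ≤ (W I).ℓ0 := hx.Rm_le
        have h4 : 1 ≤ (W I).G := Nat.pow_pos hx.m_pos
        have h5 : (W I).ℓ0 * 1 ≤ (W I).ℓ0 * (W I).G := Nat.mul_le_mul_left _ h4
        refine card_eq (hrk I) (lo := (W I).lo) (hi := (W I).hi) ?_ ?_
        · exact neg_nonpos.2 (by positivity)
        · unfold Raw.hi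
          have h6 : ((I.1.R + 1 : ℕ) : ℤ) ≤ ((W I).ℓ0 * (W I).G : ℕ) := by
            exact_mod_cast (by omega : I.1.R + 1 ≤ (W I).ℓ0 * (W I).G)
          push_cast at h6
          linarith
      rw [← h2]
      exact h1
    · refine Pr_of_forall I.1 fun u => ?_
      rw [hnQ I u hI]
      have h1 : (0 : ℚ) ≤ I.1.ε * numCommonIntBases I.1.R (rk I false) (rk I true) :=
        mul_nonneg I.1.ε0.le (Nat.cast_nonneg _)
      constructor <;> linarith

end Crest.Agent.R302
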