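import Crest.Agent.R302.Sand

/-!
# Row 302: the class `LC` and its closure properties
-/

set_option autoImplicit false

namespace Crest.Agent.R302

open Finset

section General

variable {V : Type} [Fintype V] [DecidableEq V]

theorem LC.pos {φ : (V → ℤ) → ℝ} (h : LC φ) (z : V → ℤ) : 0 < φ z := h.1 z

namespace LCAux

/-- the linear form -/
def lin (φ : (V → ℤ) → ℝ) (T : V → ℤ) (w : V → ℝ) : ℝ := ∑ a, w a * φ (T + ev a)

/-- the bilinear form -/
def bil (φ : (V → ℤ) → ℝ) (T : V → ℤ) (w w' : V → ℝ) : ℝ :=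
  ∑ a, ∑ b, w a * w' b * φ (T + ev a + ev b)

variable (φ : (V → ℤ) → ℝ) (T : V → ℤ)

theorem lin_add (w w' : V → ℝ) : lin φ T (w + w') = lin φ T w + lin φ T w' := by
  simp only [lin, Pi.add_apply, add_mul, sum_add_distrib]

theorem lin_smul (c : ℝ) (w : V → ℝ) : lin φ T (c • w) = c * lin φ T w := by
  simp only [lin, Pi.smul_apply, smul_eq_mul, mul_sum, mul_assoc]

theorem lin_single (i : V) (c : ℝ) : lin φ T (Pi.single i c) = c * φ (T + ev i) := by
  simp [lin, Pi.single_apply]

theorem bil_comm (w w' : V → ℝ) : bil φ T w w' = bil φ T w' w := by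
  rw [bil, bil, sum_comm]
  refine sum_congr rfl fun a _ => sum_congr rfl fun b _ => ?_
  rw [add_right_comm, mul_comm (w b)]

theorem bil_add_right (w w' w'' : V → ℝ) :
    bil φ T w (w' + w'') = bil φ T w w' + bil φ T w w'' := by
  simp only [bil, Pi.add_apply, add_mul, mul_add, sum_add_distrib]

theorem bil_add_left (w w' w'' : V → ℝ) :
    bil φ T (w + w') w'' = bil φ T w w'' + bil φ T w' w'' := by
  simp only [bil, Pi.add_apply, add_mul, sum_add_distrib]

theorem bil_smul_smul (c : ℝ) (w : V → ℝ) : bil φ T (c • w) (c • w) = c ^ 2 * bil φ T w w := by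
  simp only [bil, Pi.smul_apply, smul_eq_mul, mul_sum]
  exact sum_congr rfl fun a _ => sum_congr rfl fun b _ => by ring

theorem bil_single_right (w : V → ℝ) (i : V) (c : ℝ) :
    bil φ T w (Pi.single i c) = c * lin φ (T + ev i) w := by
  simp only [bil, lin, mul_sum]
  refine sum_congr rfl fun a _ => ?_
  rw [sum_eq_single i]
  · rw [Pi.single_eq_same, add_right_comm]
    ring
  · intro b _ hb
    rw [Pi.single_eq_of_ne hb]
    ring
  · simp

theorem bil_single_left (w : V → ℝ) (i : V) (c : ℝ) :
    bil φ T (Pi.single i c) w = c * lin φ (T + ev i) w := by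
  rw [bil_comm, bil_single_right]

variable {φ}

/-- the extended form of `LC` -/
theorem ext_le (h : LC φ) (w0 : ℝ) (w : V → ℝ) (h0 : w0 * φ T + lin φ T w = 0) :
    w0 ^ 2 * φ T + 2 * w0 * lin φ T w + bil φ T w w ≤ 0 := by
  have h1 : φ T * bil φ T w w ≤ lin φ T w ^ 2 := h.2 T w
  have h2 := h.1 T
  have h3 : lin φ T w = -(w0 * φ T) := by linarith
  rw [h3] at h1 ⊢
  by_contra hc
  have := mul_pos h2 (not_le.1 hc)
  nlinarith

theorem lc_of_ext (h : ∀ z, 0 < φ z) (h' : ∀ (T : V → ℤ) (w0 : ℝ) (w : V → ℝ),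
    w0 * φ T + lin φ T w = 0 → w0 ^ 2 * φ T + 2 * w0 * lin φ T w + bil φ T w w ≤ 0) : LC φ := by
  refine ⟨h, fun T w => ?_⟩
  change φ T * bil φ T w w ≤ lin φ T w ^ 2
  have h2 := h T
  have h1 := h' T (-(lin φ T w / φ T)) w (by field_simp; ring)
  have h3 := mul_le_mul_of_nonneg_left h1 h2.le
  have e : φ T * ((-(lin φ T w / φ T)) ^ 2 * φ T + 2 * (-(lin φ T w / φ T)) * lin φ T w +
      bil φ T w w) = φ T * bil φ T w w - lin φ T w ^ 2 := by
    field_simp
    ring
  rw [e] at h3
  linarith

theorem ext_two (h : LC φ) (w0 : ℝ) (w : V → ℝ) (p q : V) (α β : ℝ)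
    (h0 : w0 * φ T + lin φ T w + α * φ (T + ev p) + β * φ (T + ev q) = 0) :
    w0 ^ 2 * φ T + 2 * w0 * lin φ T w + bil φ T w w +
      2 * α * (w0 * φ (T + ev p) + lin φ (T + ev p) w) +
      2 * β * (w0 * φ (T + ev q) + lin φ (T + ev q) w) +
      α ^ 2 * φ (T + ev p + ev p) + 2 * α * β * φ (T + ev p + ev q) +
      β ^ 2 * φ (T + ev q + ev q) ≤ 0 := by
  have := ext_le T h w0 (w + Pi.single p α + Pi.single q β)
    (by rw [lin_add, lin_add, lin_single, lin_single]; linarith)
  simp only [lin_add, lin_single, bil_add_left, bil_add_right, bil_single_left,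
    bil_single_right] at this
  rw [add_right_comm T (ev q) (ev p)] at this
  linarith

theorem tele (F : ℤ → ℝ) {lo hi : ℤ} (hle : lo ≤ hi) :
    ∑ k ∈ Icc lo hi, (F (k + 1) - F k) = F (hi + 1) - F lo := by
  induction hi, hle using Int.leInduction with
  | base => simp
  | succ n hn ih =>
    have : Icc lo (n + 1) = insert (n + 1) (Icc lo n) := by
      ext x
      simp only [mem_Icc, mem_insert]
      omega
    rw [this, sum_insert (by simp), ih]
    ring

theorem amgm {a b c : ℝ} (ha : 0 < a) (hb : 0 < b) (hc : 0 < c) (h : a * c ≤ b ^ 2) (x y : ℝ) :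
    2 * x * y / b ≤ y ^ 2 / c + x ^ 2 / a := by
  have e : y ^ 2 / c + x ^ 2 / a - 2 * x * y / b =
      (x - a * y / b) ^ 2 / a + y ^ 2 * (b ^ 2 - a * c) / (c * b ^ 2) := by
    field_simp
    ring
  have h1 : 0 ≤ (x - a * y / b) ^ 2 / a := by positivity
  have h2 : 0 ≤ y ^ 2 * (b ^ 2 - a * c) / (c * b ^ 2) :=
    div_nonneg (mul_nonneg (sq_nonneg _) (by linarith)) (by positivity)
  linarith

/-- the summation step of the convolution lemma -/
theorem conv_core {lo hi : ℤ} (hle : lo ≤ hi) {ψ : ℤ → ℝ} (hpos : ∀ k, lo ≤ k → k ≤ hi → 0 < ψ k)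
    (hlc : ∀ k, lo ≤ k - 1 → k + 1 ≤ hi → ψ (k - 1) * ψ (k + 1) ≤ ψ k ^ 2)
    (E U C Y : ℤ → ℝ) (hY : ∀ k, 0 < Y k) (hU0 : U lo = 0) (hU1 : U (hi + 1) = 0)
    (hE : ∀ k, lo ≤ k → k ≤ hi → E k + 2 * (U k / ψ k) * C k + 2 * (-(U (k + 1) / ψ k)) * C (k + 1) +
      (U k / ψ k) ^ 2 * Y (k - 1) + 2 * (U k / ψ k) * (-(U (k + 1) / ψ k)) * Y k +
      (-(U (k + 1) / ψ k)) ^ 2 * Y (k + 1) ≤ 0) :
    ∑ k ∈ Icc lo hi, ψ k * E k ≤ 0 := by
  have := tele (fun k => 2 * U k * C k + U k ^ 2 / ψ k * Y (k - 1) - U k ^ 2 / ψ (k - 1) * Y k) hle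
  simp only [hU0, hU1] at this
  refine le_of_le_of_eq (sum_le_sum fun k hk => ?_) (this.trans (by simp))
  obtain ⟨h1, h2⟩ := mem_Icc.1 hk
  have hk0 := hpos k h1 h2
  have h3 := mul_le_mul_of_nonneg_left (hE k h1 h2) hk0.le
  have h4 : 2 * U k * U (k + 1) / ψ k ≤ U (k + 1) ^ 2 / ψ (k + 1) + U k ^ 2 / ψ (k - 1) := by
    rcases eq_or_lt_of_le h1 with rfl | h1'
    · rcases eq_or_lt_of_le h2 with rfl | h2'
      · simp [hU0, hU1]
      · have := hpos (lo + 1) (by omega) (by omega)
        simp only [hU0, mul_zero, zero_mul, zero_div, ne_eq, OfNat.ofNat_ne_zero,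
          not_false_eq_true, zero_pow, add_zero]
        positivity
    · rcases eq_or_lt_of_le h2 with rfl | h2'
      · have := hpos (k - 1) (by omega) (by omega)
        simp only [hU1, mul_zero, zero_div, ne_eq, OfNat.ofNat_ne_zero,
          not_false_eq_true, zero_pow, zero_add]
        positivity
      · exact amgm (hpos _ (by omega) (by omega)) hk0 (hpos _ (by omega) (by omega))
          (hlc k (by omega) (by omega)) _ _
  have h5 := mul_le_mul_of_nonneg_right h4 (hY k).le
  have e : ψ k * (E k + 2 * (U k / ψ k) * C k + 2 * (-(U (k + 1) / ψ k)) * C (k + 1) +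
      (U k / ψ k) ^ 2 * Y (k - 1) + 2 * (U k / ψ k) * (-(U (k + 1) / ψ k)) * Y k +
      (-(U (k + 1) / ψ k)) ^ 2 * Y (k + 1)) = ψ k * E k + 2 * U k * C k -
        2 * U (k + 1) * C (k + 1) + U k ^ 2 / ψ k * Y (k - 1) - 2 * U k * U (k + 1) / ψ k * Y k +
        U (k + 1) ^ 2 / ψ k * Y (k + 1) := by
    field_simp
    ring
  rw [e] at h3
  simp only [add_sub_cancel_right]
  linarith

/-- the indicator matrix of a partial equivalence relation is positive semidefinite -/
theorem per_psd {ι : Type} [Fintype ι] [DecidableEq ι] (R : ι → ι → Prop) [DecidableRel R]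
    (hs : ∀ a b, R a b → R b a) (ht : ∀ a b c, R a b → R b c → R a c) (u : ι → ℝ) :
    0 ≤ ∑ a, ∑ b, if R a b then u a * u b else 0 := by
  have key : ∀ a b, (if R a b then u a * u b else 0) =
      ∑ c : Finset ι, (if R a a ∧ univ.filter (R a) = c then u a else 0) *
        (if R b b ∧ univ.filter (R b) = c then u b else 0) := by
    intro a b
    rw [sum_eq_single (univ.filter (R a))]
    · by_cases hab : R a b
      · have h1 : R a a := ht _ _ _ hab (hs _ _ hab)
        have h2 : R b b := ht _ _ _ (hs _ _ hab) hab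
        have h3 : univ.filter (R b) = univ.filter (R a) := by
          ext c
          simp only [mem_filter, mem_univ, true_and]
          exact ⟨fun h => ht _ _ _ hab h, fun h => ht _ _ _ (hs _ _ hab) h⟩
        rw [if_pos hab, if_pos ⟨h1, rfl⟩, if_pos ⟨h2, h3⟩]
      · rw [if_neg hab, if_neg (c := R b b ∧ _), mul_zero]
        rintro ⟨h2, h3⟩
        have : b ∈ univ.filter (R b) := by simpa using h2
        rw [h3] at this
        exact hab (by simpa using this)
    · intro c _ hc
      rw [if_neg (c := R a a ∧ _) fun h => hc h.2.symm, zero_mul]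
    · simp
  simp only [key]
  have : ∑ a, ∑ b, ∑ c : Finset ι, (if R a a ∧ univ.filter (R a) = c then u a else 0) *
        (if R b b ∧ univ.filter (R b) = c then u b else 0) =
      ∑ c : Finset ι, (∑ a, if R a a ∧ univ.filter (R a) = c then u a else 0) ^ 2 := by
    simp only [sq, sum_mul_sum]
    rw [sum_comm (s := (univ : Finset (Finset ι)))]
    refine sum_congr rfl fun a _ => ?_
    rw [sum_comm]
  rw [this]
  exact sum_nonneg fun c _ => sq_nonneg _

end LCAux

open LCAux

theorem LC.shift {φ : (V → ℤ) → ℝ} (h : LC φ) (s : V → ℤ) : LC fun z => φ (z + s) := by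
  refine ⟨fun z => h.1 _, fun T w => ?_⟩
  have := h.2 (T + s) w
  simp only [add_right_comm _ s] at this ⊢
  exact this

/-- Reverse Cauchy-Schwarz with the reference index `i`. -/
theorem LC.ref {φ : (V → ℤ) → ℝ} (h : LC φ) (T : V → ℤ) (i : V) (w : V → ℝ)
    (hw : ∑ a, w a * φ (T + ev a) = 0) :
    ∑ a, ∑ b, w a * w b * φ (T - ev i + ev a + ev b) ≤ 0 := by
  change bil φ (T - ev i) w w ≤ 0
  change lin φ T w = 0 at hw
  have h1 := ext_le (T - ev i) h 0 (φ T • w + Pi.single i (-lin φ (T - ev i) w))
    (by rw [lin_add, lin_smul, lin_single, sub_add_cancel]; ring)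
  simp only [bil_add_left, bil_add_right, bil_single_left, bil_single_right, bil_smul_smul,
    lin_add, lin_smul, lin_single, sub_add_cancel, hw] at h1
  have h2 := h.1 T
  have h3 := h.1 (T + ev i)
  by_contra hc
  have h4 := mul_pos (pow_pos h2 2) (not_le.1 hc)
  have h5 := mul_nonneg (sq_nonneg (lin φ (T - ev i) w)) h3.le
  nlinarith

/-- Convolution along one arc with a log-concave kernel of interval support. -/
theorem LC.conv {φ : (V → ℤ) → ℝ} (h : LC φ) (p q : V) {lo hi : ℤ} (hle : lo ≤ hi) {ψ : ℤ → ℝ}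
    (hpos : ∀ k, lo ≤ k → k ≤ hi → 0 < ψ k)
    (hlc : ∀ k, lo ≤ k - 1 → k + 1 ≤ hi → ψ (k - 1) * ψ (k + 1) ≤ ψ k ^ 2) :
    LC fun z => ∑ k ∈ Icc lo hi, ψ k * φ (z - k • (ev p - ev q)) := by
  refine lc_of_ext (fun z => sum_pos (fun k hk => mul_pos
    (hpos k (mem_Icc.1 hk).1 (mem_Icc.1 hk).2) (h.1 _)) (nonempty_Icc.2 hle)) fun T w0 w h0 => ?_
  set Tk : ℤ → V → ℤ := fun k => T - k • (ev p - ev q) with hTk
  have e1 : lin (fun z => ∑ k ∈ Icc lo hi, ψ k * φ (z - k • (ev p - ev q))) T w =
      ∑ k ∈ Icc lo hi, ψ k * lin φ (Tk k) w := by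
    simp only [lin, mul_sum]
    rw [sum_comm]
    refine sum_congr rfl fun k _ => sum_congr rfl fun a _ => ?_
    rw [hTk, add_sub_right_comm]
    ring
  have e2 : bil (fun z => ∑ k ∈ Icc lo hi, ψ k * φ (z - k • (ev p - ev q))) T w w =
      ∑ k ∈ Icc lo hi, ψ k * bil φ (Tk k) w w := by
    simp only [bil, mul_sum]
    rw [sum_comm (s := Icc lo hi)]
    refine sum_congr rfl fun a _ => ?_
    rw [sum_comm]
    refine sum_congr rfl fun k _ => sum_congr rfl fun b _ => ?_
    rw [hTk, add_sub_right_comm, add_sub_right_comm]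
    ring
  have e3 : ∀ k, Tk k + ev q = Tk (k + 1) + ev p := by
    intro k
    simp only [hTk, add_smul, one_smul]
    abel
  rw [e1] at h0 ⊢
  rw [e2]
  set L : ℤ → ℝ := fun k => w0 * φ (Tk k) + lin φ (Tk k) w with hL
  have h0' : ∑ k ∈ Icc lo hi, ψ k * L k = 0 := by
    rw [← h0, mul_sum, ← sum_add_distrib]
    exact sum_congr rfl fun k _ => by simp only [hL, hTk]; ring
  have := conv_core hle hpos hlc
    (fun k => w0 ^ 2 * φ (Tk k) + 2 * w0 * lin φ (Tk k) w + bil φ (Tk k) w w)
    (fun k => (∑ j ∈ Ico lo k, ψ j * L j) / φ (Tk k + ev p))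
    (fun k => w0 * φ (Tk k + ev p) + lin φ (Tk k + ev p) w)
    (fun k => φ (Tk k + ev p + ev q)) (fun k => h.1 _) (by simp)
    (by rw [Ico_add_one_right_eq_Icc, h0', zero_div]) fun k h1 h2 => by
      have hk := hpos k h1 h2
      have hX := h.1 (Tk k + ev p)
      have hX' := h.1 (Tk (k + 1) + ev p)
      have e4 : Tk (k - 1) + ev p + ev q = Tk k + ev p + ev p := by
        rw [add_right_comm, e3, sub_add_cancel]
      have e5 : Tk (k + 1) + ev p + ev q = Tk k + ev q + ev q := by rw [e3]
      have e6 : ∑ j ∈ Ico lo (k + 1), ψ j * L j = ∑ j ∈ Ico lo k, ψ j * L j + ψ k * L k := by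
        have : Ico lo (k + 1) = insert k (Ico lo k) := by
          ext x
          simp only [mem_Ico, mem_insert]
          omega
        rw [this, sum_insert (by simp), add_comm]
      simp only [e4, e5]
      rw [← e3] at hX' ⊢
      refine ext_two (Tk k) h w0 w p q _ _ ?_
      rw [e6]
      change L k + _ + _ = 0
      field_simp
      ring
  refine le_of_eq_of_le ?_ this
  simp only [mul_sum, ← sum_add_distrib]
  exact sum_congr rfl fun k _ => by simp only [hTk]; ring

/-- Convolution along all arcs `(a, par a)`. -/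
theorem LC.convAll {φ : (V → ℤ) → ℝ} (h : LC φ) (par : V → V) {lo hi : V → ℤ}
    (hle : ∀ a, lo a ≤ hi a) {ψ : V → ℤ → ℝ} (hpos : ∀ a k, lo a ≤ k → k ≤ hi a → 0 < ψ a k)
    (hlc : ∀ a k, lo a ≤ k - 1 → k + 1 ≤ hi a → ψ a (k - 1) * ψ a (k + 1) ≤ ψ a k ^ 2) :
    LC fun z => ∑ ξ ∈ Fintype.piFinset fun a => Icc (lo a) (hi a),
      (∏ a, ψ a (ξ a)) * φ (z - shf par ξ) := by
  have key : ∀ s : Finset V, LC fun z =>
      ∑ ξ ∈ Fintype.piFinset fun a => if a ∈ s then Icc (lo a) (hi a) else {0},
        (∏ a ∈ s, ψ a (ξ a)) * φ (z - shf par ξ) := by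
    intro s
    induction s using Finset.induction_on with
    | empty =>
      refine (congrArg LC ?_).mp h
      funext z
      have : (Fintype.piFinset fun a : V => if a ∈ (∅ : Finset V) then Icc (lo a) (hi a) else {0}) =
          {0} := by
        ext ξ
        simp [funext_iff]
      rw [this]
      simp [shf]
    | insert a s ha ih =>
      refine (congrArg LC ?_).mp (ih.conv a (par a) (hle a) (hpos a) (hlc a))
      funext z
      simp only [mul_sum]
      rw [← sum_product']
      refine sum_nbij' (fun x => Function.update x.2 a x.1)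
        (fun ξ => (ξ a, Function.update ξ a 0)) ?_ ?_ ?_ ?_ ?_
      · rintro ⟨k, ξ⟩ hx
        simp only [mem_product, Fintype.mem_piFinset] at hx ⊢
        intro b
        by_cases hb : b = a
        · subst hb
          simpa using hx.1
        · have := hx.2 b
          simpa [hb] using this
      · intro ξ hξ
        simp only [mem_product, Fintype.mem_piFinset] at hξ ⊢
        refine ⟨by simpa using hξ a, fun b => ?_⟩
        by_cases hb : b = a
        · subst hb
          simp [ha]
        · have := hξ b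
          simpa [hb] using this
      · rintro ⟨k, ξ⟩ hx
        simp only [mem_product, Fintype.mem_piFinset] at hx
        have h0 : ξ a = 0 := by simpa [ha] using hx.2 a
        simp only [Function.update_self, Function.update_idem]
        rw [← h0, Function.update_eq_self]
      · intro ξ _
        simp
      · rintro ⟨k, ξ⟩ hx
        simp only [mem_product, Fintype.mem_piFinset] at hx
        have h0 : ξ a = 0 := by simpa [ha] using hx.2 a
        have e1 : ∏ b ∈ s, ψ b (Function.update ξ a k b) = ∏ b ∈ s, ψ b (ξ b) :=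
          prod_congr rfl fun b hb => by
            rw [Function.update_of_ne fun (h : b = a) => ha (h ▸ hb)]
        have e2 : shf par (Function.update ξ a k) = k • (ev a - ev (par a)) + shf par ξ := by
          have : Function.update ξ a k = Pi.single a k + ξ := by
            funext b
            by_cases hb : b = a
            · subst hb
              simp [h0]
            · simp [hb]
          rw [this]
          simp only [shf, Pi.add_apply, add_smul, sum_add_distrib]
          congr 1
          rw [sum_eq_single a]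
          · rw [Pi.single_eq_same]
          · intro b _ hb
            rw [Pi.single_eq_of_ne hb, zero_smul]
          · simp
        simp only [prod_insert ha, Function.update_self, e1, e2, sub_sub, mul_assoc]
  simpa using key univ

end General

variable {ι : Type} [Fintype ι] [DecidableEq ι]

namespace LCAux

omit [Fintype ι] in
theorem side_add_same (z : Bool × ι → ℤ) (s : Bool) (i : ι) :
    side (z + ev (s, i)) s = side z s + ev i := by
  funext j
  by_cases h : j = i <;> simp [side, ev, h]

omit [Fintype ι] in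
theorem side_add_ft (z : Bool × ι → ℤ) (i : ι) : side (z + ev (false, i)) true = side z true := by
  funext j
  simp [side, ev]

omit [Fintype ι] in
theorem side_add_tf (z : Bool × ι → ℤ) (i : ι) : side (z + ev (true, i)) false = side z false := by
  funext j
  simp [side, ev]

theorem dp_eq {r : Finset ι → ℤ} {α : ι → ℤ} {m : ℤ} (h1 : ∀ A, ∑ i ∈ A, α i - r A ≤ m)
    (h2 : ∃ A, m ≤ ∑ i ∈ A, α i - r A) : dp r α = m := by
  obtain ⟨A, hA⟩ := exists_dp r α
  obtain ⟨B, hB⟩ := h2
  exact le_antisymm (hA ▸ h1 A) (hB.trans (le_dp r α B))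

omit [Fintype ι] in
theorem sum_add_ev (T : ι → ℤ) (a : ι) (A : Finset ι) :
    ∑ i ∈ A, (T + ev a) i = ∑ i ∈ A, T i + if a ∈ A then 1 else 0 := by
  simp [sum_add_distrib, ev, Pi.single_apply]

/-- second differences of `dp` -/
theorem dp_struct {r : Finset ι → ℤ} (hr : Sub r) (T : ι → ℤ) :
    ∃ (c : ι → ℤ) (R : ι → ι → Prop) (_ : DecidableRel R), (∀ a b, R a b → R b a) ∧
      (∀ a b c, R a b → R b c → R a c) ∧ (∀ a, dp r (T + ev a) = dp r T + c a) ∧
      ∀ a b, dp r (T + ev a + ev b) = dp r T + c a + c b + if R a b then 1 else 0 := by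
  classical
  set val : Finset ι → ℤ := fun A => ∑ i ∈ A, T i - r A with hval
  set M := dp r T with hM
  have h1 : ∀ A, val A ≤ M := le_dp r T
  obtain ⟨A0, hA0⟩ : ∃ A, M = val A := exists_dp r T
  have h2 : ∀ A B, val A + val B ≤ val (A ∪ B) + val (A ∩ B) := by
    intro A B
    have := hr.2 A B
    have h3 := sum_union_inter (s₁ := A) (s₂ := B) (f := T)
    simp only [hval]
    linarith
  let P : ι → Prop := fun a => ∃ A, a ∈ A ∧ val A = M
  have h3 : ∀ a A, ¬ P a → a ∈ A → val A ≤ M - 1 := by
    intro a A ha haA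
    have := h1 A
    have : val A ≠ M := fun h => ha ⟨A, haA, h⟩
    omega
  have e1 : ∀ a A, ∑ i ∈ A, (T + ev a) i - r A = val A + if a ∈ A then 1 else 0 := by
    intro a A
    rw [sum_add_ev, hval]
    ring
  have e2 : ∀ a b A, ∑ i ∈ A, (T + ev a + ev b) i - r A =
      val A + (if a ∈ A then 1 else 0) + if b ∈ A then 1 else 0 := by
    intro a b A
    rw [sum_add_ev, sum_add_ev, hval]
    ring
  refine ⟨fun a => if P a then 1 else 0,
    fun a b => ¬ P a ∧ ¬ P b ∧ ∃ A, a ∈ A ∧ b ∈ A ∧ val A = M - 1, inferInstance, ?_, ?_, ?_, ?_⟩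
  · rintro a b ⟨ha, hb, A, h4, h5, h6⟩
    exact ⟨hb, ha, A, h5, h4, h6⟩
  · rintro a b c ⟨ha, hb, A, h4, h5, h6⟩ ⟨-, hc, B, h7, h8, h9⟩
    refine ⟨ha, hc, A ∪ B, mem_union_left _ h4, mem_union_right _ h8, ?_⟩
    have := h2 A B
    have := h3 b _ hb (mem_inter.2 ⟨h5, h7⟩)
    have := h3 a _ ha (mem_union_left B h4)
    omega
  · intro a
    beta_reduce
    refine dp_eq (fun A => ?_) ?_
    · rw [e1]
      have := h1 A
      by_cases ha : P a
      · rw [if_pos ha]
        split_ifs <;> omega
      · rw [if_neg ha]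
        split_ifs with haA
        · have := h3 a A ha haA
          omega
        · omega
    · by_cases ha : P a
      · obtain ⟨A, h4, h5⟩ := id ha
        exact ⟨A, by rw [e1, if_pos ha, if_pos h4, h5]⟩
      · refine ⟨A0, ?_⟩
        rw [e1, if_neg ha, ← hA0]
        split_ifs <;> omega
  · intro a b
    beta_reduce
    refine dp_eq (fun A => ?_) ?_
    · rw [e2]
      have := h1 A
      by_cases ha : P a <;> by_cases hb : P b
      · simp only [if_pos ha, if_pos hb]
        split_ifs <;> omega
      · simp only [if_pos ha, if_neg hb]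
        by_cases hbA : b ∈ A
        · have := h3 b A hb hbA
          split_ifs <;> omega
        · rw [if_neg hbA]
          split_ifs <;> omega
      · simp only [if_neg ha, if_pos hb]
        by_cases haA : a ∈ A
        · have := h3 a A ha haA
          split_ifs <;> omega
        · rw [if_neg haA]
          split_ifs <;> omega
      · have t1 := h3 a A ha
        have t2 := h3 b A hb
        simp only [if_neg ha, if_neg hb]
        by_cases haA : a ∈ A <;> by_cases hbA : b ∈ A
        · have := t1 haA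
          rw [if_pos haA, if_pos hbA]
          split_ifs with h
          · omega
          · have : val A ≠ M - 1 := fun h' => h ⟨ha, hb, A, haA, hbA, h'⟩
            omega
        · have := t1 haA
          rw [if_pos haA, if_neg hbA]
          split_ifs <;> omega
        · have := t2 hbA
          rw [if_neg haA, if_pos hbA]
          split_ifs <;> omega
        · rw [if_neg haA, if_neg hbA]
          split_ifs <;> omega
    · by_cases ha : P a <;> by_cases hb : P b
      · obtain ⟨A, h4, h5⟩ := id ha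
        obtain ⟨B, h6, h7⟩ := id hb
        refine ⟨A ∪ B, ?_⟩
        rw [e2, if_pos ha, if_pos hb, if_neg fun h => h.1 ha, if_pos (mem_union_left _ h4),
          if_pos (mem_union_right _ h6)]
        have := h2 A B
        have := h1 (A ∩ B)
        omega
      · obtain ⟨A, h4, h5⟩ := id ha
        refine ⟨A, ?_⟩
        rw [e2, if_pos ha, if_neg hb, if_neg fun h => h.1 ha, if_pos h4, h5]
        split_ifs <;> omega
      · obtain ⟨A, h4, h5⟩ := id hb
        refine ⟨A, ?_⟩
        rw [e2, if_neg ha, if_pos hb, if_neg fun h => h.2.1 hb, if_pos h4, h5]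
        split_ifs <;> omega
      · by_cases h : ¬ P a ∧ ¬ P b ∧ ∃ A, a ∈ A ∧ b ∈ A ∧ val A = M - 1
        · obtain ⟨-, -, A, h4, h5, h6⟩ := id h
          refine ⟨A, ?_⟩
          rw [e2, if_neg ha, if_neg hb, if_pos h, if_pos h4, if_pos h5, h6]
          omega
        · refine ⟨A0, ?_⟩
          rw [e2, if_neg ha, if_neg hb, if_neg h, ← hA0]
          split_ifs <;> omega

end LCAux

open LCAux

theorem LC.prod {f g : (ι → ℤ) → ℝ} (hf : LC f) (hg : LC g) :
    LC fun z : Bool × ι → ℤ => f (side z false) * g (side z true) := by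
  refine ⟨fun z => mul_pos (hf.1 _) (hg.1 _), fun T w => ?_⟩
  set x := side T false
  set y := side T true
  have h1 : f x * bil f x (fun i => w (false, i)) (fun i => w (false, i)) ≤
    lin f x (fun i => w (false, i)) ^ 2 := hf.2 _ _
  have h2 : g y * bil g y (fun i => w (true, i)) (fun i => w (true, i)) ≤
    lin g y (fun i => w (true, i)) ^ 2 := hg.2 _ _
  have e1 : ∑ a, w a * (f (side (T + ev a) false) * g (side (T + ev a) true)) =
      g y * lin f x (fun i => w (false, i)) + f x * lin g y (fun i => w (true, i)) := by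
    simp only [Fintype.sum_prod_type, Fintype.sum_bool, side_add_same, side_add_ft, side_add_tf,
      lin, mul_sum]
    rw [add_comm]
    congr 1 <;> exact sum_congr rfl fun i _ => by ring
  have e2 : ∑ a, ∑ b, w a * w b *
      (f (side (T + ev a + ev b) false) * g (side (T + ev a + ev b) true)) =
      f x * bil g y (fun i => w (true, i)) (fun i => w (true, i)) +
        lin f x (fun i => w (false, i)) * lin g y (fun i => w (true, i)) +
        (lin g y (fun i => w (true, i)) * lin f x (fun i => w (false, i)) +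
        g y * bil f x (fun i => w (false, i)) (fun i => w (false, i))) := by
    simp only [Fintype.sum_prod_type, Fintype.sum_bool, side_add_same, side_add_ft, side_add_tf,
      lin, bil, sum_mul_sum, sum_add_distrib]
    simp only [mul_sum]
    congr 1 <;> congr 1 <;> exact sum_congr rfl fun i _ => sum_congr rfl fun j _ => by ring
  simp only
  rw [e1, e2]
  have h3 := mul_le_mul_of_nonneg_left h1 (sq_nonneg (g y))
  have h4 := mul_le_mul_of_nonneg_left h2 (sq_nonneg (f x))
  nlinarith

/-- The exponential of minus the distance to a base polytope. -/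
theorem lc_dist {r : Finset ι → ℤ} (hr : Sub r) {t : ℝ} (ht : 0 ≤ t) :
    LC fun α : ι → ℤ => Real.exp (-t * (dist r α : ℝ)) := by
  refine ⟨fun z => Real.exp_pos _, fun T w => ?_⟩
  obtain ⟨c, R, _, hs, htr, h1, h2⟩ := dp_struct hr T
  set F := Real.exp (-t * (dist r T : ℝ)) with hF
  set d : ι → ℝ := fun a => Real.exp (-t * (2 * (c a : ℝ) - 1)) with hd
  set lam := Real.exp (-t * 2) with hlam
  have hl : lam ≤ 1 := Real.exp_le_one_iff.2 (by linarith)
  have e1 : ∀ a, Real.exp (-t * (dist r (T + ev a) : ℝ)) = F * d a := by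
    intro a
    simp only [hF, hd, ← Real.exp_add, dist, h1, sum_add_ev, mem_univ, if_true]
    congr 1
    push_cast
    ring
  have e2 : ∀ a b, Real.exp (-t * (dist r (T + ev a + ev b) : ℝ)) =
      F * d a * d b * if R a b then lam else 1 := by
    intro a b
    by_cases hab : R a b
    · simp only [hF, hd, hlam, ← Real.exp_add, dist, h2, sum_add_ev, mem_univ, if_true, if_pos hab]
      congr 1
      push_cast
      ring
    · simp only [hF, hd, ← Real.exp_add, dist, h2, sum_add_ev, mem_univ, if_true, if_neg hab,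
        mul_one]
      congr 1
      push_cast
      ring
  simp only [e1, e2]
  have h3 := per_psd R hs htr fun a => w a * d a
  have e3 : (∑ a, w a * (F * d a)) ^ 2 -
      F * ∑ a, ∑ b, w a * w b * (F * d a * d b * if R a b then lam else 1) =
      F ^ 2 * (1 - lam) * ∑ a, ∑ b, if R a b then w a * d a * (w b * d b) else 0 := by
    rw [sq, sum_mul_sum]
    simp only [mul_sum, ← sum_sub_distrib]
    refine sum_congr rfl fun a _ => sum_congr rfl fun b _ => ?_
    split_ifs <;> ring
  have h4 := mul_nonneg (mul_nonneg (sq_nonneg F) (sub_nonneg.2 hl)) h3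
  linarith

theorem lc_DD {r : Bool → Finset ι → ℤ} (hr : ∀ s, Sub (r s)) {t : ℝ} (ht : 0 ≤ t) :
    LC fun z : Bool × ι → ℤ => Real.exp (-t * (DD r z : ℝ)) := by
  have := (lc_dist (hr false) ht).prod (lc_dist (hr true) ht)
  refine (congrArg LC ?_).mp this
  funext z
  rw [← Real.exp_add, DD]
  push_cast
  ring_nf

end Crest.Agent.R302
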