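import Crest.Agent.R309.Tape

/-!
# Row 302: sampling from a table of rational weights, refined uniformly inside blocks
-/

set_option autoImplicit false

namespace Crest.Agent.R302

open Finset Crest.Agent.R309 Crest.Agent.Lib.PolyTime

/-- An index drawn with probability almost proportional to the table `p`, from `k` bits. -/
def pick (p : List ℚ) (k : ℕ) (u : List Bool) : ℕ :=
  (List.range (p.length - 1)).countP fun i =>
    decide (2 ^ k * (p.take (i + 1)).sum ≤ (toNat (u.take k) : ℚ) * p.sum)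

/-- A point of `[-ℓ G, ℓ G)`: a block drawn from the table (of length `2 G`) and a uniform offset;
uses `k + b` bits. -/
def blockS (p : List ℚ) (G ℓ k b : ℕ) (u : List Bool) : ℤ :=
  (ℓ : ℤ) * ((pick p k u : ℤ) - G) + ((toNat ((u.drop k).take b) % ℓ : ℕ) : ℤ)

theorem pick_lt {p : List ℚ} (hp : p ≠ []) (k : ℕ) (u : List Bool) : pick p k u < p.length := by
  have h1 : pick p k u ≤ (List.range (p.length - 1)).length := List.countP_le_length
  have h2 := List.length_pos_iff.2 hp
  rw [List.length_range] at h1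
  omega

namespace Pick

theorem countP_lt (i m : ℕ) : (List.range m).countP (fun j => decide (j < i)) = min i m := by
  induction m with
  | zero => simp
  | succ m ih =>
    rw [List.range_succ, List.countP_append, ih, List.countP_singleton]
    split_ifs with h
    · simp only [decide_eq_true_eq] at h
      omega
    · simp only [decide_eq_true_eq] at h
      omega

theorem sum_take_succ (p : List ℚ) (i : ℕ) :
    (p.take (i + 1)).sum = (p.take i).sum + p.getD i 0 := by
  induction p generalizing i with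
  | nil => simp
  | cons a p ih =>
    cases i with
    | zero => simp
    | succ i =>
      rw [List.take_succ_cons, List.sum_cons, ih, List.take_succ_cons, List.sum_cons,
        List.getD_cons_succ, add_assoc]

theorem getD_nonneg {p : List ℚ} (hp : ∀ a ∈ p, 0 < a) (i : ℕ) : 0 ≤ p.getD i 0 := by
  by_cases hi : i < p.length
  · rw [List.getD_eq_getElem _ _ hi]
    exact (hp _ (List.getElem_mem hi)).le
  · rw [List.getD_eq_default _ _ (not_lt.1 hi)]

theorem mono_take {p : List ℚ} (hp : ∀ a ∈ p, 0 < a) : Monotone fun i => (p.take i).sum :=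
  monotone_nat_of_le_succ fun i => by
    rw [sum_take_succ]
    linarith [getD_nonneg hp i]

/-- the value of `pick` as a function of the random number -/
def cnt (p : List ℚ) (k N : ℕ) : ℕ :=
  (List.range (p.length - 1)).countP fun i =>
    decide (2 ^ k * (p.take (i + 1)).sum ≤ (N : ℚ) * p.sum)

theorem cnt_eq {p : List ℚ} (hp : ∀ a ∈ p, 0 < a) {k N i : ℕ} (hi : i < p.length)
    (h1 : 2 ^ k * (p.take i).sum ≤ (N : ℚ) * p.sum)
    (h2 : (N : ℚ) * p.sum < 2 ^ k * (p.take (i + 1)).sum) : cnt p k N = i := by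
  have h0 : (0 : ℚ) < 2 ^ k := by positivity
  rw [cnt, List.countP_congr (q := fun j => decide (j < i)), countP_lt]
  · omega
  · intro j _
    simp only [decide_eq_true_eq]
    constructor
    · intro h
      by_contra hj
      have : (p.take (i + 1)).sum ≤ (p.take (j + 1)).sum := mono_take hp (by omega)
      nlinarith
    · intro h
      have : (p.take (j + 1)).sum ≤ (p.take i).sum := mono_take hp (by omega)
      nlinarith

theorem cnt_iff {p : List ℚ} (hp : ∀ a ∈ p, 0 < a) {k N i : ℕ} (hi : i < p.length)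
    (hN : N < 2 ^ k) : cnt p k N = i ↔ 2 ^ k * (p.take i).sum ≤ (N : ℚ) * p.sum ∧
      (N : ℚ) * p.sum < 2 ^ k * (p.take (i + 1)).sum := by
  refine ⟨fun h => ?_, fun h => cnt_eq hp hi h.1 h.2⟩
  have hs : 0 < p.sum := List.sum_pos _ hp (List.length_pos_iff.1 (by omega))
  have hN' : (N : ℚ) < 2 ^ k := by exact_mod_cast hN
  have hl : (N : ℚ) * p.sum < 2 ^ k * (p.take (p.length - 1 + 1)).sum := by
    rw [List.take_of_length_le (by omega)]
    nlinarith
  have hex : ∃ j, (N : ℚ) * p.sum < 2 ^ k * (p.take (j + 1)).sum := ⟨_, hl⟩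
  have h2 := Nat.find_spec hex
  have h3 : Nat.find hex ≤ p.length - 1 := Nat.find_min' hex hl
  have h1 : 2 ^ k * (p.take (Nat.find hex)).sum ≤ (N : ℚ) * p.sum := by
    rcases e : Nat.find hex with _ | j
    · simp only [List.take_zero, List.sum_nil, mul_zero]
      positivity
    · exact not_lt.1 (Nat.find_min hex (by omega))
  have h4 := cnt_eq hp (by omega) h1 h2
  rw [h] at h4
  rw [h4]
  exact ⟨h1, h2⟩

theorem ind_and (P Q : Prop) : ind (P ∧ Q) = ind P * ind Q := by
  by_cases hP : P <;> by_cases hQ : Q <;> simp [ind, hP, hQ]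

theorem ind_congr {P Q : Prop} (h : P ↔ Q) : ind P = ind Q := by rw [propext h]

end Pick

open Pick

theorem pick_law {p : List ℚ} (hp : ∀ a ∈ p, 0 < a) {k n i : ℕ} (hk : k ≤ n) (hi : i < p.length) :
    |Pr n (fun u => pick p k u = i) - (p.getD i 0 : ℝ) / (p.sum : ℝ)| ≤ 1 / 2 ^ k := by
  classical
  have hs : 0 < p.sum := List.sum_pos _ hp (List.length_pos_iff.1 (by omega))
  set a : ℚ := 2 ^ k * (p.take i).sum / p.sum with ha
  set b : ℚ := 2 ^ k * (p.take (i + 1)).sum / p.sum with hb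
  have ha0 : 0 ≤ a := by
    have : (p.take 0).sum ≤ (p.take i).sum := mono_take hp (Nat.zero_le _)
    simp only [List.take_zero, List.sum_nil] at this
    positivity
  have hba : b - a = 2 ^ k * (p.getD i 0 / p.sum) := by
    rw [ha, hb, sum_take_succ]
    ring
  have hab : a ≤ b := by
    have := getD_nonneg hp i
    rw [← sub_nonneg, hba]
    positivity
  have hbk : b ≤ (2 ^ k : ℕ) := by
    have : (p.take (i + 1)).sum ≤ (p.take p.length).sum := mono_take hp (by omega)
    rw [List.take_length] at this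
    rw [hb, div_le_iff₀ hs]
    push_cast
    gcongr
  have h1 : Pr n (fun u => pick p k u = i) = ((⌈b⌉₊ : ℝ) - ⌈a⌉₊) / 2 ^ k := by
    refine (Ex_take hk fun u => ind (cnt p k (toNat u) = i)).trans ?_
    rw [Ex_toNat k fun N => ind (cnt p k N = i)]
    congr 1
    have e : ∀ N ∈ range (2 ^ k), ind (cnt p k N = i) = if N ∈ Ico ⌈a⌉₊ ⌈b⌉₊ then 1 else 0 := by
      intro N hN
      rw [ind_congr (cnt_iff hp hi (mem_range.1 hN)), ind]
      congr 1
      rw [mem_Ico, Nat.ceil_le, Nat.lt_ceil, ha, hb, div_le_iff₀ hs, lt_div_iff₀ hs]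
    rw [sum_congr rfl e, sum_boole, filter_mem_eq_inter, inter_eq_right.2, Nat.card_Ico,
      Nat.cast_sub (Nat.ceil_mono hab)]
    intro N hN
    exact mem_range.2 ((mem_Ico.1 hN).2.trans_le (Nat.ceil_le.2 hbk))
  have h2 : |((⌈b⌉₊ : ℚ) - ⌈a⌉₊) / 2 ^ k - p.getD i 0 / p.sum| ≤ 1 / 2 ^ k := by
    have e : ((⌈b⌉₊ : ℚ) - ⌈a⌉₊) / 2 ^ k - p.getD i 0 / p.sum
        = ((⌈b⌉₊ : ℚ) - ⌈a⌉₊ - (b - a)) / 2 ^ k := by
      rw [hba]
      field_simp
    rw [e, abs_div, abs_of_pos (by positivity : (0 : ℚ) < 2 ^ k)]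
    gcongr
    have := Nat.le_ceil a
    have := Nat.le_ceil b
    have := Nat.ceil_lt_add_one ha0
    have := Nat.ceil_lt_add_one (ha0.trans hab)
    rw [abs_le]
    constructor <;> linarith
  have h3 := (Rat.cast_le (K := ℝ)).2 h2
  rw [h1]
  push_cast at h3 ⊢
  exact h3

theorem blockS_mem {p : List ℚ} {G ℓ : ℕ} (hG : 0 < G) (hlen : p.length = 2 * G) (hℓ : 0 < ℓ)
    (k b : ℕ) (u : List Bool) :
    -((ℓ : ℤ) * G) ≤ blockS p G ℓ k b u ∧ blockS p G ℓ k b u ≤ (ℓ : ℤ) * G - 1 := by
  have h1 : pick p k u + 1 ≤ 2 * G := by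
    have := pick_lt (p := p) (List.length_pos_iff.1 (by omega)) k u
    omega
  have h2 : toNat ((u.drop k).take b) % ℓ + 1 ≤ ℓ := Nat.mod_lt _ hℓ
  unfold blockS
  generalize pick p k u = x at h1
  generalize toNat ((u.drop k).take b) % ℓ = r at h2
  have h3 : (x : ℤ) + 1 ≤ 2 * G := by exact_mod_cast h1
  have h4 : (r : ℤ) + 1 ≤ ℓ := by exact_mod_cast h2
  have h5 : (0 : ℤ) ≤ ℓ := Int.natCast_nonneg _
  have h6 : (0 : ℤ) ≤ x := Int.natCast_nonneg _
  have h7 : (0 : ℤ) ≤ r := Int.natCast_nonneg _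
  constructor <;> nlinarith [mul_nonneg h5 h6, mul_le_mul_of_nonneg_left h3 h5]

theorem blockS_law {p : List ℚ} (hp : ∀ a ∈ p, 0 < a) {G j k b n : ℕ} (hlen : p.length = 2 * G)
    (hj : j ≤ b) (hn : k + b ≤ n) {v : ℤ} (h1 : -((2 ^ j : ℕ) * G : ℤ) ≤ v)
    (h2 : v ≤ ((2 ^ j : ℕ) : ℤ) * G - 1) :
    |Pr n (fun u => blockS p G (2 ^ j) k b u = v) -
        (p.getD (v / ((2 ^ j : ℕ) : ℤ) + G).toNat 0 : ℝ) / (p.sum : ℝ) / 2 ^ j| ≤
      1 / 2 ^ k / 2 ^ j := by
  classical
  have hℓ : 0 < 2 ^ j := by positivity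
  have hℓ' : (0 : ℤ) < ((2 ^ j : ℕ) : ℤ) := by exact_mod_cast hℓ
  have hq1 : -(G : ℤ) ≤ v / ((2 ^ j : ℕ) : ℤ) := Int.le_ediv_of_mul_le hℓ' (by linarith)
  have hq2 : v / ((2 ^ j : ℕ) : ℤ) < G := Int.ediv_lt_of_lt_mul hℓ' (by linarith)
  have hr1 := Int.emod_nonneg v hℓ'.ne'
  have hr2 := Int.emod_lt_of_pos v hℓ'
  obtain ⟨i, hi⟩ := Int.eq_ofNat_of_zero_le (show 0 ≤ v / ((2 ^ j : ℕ) : ℤ) + G by linarith)
  obtain ⟨r, hr⟩ := Int.eq_ofNat_of_zero_le hr1
  have hiG : i < p.length := by omega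
  have hrl : r < 2 ^ j := by omega
  have key : ∀ u, blockS p G (2 ^ j) k b u = v ↔
      cnt p k (toNat (u.take k)) = i ∧ toNat ((u.drop k).take b) % 2 ^ j = r := by
    intro u
    have h3 : toNat ((u.drop k).take b) % 2 ^ j < 2 ^ j := Nat.mod_lt _ hℓ
    change ((2 ^ j : ℕ) : ℤ) * ((cnt p k (toNat (u.take k)) : ℤ) - G) +
      ((toNat ((u.drop k).take b) % 2 ^ j : ℕ) : ℤ) = v ↔ _
    generalize cnt p k (toNat (u.take k)) = x
    generalize toNat ((u.drop k).take b) % 2 ^ j = y at h3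
    constructor
    · intro h
      have := (Int.ediv_emod_unique (a := v) (r := y) (q := x - G) hℓ').2
        ⟨by linarith, Int.natCast_nonneg _, by exact_mod_cast h3⟩
      omega
    · rintro ⟨rfl, rfl⟩
      have := Int.mul_ediv_add_emod v ((2 ^ j : ℕ) : ℤ)
      rw [← hi, ← hr]
      linarith
  have e1 : Pr n (fun u => blockS p G (2 ^ j) k b u = v) =
      Pr k (fun u => pick p k u = i) / 2 ^ j := by
    unfold Pr
    simp only [key, ind_and]
    rw [Ex_split (by omega) fun u w => ind (cnt p k (toNat u) = i) *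
      ind (toNat (w.take b) % 2 ^ j = r)]
    simp only [Ex_mul_left]
    rw [Ex_mul_right, Ex_take (by omega) fun w => ind (toNat w % 2 ^ j = r),
      Ex_toNat_mod hj fun N => ind (N = r)]
    have e : ∑ N ∈ range (2 ^ j), ind (N = r) = 1 := by
      rw [sum_eq_single_of_mem r (mem_range.2 hrl) fun N _ hN => ind_false hN, ind_true rfl]
    rw [e, mul_one_div]
    congr 1
    exact (Ex_take le_rfl fun u => ind (cnt p k (toNat u) = i)).symm
  rw [e1, hi, Int.toNat_natCast, ← sub_div, abs_div, abs_of_pos (by positivity : (0 : ℝ) < 2 ^ j)]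
  gcongr
  exact pick_law hp le_rfl hiG

/-- Averages over seeds are averages over tapes. -/
theorem Ex_ofFn (B : ℕ) (F : List Bool → ℝ) :
    Ex B F = (∑ u : Fin B → Bool, F (List.ofFn u)) / Fintype.card (Fin B → Bool) := by
  simp [R309.Ex]

section poly
variable {α : Type} [PEnc α]

theorem poly_pick {p : α → List ℚ} {k : α → ℕ} {u : α → List Bool} (hp : Poly p) (hk : Poly k)
    (bk : PB k) (hu : Poly u) : Poly fun a => pick (p a) (k a) (u a) := by
  unfold pick
  fun_prop

theorem poly_blockS {p : α → List ℚ} {G ℓ k b : α → ℕ} {u : α → List Bool} (hp : Poly p)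
    (hG : Poly G) (hℓ : Poly ℓ) (hk : Poly k) (bk : PB k) (hb : Poly b) (hu : Poly u) :
    Poly fun a => blockS (p a) (G a) (ℓ a) (k a) (b a) (u a) := by
  have := poly_pick hp hk bk hu
  unfold blockS
  fun_prop

end poly

end Crest.Agent.R302
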