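import Crest.Agent.R302.Defs
import Crest.Agent.R302.Pick
import Crest.Agent.R302.Anneal

/-!
# Row 302: the annealed pseudo-marginal chain

`Raw` is the output of the preprocessing: for every side `a` an arc `(a, pa a)` of symmetric
capacity `cf a` at a centre, and a Kruskal forest (`rt`, `Pf`) of the arcs of large capacity.
-/

set_option autoImplicit false

namespace Crest.Agent.R302

open Finset Crest.Agent.R309 Crest.Agent.Lib.PolyTime

/-- The preprocessed data. -/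
structure Raw where
  nU : Un
  mU : Un
  L0 : Un
  par : List ℕ
  c : List ℕ
  root : List ℕ
  P : List (List ℤ)

/-- The fields as a tuple. -/
def Raw.tup (R : Raw) := (R.nU, R.mU, R.L0, R.par, R.c, R.root, R.P)

theorem Raw.tup_inj : Function.Injective Raw.tup := by
  intro a b h
  cases a; cases b
  simp only [Raw.tup, Prod.mk.injEq] at h
  simp [h]

instance : PEnc Raw := PEnc.ofInj Raw.tup Raw.tup_inj

/-- Bits for a block sample. -/
def Bb (m : ℕ) : ℕ := m ^ 7 + m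
/-- Bits of a seed. -/
def Bξ (n m : ℕ) : ℕ := 2 * n * Bb m
/-- Bits for a proposal. -/
def Bprop (n m : ℕ) : ℕ := 2 * (2 * n).size + 2 + m.size + m + Bξ n m
/-- Bits for the whole estimator. -/
def Btot (n m : ℕ) : ℕ :=
  m ^ 9 * (m ^ 35 * (n * Bb m + Bξ n m + (m ^ 9 + 1) * (m ^ 310 * (1 + Bprop n m + m ^ 2))))

namespace Raw

variable (R : Raw)

/-- Size of the ground set. -/
abbrev n : ℕ := R.nU.n
/-- The master parameter. -/
abbrev m : ℕ := R.mU.n
/-- Ground set. -/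
abbrev E : Type := Fin R.n
/-- Sides. -/
abbrev V : Type := Bool × Fin R.n
/-- Extended states: a state and a seed. -/
abbrev X : Type := (R.V → ℤ) × (Fin (Bξ R.n R.m) → Bool)

/-- Number of a side. -/
def idx (a : R.V) : ℕ := if a.1 then R.n + a.2 else a.2
/-- The element with number `k` (default `d`). -/
def el (d : R.E) (k : ℕ) : R.E := if h : k < R.n then ⟨k, h⟩ else d
/-- Parent element of a side. -/
def parf (a : R.V) : R.E := R.el a.2 (R.par.getD (R.idx a) 0)
/-- Parent side. -/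
def pa (a : R.V) : R.V := (a.1, R.parf a)
/-- Capacity of the arc to the parent. -/
def cf (a : R.V) : ℕ := R.c.getD (R.idx a) 0
/-- The arcs that carry a kernel. -/
def ker (a : R.V) : Prop := R.m ^ 9 ≤ R.cf a
instance (a : R.V) : Decidable (R.ker a) := inferInstanceAs (Decidable (_ ≤ _))
/-- Block length of the kernel. -/
def ℓ (a : R.V) : ℕ := 2 ^ Nat.log 2 (R.cf a / R.m ^ 9)
/-- Number of blocks on each side. -/
def G : ℕ := R.m ^ 7
/-- Half-width of the kernel. -/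
def Jw (a : R.V) : ℕ := if R.ker a then R.ℓ a * R.G else 0
/-- Root of the cluster of an element. -/
def rt (d : R.E) : R.E := R.el d (R.root.getD d 0)
/-- Coefficient of the arc `a` in the path from `d` to its root. -/
def Pf (d : R.E) (a : R.V) : ℤ := (R.P.getD d []).getD (R.idx a) 0
/-- Displacement along the arcs. -/
def sh (ξ : R.V → ℤ) : R.V → ℤ := shf R.pa ξ
/-- The displacement that moves a defect from `d` to its root. -/
def pth (d : R.E) : R.V → ℤ := R.sh (R.Pf d)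
/-- A unit at the side `h`, moved to the root. -/
def γ (h : R.V) : R.V → ℤ := ev h + R.pth h.2

/-- The base of the weights. -/
def ϱ : ℚ := 1 + 1 / (R.m : ℚ)
/-- Table of the kernels. -/
def tabK : List ℚ :=
  (List.range (2 * R.G)).map fun i : ℕ => 1 / (R.ϱ ^ ((i : ℤ) - R.G) + R.ϱ ^ (-((i : ℤ) - R.G)))
/-- Table of the initial distribution. -/
def tab0 : List ℚ := (List.range (2 * R.G)).map fun i : ℕ => R.ϱ ^ (-|(i : ℤ) - R.G|)
/-- The displacement coefficients read off from a seed. -/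
def dec (u : List Bool) (a : R.V) : ℤ :=
  if R.ker a then blockS R.tabK R.G (R.ℓ a) (R.m ^ 7) R.m (blk (Bb R.m) (R.idx a) u) else 0
/-- Block length of the initial distribution. -/
def ℓ0 : ℕ := 2 ^ (R.L0.n + 1)
/-- Lower end of the box. -/
def lo : ℤ := -((R.ℓ0 : ℤ) * R.G)
/-- Upper end of the box. -/
def hi : ℤ := (R.ℓ0 : ℤ) * R.G - 1

/-- Number of the class with tail `e` and head `d`. -/
def cn (e d : R.E) : ℕ := if e = d then 0 else 1 + (e : ℕ) * R.n + d
/-- The class of a state. -/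
def cls (z : R.V → ℤ) : ℕ :=
  ∑ e, ∑ d, if R.rt e = e ∧ R.rt d = d ∧ ps z = ev d - ev e then R.cn e d else 0
/-- Valid states. -/
def valid (z : R.V → ℤ) : Prop :=
  (∀ i, R.lo ≤ z (false, i) ∧ z (false, i) ≤ R.hi) ∧
    ∃ e d, R.rt e = e ∧ R.rt d = d ∧ ps z = ev d - ev e
instance (z : R.V → ℤ) : Decidable (R.valid z) := by unfold valid; infer_instance

/-- The inverse temperature (in units of `log ϱ`) at stage `j`. -/
def τ (j : ℕ) : ℚ :=
  min (1 / (2 * (R.ℓ0 : ℚ)) * (1 + 1 / (R.m : ℚ) ^ 8) ^ j) ((R.m : ℚ) ^ 4)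
/-- The weight of a hub at distance `k`. -/
def hw (j : ℕ) (k : ℤ) : ℚ := (1 / R.ϱ) ^ min (R.m ^ 8) ⌊R.τ j * k⌋₊
/-- The weight of an extended state; `D` is the distance function. -/
def wt (D : (R.V → ℤ) → ℤ) (j : ℕ) (x : R.X) : ℚ :=
  if R.valid x.1 then R.hw j (D (x.1 - R.sh (R.dec (List.ofFn x.2)))) else 0

/-- A seed from a tape. -/
def seed (u : List Bool) : Fin (Bξ R.n R.m) → Bool := fun i => u.getD i false
/-- The signed step of a proposal: `2 ^ i` or uniform in `[0, 2 ^ i)`. -/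
def stp (u : List Bool) : ℤ :=
  (if u.getD 0 false then 1 else -1) *
    ((if u.getD 1 false then 2 ^ toNat ((u.drop 2).take R.m.size)
      else toNat ((u.drop (2 + R.m.size)).take R.m) % 2 ^ toNat ((u.drop 2).take R.m.size) : ℕ) : ℤ)
/-- The proposal: two sides, a signed step and a fresh seed. -/
def prop (u : List Bool) : R.X :=
  (∑ h, ∑ h', (if R.idx h = toNat (u.take (2 * R.n).size) ∧
        R.idx h' = toNat ((u.drop (2 * R.n).size).take (2 * R.n).size) then
      R.stp (u.drop (2 * (2 * R.n).size)) else 0) • (R.γ h - R.γ h'),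
    R.seed (u.drop (2 * (2 * R.n).size + 2 + R.m.size + R.m)))
/-- The initial state. -/
def init (u : List Bool) : R.X :=
  (lf 0 fun d => blockS R.tab0 R.G R.ℓ0 (R.m ^ 7) R.m (blk (Bb R.m) d u),
    R.seed (u.drop (R.n * Bb R.m)))

/-- The annealing scheme. -/
def ann (D : (R.V → ℤ) → ℤ) : AData R.X where
  w := R.wt D
  cl x := R.cls x.1
  nC := R.n ^ 2 + 1
  prop := R.prop
  Bp := Bprop R.n R.m
  ba := R.m ^ 2
  init := R.init
  Bi := R.n * Bb R.m + Bξ R.n R.m
  Ls := R.m ^ 9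
  Tn := R.m ^ 310
  Rs := R.m ^ 35
  C0 := ((R.ℓ0 : ℚ) * R.tab0.sum) ^ R.n

theorem ann_Btot (D : (R.V → ℤ) → ℤ) : (R.ann D).Btot = Btot R.n R.m := rfl

/-- The estimator. -/
def est (D : (R.V → ℤ) → ℤ) (u : List Bool) : ℚ := (R.ann D).est u

/-- The valid states. -/
noncomputable def Ωz : Finset (R.V → ℤ) :=
  (Fintype.piFinset fun a : R.V => Icc (R.lo - 2) (R.hi + 2)).filter R.valid
/-- The extended state space. -/
noncomputable def Ω : Finset R.X := R.Ωz ×ˢ univ
/-- The classes in use. -/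
def act : Finset ℕ :=
  ((univ : Finset (R.E × R.E)).filter fun p => R.rt p.1 = p.1 ∧ R.rt p.2 = p.2).image
    fun p => R.cn p.1 p.2

open Classical in
/-- The number to be estimated. -/
noncomputable def cnt (r : Bool → Finset R.E → ℤ) : ℕ :=
  ((box R.E R.lo R.hi).filter fun x => InB (r false) x ∧ InB (r true) (-x)).card

/-- What the preprocessing guarantees; `x` is the centre, `Rm` bounds the set functions and `κ` is
the accuracy parameter. -/
structure Valid (r : Bool → Finset R.E → ℤ) (x : Bool → R.E → ℝ) (Rm κ : ℕ) : Prop where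
  n_pos : 1 ≤ R.n
  sub : ∀ s, Sub (r s)
  tot : r false univ + r true univ = 0
  bnd : ∀ s A, |r s A| ≤ Rm
  l1 : ∀ s y, InB (r s) y → ∑ i, |y i| ≤ Rm
  ex : ∃ y, InB (r false) y ∧ InB (r true) (-y)
  cen : ∀ s, InB (cr (r s)) (x s)
  dfc : ∑ i, |x false i + x true i| ≤ 2
  cp : ∀ τ : ℝ, (R.m : ℝ) ≤ τ → ∀ s p q, Arc (cr (r s)) (x s) τ p q →
    Reach (XG (fun s => cr (r s)) x τ) q p → Sym (cr (r s)) (x s) (τ / R.m) p q
  arc : ∀ a, R.cf a ≠ 0 → R.parf a < a.2 ∧ Sym (cr (r a.1)) (x a.1) (R.cf a) a.2 (R.parf a) ∧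
    ∀ p, p < R.parf a → ¬ Sym (cr (r a.1)) (x a.1) (R.cf a) a.2 p
  cmax : ∀ (a : R.V) (p : R.E), p < a.2 → ¬ Sym (cr (r a.1)) (x a.1) ((R.cf a + 1 : ℕ) : ℝ) a.2 p
  c_le : ∀ a, R.cf a ≤ 3 * Rm
  ps_pth : ∀ d, ps (R.pth d) = ev (R.rt d) - ev d
  P_abs : ∀ d a, |R.Pf d a| ≤ 1
  P_ker : ∀ d a, R.Pf d a ≠ 0 → R.ker a
  rt_rt : ∀ d, R.rt (R.rt d) = R.rt d
  P_root : ∀ d, R.rt d = d → R.Pf d = 0
  ker_rt : ∀ a, R.ker a → R.rt a.2 = R.rt (R.parf a)
  P_mono : ∀ a g, R.ker a → R.Pf a.2 g ≠ R.Pf (R.parf a) g → R.cf a ≤ R.cf g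
  one_le : 1 ≤ κ
  hm : 10000 * (R.n + 2) ^ 10 * (R.L0.n + 1) * κ ≤ R.m
  hR : Rm + 2 ≤ 2 ^ R.L0.n

/-! ## Objects of the analysis -/

/-- The inverse temperature. -/
noncomputable def tt (j : ℕ) : ℝ := (R.τ j : ℝ) * Real.log R.ϱ
/-- Lower end of the support of a kernel. -/
def klo (a : R.V) : ℤ := -(R.Jw a : ℤ)
/-- Upper end of the support of a kernel. -/
def khi (a : R.V) : ℤ := if R.ker a then (R.Jw a : ℤ) - 1 else 0
/-- Inverse scale of a kernel. -/
noncomputable def hh (a : R.V) : ℝ := Real.log R.ϱ / R.ℓ a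
/-- The ideal kernel. -/
noncomputable def ψ (a : R.V) (k : ℤ) : ℝ :=
  (Real.cosh (k * R.hh a))⁻¹ / ∑ j ∈ Icc (R.klo a) (R.khi a), (Real.cosh (j * R.hh a))⁻¹
/-- The support of the kernels. -/
noncomputable def kbox : Finset (R.V → ℤ) := Fintype.piFinset fun a => Icc (R.klo a) (R.khi a)
/-- The ideal weight. -/
noncomputable def φ (r : Bool → Finset R.E → ℤ) (j : ℕ) (z : R.V → ℤ) : ℝ :=
  ∑ ξ ∈ R.kbox, (∏ a, R.ψ a (ξ a)) * Real.exp (-R.tt j * (DD r (z - R.sh ξ) : ℝ))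
/-- The marginal weight of the chain (ignoring validity). -/
noncomputable def ph (r : Bool → Finset R.E → ℤ) (j : ℕ) (z : R.V → ℤ) : ℝ :=
  Ex (Bξ R.n R.m) fun u => (R.hw j (DD r (z - R.sh (R.dec u))) : ℝ)
/-- The threshold below which weights are negligible. -/
noncomputable def thr : ℝ := 1 / 2 ^ R.m ^ 5
/-- The effect of the cap on the exponent. -/
noncomputable def cap : ℝ := 1 / 2 ^ R.m ^ 6
/-- Total ideal weight of the states with pair sums `t`. -/
noncomputable def N (r : Bool → Finset R.E → ℤ) (j : ℕ) (t : R.E → ℤ) : ℝ :=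
  NN (R.φ r j) R.lo R.hi t
/-- Threshold for the active arcs. -/
def θ (j : ℕ) : ℕ := R.m ^ 9 + ⌈(R.m : ℚ) ^ 5 / R.τ j⌉₊
/-- The high temperature regime. -/
def hot (j : ℕ) : Prop := (R.m : ℚ) ^ 4 * R.τ j ≤ 1
instance (j : ℕ) : Decidable (R.hot j) := inferInstanceAs (Decidable (_ ≤ _))
/-- Length of the coordinate smoothing. -/
def qs (j : ℕ) : ℕ := if R.hot j then 2 ^ Nat.log 2 ⌊1 / R.τ j⌋₊ else 1
/-- The smoothing directions. -/
def dir (j : ℕ) : R.V ⊕ R.E → R.V → ℤ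
  | .inl a => if R.θ j ≤ R.cf a then R.γ a - R.γ (R.pa a) else 0
  | .inr d => if R.hot j then ev (false, d) - ev (true, d) else 0
/-- The smoothing lengths. -/
def len (j : ℕ) : R.V ⊕ R.E → ℕ
  | .inl a => if R.θ j ≤ R.cf a then R.ℓ a else 1
  | .inr _ => R.qs j
/-- Normal form: move the defects to the roots, and cancel them at high temperature. -/
def nf (j : ℕ) (z : R.V → ℤ) : R.V → ℤ :=
  z + ∑ d, ps z d • (if R.hot j then R.pth d - ev (true, R.rt d) else R.pth d)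
/-- Windows. -/
noncomputable def ρ (j : ℕ) (h : R.V) : ℝ := (R.m : ℝ) ^ 2 * (max (R.cf h + 1) (R.θ j) : ℕ)
/-- Smoothness scales. -/
noncomputable def σ (b : R.V) : ℝ := 13 / ((R.m : ℝ) * R.ℓ b)
/-- The good leaves for the tail `e`. -/
noncomputable def Gd (r : Bool → Finset R.E → ℤ) (j : ℕ) (e : R.E) : Finset (R.E → ℤ) :=
  (box R.E R.lo R.hi).filter fun x => R.thr ≤ R.φ r j (lf (-ev e) x)
/-- Class weights seen by a worm with tail `e` and head `h`. -/
noncomputable def kap (j : ℕ) (t : List ℚ) (e : R.E) (h : R.V) : ℝ :=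
  if R.hot j then 1 else (t.getD (R.cn (R.rt e) (R.rt h.2)) 0 : ℝ)
/-- Unit ratio bound. -/
noncomputable def Λ (j : ℕ) : ℝ := Real.exp (R.tt j)

/-- A smaller threshold. -/
noncomputable def thr' : ℝ := R.thr / 2 ^ R.m ^ 4
/-- Total marginal weight of the states with pair sums `t`. -/
noncomputable def Zz (r : Bool → Finset R.E → ℤ) (j : ℕ) (t : R.E → ℤ) : ℝ :=
  ∑ x ∈ box R.E R.lo R.hi, R.ph r j (lf t x)
/-- The class weights are within a factor `4` of the ideal ones. -/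
def Good (r : Bool → Finset R.E → ℤ) (j : ℕ) (t : List ℚ) : Prop :=
  (R.ann (DD r)).Good R.Ω R.act j t
/-- The weight of the chain. -/
noncomputable def Wx (r : Bool → Finset R.E → ℤ) (j : ℕ) (t : List ℚ) (z : R.V → ℤ)
    (u : Fin (Bξ R.n R.m) → Bool) : ℝ := ((R.ann (DD r)).W j t (z, u) : ℝ)

/-- The forest of the active arcs at stage `j`. -/
structure IsTree (r : Bool → Finset R.E → ℤ) (x : Bool → R.E → ℝ) (j : ℕ) (T : Tree R.V) :
    Prop where
  par : ∀ a, T.par a = R.pa a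
  root : ∀ a, T.rt a = a ↔ R.cf a < R.θ j
  side : ∀ h q, q ∈ T.S h → q.1 = h.1
  cut : ∀ h p q, (h.1, p) ∈ T.S h → (h.1, q) ∉ T.S h →
    ¬ Sym (cr (r h.1)) (x h.1) ((max (R.cf h + 1) (R.θ j) : ℕ) : ℝ) p q

end Raw

end Crest.Agent.R302
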