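import Crest.Agent.R302.Model
import Crest.Agent.R302.Sand

/-!
# Row 302: numerical facts about the parameters
-/

set_option autoImplicit false
set_option linter.unusedVariables false

namespace Crest.Agent.R302.Raw

open Finset

variable {R : Raw} {r : Bool → Finset R.E → ℤ} {x : Bool → R.E → ℝ} {Rm κ : ℕ}

theorem Valid.m_ge (h : R.Valid r x Rm κ) : 10000 * (R.n + 2) ^ 10 ≤ R.m := by
  refine le_trans ?_ h.hm
  rw [mul_assoc (10000 * (R.n + 2) ^ 10)]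
  exact Nat.le_mul_of_pos_right _ (Nat.mul_pos (Nat.succ_pos _) h.one_le)

theorem Valid.m_ge' (h : R.Valid r x Rm κ) : 10000 * 3 ^ 10 * (R.L0.n + 1) ≤ R.m := by
  refine le_trans ?_ h.hm
  refine le_trans ?_ (Nat.le_mul_of_pos_right _ h.one_le)
  have := h.n_pos
  exact Nat.mul_le_mul_right _ (Nat.mul_le_mul_left _ (Nat.pow_le_pow_left (by omega) _))

theorem Valid.m_geR (h : R.Valid r x Rm κ) : 10000 * ((R.n : ℝ) + 2) ^ 10 * κ ≤ R.m := by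
  have h1 : 10000 * (R.n + 2) ^ 10 * κ ≤ R.m :=
    le_trans (Nat.mul_le_mul_right _ (Nat.le_mul_of_pos_right _ (Nat.succ_pos _))) h.hm
  exact_mod_cast h1

theorem Valid.m_big (h : R.Valid r x Rm κ) : 100 ≤ R.m ∧ 2 * (R.L0.n + 2) ≤ R.m := by
  have := h.m_ge'
  omega

theorem Valid.m_pos (h : R.Valid r x Rm κ) : 0 < R.m := by
  have := h.m_big.1
  omega

theorem Valid.mQ (h : R.Valid r x Rm κ) : (1 : ℚ) ≤ R.m := by exact_mod_cast h.m_pos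

theorem Valid.mR (h : R.Valid r x Rm κ) : (1 : ℝ) ≤ R.m := by exact_mod_cast h.m_pos

theorem ϱ_cast (R : Raw) : (R.ϱ : ℝ) = 1 + 1 / (R.m : ℝ) := by
  unfold ϱ
  push_cast
  rfl

theorem one_le_ϱ (R : Raw) : 1 ≤ R.ϱ := by
  unfold ϱ
  have : (0 : ℚ) ≤ 1 / (R.m : ℚ) := by positivity
  linarith

theorem Valid.ϱ_le_two (h : R.Valid r x Rm κ) : R.ϱ ≤ 2 := by
  unfold ϱ
  have : 1 / (R.m : ℚ) ≤ 1 := (div_le_one (by linarith [h.mQ])).2 h.mQ
  linarith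

theorem ℓ0_pos (R : Raw) : 0 < R.ℓ0 := by unfold ℓ0; positivity

theorem two_ℓ0 (R : Raw) : 2 * R.ℓ0 = 2 ^ (R.L0.n + 2) := by unfold ℓ0; ring

theorem num_pow7 (k : ℕ) (hk : 50 ≤ k) : 128 * k ^ 7 ≤ 2 ^ k := by
  induction k, hk using Nat.le_induction with
  | base => norm_num
  | succ k hk ih =>
    have h1 : ((k + 1) * 50) ^ 7 ≤ (k * 51) ^ 7 := Nat.pow_le_pow_left (by omega) 7
    rw [mul_pow, mul_pow] at h1
    rw [pow_succ 2 k]
    omega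

theorem Valid.width_nat (h : R.Valid r x Rm κ) : 2 * R.ℓ0 * R.m ^ 7 ≤ 2 ^ R.m := by
  obtain ⟨h1, h2⟩ := h.m_big
  obtain ⟨k, hk⟩ : ∃ k, R.m = R.L0.n + 2 + k := ⟨R.m - (R.L0.n + 2), by omega⟩
  have h3 : R.m ^ 7 ≤ (2 * k) ^ 7 := Nat.pow_le_pow_left (by omega) 7
  have h4 := num_pow7 k (by omega)
  rw [mul_pow] at h3
  have h5 : R.m ^ 7 ≤ 2 ^ k := by omega
  calc 2 * R.ℓ0 * R.m ^ 7 ≤ 2 ^ (R.L0.n + 2) * 2 ^ k := by
        rw [two_ℓ0]; exact Nat.mul_le_mul_left _ h5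
    _ = 2 ^ R.m := by rw [← pow_add, ← hk]

theorem num_bernoulli {M : ℕ} (hM : 0 < M) : (2 : ℚ) ≤ (1 + 1 / (M : ℚ)) ^ M := by
  have h0 : (0 : ℚ) < M := by exact_mod_cast hM
  have h1 : (0 : ℚ) ≤ 1 / (M : ℚ) := by positivity
  refine le_trans (le_of_eq ?_) (one_add_mul_le_pow (by linarith) M)
  field_simp
  norm_num

theorem Valid.log_ϱ (h : R.Valid r x Rm κ) :
    1 / (2 * (R.m : ℝ)) ≤ Real.log R.ϱ ∧ Real.log R.ϱ ≤ 1 / (R.m : ℝ) := by
  have hm := h.mR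
  have h0 : (0 : ℝ) < R.m := by linarith
  have h1 : (0 : ℝ) < R.ϱ := by rw [ϱ_cast]; positivity
  constructor
  · refine le_trans ?_ (Real.one_sub_inv_le_log_of_pos h1)
    rw [ϱ_cast]
    have : 1 - (1 + 1 / (R.m : ℝ))⁻¹ = 1 / (R.m + 1) := by field_simp; ring
    rw [this]
    exact one_div_le_one_div_of_le (by positivity) (by linarith)
  · refine le_trans (Real.log_le_sub_one_of_pos h1) ?_
    rw [ϱ_cast]
    linarith

theorem Valid.two_le_ϱ_pow (h : R.Valid r x Rm κ) : 2 ≤ R.ϱ ^ R.m := by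
  exact num_bernoulli h.m_pos

theorem Valid.τ_ge (h : R.Valid r x Rm κ) (j : ℕ) : 1 / (2 * (R.ℓ0 : ℚ)) ≤ R.τ j := by
  have h0 : (1 : ℚ) ≤ R.ℓ0 := by exact_mod_cast R.ℓ0_pos
  refine le_min (le_mul_of_one_le_right (by positivity) (one_le_pow₀ ?_)) ?_
  · have : (0 : ℚ) ≤ 1 / (R.m : ℚ) ^ 8 := by positivity
    linarith
  · exact le_trans ((div_le_one (by linarith)).2 (by linarith)) (one_le_pow₀ h.mQ)

theorem Valid.τ_pos (h : R.Valid r x Rm κ) (j : ℕ) : 0 < R.τ j := by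
  have h0 : (0 : ℚ) < R.ℓ0 := by exact_mod_cast R.ℓ0_pos
  exact lt_of_lt_of_le (by positivity) (h.τ_ge j)

theorem τ_le (R : Raw) (j : ℕ) : R.τ j ≤ (R.m : ℚ) ^ 4 := min_le_right _ _

theorem Valid.τ_zero (h : R.Valid r x Rm κ) : R.τ 0 = 1 / (2 * (R.ℓ0 : ℚ)) := by
  refine le_antisymm ?_ (h.τ_ge 0)
  refine (min_le_left _ _).trans (le_of_eq ?_)
  rw [pow_zero, mul_one]

theorem Valid.τ_last (h : R.Valid r x Rm κ) : R.τ (R.m ^ 9) = (R.m : ℚ) ^ 4 := by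
  refine min_eq_right ?_
  have h0 : (0 : ℚ) < R.ℓ0 := by exact_mod_cast R.ℓ0_pos
  have h1 := num_bernoulli (M := R.m ^ 8) (pow_pos h.m_pos 8)
  rw [Nat.cast_pow] at h1
  have h2 : (2 : ℚ) ^ R.m ≤ (1 + 1 / (R.m : ℚ) ^ 8) ^ R.m ^ 9 := by
    rw [pow_succ R.m 8, pow_mul]
    exact pow_le_pow_left₀ (by norm_num) h1 _
  have h3 : 2 * (R.ℓ0 : ℚ) * (R.m : ℚ) ^ 7 ≤ 2 ^ R.m := by exact_mod_cast h.width_nat
  have h4 : (R.m : ℚ) ^ 4 ≤ (R.m : ℚ) ^ 7 := pow_le_pow_right₀ h.mQ (by norm_num)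
  rw [one_div_mul_eq_div, le_div_iff₀ (by positivity)]
  nlinarith

theorem Valid.log_ϱ_nonneg (h : R.Valid r x Rm κ) : 0 ≤ Real.log R.ϱ :=
  le_trans (by positivity) h.log_ϱ.1

theorem Valid.tt_nonneg (h : R.Valid r x Rm κ) (j : ℕ) : 0 ≤ R.tt j := by
  have h1 : (0 : ℝ) ≤ R.τ j := by exact_mod_cast (h.τ_pos j).le
  exact mul_nonneg h1 h.log_ϱ_nonneg

theorem Valid.tt_le (h : R.Valid r x Rm κ) (j : ℕ) : R.tt j ≤ (R.τ j : ℝ) / R.m := by
  have h1 : (0 : ℝ) ≤ R.τ j := by exact_mod_cast (h.τ_pos j).le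
  rw [div_eq_mul_one_div]
  exact mul_le_mul_of_nonneg_left h.log_ϱ.2 h1

theorem Valid.Λ_le (h : R.Valid r x Rm κ) (j : ℕ) : 1 ≤ R.Λ j ∧ R.Λ j ≤ 2 ^ (2 * R.m ^ 3) := by
  refine ⟨Real.one_le_exp (h.tt_nonneg j), ?_⟩
  have h0 : (0 : ℝ) < R.m := by linarith [h.mR]
  have h1 : (R.τ j : ℝ) ≤ (R.m : ℝ) ^ 4 := by exact_mod_cast R.τ_le j
  have h2 : R.tt j ≤ ((R.m ^ 3 : ℕ) : ℝ) * 1 := by
    refine (h.tt_le j).trans ?_
    rw [div_le_iff₀ h0]
    push_cast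
    linarith
  refine (Real.exp_le_exp.2 h2).trans ?_
  rw [Real.exp_nat_mul, pow_mul]
  exact pow_le_pow_left₀ (Real.exp_pos 1).le (by linarith [Real.exp_one_lt_d9]) _

theorem Valid.lo_le_hi (h : R.Valid r x Rm κ) : R.lo ≤ R.hi := by
  have h1 : 0 < R.ℓ0 * R.G := Nat.mul_pos R.ℓ0_pos (pow_pos h.m_pos 7)
  have h2 : (0 : ℤ) < (R.ℓ0 : ℤ) * R.G := by exact_mod_cast h1
  unfold lo hi
  omega

theorem Valid.width_le (h : R.Valid r x Rm κ) : R.hi - R.lo + 1 ≤ 2 ^ R.m := by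
  have h1 : 2 * (R.ℓ0 : ℤ) * (R.m : ℤ) ^ 7 ≤ 2 ^ R.m := by exact_mod_cast h.width_nat
  unfold lo hi G
  push_cast
  linarith

theorem Valid.card_box (h : R.Valid r x Rm κ) :
    ((box R.E R.lo R.hi).card : ℝ) ≤ 2 ^ (R.m * R.n) := by
  have h1 : (R.hi + 1 - R.lo).toNat ≤ 2 ^ R.m := by
    rw [Int.toNat_le]
    push_cast
    linarith [h.width_le]
  have h2 : (box R.E R.lo R.hi).card ≤ 2 ^ (R.m * R.n) := by
    unfold box
    rw [Fintype.card_piFinset, prod_const, Int.card_Icc, card_univ, Fintype.card_fin, pow_mul]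
    exact Nat.pow_le_pow_left h1 _
  exact_mod_cast h2

theorem ℓ_pos (R : Raw) (a : R.V) : 0 < R.ℓ a := by unfold ℓ; positivity

theorem Valid.ℓ_le (h : R.Valid r x Rm κ) {a : R.V} (ha : R.ker a) :
    R.ℓ a * R.m ^ 9 ≤ R.cf a ∧ R.cf a + 1 ≤ 2 * (R.ℓ a * R.m ^ 9) := by
  have h0 : 0 < R.m ^ 9 := pow_pos h.m_pos 9
  have h1 : R.cf a / R.m ^ 9 ≠ 0 := (Nat.div_pos ha h0).ne'
  constructor
  · exact le_trans (Nat.mul_le_mul_right _ (Nat.pow_log_le_self 2 h1)) (Nat.div_mul_le_self _ _)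
  · have h2 : R.cf a / R.m ^ 9 < 2 * R.ℓ a := by
      have := Nat.lt_pow_succ_log_self (b := 2) (by norm_num) (R.cf a / R.m ^ 9)
      rwa [pow_succ' 2] at this
    have h3 := (Nat.div_lt_iff_lt_mul h0).1 h2
    rw [mul_assoc] at h3
    exact h3

theorem ℓ_mono (R : Raw) {a b : R.V} (hab : R.cf a ≤ R.cf b) : R.ℓ a ≤ R.ℓ b := by
  exact Nat.pow_le_pow_right (by norm_num) (Nat.log_mono_right (Nat.div_le_div_right hab))

theorem Valid.lg_le (h : R.Valid r x Rm κ) (a : R.V) : Nat.log 2 (R.cf a / R.m ^ 9) ≤ R.m := by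
  have h1 : R.cf a / R.m ^ 9 ≤ 2 ^ (R.L0.n + 2) := by
    refine (Nat.div_le_self _ _).trans ?_
    have := h.c_le a
    have := h.hR
    rw [pow_add]
    omega
  refine (Nat.log_mono_right h1).trans ?_
  rw [Nat.log_pow (by norm_num)]
  have := h.m_big.2
  omega

theorem Valid.Jw_le (h : R.Valid r x Rm κ) (a : R.V) : R.Jw a * R.m ^ 2 ≤ R.cf a := by
  unfold Jw
  split_ifs with ha
  · refine le_trans (le_of_eq ?_) (h.ℓ_le ha).1
    unfold G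
    ring
  · simp

theorem Valid.sum_Jw (h : R.Valid r x Rm κ) : 4 * ∑ a, R.Jw a ≤ Rm := by
  have h1 : (∑ a, R.Jw a) * R.m ^ 2 ≤ 2 * R.n * (3 * Rm) := by
    rw [sum_mul]
    refine (sum_le_card_nsmul _ _ (3 * Rm) fun a _ => (h.Jw_le a).trans (h.c_le a)).trans ?_
    simp
  have h2 : 24 * R.n ≤ R.m ^ 2 := by
    have h3 := h.m_ge
    have h4 : R.n + 2 ≤ (R.n + 2) ^ 10 := Nat.le_self_pow (by norm_num) _
    have h5 : R.m ≤ R.m ^ 2 := Nat.le_self_pow (by norm_num) _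
    omega
  refine Nat.le_of_mul_le_mul_right ?_ (pow_pos h.m_pos 2)
  calc 4 * (∑ a, R.Jw a) * R.m ^ 2 ≤ 4 * (2 * R.n * (3 * Rm)) := by
        rw [mul_assoc]; exact Nat.mul_le_mul_left _ h1
    _ = Rm * (24 * R.n) := by ring
    _ ≤ Rm * R.m ^ 2 := Nat.mul_le_mul_left _ h2

theorem Valid.Rm_le (h : R.Valid r x Rm κ) : 2 * (Rm + 2) ≤ R.ℓ0 := by
  have := h.hR
  unfold ℓ0
  rw [pow_succ]
  omega

theorem Valid.klo_le (h : R.Valid r x Rm κ) (a : R.V) : R.klo a ≤ 0 ∧ 0 ≤ R.khi a := by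
  refine ⟨by unfold klo; omega, ?_⟩
  unfold khi Jw
  split_ifs with ha
  · have : 0 < R.ℓ a * R.G := Nat.mul_pos (R.ℓ_pos a) (pow_pos h.m_pos 7)
    omega
  · exact le_rfl

theorem mem_kbox {ξ : R.V → ℤ} (hξ : ξ ∈ R.kbox) (a : R.V) : |ξ a| ≤ R.Jw a := by
  have h1 := mem_Icc.1 (Fintype.mem_piFinset.1 hξ a)
  unfold klo khi at h1
  refine abs_le.2 ⟨h1.1, h1.2.trans ?_⟩
  split_ifs <;> omega

theorem sum_abs_sh (R : Raw) (ξ : R.V → ℤ) : ∑ a, |R.sh ξ a| ≤ 2 * ∑ a, |ξ a| := by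
  have h1 : ∀ b : R.V, ∑ a, ev b a = 1 := fun b => by simp [ev, Pi.single_apply]
  have h2 : ∀ a b : R.V, 0 ≤ ev b a := fun a b => by
    unfold ev
    rw [Pi.single_apply]
    split_ifs <;> norm_num
  calc ∑ a, |R.sh ξ a| ≤ ∑ a, ∑ b, |ξ b| * (ev b a + ev (R.pa b) a) := by
        refine sum_le_sum fun a _ => ?_
        unfold sh shf
        rw [Finset.sum_apply]
        refine (abs_sum_le_sum_abs _ _).trans (sum_le_sum fun b _ => ?_)
        rw [Pi.smul_apply, Pi.sub_apply, smul_eq_mul, abs_mul]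
        refine mul_le_mul_of_nonneg_left (abs_le.2 ⟨?_, ?_⟩) (abs_nonneg _) <;>
          linarith [h2 a b, h2 a (R.pa b)]
    _ = 2 * ∑ a, |ξ a| := by
        rw [sum_comm, mul_sum]
        refine sum_congr rfl fun b _ => ?_
        rw [← mul_sum, sum_add_distrib, h1, h1]
        ring

theorem Valid.θ_cold (h : R.Valid r x Rm κ) {j : ℕ} (hj : ¬ R.hot j) : R.θ j ≤ 3 * R.m ^ 9 := by
  have h1 : ⌈(R.m : ℚ) ^ 5 / R.τ j⌉₊ ≤ R.m ^ 9 := by
    rw [Nat.ceil_le, div_le_iff₀ (h.τ_pos j)]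
    have h2 : 1 < (R.m : ℚ) ^ 4 * R.τ j := not_le.1 hj
    have h3 : (0 : ℚ) ≤ (R.m : ℚ) ^ 5 := by positivity
    push_cast
    nlinarith
  unfold θ
  omega

theorem Valid.θ_hot (h : R.Valid r x Rm κ) {j : ℕ} (hj : R.hot j) :
    R.θ j ≤ 6 * R.m ^ 5 * R.qs j := by
  have h0 := h.τ_pos j
  have h1 : 1 / R.τ j ≤ 2 * (R.qs j : ℚ) := by
    have h2 : ⌊1 / R.τ j⌋₊ + 1 ≤ 2 * R.qs j := by
      have := Nat.lt_pow_succ_log_self (b := 2) (by norm_num) ⌊1 / R.τ j⌋₊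
      rw [pow_succ, mul_comm] at this
      unfold qs
      rw [if_pos hj]
      exact this
    have h3 : ((⌊1 / R.τ j⌋₊ : ℕ) : ℚ) + 1 ≤ 2 * (R.qs j : ℚ) := by exact_mod_cast h2
    linarith [Nat.lt_floor_add_one (1 / R.τ j)]
  have h2 : (R.m : ℚ) ^ 4 ≤ 1 / R.τ j := (le_div_iff₀ h0).2 hj
  have h3 : (0 : ℚ) ≤ (R.m : ℚ) ^ 5 := by positivity
  have h4 : ⌈(R.m : ℚ) ^ 5 / R.τ j⌉₊ ≤ 2 * R.m ^ 5 * R.qs j := by
    rw [Nat.ceil_le, div_eq_mul_one_div]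
    push_cast
    nlinarith
  have h5 : R.m ^ 9 ≤ 2 * R.m ^ 5 * R.qs j := by
    have : (R.m : ℚ) ^ 9 ≤ 2 * (R.m : ℚ) ^ 5 * R.qs j := by nlinarith
    exact_mod_cast this
  unfold θ
  nlinarith [Nat.zero_le (R.m ^ 5 * R.qs j)]

theorem Valid.qs_le (h : R.Valid r x Rm κ) (j : ℕ) :
    (∃ i ≤ R.m, R.qs j = 2 ^ i) ∧ R.qs j ≤ 2 * R.ℓ0 ∧
      (R.hot j → R.tt j * R.qs j ≤ 1 / (R.m : ℝ)) := by
  have h0 := h.τ_pos j
  have hl : (0 : ℚ) < R.ℓ0 := by exact_mod_cast R.ℓ0_pos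
  have h1 : ⌊1 / R.τ j⌋₊ ≤ 2 ^ (R.L0.n + 2) := by
    refine Nat.floor_le_of_le ?_
    rw [← two_ℓ0]
    push_cast
    exact (one_div_le h0 (by positivity)).2 (h.τ_ge j)
  have h2 : Nat.log 2 ⌊1 / R.τ j⌋₊ ≤ R.L0.n + 2 := by
    refine (Nat.log_mono_right h1).trans ?_
    rw [Nat.log_pow (by norm_num)]
  have h3 := h.m_big.2
  refine ⟨?_, ?_, fun hj => ?_⟩
  · unfold qs
    split_ifs
    · exact ⟨_, by omega, rfl⟩
    · exact ⟨0, Nat.zero_le _, rfl⟩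
  · unfold qs
    split_ifs
    · rw [two_ℓ0]
      exact Nat.pow_le_pow_right (by norm_num) h2
    · have := R.ℓ0_pos
      omega
  · have h4 : (1 : ℚ) ≤ 1 / R.τ j := (one_le_pow₀ h.mQ).trans ((le_div_iff₀ h0).2 hj)
    have h5 : R.qs j ≤ ⌊1 / R.τ j⌋₊ := by
      unfold qs
      rw [if_pos hj]
      exact Nat.pow_log_le_self 2 (Nat.floor_pos.2 h4).ne'
    have h6 : (R.qs j : ℚ) ≤ 1 / R.τ j :=
      le_trans (by exact_mod_cast h5) (Nat.floor_le (by positivity))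
    have h7 : (R.qs j : ℚ) * R.τ j ≤ 1 := (le_div_iff₀ h0).1 h6
    have h8 : (R.qs j : ℝ) * R.τ j ≤ 1 := by exact_mod_cast h7
    have h9 : (0 : ℝ) < R.m := by linarith [h.mR]
    refine (mul_le_mul_of_nonneg_right (h.tt_le j) (Nat.cast_nonneg _)).trans ?_
    rw [div_mul_eq_mul_div]
    exact div_le_div_of_nonneg_right (by linarith) h9.le

/-- The weight of a hub compared with the exponential. -/
theorem Valid.hw_bounds (h : R.Valid r x Rm κ) (j : ℕ) {k : ℤ} (hk : 0 ≤ k) :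
    Real.exp (-R.tt j * k) ≤ (R.hw j k : ℝ) ∧
      (R.hw j k : ℝ) ≤ R.ϱ * Real.exp (-R.tt j * k) + R.cap := by
  have h0 : (0 : ℚ) ≤ R.τ j * k := mul_nonneg (h.τ_pos j).le (by exact_mod_cast hk)
  have hρ : (0 : ℝ) < R.ϱ := by exact_mod_cast lt_of_lt_of_le one_pos R.one_le_ϱ
  have hL := h.log_ϱ_nonneg
  have he : ∀ e : ℕ, (((1 / R.ϱ) ^ e : ℚ) : ℝ) = Real.exp (-(e * Real.log R.ϱ)) := fun e => by
    rw [Real.exp_neg, Real.exp_nat_mul, Real.exp_log hρ]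
    push_cast
    rw [one_div, inv_pow]
  have h1 : ((⌊R.τ j * k⌋₊ : ℕ) : ℝ) ≤ (R.τ j : ℝ) * k := by exact_mod_cast Nat.floor_le h0
  have h2 : (R.τ j : ℝ) * k ≤ ((⌊R.τ j * k⌋₊ : ℕ) : ℝ) + 1 := by
    exact_mod_cast (Nat.lt_floor_add_one (R.τ j * k)).le
  constructor
  · unfold hw tt
    rw [he]
    refine Real.exp_le_exp.2 ?_
    have h3 : ((min (R.m ^ 8) ⌊R.τ j * k⌋₊ : ℕ) : ℝ) ≤ ((⌊R.τ j * k⌋₊ : ℕ) : ℝ) := by
      exact_mod_cast min_le_right _ _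
    nlinarith
  · unfold hw
    rcases le_total (R.m ^ 8) ⌊R.τ j * k⌋₊ with h3 | h3
    · rw [min_eq_left h3]
      refine le_add_of_nonneg_of_le (by positivity) ?_
      have h4 : (1 / R.ϱ) ^ R.m ^ 8 ≤ 1 / 2 ^ R.m ^ 6 := by
        rw [one_div_pow]
        refine one_div_le_one_div_of_le (by positivity) ?_
        rw [pow_succ' R.m 7, pow_mul]
        exact le_trans (pow_le_pow_right₀ (by norm_num) (Nat.pow_le_pow_right h.m_pos (by norm_num)))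
          (pow_le_pow_left₀ (by norm_num) h.two_le_ϱ_pow _)
      unfold cap
      have h5 := (Rat.cast_le (K := ℝ)).2 h4
      refine h5.trans (le_of_eq ?_)
      push_cast
      rfl
    · rw [min_eq_right h3, he]
      refine le_add_of_le_of_nonneg ?_ (by unfold cap; positivity)
      nth_rewrite 2 [← Real.exp_log hρ]
      rw [← Real.exp_add]
      refine Real.exp_le_exp.2 ?_
      unfold tt
      nlinarith

theorem Valid.hw_pos (h : R.Valid r x Rm κ) (j : ℕ) (k : ℤ) : 0 < R.hw j k ∧ R.hw j k ≤ 1 := by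
  have h1 := R.one_le_ϱ
  have h0 : 0 < R.ϱ := by linarith
  exact ⟨pow_pos (by positivity) _, pow_le_one₀ (by positivity) ((div_le_one h0).2 h1)⟩

theorem Valid.hw_succ (h : R.Valid r x Rm κ) (j : ℕ) {k : ℤ} (hk : 0 ≤ k) :
    R.hw j k ≤ 2 * R.hw (j + 1) k ∧ R.hw (j + 1) k ≤ R.hw j k := by
  have h1 := R.one_le_ϱ
  have h0 : 0 < R.ϱ := by linarith
  have hk' : (0 : ℚ) ≤ k := by exact_mod_cast hk
  have hm : (0 : ℚ) < (R.m : ℚ) ^ 8 := pow_pos (by linarith [h.mQ]) 8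
  have hq : (1 : ℚ) ≤ 1 + 1 / (R.m : ℚ) ^ 8 := by
    have : (0 : ℚ) ≤ 1 / (R.m : ℚ) ^ 8 := by positivity
    linarith
  have ha : R.τ j ≤ R.τ (j + 1) := min_le_min_right _
    (mul_le_mul_of_nonneg_left (pow_le_pow_right₀ hq (Nat.le_succ j)) (by positivity))
  have hb : R.τ (j + 1) ≤ R.τ j * (1 + 1 / (R.m : ℚ) ^ 8) := by
    unfold τ
    rw [min_mul_of_nonneg _ _ (by linarith), pow_succ, ← mul_assoc]
    exact min_le_min_left _ (le_mul_of_one_le_right (by positivity) hq)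
  have hτ : 0 ≤ R.τ j * k := mul_nonneg (h.τ_pos j).le hk'
  have hc : min (R.m ^ 8) ⌊R.τ (j + 1) * k⌋₊ ≤ min (R.m ^ 8) ⌊R.τ j * k⌋₊ + 1 := by
    rcases le_or_gt (R.m ^ 8) ⌊R.τ j * k⌋₊ with h3 | h3
    · rw [min_eq_left h3]
      exact (min_le_left _ _).trans (Nat.le_succ _)
    · rw [min_eq_right h3.le, ← Nat.floor_add_one hτ]
      refine (min_le_right _ _).trans (Nat.floor_le_floor ?_)
      have h4 : R.τ j * k < (R.m : ℚ) ^ 8 := by
        have := (Nat.floor_lt hτ).1 h3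
        exact_mod_cast this
      have h5 : R.τ j * k / (R.m : ℚ) ^ 8 ≤ 1 := (div_le_one hm).2 h4.le
      calc R.τ (j + 1) * k ≤ R.τ j * (1 + 1 / (R.m : ℚ) ^ 8) * k :=
            mul_le_mul_of_nonneg_right hb hk'
        _ = R.τ j * k + R.τ j * k / (R.m : ℚ) ^ 8 := by ring
        _ ≤ R.τ j * k + 1 := by linarith
  have hr0 : (0 : ℚ) ≤ 1 / R.ϱ := by positivity
  have hr1 : 1 / R.ϱ ≤ 1 := (div_le_one h0).2 h1
  constructor
  · have h6 := pow_le_pow_of_le_one hr0 hr1 hc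
    rw [pow_succ] at h6
    have h7 : (1 : ℚ) / 2 ≤ 1 / R.ϱ := one_div_le_one_div_of_le h0 h.ϱ_le_two
    have h8 := (h.hw_pos j k).1
    unfold hw at h8 ⊢
    nlinarith
  · exact pow_le_pow_of_le_one hr0 hr1
      (min_le_min_left _ (Nat.floor_le_floor (mul_le_mul_of_nonneg_right ha hk')))

theorem num_ev_cases {V : Type} [DecidableEq V] (a b : V) : ev a b = 0 ∨ ev a b = 1 := by
  unfold ev
  rw [Pi.single_apply]
  split_ifs <;> simp

theorem num_ev_inj {V : Type} [DecidableEq V] {e d e' d' : V}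
    (h : ev d' - ev e' = ev d - ev e) : (e' = d' ∧ e = d) ∨ (e' = e ∧ d' = d) := by
  have h1 := congrFun h e
  have h2 := congrFun h d
  have h3 := congrFun h d'
  simp only [ev, Pi.sub_apply, Pi.single_apply] at h1 h2 h3
  grind

theorem cn_inj {e d e' d' : R.E} (h : R.cn e' d' = R.cn e d) :
    (e' = d' ∧ e = d) ∨ (e' = e ∧ d' = d) := by
  unfold cn at h
  split_ifs at h with h1 h2 h2
  · exact Or.inl ⟨h1, h2⟩
  · omega
  · omega
  · have h3 : (d' : ℕ) + R.n * e' = d + R.n * e := by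
      rw [mul_comm R.n, mul_comm R.n]; omega
    have h4 := congrArg (· % R.n) h3
    simp only [Nat.add_mul_mod_self_left, Nat.mod_eq_of_lt d.2, Nat.mod_eq_of_lt d'.2] at h4
    have h5 : R.n * (e' : ℕ) = R.n * e := by omega
    exact Or.inr ⟨Fin.ext (Nat.eq_of_mul_eq_mul_left e.pos h5), Fin.ext h4⟩

theorem mem_Ωz {z : R.V → ℤ} : z ∈ R.Ωz ↔ R.valid z := by
  unfold Ωz
  rw [mem_filter]
  refine ⟨fun h => h.2, fun h => ⟨Fintype.mem_piFinset.2 ?_, h⟩⟩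
  obtain ⟨h1, e, d, -, -, h2⟩ := h
  rintro ⟨s, i⟩
  have h3 := h1 i
  rw [mem_Icc]
  cases s
  · omega
  · have h4 : z (false, i) + z (true, i) = ev d i - ev e i := congrFun h2 i
    have h5 := num_ev_cases d i
    have h6 := num_ev_cases e i
    unfold lo hi at *
    omega

theorem cls_eq {z : R.V → ℤ} {e d : R.E} (he : R.rt e = e) (hd : R.rt d = d)
    (hz : ps z = ev d - ev e) : R.cls z = R.cn e d := by
  unfold cls
  rw [← Fintype.sum_prod_type', Finset.sum_eq_single (e, d)]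
  · rw [if_pos ⟨he, hd, hz⟩]
  · rintro ⟨e', d'⟩ - hne
    split_ifs with h1
    · rcases num_ev_inj (h1.2.2.symm.trans hz) with h2 | h2
      · exact if_pos h2.1
      · exact absurd (Prod.ext h2.1 h2.2) hne
    · rfl
  · simp

theorem valid_lf {e d : R.E} (he : R.rt e = e) (hd : R.rt d = d) {y : R.E → ℤ}
    (hy : y ∈ box R.E R.lo R.hi) : R.valid (lf (ev d - ev e) y) := by
  exact ⟨fun i => mem_Icc.1 (Fintype.mem_piFinset.1 hy i), e, d, he, hd, ps_lf _ _⟩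

/-- Sums over a class. -/
theorem sum_class {e d : R.E} (he : R.rt e = e) (hd : R.rt d = d) (f : (R.V → ℤ) → ℝ) :
    ∑ z ∈ R.Ωz.filter (fun z => R.cls z = R.cn e d), f z =
      ∑ y ∈ box R.E R.lo R.hi, f (lf (ev d - ev e) y) := by
  symm
  refine sum_nbij' (fun y => lf (ev d - ev e) y) (fun z => side z false) (fun y hy => ?_)
    (fun z hz => ?_) (fun y _ => side_lf_false _ _) (fun z hz => ?_) (fun _ _ => rfl)
  · exact mem_filter.2 ⟨mem_Ωz.2 (valid_lf he hd hy), cls_eq he hd (ps_lf _ _)⟩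
  · exact Fintype.mem_piFinset.2 fun i => mem_Icc.2 ((mem_Ωz.1 (mem_filter.1 hz).1).1 i)
  · obtain ⟨h1, h2⟩ := mem_filter.1 hz
    obtain ⟨-, e', d', he', hd', h3⟩ := mem_Ωz.1 h1
    have h4 : ps z = ev d - ev e := by
      rcases cn_inj ((cls_eq he' hd' h3).symm.trans h2) with h5 | h5
      · rw [h3, h5.1, h5.2, sub_self, sub_self]
      · rw [h3, h5.1, h5.2]
    rw [← h4, lf_ps]

/-- A nonnegative sum over all valid states is bounded by the sums over the classes. -/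
theorem sum_Ωz_le {f : (R.V → ℤ) → ℝ} (hf : ∀ z, 0 ≤ f z) {B : ℝ} (hB0 : 0 ≤ B)
    (hB : ∀ e d, R.rt e = e → R.rt d = d → ∑ y ∈ box R.E R.lo R.hi, f (lf (ev d - ev e) y) ≤ B) :
    ∑ z ∈ R.Ωz, f z ≤ (R.n : ℝ) ^ 2 * B := by
  calc ∑ z ∈ R.Ωz, f z ≤ ∑ z ∈ R.Ωz, ∑ p : R.E × R.E,
        if (R.rt p.1 = p.1 ∧ R.rt p.2 = p.2) ∧ R.cls z = R.cn p.1 p.2 then f z else 0 := by
        refine sum_le_sum fun z hz => ?_
        obtain ⟨-, e, d, he, hd, h3⟩ := mem_Ωz.1 hz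
        refine le_trans (le_of_eq ?_) (single_le_sum (f := fun p : R.E × R.E =>
          if (R.rt p.1 = p.1 ∧ R.rt p.2 = p.2) ∧ R.cls z = R.cn p.1 p.2 then f z else 0)
          (fun p _ => by split_ifs; exacts [hf z, le_rfl]) (mem_univ (e, d)))
        exact (if_pos ⟨⟨he, hd⟩, cls_eq he hd h3⟩).symm
    _ ≤ ∑ _p : R.E × R.E, B := by
        rw [sum_comm]
        refine sum_le_sum fun p _ => ?_
        by_cases hp : R.rt p.1 = p.1 ∧ R.rt p.2 = p.2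
        · simp only [hp, true_and]
          rw [← sum_filter, sum_class hp.1 hp.2]
          exact hB _ _ hp.1 hp.2
        · simpa [hp] using hB0
    _ = (R.n : ℝ) ^ 2 * B := by simp [sq]

theorem Zc_eq {e d : R.E} (he : R.rt e = e) (hd : R.rt d = d) (j : ℕ) :
    (R.ann (DD r)).Zc R.Ω j (R.cn e d) = 2 ^ Bξ R.n R.m * R.Zz r j (ev d - ev e) := by
  have h1 : (R.ann (DD r)).Zc R.Ω j (R.cn e d) =
      ∑ z ∈ R.Ωz.filter (fun z => R.cls z = R.cn e d),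
        ∑ u : Fin (Bξ R.n R.m) → Bool, (R.wt (DD r) j (z, u) : ℝ) := by
    rw [← sum_product']
    unfold AData.Zc Ω
    refine sum_congr ?_ fun _ _ => rfl
    ext p
    simp only [mem_filter, mem_product, mem_univ, and_true]
    rfl
  rw [h1, sum_class he hd, Zz, mul_sum]
  refine sum_congr rfl fun y hy => ?_
  unfold ph Crest.Agent.R309.Ex
  rw [mul_div_cancel₀ _ (by positivity)]
  refine sum_congr rfl fun u _ => ?_
  unfold wt
  rw [if_pos (valid_lf he hd hy)]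

end Crest.Agent.R302.Raw
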