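import Crest.Agent.R302.EDefs
import Crest.Agent.R302.Num

/-!
# Row 302: the proposals
-/

set_option autoImplicit false

namespace Crest.Agent.R302.Raw

open Finset Crest.Agent.R309

variable {R : Raw} {r : Bool → Finset R.E → ℤ} {x : Bool → R.E → ℝ} {Rm κ : ℕ} {j : ℕ}
  {t : List ℚ} {F : R.X → ℝ}

namespace Moves

/-- The translation part of a proposal. -/
def shift (R : Raw) (a b : ℕ) (k : ℤ) : R.V → ℤ :=
  ∑ h, ∑ h', (if R.idx h = a ∧ R.idx h' = b then k else 0) • (R.γ h - R.γ h')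

theorem shift_neg (R : Raw) (a b : ℕ) (k : ℤ) : shift R a b (-k) = -shift R a b k := by
  simp only [shift, ← sum_neg_distrib, ← neg_smul]
  refine sum_congr rfl fun h _ => sum_congr rfl fun h' _ => ?_
  split_ifs <;> simp

theorem idx_lt (R : Raw) (a : R.V) : R.idx a < 2 * R.n := by
  have := a.2.2
  unfold idx
  split_ifs <;> omega

theorem idx_inj (R : Raw) : Function.Injective R.idx := by
  rintro ⟨a, i⟩ ⟨b, k⟩ h
  have h1 := i.2
  have h2 := k.2
  cases a <;> cases b <;> simp only [idx, Bool.false_eq_true, if_false, if_true] at h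
  · rw [Fin.ext h]
  · omega
  · omega
  · rw [Fin.ext (by omega : (i : ℕ) = k)]

theorem shift_idx (R : Raw) (h h' : R.V) (k : ℤ) :
    shift R (R.idx h) (R.idx h') k = k • (R.γ h - R.γ h') := by
  simp only [shift, (idx_inj R).eq_iff]
  rw [sum_eq_single h (fun a _ ha => by simp [ha]) (by simp),
    sum_eq_single h' (fun a _ ha => by simp [ha]) (by simp), if_pos ⟨rfl, rfl⟩]

theorem stp_append (R : Raw) {u : List Bool} (hu : u.length = R.m.size + R.m + 1 + 1)
    (v : List Bool) : R.stp (u ++ v) = R.stp u := by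
  have h1 : ((u ++ v).drop 2).take R.m.size = (u.drop 2).take R.m.size := by
    rw [List.drop_append_of_le_length (by omega), List.take_append_of_le_length (by simp; omega)]
  have h2 : ((u ++ v).drop (2 + R.m.size)).take R.m = (u.drop (2 + R.m.size)).take R.m := by
    rw [List.drop_append_of_le_length (by omega), List.take_append_of_le_length (by simp; omega)]
  simp only [stp, h1, h2, List.getD_append _ _ _ _ (by omega : 0 < u.length),
    List.getD_append _ _ _ _ (by omega : 1 < u.length)]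

theorem Ex_prop (R : Raw) (H : R.X → ℝ) :
    Ex (Bprop R.n R.m) (fun u => H (R.prop u)) =
      Ex (2 * R.n).size fun u1 => Ex (2 * R.n).size fun u2 =>
        Ex (R.m.size + R.m + 1 + 1) fun u3 => Ex (Bξ R.n R.m) fun u4 =>
          H (shift R (toNat u1) (toNat u2) (R.stp u3), R.seed u4) := by
  have e : Bprop R.n R.m = (2 * R.n).size + ((2 * R.n).size +
      ((R.m.size + R.m + 1 + 1) + Bξ R.n R.m)) := by unfold Bprop; omega
  simp only [e, Ex_append (2 * R.n).size, Ex_append (R.m.size + R.m + 1 + 1)]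
  refine Ex_congr fun u1 h1 => Ex_congr fun u2 h2 => Ex_congr fun u3 h3 => Ex_congr fun u4 _ => ?_
  have a1 : (u1 ++ (u2 ++ (u3 ++ u4))).take (2 * R.n).size = u1 := List.take_left' h1
  have a2 : (u1 ++ (u2 ++ (u3 ++ u4))).drop (2 * R.n).size = u2 ++ (u3 ++ u4) := List.drop_left' h1
  have a3 : (u1 ++ (u2 ++ (u3 ++ u4))).drop (2 * (2 * R.n).size) = u3 ++ u4 := by
    rw [← List.append_assoc]
    exact List.drop_left' (by simp; omega)
  have a4 : (u1 ++ (u2 ++ (u3 ++ u4))).drop (2 * (2 * R.n).size + 2 + R.m.size + R.m) = u4 := by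
    rw [← List.append_assoc, ← List.append_assoc]
    exact List.drop_left' (by simp; omega)
  simp only [prop, a1, a2, a3, a4, List.take_left' h2, stp_append R h3, shift]

/-- The mean over the unsigned step. -/
noncomputable def half (R : Raw) (G : ℤ → ℝ) : ℝ :=
  ((Ex R.m.size fun v => Ex R.m fun w => G ((toNat w % 2 ^ toNat v : ℕ) : ℤ)) +
    Ex R.m.size fun v => G ((2 ^ toNat v : ℕ) : ℤ)) / 2

theorem Ex_stp (R : Raw) (G : ℤ → ℝ) :
    Ex (R.m.size + R.m + 1 + 1) (fun u => G (R.stp u)) =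
      (half R (fun k => G (-k)) + half R G) / 2 := by
  have key : ∀ b c : Bool, Ex (R.m.size + R.m) (fun u => G (R.stp (b :: c :: u))) =
      Ex R.m.size fun v => Ex R.m fun w => G ((if b then 1 else -1) *
        ((if c then 2 ^ toNat v else toNat w % 2 ^ toNat v : ℕ) : ℤ)) := by
    intro b c
    rw [Ex_append]
    refine Ex_congr fun v hv => Ex_congr fun w hw => ?_
    have a1 : ((b :: c :: (v ++ w)).drop 2).take R.m.size = v := List.take_left' hv
    have a2 : ((b :: c :: (v ++ w)).drop (2 + R.m.size)).take R.m = w := by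
      rw [add_comm 2, List.drop_succ_cons, List.drop_succ_cons, List.drop_left' hv, ← hw,
        List.take_length]
    simp only [stp, a1, a2]
    rfl
  simp only [Ex_succ, key, half]
  simp

theorem Ex_stp_neg (R : Raw) (G : ℤ → ℝ) :
    Ex (R.m.size + R.m + 1 + 1) (fun u => G (R.stp u)) =
      Ex (R.m.size + R.m + 1 + 1) fun u => G (-R.stp u) := by
  rw [Ex_stp, Ex_stp R fun k => G (-k), add_comm]
  simp only [neg_neg]

theorem half_nonneg (R : Raw) {G : ℤ → ℝ} (hG : ∀ k, 0 ≤ G k) : 0 ≤ half R G :=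
  div_nonneg (add_nonneg (Ex_nonneg fun _ _ => Ex_nonneg fun _ _ => hG _)
    (Ex_nonneg fun _ _ => hG _)) zero_le_two

theorem le_half (R : Raw) {G : ℤ → ℝ} (hG : ∀ k, 0 ≤ G k) :
    ∑ i ∈ range (R.m + 1), (G ((2 ^ i : ℕ) : ℤ) + (∑ k ∈ range (2 ^ i), G k) / 2 ^ i) ≤
      2 * 2 ^ R.m.size * half R G := by
  have h1 := Ex_toNat R.m.size fun i => Ex R.m fun w => G ((toNat w % 2 ^ i : ℕ) : ℤ)
  have h2 := Ex_toNat R.m.size fun i => G ((2 ^ i : ℕ) : ℤ)
  have hs : range (R.m + 1) ⊆ range (2 ^ R.m.size) :=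
    range_subset_range.2 (Nat.lt_size_self R.m)
  have h3 : ∑ i ∈ range (R.m + 1), (∑ k ∈ range (2 ^ i), G k) / 2 ^ i ≤
      ∑ i ∈ range (2 ^ R.m.size), Ex R.m fun w => G ((toNat w % 2 ^ i : ℕ) : ℤ) := by
    refine le_trans (sum_le_sum fun i hi => ?_) (sum_le_sum_of_subset_of_nonneg hs
      fun i _ _ => Ex_nonneg fun _ _ => hG _)
    exact (Ex_toNat_mod (Nat.lt_succ_iff.1 (mem_range.1 hi)) fun k => G k).ge
  have h4 := sum_le_sum_of_subset_of_nonneg hs (f := fun i => G ((2 ^ i : ℕ) : ℤ))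
    fun i _ _ => hG _
  rw [half, h1, h2, sum_add_distrib]
  refine (add_le_add h4 h3).trans_eq ?_
  field_simp
  ring

theorem sum_idx_le (R : Raw) {Φ : ℕ → ℝ} (hΦ : ∀ a, 0 ≤ Φ a) :
    ∑ h : R.V, Φ (R.idx h) ≤ 2 ^ (2 * R.n).size * Ex (2 * R.n).size fun u => Φ (toNat u) := by
  rw [Ex_toNat, mul_div_cancel₀ _ (by positivity), ← sum_image (idx_inj R).injOn]
  refine sum_le_sum_of_subset_of_nonneg (fun a ha => ?_) fun a _ _ => hΦ a
  obtain ⟨h, -, rfl⟩ := mem_image.1 ha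
  exact mem_range.2 ((idx_lt R h).trans (Nat.lt_size_self _))

theorem two_pow_size_le {k : ℕ} (hk : 0 < k) : 2 ^ k.size ≤ 2 * k := by
  obtain ⟨i, hi⟩ := Nat.exists_eq_succ_of_ne_zero (Nat.size_pos.2 hk).ne'
  have := Nat.lt_size.1 (hi ▸ Nat.lt_succ_self i : i < k.size)
  rw [hi, pow_succ]
  omega

theorem seed_ofFn (R : Raw) (ω : Fin (Bξ R.n R.m) → Bool) : R.seed (List.ofFn ω) = ω := by
  funext i
  simp [seed]

theorem Ex_seed (v : R.V → ℤ) :
    (Ex (Bξ R.n R.m) fun u => ∑ y ∈ R.Ω,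
      min ((R.ann (DD r)).W j t y : ℝ) ((R.ann (DD r)).W j t (y + (v, R.seed u)) : ℝ) *
        (F (y + (v, R.seed u)) - F y) ^ 2) = 2 ^ Bξ R.n R.m * R.Ex2 r j t F v := by
  simp only [Ex, seed_ofFn, Ω, sum_product, Ex2, ex2, Wx, Prod.mk_add_mk]
  rw [sum_comm, sum_div, mul_sum]
  refine sum_congr rfl fun z _ => ?_
  have e : ∀ u : Fin (Bξ R.n R.m) → Bool, ∑ ω,
      min ((R.ann (DD r)).W j t (z, u) : ℝ) ((R.ann (DD r)).W j t (z + v, u + ω) : ℝ) *
        (F (z + v, u + ω) - F (z, u)) ^ 2 = ∑ u',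
      min ((R.ann (DD r)).W j t (z, u) : ℝ) ((R.ann (DD r)).W j t (z + v, u') : ℝ) *
        (F (z + v, u') - F (z, u)) ^ 2 := fun u =>
    Fintype.sum_equiv (Equiv.addLeft u) _ _ fun _ => rfl
  rw [sum_comm, sum_congr rfl fun u _ => e u]
  simp only [Fintype.card_fun, Fintype.card_bool, Fintype.card_fin, Nat.cast_pow, Nat.cast_ofNat]
  field_simp

theorem Ex2_nonneg (hW : ∀ z u, 0 ≤ R.Wx r j t z u) (v : R.V → ℤ) : 0 ≤ R.Ex2 r j t F v :=
  sum_nonneg fun _ _ => div_nonneg (sum_nonneg fun _ _ => sum_nonneg fun _ _ =>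
    mul_nonneg (le_min (hW _ _) (hW _ _)) (sq_nonneg _)) (sq_nonneg _)

end Moves

open Moves

theorem prop_symm (R : Raw) (H : R.X → ℝ) :
    Ex (Bprop R.n R.m) (fun u => H (R.prop u)) = Ex (Bprop R.n R.m) fun u => H (-R.prop u) := by
  rw [Ex_prop, Ex_prop R fun y => H (-y)]
  refine Ex_congr fun u1 _ => Ex_congr fun u2 _ => ?_
  rw [Ex_stp_neg R fun k => Ex (Bξ R.n R.m) fun u4 =>
    H (shift R (toNat u1) (toNat u2) k, R.seed u4)]
  simp only [shift_neg]
  rfl

theorem tot_le_MDir (h : R.Valid r x Rm κ) (hW : ∀ z u, 0 ≤ R.Wx r j t z u) :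
    2 ^ Bξ R.n R.m * R.tot (R.Ex2 r j t F) ≤
      (R.m : ℝ) ^ 2 * MDir ((R.ann (DD r)).W j t) R.Ω R.prop (Bprop R.n R.m) F := by
  have hE := Ex2_nonneg (F := F) hW
  set E := R.Ex2 r j t F with hEdef
  let P : ℕ → ℕ → ℝ := fun a b => Ex (R.m.size + R.m + 1 + 1) fun u => E (shift R a b (R.stp u))
  have hP : ∀ a b, 0 ≤ P a b := fun a b => Ex_nonneg fun _ _ => hE _
  have h1 : MDir ((R.ann (DD r)).W j t) R.Ω R.prop (Bprop R.n R.m) F = 2 ^ Bξ R.n R.m *
      Ex (2 * R.n).size fun u1 => Ex (2 * R.n).size fun u2 => P (toNat u1) (toNat u2) := by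
    rw [MDir, ← Ex_sum, Ex_prop R fun y => ∑ x ∈ R.Ω,
      min ((R.ann (DD r)).W j t x : ℝ) ((R.ann (DD r)).W j t (x + y) : ℝ) * (F (x + y) - F x) ^ 2]
    simp only [Ex_seed, Ex_mul_left, P, hEdef]
  have h2 : R.tot E ≤ 4 * 2 ^ R.m.size * ∑ a, ∑ b, P (R.idx a) (R.idx b) := by
    rw [tot, mul_sum]
    refine sum_le_sum fun a _ => ?_
    rw [mul_sum]
    refine sum_le_sum fun b _ => ?_
    have a1 := le_half R (G := fun k => E (k • (R.γ a - R.γ b))) fun k => hE _
    have a2 := half_nonneg R (G := fun k => E (-k • (R.γ a - R.γ b))) fun k => hE _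
    simp only [natCast_zsmul] at a1
    simp only [P, shift_idx]
    rw [Ex_stp R fun k => E (k • (R.γ a - R.γ b))]
    refine a1.trans ?_
    have : (0 : ℝ) ≤ 2 ^ R.m.size := by positivity
    nlinarith [mul_nonneg this a2]
  have h3 : ∑ a, ∑ b, P (R.idx a) (R.idx b) ≤ 2 ^ (2 * R.n).size * (2 ^ (2 * R.n).size *
      Ex (2 * R.n).size fun u1 => Ex (2 * R.n).size fun u2 => P (toNat u1) (toNat u2)) := by
    refine (sum_le_sum fun a _ => sum_idx_le R (hP (R.idx a))).trans ?_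
    rw [← mul_sum]
    exact mul_le_mul_of_nonneg_left (sum_idx_le R
      (Φ := fun a => Ex (2 * R.n).size fun u2 => P a (toNat u2))
      fun a => Ex_nonneg fun _ _ => hP _ _) (by positivity)
  have h4 : 4 * 2 ^ R.m.size * (2 ^ (2 * R.n).size * 2 ^ (2 * R.n).size) ≤ R.m ^ 2 := by
    have a1 := h.m_ge
    have a2 := h.n_pos
    have a3 : 128 * R.n ^ 2 ≤ R.m := by
      refine le_trans ?_ a1
      have : R.n ^ 2 ≤ (R.n + 2) ^ 10 :=
        (Nat.pow_le_pow_left (by omega) 2).trans (Nat.pow_le_pow_right (by omega) (by norm_num))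
      omega
    have a4 := two_pow_size_le (k := 2 * R.n) (by omega)
    have a5 := two_pow_size_le (k := R.m) (by nlinarith)
    calc _ ≤ 4 * (2 * R.m) * (2 * (2 * R.n) * (2 * (2 * R.n))) := by gcongr
      _ = 128 * R.n ^ 2 * R.m := by ring
      _ ≤ R.m * R.m := by gcongr
      _ = _ := by ring
  have h5 : (4 * 2 ^ R.m.size * (2 ^ (2 * R.n).size * 2 ^ (2 * R.n).size) : ℝ) ≤ (R.m : ℝ) ^ 2 := by
    exact_mod_cast h4
  have h6 : 0 ≤ Ex (2 * R.n).size fun u1 => Ex (2 * R.n).size fun u2 => P (toNat u1) (toNat u2) :=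
    Ex_nonneg fun _ _ => Ex_nonneg fun _ _ => hP _ _
  rw [h1, mul_left_comm]
  refine mul_le_mul_of_nonneg_left (h2.trans ?_) (by positivity)
  refine (mul_le_mul_of_nonneg_left h3 (by positivity)).trans ?_
  rw [← mul_assoc (2 ^ (2 * R.n).size : ℝ), ← mul_assoc]
  exact mul_le_mul_of_nonneg_right h5 h6

end Crest.Agent.R302.Raw
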