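import Crest.Agent.Lib.PolyTime.More
import Crest.Agent.Lib.PolyTime.Arith

/-!
# Row 302: every `Poly` function extends to a total `Poly` function on codes

A clocked interpreter for a fixed `Code`.
-/

set_option autoImplicit false

namespace Crest.Agent.R302

open Crest.Agent.Lib.PolyTime

/-- Cut off large trees. -/
def clamp (T : ℕ) (v : V) : V := if v.size ≤ T then v else .nil

theorem clamp_of_le {T : ℕ} {v : V} (h : v.size ≤ T) : clamp T v = v := if_pos h

theorem size_clamp_le (T : ℕ) (v : V) : (clamp T v).size ≤ T + 1 := by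
  unfold clamp
  split_ifs with h
  · omega
  · simp

theorem poly_clamp {α : Type} [PEnc α] {T : α → ℕ} {f : α → V} (hT : Poly T) (hf : Poly f) :
    Poly fun a => clamp (T a) (f a) :=
  Poly.ite (Poly.decide_le hf.sz' hT) hf (Lib.PolyTime.Poly.const _)

/-- One round of a clocked loop with body `f`. -/
def loopStep (f : V → V) (T : ℕ) (u : V) : V := if u.left = .nil then u else clamp T (f u.right)

/-- Clocked interpreter. -/
def evalC : Code → ℕ → V → V
  | .nil, _, _ => .nil
  | .id, _, v => v
  | .fst, _, v => v.left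
  | .snd, _, v => v.right
  | .pair c d, T, v => .node (evalC c T v) (evalC d T v)
  | .comp c d, T, v => evalC c T (evalC d T v)
  | .ite c d e, T, v => if evalC c T v = .nil then evalC e T v else evalC d T v
  | .loop c, T, v => ((loopStep (evalC c T) T)^[T] (.node (.node .nil .nil) v)).right

theorem poly_evalC (c : Code) : Poly fun p : Un × V => evalC c p.1.n p.2 := by
  induction c with
  | nil => exact Lib.PolyTime.Poly.const _
  | id => exact Poly.id'.snd
  | fst => exact Poly.id'.snd.left
  | snd => exact Poly.id'.snd.right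
  | pair c d ihc ihd => exact ihc.node ihd
  | comp c d ihc ihd => exact ihc.comp (Poly.id'.fst.pair ihd)
  | ite c d e ihc ihd ihe => exact Poly.ite (ihc.decide_eq (Lib.PolyTime.Poly.const _)) ihe ihd
  | loop c ih =>
    refine Poly.right (Poly.iterate_inv (h := fun p : Un × V => loopStep (evalC c p.1.n) p.1.n)
      (by fun_prop) (by fun_prop) (by fun_prop) ?_
      (fun p u => u.size ≤ p.2.size + p.1.n + 4) (fun p => by simp; omega) (fun p u hu => ?_)
      (B := fun p => sz p.2 + p.1.n + 4) (by fun_prop) fun _ _ h => h)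
    · refine Poly.ite (by fun_prop) (by fun_prop) (poly_clamp (by fun_prop) ?_)
      exact ih.comp (g := fun q : (Un × V) × V => (q.1.1, q.2.right)) (by fun_prop)
    · unfold loopStep
      split_ifs
      · exact hu
      · have := size_clamp_le p.1.n (evalC c p.1.n u.right)
        omega

theorem evalC_spec {c : Code} {v w : V} {n : ℕ} (h : Ev c v w n) (T : ℕ) (hT : n ≤ T) :
    evalC c T v = w ∧ ∀ c', c = .loop c' → ∀ k x y, n ≤ k →
      (loopStep (evalC c' T) T)^[k] (.node (.node x y) v) = .node .nil w := by
  induction h with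
  | nil v => exact ⟨rfl, by simp⟩
  | id v => exact ⟨rfl, by simp⟩
  | fst v => exact ⟨rfl, by simp⟩
  | snd v => exact ⟨rfl, by simp⟩
  | pair _ _ ih₁ ih₂ =>
    exact ⟨by rw [evalC, (ih₁ (by omega)).1, (ih₂ (by omega)).1], by simp⟩
  | comp _ _ ih₁ ih₂ =>
    exact ⟨by rw [evalC, (ih₁ (by omega)).1, (ih₂ (by omega)).1], by simp⟩
  | ite_nil _ _ ih₁ ih₂ =>
    exact ⟨by rw [evalC, (ih₁ (by omega)).1, (ih₂ (by omega)).1, if_pos rfl], by simp⟩
  | ite_node _ _ ih₁ ih₂ =>
    exact ⟨by rw [evalC, (ih₁ (by omega)).1, (ih₂ (by omega)).1, if_neg (by simp)], by simp⟩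
  | @loop_stop c v w n h ih =>
    have key : ∀ k x y, n ≤ k →
        (loopStep (evalC c T) T)^[k] (.node (.node x y) v) = .node .nil w := by
      intro k x y hk
      have h1 := h.size_out
      obtain ⟨k, rfl⟩ : ∃ j, k = j + 1 := ⟨k - 1, by simp at h1; omega⟩
      rw [Function.iterate_succ_apply, loopStep, if_neg (by simp), V.right_node, (ih hT).1,
        clamp_of_le (h1.trans hT)]
      exact Function.iterate_fixed (by simp [loopStep]) k
    refine ⟨by rw [evalC, key T _ _ hT, V.right_node], fun c' hc => ?_⟩
    obtain rfl := Code.loop.inj hc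
    exact key
  | @loop_next c v x' y' v' w n₁ n₂ h _ ih₁ ih₂ =>
    have key : ∀ k x y, n₁ + n₂ ≤ k →
        (loopStep (evalC c T) T)^[k] (.node (.node x y) v) = .node .nil w := by
      intro k x y hk
      have h1 := h.size_out
      obtain ⟨k, rfl⟩ : ∃ j, k = j + 1 := ⟨k - 1, by simp at h1; omega⟩
      rw [Function.iterate_succ_apply, loopStep, if_neg (by simp), V.right_node,
        (ih₁ (by omega)).1, clamp_of_le (by omega)]
      exact (ih₂ (by omega)).2 c rfl k _ _ (by simp at h1; omega)
    refine ⟨by rw [evalC, key T _ _ hT, V.right_node], fun c' hc => ?_⟩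
    obtain rfl := Code.loop.inj hc
    exact key

/-- A polynomial-time function extends to a total polynomial-time function on trees. -/
theorem exists_total {β γ : Type} [PEnc β] [PEnc γ] {h : β → γ} (hh : Poly h) :
    ∃ h' : V → V, Poly h' ∧ ∀ b, h' (enc b) = enc (h b) := by
  obtain ⟨p, c, hc⟩ := hh.exists_poly
  refine ⟨fun v => evalC c (p.eval (sz v)) v, (poly_evalC c).comp
    (g := fun v : V => (Un.mk (p.eval (sz v)), v)) (by fun_prop), fun b => ?_⟩
  obtain ⟨n, hn, he⟩ := hc b
  exact (evalC_spec he _ hn).1

/-- A tree read as a list. -/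
def toL : V → List V
  | .nil => []
  | .node a b => a :: toL b

theorem enc_toL (v : V) : enc (toL v) = v := by
  induction v with
  | nil => rfl
  | node a b _ ih => rw [toL, enc_cons, ih, enc_V]

theorem poly_toL : Poly toL := Poly.cast enc_toL

theorem toL_enc {β : Type} [PEnc β] (l : List β) : toL (enc l) = l.map enc := by
  induction l with
  | nil => rfl
  | cons x l ih => rw [enc_cons, toL, ih, List.map_cons]

/-- A tree read as a query. -/
def decQ (v : V) : Bool × List Bool :=
  (decide (v.left ≠ .nil), (toL v.right).map fun u => decide (u ≠ .nil))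

theorem poly_decQ : Poly decQ := by
  have := poly_toL
  unfold decQ
  fun_prop

theorem decQ_enc (q : Bool × List Bool) : decQ (enc q) = q := by
  have h : ∀ b : Bool, decide (enc b ≠ V.nil) = b := fun b => by cases b <;> simp
  obtain ⟨b, l⟩ := q
  rw [decQ, enc_pair, V.left_node, V.right_node, toL_enc, List.map_map]
  exact Prod.ext (h b) ((List.map_congr_left fun x _ => h x).trans (List.map_id _))

end Crest.Agent.R302
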