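import Crest.Agent.Lib.PolyTime.More
import Crest.Agent.Lib.PolyTime.Arith
import Crest.Agent.R302.OPolyAux

/-!
# Row 302: polynomial time relative to an oracle

A context type `α` carries a (not necessarily injective) code and an oracle.  `OPoly f` says that
`f` is computed from the code by a decision tree that is generated in polynomial time from the
table of the answers obtained so far.  All size bounds are only required on actual contexts, so
promises are expressed by choosing `α` to be a subtype.
-/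

set_option autoImplicit false

namespace Crest.Agent.R302

open Crest.Agent.Lib.PolyTime

/-- Queries. -/
abbrev Qry := Bool × List Bool

/-- Decision trees. -/
inductive OT (β : Type) : Type
  | ret : β → OT β
  | ask : Qry → (ℕ → OT β) → OT β

namespace OT

variable {β : Type}

/-- The result with the oracle `O`. -/
def run (O : Qry → ℕ) : OT β → β
  | ret b => b
  | ask q k => run O (k (O q))

/-- Total size of the transcript with the oracle `O`. -/
def load (O : Qry → ℕ) : OT β → ℕ
  | ret _ => 0
  | ask q k => sz q + sz (O q) + 2 + load O (k (O q))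

/-- Run on a table of answers until an answer is missing. -/
def sim (tab : List (Qry × ℕ)) : OT β → Qry ⊕ β
  | ret b => .inr b
  | ask q k => match tab.lookup q with
    | none => .inl q
    | some a => sim tab (k a)

/-- Sequential composition. -/
def bind {γ : Type} : OT β → (β → OT γ) → OT γ
  | ret b, k => k b
  | ask q c, k => ask q fun n => bind (c n) k

theorem run_bind {γ : Type} (O : Qry → ℕ) (t : OT β) (k : β → OT γ) :
    (t.bind k).run O = (k (t.run O)).run O := by
  induction t with
  | ret b => rfl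
  | ask q c ih => exact ih _

theorem load_bind {γ : Type} (O : Qry → ℕ) (t : OT β) (k : β → OT γ) :
    (t.bind k).load O = t.load O + (k (t.run O)).load O := by
  induction t with
  | ret b => simp [bind, load, run]
  | ask q c ih => simp only [bind, load, run, ih]; omega

theorem sim_bind {γ : Type} (tab : List (Qry × ℕ)) (t : OT β) (k : β → OT γ) :
    (t.bind k).sim tab = Sum.elim Sum.inl (fun b => (k b).sim tab) (t.sim tab) := by
  induction t with
  | ret b => rfl
  | ask q c ih =>
    simp only [bind, sim]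
    cases tab.lookup q with
    | none => rfl
    | some a => exact ih a

/-- Left fold of trees. -/
def foldT {γ : Type} (h : β → γ → OT β) : List γ → β → OT β
  | [], s => ret s
  | b :: L, s => (h s b).bind (foldT h L)

theorem sim_foldT {γ : Type} (tab : List (Qry × ℕ)) (h : β → γ → OT β) (L : List γ) :
    ∀ st : Qry ⊕ β, Sum.elim Sum.inl (fun s => (foldT h L s).sim tab) st =
      L.foldl (fun st b => Sum.elim Sum.inl (fun s => (h s b).sim tab) st) st := by
  induction L with
  | nil => rintro (q | s) <;> rfl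
  | cons b L ih =>
    rintro (q | s)
    · exact ih (.inl q)
    · rw [List.foldl_cons, ← ih, Sum.elim_inr, foldT, sim_bind]
      rfl

end OT

/-- Families of trees whose simulation is polynomial time. -/
def SP {δ : Type} [PEnc δ] (p : δ → OT V) : Prop :=
  Poly fun x : δ × List (Qry × ℕ) => (p x.1).sim x.2

namespace SP

variable {δ ε : Type} [PEnc δ] [PEnc ε]

theorem ret {f : δ → V} (hf : Poly f) : SP fun v => OT.ret (f v) :=
  (hf.comp Poly.id'.fst).inr

theorem comp {p : ε → OT V} {φ : δ → ε} (hp : SP p) (hφ : Poly φ) : SP fun v => p (φ v) :=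
  Poly.comp hp ((hφ.comp Poly.id'.fst).pair Poly.id'.snd)

theorem bind {p : δ → OT V} {k : δ → V → OT V} (hp : SP p) (hk : SP fun y : δ × V => k y.1 y.2) :
    SP fun v => (p v).bind (k v) :=
  (Poly.sumElim (f := fun _ => Sum.inl) (g := fun x b => (k x.1 b).sim x.2) hp Poly.id'.snd.inl
    (Poly.comp hk (g := fun y : (δ × List (Qry × ℕ)) × V => ((y.1.1, y.2), y.1.2))
      (by fun_prop))).congr fun _ => (OT.sim_bind _ _ _).symm

theorem ask {q : δ → Qry} (hq : Poly q) : SP fun v => OT.ask (q v) fun n => OT.ret (enc n) := by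
  refine (Poly.optionElim (o := fun x : δ × List (Qry × ℕ) => x.2.lookup (q x.1))
    (f := fun x => (Sum.inl (q x.1) : Qry ⊕ V)) (g := fun _ n => Sum.inr (enc n))
    (by fun_prop) (by fun_prop) (by fun_prop)).congr fun x => ?_
  simp only [OT.sim]
  cases x.2.lookup (q x.1) <;> rfl

theorem ite {c : δ → Prop} [DecidablePred c] {p q : δ → OT V} (hc : Poly fun v => decide (c v))
    (hp : SP p) (hq : SP q) : SP fun v => if c v then p v else q v :=
  (Poly.ite (p := fun x : δ × List (Qry × ℕ) => c x.1) (hc.comp Poly.id'.fst) hp hq).congr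
    fun x => by by_cases h : c x.1 <;> simp only [h, if_true, if_false]

theorem foldT {L : δ → List V} {s0 : δ → V} {h : δ → V → V → OT V} {K : δ → ℕ} (hL : Poly L)
    (hs0 : Poly s0) (hh : SP fun y : δ × V × V => h y.1 y.2.1 y.2.2) (hK : Poly K) (bK : PB K) :
    SP fun v => OT.foldT (fun s b => (h v s b).bind fun s' => OT.ret (clamp (K v) s'))
      (L v) (s0 v) := by
  have h1 : SP fun y : δ × V × V =>
      (h y.1 y.2.1 y.2.2).bind fun s' => OT.ret (clamp (K y.1) s') :=
    hh.bind (ret (poly_clamp (by fun_prop) (by fun_prop)))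
  obtain ⟨P, hP⟩ := Poly.pb_sz h1
  refine (Poly.foldl_inv (l := fun x : δ × List (Qry × ℕ) => L x.1)
    (g := fun x => (Sum.inr (s0 x.1) : Qry ⊕ V))
    (h := fun x st b => Sum.elim Sum.inl
      (fun s => ((h x.1 s b).bind fun s' => OT.ret (clamp (K x.1) s')).sim x.2) st)
    (by fun_prop) (by fun_prop) ?_
    (fun x st => (∀ s, st = .inr s → s.size ≤ sz (s0 x.1) + K x.1 + 1) ∧ sz st ≤
      sz (s0 x.1) + 4 + P.eval (sz x.1 + sz x.2 + sz (L x.1) + sz (s0 x.1) + K x.1 + 4))
    (fun x => ⟨fun s hs => ?_, by simp⟩) (fun x st b hb hst => ?_) (by fun_prop)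
    fun _ _ h => h.2).congr fun x => (OT.sim_foldT _ _ _ _).symm
  · exact Poly.sumElim (f := fun _ => Sum.inl) (by fun_prop) Poly.id'.snd.inl (Poly.comp h1
      (g := fun y : ((δ × List (Qry × ℕ)) × (Qry ⊕ V) × V) × V =>
        ((y.1.1.1, y.2, y.1.2.2), y.1.1.2)) (by fun_prop))
  · obtain rfl := Sum.inr.inj hs
    simp only [sz_V]
    omega
  · rcases st with q | s
    · exact hst
    · refine ⟨fun s' hs' => ?_, (hP ((x.1, s, b), x.2)).trans
        ((eval_mono P ?_).trans (Nat.le_add_left _ _))⟩
      · rw [Sum.elim_inr, OT.sim_bind] at hs'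
        rcases he : (h x.1 s b).sim x.2 with q | u
        · simp [he] at hs'
        · rw [he] at hs'
          obtain rfl := Sum.inr.inj hs'
          have := size_clamp_le (K x.1) u
          omega
      · have h2 := hst.1 s rfl
        have h3 := sz_le_of_mem hb
        simp only [sz_pair, sz_V] at h2 h3 ⊢
        omega

end SP

/-- Contexts. -/
class Ctx (α : Type) where
  code : α → V
  orc : α → Qry → ℕ
  bnd : ∃ p : Polynomial ℕ, ∀ a q, sz (orc a q) ≤ p.eval (code a).size

export Ctx (code orc)

instance {α β : Type} [Ctx α] [PEnc β] : Ctx (α × β) where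
  code p := .node (code p.1) (enc p.2)
  orc p := orc p.1
  bnd := by
    obtain ⟨p, hp⟩ := Ctx.bnd (α := α)
    exact ⟨p, fun a q => (hp a.1 q).trans (eval_mono p (by simp [V.size]; omega))⟩

instance {α : Type} {β : α → Type} [Ctx α] [∀ a, PEnc (β a)] : Ctx (Σ a, β a) where
  code p := .node (code p.1) (enc p.2)
  orc p := orc p.1
  bnd := by
    obtain ⟨p, hp⟩ := Ctx.bnd (α := α)
    exact ⟨p, fun a q => (hp a.1 q).trans (eval_mono p (by simp [V.size]; omega))⟩

instance {α : Type} [Ctx α] {P : α → Prop} : Ctx (Subtype P) where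
  code a := code a.1
  orc a := orc a.1
  bnd := by
    obtain ⟨p, hp⟩ := Ctx.bnd (α := α)
    exact ⟨p, fun a q => hp a.1 q⟩

/-- Polynomially bounded functions of the context. -/
def OPB {α : Type} [Ctx α] (g : α → ℕ) : Prop :=
  ∃ p : Polynomial ℕ, ∀ a, g a ≤ p.eval (code a).size

/-- Polynomial time relative to the oracle of the context. -/
def OPoly {α β : Type} [Ctx α] [PEnc β] (f : α → β) : Prop :=
  ∃ p : V → OT V, Poly (fun x : V × List (Qry × ℕ) => (p x.1).sim x.2) ∧
    (∀ a : α, (p (code a)).run (orc a) = enc (f a)) ∧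
    OPB (fun a : α => (p (code a)).load (orc a)) ∧ OPB fun a : α => sz (f a)

variable {α α' β γ δ : Type} [Ctx α] [Ctx α'] [PEnc β] [PEnc γ] [PEnc δ]

namespace OPB

theorem mono {g h : α → ℕ} (hh : OPB h) (le : ∀ a, g a ≤ h a) : OPB g := by
  obtain ⟨p, hp⟩ := hh
  exact ⟨p, fun a => (le a).trans (hp a)⟩

theorem const (k : ℕ) : OPB fun _ : α => k := by
  exact ⟨Polynomial.C k, by simp⟩

theorem add {g h : α → ℕ} (hg : OPB g) (hh : OPB h) : OPB fun a => g a + h a := by
  obtain ⟨p, hp⟩ := hg
  obtain ⟨q, hq⟩ := hh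
  exact ⟨p + q, fun a => by simpa using Nat.add_le_add (hp a) (hq a)⟩

theorem mul {g h : α → ℕ} (hg : OPB g) (hh : OPB h) : OPB fun a => g a * h a := by
  obtain ⟨p, hp⟩ := hg
  obtain ⟨q, hq⟩ := hh
  exact ⟨p * q, fun a => by simpa using Nat.mul_le_mul (hp a) (hq a)⟩

theorem pow {g : α → ℕ} (hg : OPB g) (k : ℕ) : OPB fun a => g a ^ k := by
  obtain ⟨p, hp⟩ := hg
  exact ⟨p ^ k, fun a => by simpa using Nat.pow_le_pow_left (hp a) k⟩

theorem eval {g : α → ℕ} (hg : OPB g) (q : Polynomial ℕ) : OPB fun a => q.eval (g a) := by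
  obtain ⟨p, hp⟩ := hg
  exact ⟨q.comp p, fun a => by simpa using eval_mono q (hp a)⟩

theorem size_code : OPB fun a : α => (code a).size := ⟨Polynomial.X, by simp⟩

/-- A polynomially bounded function of an oracle-computable value. -/
theorem of_pb {g : β → ℕ} {f : α → β} (hg : PB g) (hf : OPoly f) : OPB fun a => g (f a) := by
  obtain ⟨q, hq⟩ := hg
  exact (hf.choose_spec.2.2.2.eval q).mono fun a => hq _

theorem reindex {g : α' → ℕ} (hg : OPB g) {φ : α → α'} (hφ : OPoly fun a => code (φ a)) :
    OPB fun a => g (φ a) := by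
  obtain ⟨q, hq⟩ := hg
  exact (hφ.choose_spec.2.2.2.eval q).mono fun a => hq _

theorem fst {g : α → ℕ} (hg : OPB g) : OPB fun p : α × β => g p.1 := by
  obtain ⟨q, hq⟩ := hg
  refine ⟨q, fun a => (hq _).trans (eval_mono q ?_)⟩
  change _ ≤ (code a.1).size + _ + 1
  omega

end OPB

namespace OPoly

theorem sz_le {f : α → β} (hf : OPoly f) : OPB fun a => sz (f a) := hf.choose_spec.2.2.2

theorem congr {f g : α → β} (hf : OPoly f) (e : ∀ a, f a = g a) : OPoly g := funext e ▸ hf

theorem of_enc {f : α → β} {g : α → γ} (hg : OPoly g) (h : ∀ a, enc (g a) = enc (f a)) :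
    OPoly f := by
  obtain ⟨p, h1, h2, h3, h4⟩ := hg
  exact ⟨p, h1, fun a => (h2 a).trans (h a), h3, h4.mono fun a => by rw [sz, ← h a]; rfl⟩

/-- The general composition rule. -/
theorem bindT {f : α → β} {g : α → γ} (hf : OPoly f) (k : V → V → OT V)
    (hk : SP fun y : V × V => k y.1 y.2)
    (hr : ∀ a, (k (code a) (enc (f a))).run (orc a) = enc (g a))
    (hl : OPB fun a => (k (code a) (enc (f a))).load (orc a)) (hs : OPB fun a => sz (g a)) :
    OPoly g := by
  obtain ⟨p, h1, h2, h3, -⟩ := hf
  refine ⟨fun v => (p v).bind (k v), SP.bind h1 hk, fun a => ?_, (h3.add hl).mono fun a => ?_, hs⟩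
  · rw [OT.run_bind, h2, hr]
  · rw [OT.load_bind, h2]

theorem code' : OPoly (code : α → V) := by
  exact ⟨OT.ret, SP.ret Poly.id', fun _ => rfl, OPB.const 0, OPB.size_code⟩

/-- Post-composition with a polynomial-time function. -/
theorem comp {h : β → γ} {f : α → β} (hh : Poly h) (hf : OPoly f) : OPoly fun a => h (f a) := by
  obtain ⟨h', h1, h2⟩ := exists_total hh
  exact hf.bindT (fun _ u => OT.ret (h' u)) (SP.ret (h1.comp Poly.id'.snd)) (fun a => h2 _)
    (OPB.const 0) (OPB.of_pb (g := fun b => sz (h b)) hh.pb_sz hf)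

theorem pair {f : α → β} {g : α → γ} (hf : OPoly f) (hg : OPoly g) :
    OPoly fun a => (f a, g a) := by
  have hs := ((hf.sz_le.add hg.sz_le).add (OPB.const 1))
  obtain ⟨p, h1, h2, h3, -⟩ := hg
  refine hf.bindT (fun v u => (p v).bind fun w => OT.ret (.node u w))
    (SP.bind (SP.comp h1 Poly.id'.fst) (SP.ret (by fun_prop))) (fun a => ?_)
    (h3.mono fun a => ?_) hs
  · rw [OT.run_bind, h2]
    rfl
  · rw [OT.load_bind]
    rfl

theorem comp₂ {h : β → γ → δ} {f : α → β} {g : α → γ} (hh : Poly fun p : β × γ => h p.1 p.2)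
    (hf : OPoly f) (hg : OPoly g) : OPoly fun a => h (f a) (g a) :=
  comp hh (hf.pair hg)

theorem const (b : β) : OPoly fun _ : α => b := by
  exact comp (h := fun _ : V => b) (Lib.PolyTime.Poly.const b) code'

theorem snd : OPoly fun p : α × β => p.2 := by
  exact (comp (Poly.right Poly.id') code').of_enc fun _ => rfl

/-- Change of context along a map that keeps the oracle. -/
theorem reindex {f : α' → β} (hf : OPoly f) {φ : α → α'} (ho : ∀ a, orc (φ a) = orc a)
    (hφ : OPoly fun a => code (φ a)) : OPoly fun a => f (φ a) := by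
  have hs := hf.sz_le.reindex hφ
  obtain ⟨p, h1, h2, h3, -⟩ := hf
  refine hφ.bindT (fun _ u => p u) (SP.comp h1 Poly.id'.snd) (fun a => ?_)
    ((h3.reindex hφ).mono fun a => ?_) hs
  · rw [← ho, ← h2]
    rfl
  · rw [← ho]
    rfl

theorem fst {f : α → β} (hf : OPoly f) : OPoly fun p : α × γ => f p.1 := by
  exact hf.reindex (φ := fun p : α × γ => p.1) (fun _ => rfl)
    (comp (h := V.left) (f := (code : α × γ → V)) (Poly.left Poly.id') code')

theorem subst {f : α → β → γ} {g : α → β} (hf : OPoly fun p : α × β => f p.1 p.2)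
    (hg : OPoly g) : OPoly fun a => f a (g a) := by
  exact hf.reindex (φ := fun a => (a, g a)) (fun _ => rfl) ((code'.pair hg).of_enc fun _ => rfl)

/-- Call a function of the outer context from an extended context. -/
theorem call {f : α → β → γ} (hf : OPoly fun p : α × β => f p.1 p.2) {φ : α' → α}
    (ho : ∀ a, orc (φ a) = orc a) (hφ : OPoly fun a => code (φ a)) {g : α' → β} (hg : OPoly g) :
    OPoly fun a => f (φ a) (g a) := by
  exact hf.reindex (φ := fun a => (φ a, g a)) ho ((hφ.pair hg).of_enc fun _ => rfl)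

theorem code_fst : OPoly fun p : α × β => code p.1 := by
  exact code'.fst

theorem restrict {f : α → β} (hf : OPoly f) (P : α → Prop) : OPoly fun a : Subtype P => f a.1 := by
  exact hf.reindex (φ := fun a : Subtype P => a.1) (fun _ => rfl) code'

theorem query {q : α → Qry} (hq : OPoly q) : OPoly fun a => orc a (q a) := by
  have hs : OPB fun a => sz (orc a (q a)) := by
    obtain ⟨p, hp⟩ := Ctx.bnd (α := α)
    exact ⟨p, fun a => hp a _⟩
  refine hq.bindT (fun _ u => OT.ask (decQ u) fun n => OT.ret (enc n))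
    (SP.ask (poly_decQ.comp Poly.id'.snd)) (fun a => ?_)
    (((hq.sz_le.add hs).add (OPB.const 2)).mono fun a => ?_) hs
  · rw [decQ_enc]
    rfl
  · rw [decQ_enc]
    rfl

theorem cond {c : α → Bool} {f g : α → β} (hc : OPoly c) (hf : OPoly f) (hg : OPoly g) :
    OPoly fun a => bif c a then f a else g a := by
  exact comp (h := fun p : Bool × β × β => bif p.1 then p.2.1 else p.2.2) (by fun_prop)
    (hc.pair (hf.pair hg))

theorem ite {P : α → Prop} [DecidablePred P] {f g : α → β} (hc : OPoly fun a => decide (P a))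
    (hf : OPoly f) (hg : OPoly g) : OPoly fun a => if P a then f a else g a := by
  exact (hc.cond hf hg).congr fun a => by by_cases h : P a <;> simp [h]

/-- Branches may use the outcome of the test as a promise. -/
theorem dite {P : α → Prop} [DecidablePred P] {f : ∀ a, P a → β} {g : ∀ a, ¬ P a → β}
    (hc : OPoly fun a => decide (P a)) (hf : OPoly fun a : Subtype P => f a.1 a.2)
    (hg : OPoly fun a : {a // ¬ P a} => g a.1 a.2) :
    OPoly fun a => if h : P a then f a h else g a h := by
  obtain ⟨p, h1, h2, ⟨p1, h3⟩, ⟨p2, h4⟩⟩ := hf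
  obtain ⟨q, k1, k2, ⟨q1, k3⟩, ⟨q2, k4⟩⟩ := hg
  refine hc.bindT (fun v u => if u = .nil then q v else p v)
    (SP.ite (by fun_prop) (SP.comp k1 Poly.id'.fst) (SP.comp h1 Poly.id'.fst)) (fun a => ?_)
    ⟨p1 + q1, fun a => ?_⟩ ⟨p2 + q2, fun a => ?_⟩
  · by_cases h : P a
    · simp only [h, decide_true, enc_true, reduceCtorEq, if_false, dif_pos]
      exact h2 ⟨a, h⟩
    · simp only [h, decide_false, enc_false, if_true, dif_neg, not_false_eq_true]
      exact k2 ⟨a, h⟩
  · rw [Polynomial.eval_add]
    by_cases h : P a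
    · simp only [h, decide_true, enc_true, reduceCtorEq, if_false]
      exact (h3 ⟨a, h⟩).trans (Nat.le_add_right _ _)
    · simp only [h, decide_false, enc_false, if_true]
      exact (k3 ⟨a, h⟩).trans (Nat.le_add_left _ _)
  · rw [Polynomial.eval_add]
    by_cases h : P a
    · simp only [dif_pos h]
      exact (h4 ⟨a, h⟩).trans (Nat.le_add_right _ _)
    · simp only [dif_neg h]
      exact (k4 ⟨a, h⟩).trans (Nat.le_add_left _ _)

theorem foldl_inv' {l : α → List β} {g : α → γ} {h : α → γ → β → γ} {B : α → ℕ}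
    (I : α → γ → β → Prop) (hl : OPoly l) (hg : OPoly g)
    (hh : OPoly fun p : {p : α × γ × β // I p.1 p.2.1 p.2.2} => h p.1.1 p.1.2.1 p.1.2.2)
    (hI : ∀ a l' b, l' ++ [b] <+: l a → I a (l'.foldl (h a) (g a)) b) (hB : OPB B)
    (hsz : ∀ a l', l' <+: l a → sz (l'.foldl (h a) (g a)) ≤ B a) :
    OPoly fun a => (l a).foldl (h a) (g a) := by
  obtain ⟨p, h1, h2, ⟨q, h3⟩, -⟩ := hh
  obtain ⟨P, hP⟩ := id hB
  have key : ∀ a (l₂ l₁ : List β), l₁ ++ l₂ = l a →
      (OT.foldT (fun s b => (p (.node (code a) (.node s b))).bind fun s' =>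
        OT.ret (clamp (P.eval (code a).size) s')) (l₂.map enc)
          (enc (l₁.foldl (h a) (g a)))).run (orc a) = enc ((l a).foldl (h a) (g a)) ∧
      (OT.foldT (fun s b => (p (.node (code a) (.node s b))).bind fun s' =>
        OT.ret (clamp (P.eval (code a).size) s')) (l₂.map enc)
          (enc (l₁.foldl (h a) (g a)))).load (orc a) ≤
        l₂.length * q.eval ((code a).size + B a + sz (l a) + 2) := by
    intro a l₂
    induction l₂ with
    | nil =>
      intro l₁ e
      rw [← e, List.append_nil]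
      exact ⟨rfl, Nat.zero_le _⟩
    | cons b l₂ ih =>
      intro l₁ e
      have e' : l₁ ++ [b] ++ l₂ = l a := by simpa using e
      have i1 := hI a l₁ b ⟨_, e'⟩
      have r1 : (p (.node (code a) (.node (enc (l₁.foldl (h a) (g a))) (enc b)))).run (orc a) =
          enc ((l₁ ++ [b]).foldl (h a) (g a)) := by
        rw [List.foldl_append]
        exact h2 ⟨(a, _, b), i1⟩
      have r2 : (p (.node (code a) (.node (enc (l₁.foldl (h a) (g a))) (enc b)))).load (orc a) ≤
          q.eval ((code a).size + B a + sz (l a) + 2) := by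
        refine (h3 ⟨(a, _, b), i1⟩).trans (eval_mono q ?_)
        have h4 := hsz a l₁ ⟨_, e⟩
        have h5 : sz b ≤ sz (l a) := sz_le_of_mem (by simp [← e])
        change (code a).size + (sz (l₁.foldl (h a) (g a)) + sz b + 1) + 1 ≤ _
        omega
      have r3 : clamp (P.eval (code a).size) (enc ((l₁ ++ [b]).foldl (h a) (g a))) =
          enc ((l₁ ++ [b]).foldl (h a) (g a)) :=
        clamp_of_le ((hsz a _ ⟨_, e'⟩).trans (hP a))
      obtain ⟨ih1, ih2⟩ := ih _ e'
      simp only [List.map_cons, OT.foldT, OT.run_bind, OT.load_bind, r1, OT.run, OT.load, r3,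
        List.length_cons, Nat.succ_mul]
      exact ⟨ih1, by omega⟩
  have := poly_toL
  refine (hl.pair hg).bindT (fun v u => OT.foldT (fun s b => (p (.node v (.node s b))).bind
    fun s' => OT.ret (clamp (P.eval (sz v)) s')) (toL u.left) u.right)
    (SP.foldT (h := fun y : V × V => fun s b => p (.node y.1 (.node s b)))
      (K := fun y : V × V => P.eval (sz y.1)) (by fun_prop) (by fun_prop)
      (SP.comp h1 (by fun_prop)) (by fun_prop) (by fun_prop)) (fun a => ?_)
    ((hl.sz_le.mul ((((OPB.size_code.add hB).add hl.sz_le).add (OPB.const 2)).eval q)).mono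
      fun a => ?_) (hB.mono fun a => hsz a _ List.prefix_rfl)
  · rw [enc_pair, V.left_node, V.right_node, toL_enc]
    exact (key a (l a) [] rfl).1
  · rw [enc_pair, V.left_node, V.right_node, toL_enc]
    exact (key a (l a) [] rfl).2.trans (Nat.mul_le_mul_right _ (length_le_sz _))

theorem un' {n : α → ℕ} (hn : OPoly n) (bn : OPB n) : OPoly fun a => (⟨n a⟩ : Un) := by
  obtain ⟨p, hp⟩ := bn
  exact (comp (h := fun x : ℕ × V => Un.mk (min x.1 (p.eval (sz x.2)))) (by fun_prop)
    (hn.pair code')).congr fun a => congrArg Un.mk (min_eq_left (hp a))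

theorem range' {n : α → ℕ} (hn : OPoly n) (bn : OPB n) : OPoly fun a => List.range (n a) :=
  comp (h := fun u : Un => List.range u.n) (by fun_prop) (un' hn bn)

/-- Loops: the size bound is only needed along the actual runs. -/
theorem foldl {l : α → List β} {g : α → γ} {h : α → γ → β → γ} {B : α → ℕ} (hl : OPoly l)
    (hg : OPoly g) (hh : OPoly fun p : α × γ × β => h p.1 p.2.1 p.2.2) (hB : OPB B)
    (hsz : ∀ a l', l' <+: l a → sz (l'.foldl (h a) (g a)) ≤ B a) :
    OPoly fun a => (l a).foldl (h a) (g a) := by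
  exact foldl_inv' (fun _ _ _ => True) hl hg (hh.restrict _) (fun _ _ _ _ => trivial) hB hsz

/-- Loops with an invariant that the body may use as a promise. -/
theorem foldl_inv {l : α → List β} {g : α → γ} {h : α → γ → β → γ} {B : α → ℕ}
    (I : α → γ → β → Prop) (hl : OPoly l) (hg : OPoly g)
    (hh : OPoly fun p : {p : α × γ × β // I p.1 p.2.1 p.2.2} => h p.1.1 p.1.2.1 p.1.2.2)
    (hI : ∀ a l' b, l' ++ [b] <+: l a → I a (l'.foldl (h a) (g a)) b) (hB : OPB B)
    (hsz : ∀ a l', l' <+: l a → sz (l'.foldl (h a) (g a)) ≤ B a) :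
    OPoly fun a => (l a).foldl (h a) (g a) := by
  exact foldl_inv' I hl hg hh hI hB hsz

theorem iterate {n : α → ℕ} {g : α → γ} {h : α → γ → γ} {B : α → ℕ} (hn : OPoly n) (bn : OPB n)
    (hg : OPoly g) (hh : OPoly fun p : α × γ => h p.1 p.2) (hB : OPB B)
    (hsz : ∀ a i, i ≤ n a → sz ((h a)^[i] (g a)) ≤ B a) :
    OPoly fun a => (h a)^[n a] (g a) := by
  refine (foldl (h := fun a s (_ : ℕ) => h a s) (range' hn bn) hg
    (hh.call (φ := fun p : α × γ × ℕ => p.1) (fun _ => rfl) code_fst
      (comp (Poly.fst Poly.id') snd)) hB fun a l' hl' => ?_).congr fun a => ?_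
  · rw [List.foldl_const]
    exact hsz a _ (by simpa using hl'.length_le)
  · rw [List.foldl_const, List.length_range]

theorem map {l : α → List β} {f : α → β → γ} (hl : OPoly l)
    (hf : OPoly fun p : α × β => f p.1 p.2) : OPoly fun a => (l a).map (f a) := by
  have key : ∀ a (l' : List β) (s : List γ),
      l'.foldl (fun s b => s ++ [f a b]) s = s ++ l'.map (f a) := by
    intro a l'
    induction l' with
    | nil => simp
    | cons b l' ih => simp [ih]
  obtain ⟨q, hq⟩ := hf.sz_le
  refine (foldl (h := fun a s b => s ++ [f a b]) hl (const [])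
    (comp₂ (h := fun s x => s ++ [x]) (by fun_prop) (comp (Poly.fst Poly.id') snd)
      (hf.call (φ := fun p : α × List γ × β => p.1) (fun _ => rfl) code_fst
        (comp (Poly.snd Poly.id') snd)))
    ((hl.sz_le.mul ((((OPB.size_code.add hl.sz_le).add (OPB.const 1)).eval q).add
      (OPB.const 1))).add (OPB.const 1)) fun a l' hl' => ?_).congr fun a => by rw [key]; rfl
  rw [key, List.nil_append]
  refine (sz_list_le (B := q.eval ((code a).size + sz (l a) + 1)) fun x hx => ?_).trans
    (Nat.add_le_add_right (Nat.mul_le_mul_right _ ?_) _)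
  · obtain ⟨b, hb, rfl⟩ := List.mem_map.1 hx
    refine (hq (a, b)).trans (eval_mono q ?_)
    have := sz_le_of_mem (hl'.subset hb)
    change (code a).size + sz b + 1 ≤ _
    omega
  · rw [List.length_map]
    exact hl'.length_le.trans (length_le_sz _)

theorem range {n : α → ℕ} (hn : OPoly n) (bn : OPB n) : OPoly fun a => List.range (n a) := by
  exact range' hn bn

theorem un {n : α → ℕ} (hn : OPoly n) (bn : OPB n) : OPoly fun a => (⟨n a⟩ : Un) := by
  exact un' hn bn

theorem ofFn {n : α → ℕ} {f : ∀ a, Fin (n a) → β} (hn : OPoly n) (bn : OPB n)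
    (hf : OPoly fun p : Σ a, Fin (n a) => f p.1 p.2) : OPoly fun a => List.ofFn (f a) := by
  have h1 : OPoly fun p : α × ℕ => if h : p.2 < n p.1 then enc (f p.1 ⟨p.2, h⟩) else V.nil :=
    dite (comp₂ (h := fun x y : ℕ => decide (x < y)) (by fun_prop) snd hn.fst)
      ((hf.reindex (φ := fun p : {p : α × ℕ // p.2 < n p.1} => ⟨p.1.1, ⟨p.1.2, p.2⟩⟩)
        (fun _ => rfl) code').of_enc fun _ => rfl) (const _)
  refine (map (f := fun a i => if h : i < n a then enc (f a ⟨i, h⟩) else V.nil)
    (range hn bn) h1).of_enc fun a => ?_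
  rw [← List.map_coe_finRange_eq_range, List.map_map, List.ofFn_eq_map]
  exact enc_map_congr fun i _ => by simp

theorem code_sigmaFst {φ : α → Type} [∀ a, PEnc (φ a)] : OPoly fun p : Σ a, φ a => code p.1 := by
  exact comp (h := V.left) (f := (code : (Σ a, φ a) → V)) (Poly.left Poly.id') code'

theorem sigmaFst {φ : α → Type} [∀ a, PEnc (φ a)] {f : α → β} (hf : OPoly f) :
    OPoly fun p : Σ a, φ a => f p.1 := by
  exact hf.reindex (φ := fun p : Σ a, φ a => p.1) (fun _ => rfl) code_sigmaFst

theorem sigmaFinVal {n : α → ℕ} : OPoly fun p : Σ a, Fin (n a) => (p.2 : ℕ) := by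
  exact (comp (Poly.right Poly.id') code').of_enc fun _ => rfl

end OPoly

/-- The subset of `Fin n` with indicator list `l`. -/
def setOf (n : ℕ) (l : List Bool) : Finset (Fin n) := Finset.univ.filter fun j => l.getD j false

/-- The indicator list of a subset of `Fin n`. -/
def indic {n : ℕ} (A : Finset (Fin n)) : List Bool := List.ofFn fun j => decide (j ∈ A)

theorem setOf_indic {n : ℕ} (A : Finset (Fin n)) : setOf n (indic A) = A := by
  ext j; simp [setOf, indic]

end Crest.Agent.R302
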