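import Crest.Agent.R302.LC

/-!
# Row 302: refinement of systems of charges
-/

set_option autoImplicit false
set_option linter.unusedSectionVars false

namespace Crest.Agent.R302

open Finset

variable {ι : Type} [Fintype ι] [DecidableEq ι]

namespace RefineAux

theorem mem_box {lo hi : ℤ} {x : ι → ℤ} : x ∈ box ι lo hi ↔ ∀ c, lo ≤ x c ∧ x c ≤ hi := by
  have : box ι lo hi = Fintype.piFinset fun _ => Icc lo hi := rfl
  rw [this, Fintype.mem_piFinset]
  simp only [mem_Icc]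

theorem fib_def (lo hi : ℤ) (Pn : Finset ι) (y : ι → ℤ) :
    fib lo hi Pn y = (box ι lo hi).filter fun x => ∀ d ∈ Pn, x d = y d := rfl

theorem mem_fib {lo hi : ℤ} {Pn : Finset ι} {x y : ι → ℤ} :
    x ∈ fib lo hi Pn y ↔ x ∈ box ι lo hi ∧ ∀ d ∈ Pn, x d = y d := by
  rw [fib_def, mem_filter]

theorem ev_same {V : Type} [DecidableEq V] (d : V) : ev d d = 1 := Pi.single_eq_same _ _

theorem ev_ne {V : Type} [DecidableEq V] {c d : V} (h : c ≠ d) : ev d c = 0 :=
  Pi.single_eq_of_ne h _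

theorem fib_congr (lo hi : ℤ) {Q : Finset ι} {y y' : ι → ℤ} (h : ∀ c ∈ Q, y c = y' c) :
    fib lo hi Q y = fib lo hi Q y' := by
  ext x
  rw [mem_fib, mem_fib]
  exact and_congr_right fun _ => ⟨fun h1 c hc => (h1 c hc).trans (h c hc),
    fun h1 c hc => (h1 c hc).trans (h c hc).symm⟩

theorem upd_iff {Pn : Finset ι} {d : ι} (hd : d ∉ Pn) (x y : ι → ℤ) (j : ℤ) :
    (∀ c ∈ insert d Pn, x c = Function.update y d j c) ↔ x d = j ∧ ∀ c ∈ Pn, x c = y c := by
  rw [forall_mem_insert, Function.update_self]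
  refine and_congr_right fun _ => forall₂_congr fun c hc => ?_
  rw [Function.update_of_ne (ne_of_mem_of_not_mem hc hd)]

theorem mem_fib_upd {lo hi : ℤ} {Pn : Finset ι} {d : ι} (hd : d ∉ Pn) {x y : ι → ℤ} {j : ℤ} :
    x ∈ fib lo hi (insert d Pn) (Function.update y d j) ↔
      x ∈ box ι lo hi ∧ x d = j ∧ ∀ c ∈ Pn, x c = y c := by
  rw [mem_fib, upd_iff hd]

theorem shift_sum (lo hi : ℤ) (d : ι) (G : (ι → ℤ) → ℝ) :
    ∑ x ∈ box ι lo hi, (if x d < hi then G (x + ev d) else 0) =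
      ∑ x ∈ box ι lo hi, (if lo < x d then G x else 0) := by
  rw [← sum_filter, ← sum_filter]
  refine sum_nbij' (fun x => x + ev d) (fun x => x - ev d) ?_ ?_ ?_ ?_ ?_
  · intro x hx
    simp only [mem_filter, mem_box] at hx ⊢
    refine ⟨fun c => ?_, ?_⟩
    · by_cases hc : c = d
      · subst hc
        rw [Pi.add_apply, ev_same]
        have := hx.1 c
        omega
      · rw [Pi.add_apply, ev_ne hc, add_zero]; exact hx.1 c
    · rw [Pi.add_apply, ev_same]
      have := hx.1 d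
      omega
  · intro x hx
    simp only [mem_filter, mem_box] at hx ⊢
    refine ⟨fun c => ?_, ?_⟩
    · by_cases hc : c = d
      · subst hc
        rw [Pi.sub_apply, ev_same]
        have := hx.1 c
        omega
      · rw [Pi.sub_apply, ev_ne hc, sub_zero]; exact hx.1 c
    · rw [Pi.sub_apply, ev_same]
      have := hx.1 d
      omega
  · intro x _; exact add_sub_cancel_right _ _
  · intro x _; exact sub_add_cancel _ _
  · intro x _; rfl

theorem agree_add {Pn : Finset ι} {d : ι} (hd : d ∉ Pn) (x : ι → ℤ) :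
    ∀ c ∈ Pn, (x + ev d) c = x c := fun c hc => by
  rw [Pi.add_apply, ev_ne (ne_of_mem_of_not_mem hc hd), add_zero]

theorem fib_shift {lo hi : ℤ} {Pn : Finset ι} {d : ι} (hd : d ∉ Pn) (y : ι → ℤ) {k : ℤ}
    (h1 : lo ≤ k) (h2 : k < hi) (F : (ι → ℤ) → ℝ) :
    ∑ x ∈ fib lo hi (insert d Pn) (Function.update y d k), F (x + ev d) =
      ∑ x ∈ fib lo hi (insert d Pn) (Function.update y d (k + 1)), F x := by
  have := shift_sum lo hi d fun x => if x d = k + 1 ∧ ∀ c ∈ Pn, x c = y c then F x else 0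
  rw [fib_def, fib_def, sum_filter, sum_filter]
  simp only [upd_iff hd]
  refine Eq.trans (sum_congr rfl fun x _ => ?_) (this.trans (sum_congr rfl fun x _ => ?_))
  · have e1 : (x + ev d) d = x d + 1 := by rw [Pi.add_apply, ev_same]
    have e2 : (∀ c ∈ Pn, (x + ev d) c = y c) ↔ ∀ c ∈ Pn, x c = y c :=
      forall₂_congr fun c hc => by rw [agree_add hd x c hc]
    simp only [e1, e2, add_left_inj]
    by_cases h : x d = k
    · rw [if_pos (by omega : x d < hi)]
    · simp [h]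
  · by_cases h : x d = k + 1
    · rw [if_pos (by omega : lo < x d)]
    · simp [h]

theorem u_shift {lo hi : ℤ} {d : ι} {u : (ι → ℤ) → ℤ → ℝ} (hu : ∀ x, u (x + ev d) = u x)
    (h0 : ∀ x k, ¬ (lo ≤ k ∧ k < hi) → u x k = 0) (F : (ι → ℤ) → ℝ) :
    ∑ x ∈ box ι lo hi, u x (x d) * F (x + ev d) = ∑ x ∈ box ι lo hi, u x (x d - 1) * F x := by
  have := shift_sum lo hi d fun x => u x (x d - 1) * F x
  refine Eq.trans (sum_congr rfl fun x _ => ?_) (this.trans (sum_congr rfl fun x _ => ?_))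
  · have e1 : (x + ev d) d - 1 = x d := by rw [Pi.add_apply, ev_same]; ring
    simp only [e1, hu]
    split_ifs with h
    · rfl
    · rw [h0 x (x d) (fun h' => h h'.2), zero_mul]
  · split_ifs with h
    · rfl
    · rw [h0 x (x d - 1) (fun h' => h (by omega)), zero_mul]

/-- charges on the two sides of the pair `d` -/
def two (d : ι) (α β : ℝ) : Bool × ι → ℝ := fun a =>
  (if a = (false, d) then α else 0) + (if a = (true, d) then β else 0)

theorem sum_two (d : ι) (α β : ℝ) (F : Bool × ι → ℝ) :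
    ∑ a, two d α β a * F a = α * F (false, d) + β * F (true, d) := by
  simp only [two, add_mul, ite_mul, zero_mul, sum_add_distrib, sum_ite_eq', mem_univ, if_true]

theorem two_free {c d : ι} (h : c ≠ d) (α β : ℝ) : two d α β (false, c) = 0 := by
  simp [two, h]

theorem abs_two (d : ι) {α β C : ℝ} (h1 : |α| ≤ C) (h2 : |β| ≤ C) (a : Bool × ι) :
    |two d α β a| ≤ C := by
  have h0 : 0 ≤ C := (abs_nonneg _).trans h1
  unfold two
  by_cases e1 : a = (false, d)
  · subst e1; simpa using h1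
  · by_cases e2 : a = (true, d)
    · subst e2; simpa using h2
    · simpa [e1, e2] using h0

theorem quad_add (w v : Bool × ι → ℝ) (P : Bool × ι → Bool × ι → ℝ) (hP : ∀ a b, P a b = P b a) :
    ∑ a, ∑ b, (w a + v a) * (w b + v b) * P a b =
      ∑ a, ∑ b, w a * w b * P a b + 2 * ∑ b, v b * ∑ a, w a * P a b +
        ∑ a, v a * ∑ b, v b * P a b := by
  have h1 : ∑ a, ∑ b, w a * v b * P a b = ∑ b, v b * ∑ a, w a * P a b := by
    rw [sum_comm]
    refine sum_congr rfl fun b _ => ?_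
    rw [mul_sum]
    exact sum_congr rfl fun a _ => by ring
  have h2 : ∑ a, ∑ b, v a * w b * P a b = ∑ b, v b * ∑ a, w a * P a b := by
    refine sum_congr rfl fun b _ => ?_
    rw [mul_sum]
    exact sum_congr rfl fun a _ => by rw [hP b a]; ring
  have h3 : ∑ a, ∑ b, v a * v b * P a b = ∑ a, v a * ∑ b, v b * P a b := by
    refine sum_congr rfl fun a _ => ?_
    rw [mul_sum]
    exact sum_congr rfl fun b _ => by ring
  rw [two_mul, ← h3]
  nth_rewrite 1 [← h1]
  rw [← h2]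
  simp only [← sum_add_distrib]
  exact sum_congr rfl fun a _ => sum_congr rfl fun b _ => by ring

section gen
variable {lo hi : ℤ} {t : ι → ℤ} {d : ι} {u : (ι → ℤ) → ℤ → ℝ} {w : (ι → ℤ) → Bool × ι → ℝ}

theorem LF_def (lo hi : ℤ) (t : ι → ℤ) (w : (ι → ℤ) → Bool × ι → ℝ) (G : (Bool × ι → ℤ) → ℝ) :
    LF lo hi t w G = ∑ x ∈ box ι lo hi, ∑ a, w x a * G (lf t x + ev a) := rfl

theorem QF_def (lo hi : ℤ) (t : ι → ℤ) (w : (ι → ℤ) → Bool × ι → ℝ) (Ψ : (Bool × ι → ℤ) → ℝ) :
    QF lo hi t w Ψ = ∑ x ∈ box ι lo hi, ∑ a, ∑ b, w x a * w x b * Ψ (lf t x + ev a + ev b) := rfl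

theorem NN_def (φ : (Bool × ι → ℤ) → ℝ) (lo hi : ℤ) (t : ι → ℤ) :
    NN φ lo hi t = ∑ x ∈ box ι lo hi, φ (lf t x) := rfl

theorem LF_add (hu : ∀ x, u (x + ev d) = u x) (h0 : ∀ x k, ¬ (lo ≤ k ∧ k < hi) → u x k = 0)
    (G : (Bool × ι → ℤ) → ℝ) :
    LF lo hi t (fun x a => w x a + two d (u x (x d)) (-u x (x d - 1)) a) G = LF lo hi t w G := by
  have key := u_shift hu h0 fun x => G (lf (t + ev d) x)
  simp only [LF_def, add_mul, sum_add_distrib, sum_two, lf_add_false, lf_add_true, neg_mul,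
    sum_neg_distrib]
  rw [key]; ring

theorem QF_add (hu : ∀ x, u (x + ev d) = u x) (h0 : ∀ x k, ¬ (lo ≤ k ∧ k < hi) → u x k = 0)
    (hw : ∀ x, w (x + ev d) = w x) (Ψ : (Bool × ι → ℤ) → ℝ) (hΨ : ∀ z, 0 ≤ Ψ z) :
    QF lo hi t w Ψ ≤
      QF lo hi t (fun x a => w x a + two d (u x (x d)) (-u x (x d - 1)) a) Ψ := by
  have k1 := u_shift hu h0 fun x => ∑ a, w x a * Ψ (lf (t + ev d) x + ev a)
  have k2 := u_shift hu h0 fun x => u x (x d - 1) * Ψ (lf (t + ev d + ev d) x)
  have k3 := u_shift hu h0 fun x => u x (x d - 1) * Ψ (lf (t + ev d + ev d) (x + ev d))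
  have e1 : ∀ x : ι → ℤ, (x + ev d) d - 1 = x d := fun x => by rw [Pi.add_apply, ev_same]; ring
  simp only [hu, hw, e1] at k1 k2 k3
  have hq : ∀ x : ι → ℤ, ∑ a, ∑ b, (w x a + two d (u x (x d)) (-u x (x d - 1)) a) *
      (w x b + two d (u x (x d)) (-u x (x d - 1)) b) * Ψ (lf t x + ev a + ev b) =
      ∑ a, ∑ b, w x a * w x b * Ψ (lf t x + ev a + ev b) +
      (2 * (u x (x d) * ∑ a, w x a * Ψ (lf (t + ev d) (x + ev d) + ev a)) -
        2 * (u x (x d - 1) * ∑ a, w x a * Ψ (lf (t + ev d) x + ev a))) +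
      (u x (x d) * (u x (x d) * Ψ (lf (t + ev d + ev d) (x + ev d + ev d))) -
        2 * (u x (x d) * u x (x d - 1) * Ψ (lf (t + ev d + ev d) (x + ev d))) +
        u x (x d - 1) * (u x (x d - 1) * Ψ (lf (t + ev d + ev d) x))) := by
    intro x
    rw [quad_add _ _ (fun a b => Ψ (lf t x + ev a + ev b))
      (fun a b => by rw [add_right_comm])]
    have e2 : ∀ a s, lf t x + ev a + ev (s, d) = lf t x + ev (s, d) + ev a :=
      fun a s => add_right_comm _ _ _
    simp only [sum_two]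
    simp only [lf_add_false, lf_add_true]
    simp only [e2, lf_add_false, lf_add_true]
    ring
  have hs : 0 ≤ ∑ x ∈ box ι lo hi,
      (u x (x d) - u x (x d - 1)) ^ 2 * Ψ (lf (t + ev d + ev d) (x + ev d)) :=
    sum_nonneg fun x _ => mul_nonneg (sq_nonneg _) (hΨ _)
  have hs' : ∑ x ∈ box ι lo hi,
      (u x (x d) - u x (x d - 1)) ^ 2 * Ψ (lf (t + ev d + ev d) (x + ev d)) =
      ∑ x ∈ box ι lo hi, u x (x d) * (u x (x d) * Ψ (lf (t + ev d + ev d) (x + ev d))) -
      ∑ x ∈ box ι lo hi, 2 * (u x (x d) * u x (x d - 1) * Ψ (lf (t + ev d + ev d) (x + ev d))) +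
      ∑ x ∈ box ι lo hi, u x (x d - 1) *
        (u x (x d - 1) * Ψ (lf (t + ev d + ev d) (x + ev d))) := by
    rw [← sum_sub_distrib, ← sum_add_distrib]
    exact sum_congr rfl fun x _ => by ring
  rw [QF_def, QF_def]
  simp only [hq, sum_add_distrib, sum_sub_distrib, ← mul_sum] at hs' ⊢
  linarith

end gen

section step
variable (φ : (Bool × ι → ℤ) → ℝ) (lo hi : ℤ) (t : ι → ℤ) (Pn : Finset ι) (d : ι)
  (w : (ι → ℤ) → Bool × ι → ℝ)

/-- charge of a level -/
noncomputable def lA (x : ι → ℤ) (j : ℤ) : ℝ :=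
  ∑ x' ∈ fib lo hi (insert d Pn) (Function.update x d j), ∑ a, w x' a * φ (lf t x' + ev a)

/-- mass of a level -/
noncomputable def lY (x : ι → ℤ) (j : ℤ) : ℝ :=
  ∑ x' ∈ fib lo hi (insert d Pn) (Function.update x d j), φ (lf (t + ev d) x')

/-- flow between two levels -/
noncomputable def lU (x : ι → ℤ) (k : ℤ) : ℝ :=
  if lo ≤ k ∧ k < hi then -(∑ j ∈ Icc lo k, lA φ lo hi t Pn d w x j) / lY φ lo hi t Pn d x (k + 1)
  else 0

/-- the refined charges -/
noncomputable def stepW : (ι → ℤ) → Bool × ι → ℝ := fun x a =>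
  w x a + two d (lU φ lo hi t Pn d w x (x d)) (-lU φ lo hi t Pn d w x (x d - 1)) a

variable {φ lo hi t Pn d w}

theorem lU_congr (hd : d ∉ Pn) {x x' : ι → ℤ} (h : ∀ c ∈ Pn, x c = x' c) :
    lU φ lo hi t Pn d w x = lU φ lo hi t Pn d w x' := by
  have e : ∀ j, fib lo hi (insert d Pn) (Function.update x d j) =
      fib lo hi (insert d Pn) (Function.update x' d j) := fun j =>
    fib_congr lo hi ((upd_iff hd _ _ _).2 ⟨Function.update_self _ _ _, fun c hc => by
      rw [Function.update_of_ne (ne_of_mem_of_not_mem hc hd), h c hc]⟩)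
  funext k
  simp only [lU, lA, lY, e]

theorem lU_zero (x : ι → ℤ) (k : ℤ) (h : ¬ (lo ≤ k ∧ k < hi)) : lU φ lo hi t Pn d w x k = 0 :=
  if_neg h

theorem lY_pos (hφ : ∀ z, 0 < φ z) (hd : d ∉ Pn) {x : ι → ℤ} (hx : x ∈ box ι lo hi) {j : ℤ}
    (h1 : lo ≤ j) (h2 : j ≤ hi) : 0 < lY φ lo hi t Pn d x j := by
  refine sum_pos (fun _ _ => hφ _) ⟨Function.update x d j, mem_fib.2 ⟨mem_box.2 fun c => ?_,
    fun _ _ => rfl⟩⟩
  by_cases hc : c = d
  · subst hc; rw [Function.update_self]; exact ⟨h1, h2⟩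
  · rw [Function.update_of_ne hc]; exact mem_box.1 hx c

theorem lA_total (hw : Sys φ lo hi t Pn w) (hd : d ∉ Pn) {x : ι → ℤ} (hx : x ∈ box ι lo hi) :
    ∑ j ∈ Icc lo hi, lA φ lo hi t Pn d w x j = 0 := by
  rw [← hw.zero x hx, ← sum_fiberwise_of_maps_to (s := fib lo hi Pn x) (t := Icc lo hi)
    (g := fun x' => x' d) (fun x' hx' => mem_Icc.2 (mem_box.1 (mem_fib.1 hx').1 d))]
  refine sum_congr rfl fun j _ => sum_congr ?_ fun _ _ => rfl
  ext x'
  rw [mem_fib_upd hd, mem_filter, mem_fib]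
  tauto

theorem sum_Icc_top (A : ℤ → ℝ) {lo k : ℤ} (h : lo ≤ k) :
    ∑ j ∈ Icc lo k, A j = ∑ j ∈ Icc lo (k - 1), A j + A k := by
  have : Icc lo k = insert k (Icc lo (k - 1)) := by
    ext j; simp only [mem_insert, mem_Icc]; omega
  rw [this, sum_insert (by simp), add_comm]

theorem step_sys (hφ : ∀ z, 0 < φ z) (hw : Sys φ lo hi t Pn w) (hd : d ∉ Pn) :
    Sys φ lo hi t (insert d Pn) (stepW φ lo hi t Pn d w) where
  dep := by
    intro x x' h
    have h1 : ∀ c ∈ Pn, x c = x' c := fun c hc => h c (mem_insert_of_mem hc)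
    funext a
    simp only [stepW]
    rw [hw.dep x x' h1, lU_congr hd h1, h d (mem_insert_self _ _)]
  free := by
    intro c hc x
    rw [mem_insert, not_or] at hc
    simp only [stepW]
    rw [hw.free c hc.2, two_free hc.1, add_zero]
  zero := by
    intro y hy
    obtain ⟨h1, h2⟩ := mem_box.1 hy d
    have e0 : fib lo hi (insert d Pn) y = fib lo hi (insert d Pn) (Function.update y d (y d)) := by
      rw [Function.update_eq_self]
    have e1 : ∑ x ∈ fib lo hi (insert d Pn) y, ∑ a, stepW φ lo hi t Pn d w x a * φ (lf t x + ev a) =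
        lA φ lo hi t Pn d w y (y d) + lU φ lo hi t Pn d w y (y d) *
          (∑ x ∈ fib lo hi (insert d Pn) (Function.update y d (y d)), φ (lf (t + ev d) (x + ev d)))
          - lU φ lo hi t Pn d w y (y d - 1) * lY φ lo hi t Pn d y (y d) := by
      rw [e0, lA, lY, mul_sum, mul_sum, ← sum_add_distrib, ← sum_sub_distrib]
      refine sum_congr rfl fun x hx => ?_
      obtain ⟨-, hx1, hx2⟩ := (mem_fib_upd hd).1 hx
      simp only [stepW, add_mul, sum_add_distrib, sum_two, lf_add_false, lf_add_true]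
      rw [lU_congr hd hx2, hx1]; ring
    have e2 : lU φ lo hi t Pn d w y (y d) *
        (∑ x ∈ fib lo hi (insert d Pn) (Function.update y d (y d)), φ (lf (t + ev d) (x + ev d))) =
        -∑ j ∈ Icc lo (y d), lA φ lo hi t Pn d w y j := by
      by_cases h3 : y d < hi
      · rw [fib_shift hd y h1 h3 fun x => φ (lf (t + ev d) x), lU, if_pos ⟨h1, h3⟩]
        exact div_mul_cancel₀ _ (lY_pos hφ hd hy (by omega) (by omega)).ne'
      · have h4 : y d = hi := by omega
        rw [lU_zero _ _ (fun h => h3 h.2), zero_mul, h4, lA_total hw hd hy, neg_zero]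
    have e3 : lU φ lo hi t Pn d w y (y d - 1) * lY φ lo hi t Pn d y (y d) =
        -∑ j ∈ Icc lo (y d - 1), lA φ lo hi t Pn d w y j := by
      by_cases h3 : lo < y d
      · rw [lU, if_pos ⟨by omega, by omega⟩, sub_add_cancel]
        exact div_mul_cancel₀ _ (lY_pos hφ hd hy h1 h2).ne'
      · rw [lU_zero _ _ (fun h => h3 (by omega)), zero_mul, Icc_eq_empty (by omega), sum_empty,
          neg_zero]
    rw [e1, e2, e3, sum_Icc_top _ h1]; ring

theorem step_LF (hd : d ∉ Pn) (G : (Bool × ι → ℤ) → ℝ) :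
    LF lo hi t (stepW φ lo hi t Pn d w) G = LF lo hi t w G :=
  LF_add (fun x => lU_congr hd (agree_add hd x)) lU_zero G

theorem step_QF (hw : Sys φ lo hi t Pn w) (hd : d ∉ Pn) (Ψ : (Bool × ι → ℤ) → ℝ)
    (hΨ : ∀ z, 0 ≤ Ψ z) : QF lo hi t w Ψ ≤ QF lo hi t (stepW φ lo hi t Pn d w) Ψ :=
  QF_add (fun x => lU_congr hd (agree_add hd x)) lU_zero
    (fun x => hw.dep _ _ (agree_add hd x)) Ψ hΨ

end step

theorem refine_gen {φ : (Bool × ι → ℤ) → ℝ} (hφ : ∀ z, 0 < φ z) {lo hi : ℤ} {t : ι → ℤ}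
    (R : ℕ → ((ι → ℤ) → Bool × ι → ℝ) → Prop)
    (hR : ∀ m Pn d w, d ∉ Pn → Sys φ lo hi t Pn w → R m w → R (m + 1) (stepW φ lo hi t Pn d w))
    (n : ℕ) : ∀ (m : ℕ) (Pn : Finset ι) (w : (ι → ℤ) → Bool × ι → ℝ), Pnᶜ.card = n →
      Sys φ lo hi t Pn w → R m w → ∃ w' : (ι → ℤ) → Bool × ι → ℝ,
      (∀ x ∈ box ι lo hi, ∑ a, w' x a * φ (lf t x + ev a) = 0) ∧ R (m + n) w' ∧
      (∀ Ψ : (Bool × ι → ℤ) → ℝ, (∀ z, 0 ≤ Ψ z) → QF lo hi t w Ψ ≤ QF lo hi t w' Ψ) ∧
      ∀ G, LF lo hi t w' G = LF lo hi t w G := by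
  induction n with
  | zero =>
    intro m Pn w hc hw hm
    refine ⟨w, fun x hx => ?_, hm, fun _ _ => le_rfl, fun _ => rfl⟩
    have h1 : Pn = univ := by rwa [card_eq_zero, compl_eq_empty_iff] at hc
    have h2 : fib lo hi Pn x = {x} := by
      ext x'
      rw [mem_fib, mem_singleton, h1]
      exact ⟨fun h => funext fun c => h.2 c (mem_univ _), fun h => ⟨h ▸ hx, fun _ _ => h ▸ rfl⟩⟩
    have := hw.zero x hx
    rwa [h2, sum_singleton] at this
  | succ n ih =>
    intro m Pn w hc hw hm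
    obtain ⟨d, hd⟩ : Pnᶜ.Nonempty := card_pos.1 (by omega)
    have hd' : d ∉ Pn := mem_compl.1 hd
    have hc' : (insert d Pn)ᶜ.card = n := by
      rw [compl_insert, card_erase_of_mem hd, hc]; rfl
    obtain ⟨w', h1, h2, h3, h4⟩ := ih (m + 1) (insert d Pn) _ hc' (step_sys hφ hw hd')
      (hR m Pn d w hd' hw hm)
    refine ⟨w', h1, ?_, fun Ψ hΨ => (step_QF hw hd' Ψ hΨ).trans (h3 Ψ hΨ),
      fun G => (h4 G).trans (step_LF hd' G)⟩
    rwa [add_assoc, add_comm 1 n] at h2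

theorem QF_nonpos {φ : (Bool × ι → ℤ) → ℝ} (hφ : LC φ) {lo hi : ℤ} {t : ι → ℤ} {Pn : Finset ι}
    {w : (ι → ℤ) → Bool × ι → ℝ} (hw : Sys φ lo hi t Pn w) (i : Bool × ι) :
    QF lo hi t w (fun z => φ (z - ev i)) ≤ 0 := by
  obtain ⟨w', h1, -, h3, -⟩ := refine_gen hφ.1 (fun _ _ => True) (fun _ _ _ _ _ _ _ => trivial)
    _ 0 Pn w rfl hw trivial
  refine (h3 _ fun z => (hφ.pos _).le).trans ?_
  rw [QF_def]
  refine sum_nonpos fun x hx => ?_
  have := hφ.ref (lf t x) i (w' x) (h1 x hx)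
  refine le_of_eq_of_le (sum_congr rfl fun a _ => sum_congr rfl fun b _ => ?_) this
  congr 2
  abel

theorem unimodal {Y : ℤ → ℝ} {lo hi : ℤ} (hpos : ∀ j, lo ≤ j → j ≤ hi → 0 < Y j)
    (hlc : ∀ j, lo ≤ j → j + 2 ≤ hi → Y j * Y (j + 2) ≤ Y (j + 1) ^ 2) {k : ℤ} (h1 : lo ≤ k)
    (h2 : k < hi) :
    (∀ j, lo ≤ j → j ≤ k → Y j ≤ Y (k + 1)) ∨ (∀ j, k + 1 ≤ j → j ≤ hi → Y j ≤ Y (k + 1)) := by
  rcases le_total (Y k) (Y (k + 1)) with h | h
  · left
    have key : ∀ n : ℕ, lo ≤ k - n → Y (k - n) ≤ Y (k - n + 1) ∧ Y (k - n) ≤ Y (k + 1) := by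
      intro n
      induction n with
      | zero => intro _; simpa using h
      | succ n ih =>
        intro hn
        push_cast at hn ⊢
        obtain ⟨i1, i2⟩ := ih (by omega)
        have h3 := hlc (k - (n + 1)) hn (by omega)
        have e1 : k - (n + 1) + 1 = k - n := by ring
        have e2 : k - (n + 1) + 2 = k - n + 1 := by ring
        rw [e1, e2] at h3
        rw [e1]
        have p1 := hpos (k - n) (by omega) (by omega)
        have p2 := hpos (k - n + 1) (by omega) (by omega)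
        have h4 : Y (k - (n + 1)) ≤ Y (k - n) := by
          refine le_of_mul_le_mul_right (h3.trans ?_) p2
          rw [sq]
          exact mul_le_mul_of_nonneg_left i1 p1.le
        exact ⟨h4, h4.trans i2⟩
    intro j hj hjk
    have := (key (k - j).toNat (by omega)).2
    rwa [show k - ((k - j).toNat : ℤ) = j by omega] at this
  · right
    have key : ∀ n : ℕ, k + n + 1 ≤ hi → Y (k + n + 1) ≤ Y (k + n) ∧ Y (k + n + 1) ≤ Y (k + 1) := by
      intro n
      induction n with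
      | zero => intro _; simpa using h
      | succ n ih =>
        intro hn
        push_cast at hn ⊢
        obtain ⟨i1, i2⟩ := ih (by omega)
        have h3 := hlc (k + n) (by omega) (by omega)
        have e1 : k + (n + 1) = k + n + 1 := by ring
        have e2 : k + n + 2 = k + n + 1 + 1 := by ring
        rw [e2] at h3
        rw [e1]
        have p1 := hpos (k + n) (by omega) (by omega)
        have p2 := hpos (k + n + 1) (by omega) (by omega)
        have h4 : Y (k + n + 1 + 1) ≤ Y (k + n + 1) := by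
          refine le_of_mul_le_mul_left (h3.trans ?_) p1
          rw [sq]
          exact mul_le_mul_of_nonneg_right i1 p2.le
        exact ⟨h4, h4.trans i2⟩
    intro j hj hjk
    have := (key (j - k - 1).toNat (by omega)).2
    rwa [show k + ((j - k - 1).toNat : ℤ) + 1 = j by omega] at this

end RefineAux

open RefineAux

/-- Log-concavity of the level masses of an unpinned pair inside a fibre. -/
theorem level_lc {φ : (Bool × ι → ℤ) → ℝ} (hφ : LC φ) {lo hi : ℤ} (t : ι → ℤ) {Pn : Finset ι}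
    {e : ι} (he : e ∉ Pn) (y : ι → ℤ) {k : ℤ} (h1 : lo ≤ k) (h2 : k + 2 ≤ hi) :
    (∑ x ∈ fib lo hi (insert e Pn) (Function.update y e k), φ (lf t x)) *
        ∑ x ∈ fib lo hi (insert e Pn) (Function.update y e (k + 2)), φ (lf t x) ≤
      (∑ x ∈ fib lo hi (insert e Pn) (Function.update y e (k + 1)), φ (lf t x)) ^ 2 := by
  have s1 := fib_shift he y h1 (by omega : k < hi) fun x => φ (lf t x)
  have s2 := fib_shift he y h1 (by omega : k < hi) fun x => φ (lf t (x + ev e))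
  have s3 := fib_shift he y (by omega : lo ≤ k + 1) (by omega : k + 1 < hi) fun x => φ (lf t x)
  rw [show k + 1 + 1 = k + 2 by ring] at s3
  set Y0 := ∑ x ∈ fib lo hi (insert e Pn) (Function.update y e k), φ (lf t x) with hY0
  set Y1 := ∑ x ∈ fib lo hi (insert e Pn) (Function.update y e (k + 1)), φ (lf t x) with hY1
  set Y2 := ∑ x ∈ fib lo hi (insert e Pn) (Function.update y e (k + 2)), φ (lf t x) with hY2
  have ef : ∀ x : ι → ℤ, lf (t - ev e) x + ev (false, e) = lf t (x + ev e) := fun x => by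
    rw [lf_add_false, sub_add_cancel]
  have et : ∀ x : ι → ℤ, lf (t - ev e) x + ev (true, e) = lf t x := fun x => by
    rw [lf_add_true, sub_add_cancel]
  have hs : Sys φ lo hi (t - ev e) (insert e Pn)
      (fun x => if ∀ c ∈ insert e Pn, x c = Function.update y e k c then two e Y0 (-Y1) else 0) := by
    refine ⟨fun x x' h => ?_, fun c hc x => ?_, fun y' _ => ?_⟩
    · refine if_congr (forall₂_congr fun c hc => by rw [h c hc]) rfl rfl
    · rw [mem_insert, not_or] at hc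
      split_ifs
      · exact two_free hc.1 _ _
      · rfl
    · by_cases hy : ∀ c ∈ insert e Pn, y' c = Function.update y e k c
      · rw [fib_congr lo hi hy]
        have : ∀ x ∈ fib lo hi (insert e Pn) (Function.update y e k),
            ∑ a, (if ∀ c ∈ insert e Pn, x c = Function.update y e k c then two e Y0 (-Y1) else 0) a *
              φ (lf (t - ev e) x + ev a) = Y0 * φ (lf t (x + ev e)) - Y1 * φ (lf t x) := by
          intro x hx
          rw [if_pos (mem_fib.1 hx).2, sum_two, ef, et]; ring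
        rw [sum_congr rfl this, sum_sub_distrib, ← mul_sum, ← mul_sum, s1]; ring
      · refine sum_eq_zero fun x hx => ?_
        rw [if_neg fun h => hy fun c hc => ((mem_fib.1 hx).2 c hc).symm.trans (h c hc)]
        simp
  have hq := QF_nonpos hφ hs (true, e)
  have e3 : QF lo hi (t - ev e)
      (fun x => if ∀ c ∈ insert e Pn, x c = Function.update y e k c then two e Y0 (-Y1) else 0)
      (fun z => φ (z - ev (true, e))) = ∑ x ∈ fib lo hi (insert e Pn) (Function.update y e k),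
        (Y0 ^ 2 * φ (lf t (x + ev e + ev e)) - 2 * Y0 * Y1 * φ (lf t (x + ev e))
          + Y1 ^ 2 * φ (lf t x)) := by
    rw [QF_def, fib_def, sum_filter]
    refine sum_congr rfl fun x _ => ?_
    split_ifs with hx
    · simp only [mul_assoc, ← mul_sum, sum_two]
      have a1 : lf (t - ev e) x + ev (false, e) + ev (false, e) - ev (true, e) =
          lf t (x + ev e + ev e) := by
        rw [ef, lf_add_false, ← lf_add_true, add_sub_cancel_right]
      have a2 : lf (t - ev e) x + ev (false, e) + ev (true, e) - ev (true, e) =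
          lf t (x + ev e) := by rw [add_sub_cancel_right, ef]
      have a3 : lf (t - ev e) x + ev (true, e) + ev (false, e) - ev (true, e) =
          lf t (x + ev e) := by rw [add_right_comm, add_sub_cancel_right, ef]
      have a4 : lf (t - ev e) x + ev (true, e) + ev (true, e) - ev (true, e) = lf t x := by
        rw [add_sub_cancel_right, et]
      rw [a1, a2, a3, a4]; ring
    · simp
  rw [e3, sum_add_distrib, sum_sub_distrib, ← mul_sum, ← mul_sum, ← mul_sum, s2, s3, s1] at hq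
  have h0 : 0 ≤ Y0 := sum_nonneg fun _ _ => (hφ.pos _).le
  rcases h0.eq_or_lt with h0 | h0
  · rw [← h0, zero_mul]; exact sq_nonneg _
  · refine le_of_mul_le_mul_left ?_ h0
    nlinarith

theorem RefineAux.NN_form {φ : (Bool × ι → ℤ) → ℝ} (hφ : LC φ) (lo hi : ℤ) (e i : ι) (c : ι → ℝ)
    (hc : ∑ p, c p * NN φ lo hi (ev p - ev e) = 0) :
    ∑ p, ∑ q, c p * c q * NN φ lo hi (ev p + ev q - ev e - ev i) ≤ 0 := by
  have hs : Sys φ lo hi (-ev e) ∅ (fun _ a => if a.1 then c a.2 else 0) := by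
    refine ⟨fun _ _ _ => rfl, fun _ _ _ => by simp, fun y _ => ?_⟩
    have : fib lo hi ∅ y = box ι lo hi := by
      ext x; rw [mem_fib]; simp
    rw [this]
    refine Eq.trans ?_ hc
    simp only [NN_def, mul_sum]
    rw [sum_comm (s := univ)]
    refine sum_congr rfl fun x _ => ?_
    simp only [Fintype.sum_prod_type, Fintype.sum_bool, if_true, lf_add_true, Bool.false_eq_true,
      if_false, zero_mul, sum_const_zero, add_zero, neg_add_eq_sub]
  have hq := QF_nonpos hφ hs (true, i)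
  refine le_of_eq_of_le ?_ hq
  simp only [QF_def, NN_def, mul_sum]
  symm
  rw [sum_comm]
  simp only [Fintype.sum_prod_type, Fintype.sum_bool, if_true, Bool.false_eq_true,
    if_false, zero_mul, mul_zero, sum_const_zero, add_zero]
  refine sum_congr rfl fun p _ => ?_
  rw [sum_comm]
  refine sum_congr rfl fun q _ => sum_congr rfl fun x _ => ?_
  congr 2
  rw [lf_add_true, lf_add_true, sub_eq_iff_eq_add, lf_add_true]
  congr 1
  abel

/-- Triangle inequality for the masses of the hole classes. -/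
theorem NN_tri {φ : (Bool × ι → ℤ) → ℝ} (hφ : LC φ) {lo hi : ℤ} (hle : lo ≤ hi) (e i d : ι) :
    NN φ lo hi (ev i - ev e) * NN φ lo hi (ev d - ev i) ≤
      2 * NN φ lo hi 0 * NN φ lo hi (ev d - ev e) := by
  have hpos : ∀ s, 0 < NN φ lo hi s := fun s =>
    sum_pos (fun _ _ => hφ.pos _) ⟨fun _ => lo, mem_box.2 fun _ => ⟨le_rfl, hle⟩⟩
  have key : ∀ α β γ : ℝ, α * NN φ lo hi 0 + β * NN φ lo hi (ev d - ev e) +
      γ * NN φ lo hi (ev i - ev e) = 0 →
      α ^ 2 * NN φ lo hi (ev e - ev i) + β ^ 2 * NN φ lo hi (ev d + ev d - ev e - ev i) +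
      γ ^ 2 * NN φ lo hi (ev i - ev e) + 2 * α * β * NN φ lo hi (ev d - ev i) +
      2 * α * γ * NN φ lo hi 0 + 2 * β * γ * NN φ lo hi (ev d - ev e) ≤ 0 := by
    intro α β γ h
    have := NN_form hφ lo hi e i (fun p => (if p = e then α else 0) + (if p = d then β else 0) +
      (if p = i then γ else 0)) (by
        simp only [add_mul, ite_mul, zero_mul, sum_add_distrib, sum_ite_eq', mem_univ, if_true,
          sub_self]
        exact h)
    simp only [mul_assoc, ← mul_sum] at this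
    simp only [add_mul, ite_mul, zero_mul, sum_add_distrib, sum_ite_eq', mem_univ, if_true] at this
    have a1 : ev e + ev e - ev e - ev i = ev e - ev i := by abel
    have a2 : ev e + ev d - ev e - ev i = ev d - ev i := by abel
    have a3 : ev e + ev i - ev e - ev i = 0 := by abel
    have a4 : ev d + ev e - ev e - ev i = ev d - ev i := by abel
    have a5 : ev d + ev i - ev e - ev i = ev d - ev e := by abel
    have a6 : ev i + ev e - ev e - ev i = 0 := by abel
    have a7 : ev i + ev d - ev e - ev i = ev d - ev e := by abel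
    have a8 : ev i + ev i - ev e - ev i = ev i - ev e := by abel
    rw [a1, a2, a3, a4, a5, a6, a7, a8] at this
    linarith
  have p0 := hpos 0
  have p1 := hpos (ev d - ev e)
  have p2 := hpos (ev i - ev e)
  have p3 := hpos (ev e - ev i)
  have p4 := hpos (ev d + ev d - ev e - ev i)
  set N0 := NN φ lo hi 0
  set Nd := NN φ lo hi (ev d - ev e)
  set Ni := NN φ lo hi (ev i - ev e)
  set X := NN φ lo hi (ev d - ev i)
  have h := key (Nd * Ni) (N0 * Ni) (-2 * N0 * Nd) (by ring)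
  have q1 := mul_nonneg (sq_nonneg (Nd * Ni)) p3.le
  have q2 := mul_nonneg (sq_nonneg (N0 * Ni)) p4.le
  refine le_of_mul_le_mul_left ?_ (mul_pos (mul_pos (mul_pos two_pos p0) p1) p2)
  linarith

theorem RefineAux.lU_bound {φ : (Bool × ι → ℤ) → ℝ} (hφ : LC φ) {lo hi : ℤ} (hle : lo ≤ hi) {Λ : ℝ}
    (hΛ : ∀ z a b, φ (z + ev a) ≤ Λ * φ (z + ev b)) {t : ι → ℤ} {Pn : Finset ι}
    {w : (ι → ℤ) → Bool × ι → ℝ} (hw : Sys φ lo hi t Pn w) {B : ℝ}
    (hB : ∀ x ∈ box ι lo hi, ∀ a, |w x a| ≤ B) {d : ι} (hd : d ∉ Pn) {x : ι → ℤ}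
    (hx : x ∈ box ι lo hi) (k : ℤ) :
    |lU φ lo hi t Pn d w x k| ≤ B * (2 * Fintype.card ι * Λ * ((hi - lo + 1 : ℤ) : ℝ)) := by
  have hB0 : 0 ≤ B := (abs_nonneg _).trans (hB x hx (true, d))
  have hΛ0 : 0 ≤ Λ := by
    have h1 := hΛ 0 (true, d) (true, d)
    have h2 := hφ.pos (0 + ev (true, d))
    exact nonneg_of_mul_nonneg_left (h2.le.trans h1) h2
  have hL : (0 : ℝ) ≤ ((hi - lo + 1 : ℤ) : ℝ) := by exact_mod_cast (by omega : 0 ≤ hi - lo + 1)
  have hC : 0 ≤ B * (2 * Fintype.card ι * Λ) := by positivity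
  by_cases hk : lo ≤ k ∧ k < hi
  swap
  · rw [lU_zero _ _ hk, abs_zero]; positivity
  have hA : ∀ j, |lA φ lo hi t Pn d w x j| ≤
      B * (2 * Fintype.card ι * Λ) * lY φ lo hi t Pn d x j := by
    intro j
    rw [lA, lY, mul_sum]
    refine (abs_sum_le_sum_abs _ _).trans (sum_le_sum fun x' hx' => ?_)
    refine (abs_sum_le_sum_abs _ _).trans ?_
    have : ∀ a ∈ (univ : Finset (Bool × ι)), |w x' a * φ (lf t x' + ev a)| ≤
        B * (Λ * φ (lf (t + ev d) x')) := by
      intro a _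
      rw [abs_mul, abs_of_pos (hφ.pos _), ← lf_add_true]
      exact mul_le_mul (hB x' (mem_fib.1 hx').1 a) (hΛ _ _ _) (hφ.pos _).le hB0
    refine (sum_le_card_nsmul _ _ _ this).trans (le_of_eq ?_)
    rw [card_univ, Fintype.card_prod, Fintype.card_bool, nsmul_eq_mul]
    push_cast; ring
  have hY := lY_pos (t := t) hφ.1 hd hx (j := k + 1) (by omega) (by omega)
  have hsum : ∀ s : Finset ℤ, s ⊆ Icc lo hi →
      (∀ j ∈ s, lY φ lo hi t Pn d x j ≤ lY φ lo hi t Pn d x (k + 1)) →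
      |∑ j ∈ s, lA φ lo hi t Pn d w x j| ≤
        B * (2 * Fintype.card ι * Λ * ((hi - lo + 1 : ℤ) : ℝ)) * lY φ lo hi t Pn d x (k + 1) := by
    intro s hs h
    refine (abs_sum_le_sum_abs _ _).trans ?_
    refine (sum_le_card_nsmul _ _ _ fun j hj =>
      (hA j).trans (mul_le_mul_of_nonneg_left (h j hj) hC)).trans ?_
    have h1 : (s.card : ℝ) ≤ ((hi - lo + 1 : ℤ) : ℝ) := by
      have h2 := card_le_card hs
      rw [Int.card_Icc] at h2
      have h3 : (s.card : ℤ) ≤ hi - lo + 1 := by omega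
      exact_mod_cast h3
    rw [nsmul_eq_mul]
    calc (s.card : ℝ) * (B * (2 * Fintype.card ι * Λ) * lY φ lo hi t Pn d x (k + 1))
        ≤ ((hi - lo + 1 : ℤ) : ℝ) * (B * (2 * Fintype.card ι * Λ) * lY φ lo hi t Pn d x (k + 1)) :=
          mul_le_mul_of_nonneg_right h1 (mul_nonneg hC hY.le)
      _ = _ := by ring
  rw [lU, if_pos hk, abs_div, abs_neg, abs_of_pos hY, div_le_iff₀ hY]
  rcases unimodal (Y := lY φ lo hi t Pn d x) (fun j h1 h2 => lY_pos hφ.1 hd hx h1 h2)
    (fun j h1 h2 => level_lc hφ (t + ev d) hd x h1 h2) hk.1 hk.2 with h | h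
  · exact hsum _ (Icc_subset_Icc_right hk.2.le) fun j hj => h j (mem_Icc.1 hj).1 (mem_Icc.1 hj).2
  · have e : ∑ j ∈ Icc lo k, lA φ lo hi t Pn d w x j =
        -∑ j ∈ Icc (k + 1) hi, lA φ lo hi t Pn d w x j := by
      have h1 := lA_total hw hd hx
      have h2 : Icc lo hi = Icc lo k ∪ Icc (k + 1) hi := by
        ext j; simp only [mem_union, mem_Icc]; omega
      rw [h2, sum_union (by
        rw [disjoint_left]; intro j h3 h4; rw [mem_Icc] at h3 h4; omega)] at h1
      linarith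
    rw [e, abs_neg]
    exact hsum _ (Icc_subset_Icc_left (by omega))
      fun j hj => h j (mem_Icc.1 hj).1 (mem_Icc.1 hj).2

/-- Every system of charges refines to one with zero sum at every leaf. -/
theorem refine {φ : (Bool × ι → ℤ) → ℝ} (hφ : LC φ) {lo hi : ℤ} (hle : lo ≤ hi) {Λ : ℝ}
    (hΛ : ∀ z a b, φ (z + ev a) ≤ Λ * φ (z + ev b)) {t : ι → ℤ} {Pn : Finset ι}
    {w : (ι → ℤ) → Bool × ι → ℝ} (hw : Sys φ lo hi t Pn w) {B : ℝ}
    (hB : ∀ x ∈ box ι lo hi, ∀ a, |w x a| ≤ B) :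
    ∃ w' : (ι → ℤ) → Bool × ι → ℝ,
      (∀ x ∈ box ι lo hi, ∑ a, w' x a * φ (lf t x + ev a) = 0) ∧
      (∀ x ∈ box ι lo hi, ∀ a, |w' x a| ≤
        B * (1 + 2 * Fintype.card ι * Λ * ((hi - lo + 1 : ℤ) : ℝ)) ^ Fintype.card ι) ∧
      (∀ Ψ : (Bool × ι → ℤ) → ℝ, (∀ z, 0 ≤ Ψ z) → QF lo hi t w Ψ ≤ QF lo hi t w' Ψ) ∧
      ∀ G, LF lo hi t w' G = LF lo hi t w G := by
  obtain ⟨w', h1, h2, h3, h4⟩ := refine_gen hφ.1
    (fun m v => ∀ x ∈ box ι lo hi, ∀ a, |v x a| ≤
      B * (1 + 2 * Fintype.card ι * Λ * ((hi - lo + 1 : ℤ) : ℝ)) ^ m)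
    (fun m Q d v hd hv hm x hx a => by
      have b1 := lU_bound hφ hle hΛ hv hm hd hx
      have b2 := abs_two d (b1 (x d)) ((abs_neg _).trans_le (b1 (x d - 1))) a
      refine (abs_add_le _ _).trans ((add_le_add (hm x hx a) b2).trans (le_of_eq ?_))
      ring)
    _ 0 Pn w rfl hw (fun x hx a => by rw [pow_zero, mul_one]; exact hB x hx a)
  refine ⟨w', h1, fun x hx a => (h2 x hx a).trans ?_, h3, h4⟩
  have hB0 : 0 ≤ B := (abs_nonneg _).trans (hB x hx a)
  have hΛ0 : 0 ≤ Λ := by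
    have h1 := hΛ 0 a a
    have h2 := hφ.pos (0 + ev a)
    exact nonneg_of_mul_nonneg_left (h2.le.trans h1) h2
  have hL : (0 : ℝ) ≤ ((hi - lo + 1 : ℤ) : ℝ) := by exact_mod_cast (by omega : 0 ≤ hi - lo + 1)
  refine mul_le_mul_of_nonneg_left (pow_le_pow_right₀ ?_ ?_) hB0
  · have : 0 ≤ 2 * Fintype.card ι * Λ * ((hi - lo + 1 : ℤ) : ℝ) := by positivity
    linarith
  · rw [zero_add]; exact card_le_univ _

end Crest.Agent.R302
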