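import Crest.Agent.R302.OPoly
import Crest.Agent.R302.Sand

/-!
# Row 302: submodular function minimisation (the simple algorithm of Iwata and Orlin)

The state is a list of linear orders with labels and integer weights of total `sfmQ n M`.
-/

set_option autoImplicit false

namespace Crest.Agent.R302

open Finset Crest.Agent.Lib.PolyTime

namespace SFM

/-- Indicator list of the first `k` elements of the order `L`. -/
def pre (n : ℕ) (L : List ℕ) (k : ℕ) : List Bool :=
  (List.range n).map fun u => decide (L.idxOf u < k)

/-- The greedy extreme base of the order `L`. -/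
def gr (n : ℕ) (f : List Bool → ℤ) (L : List ℕ) (v : ℕ) : ℤ :=
  f (pre n L (L.idxOf v + 1)) - f (pre n L (L.idxOf v))

/-- An order, its labels (indexed by the elements) and its weight. -/
abbrev Item := List ℕ × List ℕ × ℕ

/-- The current base (scaled by the total weight). -/
def xv (n : ℕ) (f : List Bool → ℤ) (S : List Item) : List ℤ :=
  (List.range n).map fun v => (S.map fun it => (it.2.2 : ℤ) * gr n f it.1 v).sum

/-- The smallest label of `v`. -/
def dmin (n : ℕ) (S : List Item) (v : ℕ) : ℕ := (S.map fun it => it.2.1.getD v 0).foldr min n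

/-- The largest coordinate on the live elements. -/
def eta (n : ℕ) (S : List Item) (x : List ℤ) : ℤ :=
  (((List.range n).filter fun v => dmin n S v < n).map fun v => x.getD v 0).foldr max 0

/-- A gap: no coordinate lies in `((2 j) δ, (2 j + 2) δ)` for `δ = η / (4 n)`. -/
def gap (n : ℕ) (x : List ℤ) (η : ℤ) : ℕ :=
  ((List.range (2 * n)).find? fun j : ℕ =>
    x.all fun a => decide (4 * n * a ≤ 2 * (j : ℤ) * η ∨ (2 * (j : ℤ) + 2) * η ≤ 4 * n * a)).getD 0

/-- The elements above the gap. -/
def big (n : ℕ) (x : List ℤ) (η : ℤ) (v : ℕ) : Bool :=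
  decide ((2 * gap n x η + 1) * η < 4 * n * x.getD v 0)

/-- The lowest level of an element above the gap. -/
def lev (n : ℕ) (S : List Item) (b : ℕ → Bool) : ℕ :=
  (((List.range n).filter b).map (dmin n S)).foldr min n

/-- Position of an order in which an element above the gap has the lowest level. -/
def pos (n : ℕ) (S : List Item) (b : ℕ → Bool) (l : ℕ) : ℕ :=
  S.findIdx fun it => (List.range n).any fun v => b v && decide (it.2.1.getD v 0 = l)

/-- The new order and labels. -/
def newL (n : ℕ) (it : Item) (b : ℕ → Bool) (l : ℕ) : List ℕ × List ℕ :=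
  (it.1.filter (fun v => decide (it.2.1.getD v 0 < l) || (decide (it.2.1.getD v 0 = l) && !b v)) ++
      it.1.filter (fun v => decide (it.2.1.getD v 0 = l) && b v) ++
      it.1.filter (fun v => decide (l < it.2.1.getD v 0)),
    (List.range n).map fun v =>
      if decide (it.2.1.getD v 0 = l) && b v then l + 1 else it.2.1.getD v 0)

/-- Move the weight `a` from the order at position `i` to the new order. -/
def push (S : List Item) (i : ℕ) (nw : List ℕ × List ℕ) (a : ℕ) : List Item :=
  (nw.1, nw.2, a) :: (if a = (S.getD i ([], [], 0)).2.2 then S.eraseIdx i else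
    S.set i ((S.getD i ([], [], 0)).1, (S.getD i ([], [], 0)).2.1, (S.getD i ([], [], 0)).2.2 - a))

/-- The total weight. -/
def Q (n M : ℕ) : ℕ := 16 * n ^ 2 * M + 1

/-- One iteration. -/
def step (n M : ℕ) (f : List Bool → ℤ) (S : List Item) : List Item :=
  let x := xv n f S
  let η := eta n S x
  if n * η < Q n M then S else
    let b := big n x η
    let l := lev n S b
    let i := pos n S b l
    let it := S.getD i ([], [], 0)
    let nw := newL n it b l
    let β : ℕ := ((List.range n).map fun v => (gr n f nw.1 v - gr n f it.1 v).natAbs).foldr max 0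
    push S i nw (if β = 0 then it.2.2 else min it.2.2 (η.toNat / (4 * n * β)))

/-- Number of iterations. -/
def T (n M : ℕ) : ℕ := (n ^ 2 + 1) * (16 * n ^ 3 * (3 * n.size + 2 * M.size + 2) + 2)

/-- The final state. -/
def fin (n M : ℕ) (f : List Bool → ℤ) : List Item :=
  (step n M f)^[T n M] [(List.range n, List.replicate n 0, Q n M)]

/-- The minimiser read off from a final state. -/
def argm (n : ℕ) (S : List Item) : List Bool :=
  (List.range n).map fun v => decide (dmin n S v <
    ((List.range (n + 1)).find? fun l => (List.range n).all fun u => decide (dmin n S u ≠ l)).getD 0)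

end SFM

/-- The minimum of a submodular function bounded by `M`. -/
def sfm (n M : ℕ) (f : List Bool → ℤ) : ℤ := f (SFM.argm n (SFM.fin n M f))

/-- The greedy bases of `g` combined with the weights found while minimising `f`. -/
def sfmBase (n M : ℕ) (f g : List Bool → ℤ) : List ℤ := SFM.xv n g (SFM.fin n M f)

end Crest.Agent.R302
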