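import Crest.Agent.R302.SFMOkAux

/-!
# Row 302: the invariant and the potentials of the minimisation algorithm
-/

set_option autoImplicit false

namespace Crest.Agent.R302

open Finset

namespace SFMOkAux

open SFM

variable {n M : ℕ} {f : Finset (Fin n) → ℤ} {S : List Item}

/-- label of an element -/
def lab (it : Item) (v : ℕ) : ℕ := it.2.1.getD v 0

/-- the current base -/
def X (f : Finset (Fin n) → ℤ) (S : List Item) (v : Fin n) : ℤ :=
  (S.map fun it => (it.2.2 : ℤ) * yy f (posn it.1) v).sum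

structure Inv (M : ℕ) (f : Finset (Fin n) → ℤ) (S : List Item) : Prop where
  perm : ∀ it ∈ S, it.1.Perm (List.range n)
  le : ∀ it ∈ S, ∀ v : Fin n, lab it v ≤ n
  mono : ∀ it ∈ S, ∀ u v : Fin n, posn it.1 u < posn it.1 v → lab it u ≤ lab it v
  near : ∀ it ∈ S, ∀ v : Fin n, lab it v ≤ dmin n S v + 1
  zero : ∀ v : Fin n, X f S v ≤ 0 → ∀ it ∈ S, lab it v = 0
  wt : (S.map fun it => it.2.2).sum = Q n M

/-- first potential -/
def Phi (f : Finset (Fin n) → ℤ) (S : List Item) : ℤ :=
  ∑ v ∈ univ.filter (fun v : Fin n => dmin n S v < n), max (X f S v) 0 ^ 2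

/-- second potential -/
def Gam (n : ℕ) (S : List Item) : ℕ := (S.map fun it => ∑ v : Fin n, (n - lab it v)).sum

theorem xv_getD (hp : ∀ it ∈ S, it.1.Perm (List.range n)) (g : Finset (Fin n) → ℤ) (v : Fin n) :
    (xv n (fun l => g (setOf n l)) S).getD v 0 = X g S v := by
  rw [xv, getD_map_range _ _ v.2, X]
  congr 1
  exact List.map_congr_left fun it h => by rw [gr_eq g (hp it h)]

theorem dmin_le (n : ℕ) (S : List Item) (v : ℕ) : dmin n S v ≤ n := foldr_min_le _ _

theorem dmin_le_lab (n : ℕ) {it : Item} (h : it ∈ S) (v : ℕ) : dmin n S v ≤ lab it v :=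
  foldr_min_le_of_mem _ (List.mem_map.2 ⟨it, h, rfl⟩)

theorem dmin_cases (n : ℕ) (S : List Item) (v : ℕ) :
    dmin n S v = n ∨ ∃ it ∈ S, lab it v = dmin n S v :=
  (foldr_min_mem n _).imp id fun h => List.mem_map.1 h

theorem newL_spec {it : Item} (hp : it.1.Perm (List.range n))
    (hm : ∀ u v : Fin n, posn it.1 u < posn it.1 v → lab it u ≤ lab it v) (b : ℕ → Bool) (l a : ℕ) :
    (newL n it b l).1.Perm (List.range n) ∧
    (∀ v : Fin n, lab ((newL n it b l).1, (newL n it b l).2, a) v =
      if lab it v = l ∧ b v = true then l + 1 else lab it v) ∧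
    (∀ u v : Fin n, posn (newL n it b l).1 u < posn (newL n it b l).1 v →
      lab ((newL n it b l).1, (newL n it b l).2, a) u ≤
        lab ((newL n it b l).1, (newL n it b l).2, a) v) ∧
    (∀ v : Fin n, ¬ (lab it v = l ∧ b v = true) → ∀ u : Fin n,
      posn (newL n it b l).1 u < posn (newL n it b l).1 v → posn it.1 u < posn it.1 v) ∧
    (∀ v : Fin n, (lab it v = l → b v = true) → ∀ u : Fin n,
      posn it.1 u < posn it.1 v → posn (newL n it b l).1 u < posn (newL n it b l).1 v) := by
  set c : ℕ → ℕ := fun v =>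
    if lab it v < l ∨ (lab it v = l ∧ b v = false) then 0 else if lab it v = l then 1 else 2 with hc
  have hcv : ∀ v, (c v = 0 ∧ (lab it v < l ∨ (lab it v = l ∧ b v = false))) ∨
      (c v = 1 ∧ lab it v = l ∧ b v = true) ∨ (c v = 2 ∧ l < lab it v) := by
    intro v
    simp only [hc]
    split_ifs with h1 h2
    · exact Or.inl ⟨rfl, h1⟩
    · refine Or.inr (Or.inl ⟨rfl, h2, ?_⟩)
      by_contra h3
      exact h1 (Or.inr ⟨h2, by simpa using h3⟩)
    · exact Or.inr (Or.inr ⟨rfl, by omega⟩)
  have h0 : ∀ v, (decide (it.2.1.getD v 0 < l) || (decide (it.2.1.getD v 0 = l) && !b v)) = true ↔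
      c v = 0 := by
    intro v
    change (decide (lab it v < l) || (decide (lab it v = l) && !b v)) = true ↔ _
    rcases hcv v with ⟨h1, h2 | h2⟩ | ⟨h1, h2, h3⟩ | ⟨h1, h2⟩
    · simp [h1, h2]
    · simp [h1, h2]
    · simp [h1, h2, h3]
    · simp [h1]; omega
  have h1 : ∀ v, (decide (it.2.1.getD v 0 = l) && b v) = true ↔ c v = 1 := by
    intro v
    change (decide (lab it v = l) && b v) = true ↔ _
    rcases hcv v with ⟨h1, h2 | h2⟩ | ⟨h1, h2, h3⟩ | ⟨h1, h2⟩
    · simp [h1]; omega
    · simp [h1, h2]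
    · simp [h1, h2, h3]
    · simp [h1]; omega
  have h2 : ∀ v, (decide (l < it.2.1.getD v 0)) = true ↔ c v = 2 := by
    intro v
    change (decide (l < lab it v)) = true ↔ _
    rcases hcv v with ⟨h1, h2 | h2⟩ | ⟨h1, h2, h3⟩ | ⟨h1, h2⟩ <;> simp [h1] <;> omega
  have h3 : ∀ v, c v ≤ 2 := fun v => by rcases hcv v with h | h | h <;> omega
  have hord : ∀ u v : Fin n, posn (newL n it b l).1 u < posn (newL n it b l).1 v ↔
      c u < c v ∨ (c u = c v ∧ posn it.1 u < posn it.1 v) := fun u v =>
    idxOf_three it.1 c _ _ _ h0 h1 h2 h3 (hp.mem_iff.2 (List.mem_range.2 u.2))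
      (hp.mem_iff.2 (List.mem_range.2 v.2))
  have hlab : ∀ v : Fin n, lab ((newL n it b l).1, (newL n it b l).2, a) v =
      if lab it v = l ∧ b v = true then l + 1 else lab it v := by
    intro v
    simp only [lab, newL, getD_map_range _ _ v.2, Bool.and_eq_true, decide_eq_true_eq]
  have hlab' : ∀ v : Fin n, lab ((newL n it b l).1, (newL n it b l).2, a) v =
      if c v = 1 then l + 1 else lab it v := by
    intro v
    rw [hlab]
    rcases hcv v with ⟨h1, h2 | h2⟩ | ⟨h1, h2, h3⟩ | ⟨h1, h2⟩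
    · rw [if_neg (by omega), if_neg (by omega)]
    · rw [if_neg (by simp [h2.2]), if_neg (by omega)]
    · rw [if_pos ⟨h2, h3⟩, if_pos h1]
    · rw [if_neg (by omega), if_neg (by omega)]
  refine ⟨(perm_three it.1 c _ _ _ h0 h1 h2 h3).trans hp, hlab, fun u v h => ?_,
    fun v hv u h => ?_, fun v hv u h => ?_⟩
  · rw [hlab', hlab']
    have a1 := hcv u
    have a2 := hcv v
    have a3 := hm u v
    rw [hord] at h
    split_ifs <;> omega
  · rw [hord] at h
    rcases h with h | h
    · by_contra hc'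
      have e : posn it.1 u ≠ posn it.1 v := fun e => by
        rw [posn_inj hp e] at h; omega
      have a3 := hm v u (by omega)
      have a1 := hcv u
      rcases hcv v with h' | h' | h'
      · omega
      · exact hv h'.2
      · omega
    · exact h.2
  · rw [hord]
    have a3 := hm u v h
    have a1 := hcv u
    rcases hcv v with ⟨h', h'' | h''⟩ | h' | h'
    · omega
    · have := hv h''.1
      rw [h''.2] at this
      exact absurd this (by simp)
    · omega
    · omega

theorem two_abs_le {ι : Type} [Fintype ι] [DecidableEq ι] (d : ι → ℤ) (h : ∑ v, d v = 0) (v : ι) :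
    2 * |d v| ≤ ∑ u, |d u| := by
  rw [← add_sum_erase _ _ (mem_univ v)] at h ⊢
  have h1 := abs_sum_le_sum_abs d (univ.erase v)
  have h2 : ∑ u ∈ univ.erase v, d u = -d v := by linarith
  rw [h2, abs_neg] at h1
  linarith

theorem push_step (hf : Sub f) {l1 l2 : List Item} {it : Item} (hS : Inv M f (l1 ++ it :: l2))
    {b : ℕ → Bool} {l j a : ℕ} {η : ℤ} (hl : l < n) (hη : 0 < η)
    (hb1 : ∀ v : Fin n, b v = true → (2 * j + 2) * η ≤ 4 * n * X f (l1 ++ it :: l2) v ∧
      l ≤ dmin n (l1 ++ it :: l2) v)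
    (hb0 : ∀ v : Fin n, ¬ b v = true → 4 * n * X f (l1 ++ it :: l2) v ≤ 2 * j * η)
    (ha : a ≤ it.2.2)
    (haβ : ∀ v : Fin n, 4 * n * (a * |yy f (posn (newL n it b l).1) v - yy f (posn it.1) v|) ≤ η)
    (hex : ∃ v : Fin n, lab it v = l ∧ b v = true) :
    Inv M f (push (l1 ++ it :: l2) l1.length (newL n it b l) a) ∧
    (∀ v : Fin n, 4 * n * Phi f (push (l1 ++ it :: l2) l1.length (newL n it b l) a) +
      2 * η * (a * |yy f (posn (newL n it b l).1) v - yy f (posn it.1) v|) ≤
        4 * n * Phi f (l1 ++ it :: l2)) ∧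
    (a = it.2.2 → Gam n (push (l1 ++ it :: l2) l1.length (newL n it b l) a) + 1 ≤
      Gam n (l1 ++ it :: l2)) ∧
    Gam n (push (l1 ++ it :: l2) l1.length (newL n it b l) a) ≤ Gam n (l1 ++ it :: l2) + n ^ 2 := by
  have hit : it ∈ l1 ++ it :: l2 := by simp
  obtain ⟨np, nlab, nmono, nup, ndown⟩ := newL_spec (hS.perm it hit) (hS.mono it hit) b l a
  rw [push_eq]
  set nw := newL n it b l with hnw
  set R := if a = it.2.2 then l1 ++ l2 else l1 ++ (it.1, it.2.1, it.2.2 - a) :: l2 with hRdef
  set S := l1 ++ it :: l2 with hSdef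
  have hR : ∀ it' ∈ R, ∃ it'' ∈ S, it'.1 = it''.1 ∧ ∀ v, lab it' v = lab it'' v := by
    intro it' h
    simp only [hRdef] at h
    split_ifs at h
    · exact ⟨it', by simp only [hSdef, List.mem_append, List.mem_cons] at h ⊢; tauto, rfl,
        fun _ => rfl⟩
    · simp only [List.mem_append, List.mem_cons] at h
      rcases h with h | rfl | h
      · exact ⟨it', by simp [hSdef, h], rfl, fun _ => rfl⟩
      · exact ⟨it, hit, rfl, fun _ => rfl⟩
      · exact ⟨it', by simp [hSdef, h], rfl, fun _ => rfl⟩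
  have hX : ∀ v, X f ((nw.1, nw.2, a) :: R) v =
      X f S v + a * (yy f (posn nw.1) v - yy f (posn it.1) v) := by
    intro v
    simp only [X, hRdef, hSdef]
    split_ifs with h
    · simp only [List.map_cons, List.map_append, List.sum_cons, List.sum_append, h]; ring
    · simp only [List.map_cons, List.map_append, List.sum_cons, List.sum_append, Nat.cast_sub ha]
      ring
  have hw : (((nw.1, nw.2, a) :: R).map fun it : Item => it.2.2).sum = Q n M := by
    rw [← hS.wt]
    simp only [hRdef, hSdef]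
    split_ifs with h
    · simp only [List.map_cons, List.map_append, List.sum_cons, List.sum_append, h]; ring
    · simp only [List.map_cons, List.map_append, List.sum_cons, List.sum_append]; omega
  have hlabge : ∀ v : Fin n, lab it v ≤ lab (nw.1, nw.2, a) v := fun v => by
    rw [nlab]; split_ifs <;> omega
  have hdm : ∀ v : Fin n, dmin n S v ≤ dmin n ((nw.1, nw.2, a) :: R) v := by
    intro v
    rcases dmin_cases n ((nw.1, nw.2, a) :: R) v with h | ⟨it', h, e⟩
    · rw [h]; exact dmin_le _ _ _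
    · rw [← e]
      rcases List.mem_cons.1 h with rfl | h
      · exact (dmin_le_lab n hit v).trans (hlabge v)
      · obtain ⟨it'', h1, -, h2⟩ := hR it' h
        rw [h2]; exact dmin_le_lab n h1 v
  have hN : (0 : ℤ) < 4 * n := by
    have : 0 < n := by omega
    positivity
  have ha0 : (0 : ℤ) ≤ a := Int.natCast_nonneg a
  set Δ : Fin n → ℤ := fun v => a * (yy f (posn nw.1) v - yy f (posn it.1) v) with hΔ
  have hup : ∀ v : Fin n, ¬ (lab it v = l ∧ b v = true) → 0 ≤ Δ v := fun v hv =>
    mul_nonneg ha0 (sub_nonneg.2 (yy_anti hf (nup v hv)))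
  have hdown : ∀ v : Fin n, (lab it v = l → b v = true) → Δ v ≤ 0 := fun v hv =>
    mul_nonpos_of_nonneg_of_nonpos ha0 (sub_nonpos.2 (yy_anti hf (ndown v hv)))
  have habs : ∀ v, |Δ v| = a * |yy f (posn nw.1) v - yy f (posn it.1) v| := fun v => by
    simp only [hΔ]; rw [abs_mul, abs_of_nonneg ha0]
  have hzero : ∀ v : Fin n, lab it v ≠ l → Δ v = 0 := fun v hv =>
    le_antisymm (hdown v fun h => absurd h hv) (hup v fun h => hv h.1)
  have hRb : ∀ v : Fin n, lab it v = l ∧ b v = true → 0 < X f S v + Δ v ∧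
      4 * n * (max (X f S v + Δ v) 0 ^ 2 - max (X f S v) 0 ^ 2) ≤
        2 * (2 * j + 1) * η * Δ v - η * |Δ v| := by
    intro v hv
    have h1 := hdown v fun _ => hv.2
    have h2 := haβ v
    rw [← habs, abs_of_nonpos h1] at h2
    have := pos_sq_down hN hη (neg_nonneg.2 h1) (hb1 v hv.2).1 h2
    rw [sub_neg_eq_add] at this
    rw [abs_of_nonpos h1]
    exact ⟨this.1, by linarith [this.2]⟩
  have hpt : ∀ v : Fin n, 4 * n * (max (X f S v + Δ v) 0 ^ 2 - max (X f S v) 0 ^ 2) ≤
      2 * (2 * j + 1) * η * Δ v - η * |Δ v| := by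
    intro v
    by_cases h : lab it v = l
    · by_cases h' : b v = true
      · exact (hRb v ⟨h, h'⟩).2
      · have h1 := hup v fun h'' => h' h''.2
        have h2 := haβ v
        rw [← habs, abs_of_nonneg h1] at h2
        rw [abs_of_nonneg h1]
        exact pos_sq_up hN hη h1 (hb0 v h') h2
    · rw [hzero v h]; simp
  have hsum : ∑ v, Δ v = 0 := by
    simp only [hΔ]
    rw [← mul_sum, sum_sub_distrib, sum_yy_eq hf.1 (posn_inj np) (by simp),
      sum_yy_eq hf.1 (posn_inj (hS.perm it hit)) (by simp)]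
    simp
  have hgam : ∑ v : Fin n, (n - lab (nw.1, nw.2, a) v) + 1 ≤ ∑ v : Fin n, (n - lab it v) := by
    obtain ⟨v, hv⟩ := hex
    refine Nat.succ_le_of_lt (sum_lt_sum (fun u _ => Nat.sub_le_sub_left (hlabge u) n)
      ⟨v, mem_univ v, ?_⟩)
    rw [nlab, if_pos hv, hv.1]
    omega
  have hgam2 : ∑ v : Fin n, (n - lab it v) ≤ n ^ 2 := by
    refine (sum_le_sum fun u _ => Nat.sub_le n _).trans ?_
    simp [pow_two]
  refine ⟨⟨?_, ?_, ?_, ?_, ?_, hw⟩, fun v0 => ?_, fun h => ?_, ?_⟩
  · intro it' h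
    rcases List.mem_cons.1 h with rfl | h
    · exact np
    · obtain ⟨it'', h1, h2, -⟩ := hR it' h
      rw [h2]; exact hS.perm _ h1
  · intro it' h v
    rcases List.mem_cons.1 h with rfl | h
    · rw [nlab]
      split_ifs
      · exact hl
      · exact hS.le it hit v
    · obtain ⟨it'', h1, -, h2⟩ := hR it' h
      rw [h2]; exact hS.le _ h1 v
  · intro it' h u v
    rcases List.mem_cons.1 h with rfl | h
    · exact nmono u v
    · obtain ⟨it'', h1, h2, h3⟩ := hR it' h
      rw [h2, h3, h3]; exact hS.mono _ h1 u v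
  · intro it' h v
    refine le_trans ?_ (Nat.succ_le_succ (hdm v))
    rcases List.mem_cons.1 h with rfl | h
    · rw [nlab]
      split_ifs with h'
      · exact Nat.succ_le_succ (hb1 v h'.2).2
      · exact hS.near it hit v
    · obtain ⟨it'', h1, -, h2⟩ := hR it' h
      rw [h2]; exact hS.near _ h1 v
  · intro v hv it' h
    rw [hX] at hv
    have h1 : ¬ (lab it v = l ∧ b v = true) := fun h' => absurd (hRb v h').1 (not_lt.2 hv)
    have h2 : X f S v ≤ 0 := by linarith [hup v h1]
    rcases List.mem_cons.1 h with rfl | h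
    · rw [nlab, if_neg h1]; exact hS.zero v h2 it hit
    · obtain ⟨it'', h1, -, h3⟩ := hR it' h
      rw [h3]; exact hS.zero v h2 _ h1
  · have e1 : Phi f ((nw.1, nw.2, a) :: R) ≤
        ∑ v ∈ univ.filter (fun v : Fin n => dmin n S v < n), max (X f S v + Δ v) 0 ^ 2 := by
      simp only [Phi, hX]
      refine sum_le_sum_of_subset_of_nonneg (fun v hv => ?_) fun v _ _ => by positivity
      simp only [mem_filter, mem_univ, true_and] at hv ⊢
      exact (hdm v).trans_lt hv
    have hoff : ∀ v ∈ (univ : Finset (Fin n)), Δ v ≠ 0 → dmin n S v < n := fun v _ hv => by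
      have : lab it v = l := by
        by_contra h; exact hv (hzero v h)
      exact (dmin_le_lab n hit v).trans_lt (this ▸ hl)
    have e2 : ∑ v ∈ univ.filter (fun v : Fin n => dmin n S v < n), Δ v = 0 := by rw [sum_filter_of_ne hoff, hsum]
    have e3 : ∑ v ∈ univ.filter (fun v : Fin n => dmin n S v < n), |Δ v| = ∑ v, |Δ v| :=
      sum_filter_of_ne fun v hv h => hoff v hv (abs_ne_zero.1 h)
    have e4 := sum_le_sum (s := univ.filter fun v : Fin n => dmin n S v < n) fun v _ => hpt v
    rw [← mul_sum, sum_sub_distrib, sum_sub_distrib, ← mul_sum, e2, ← mul_sum _ _ η, e3] at e4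
    have e5 := mul_le_mul_of_nonneg_left (two_abs_le Δ hsum v0) hη.le
    have e6 := mul_le_mul_of_nonneg_left e1 hN.le
    rw [← habs]
    unfold Phi at e6 ⊢
    linarith
  · simp only [Gam, hRdef, hSdef, if_pos h, List.map_cons, List.map_append, List.sum_cons,
      List.sum_append]
    omega
  · simp only [Gam, hRdef, hSdef]
    split_ifs with h
    · simp only [List.map_cons, List.map_append, List.sum_cons, List.sum_append]
      omega
    · simp only [List.map_cons, List.map_append, List.sum_cons, List.sum_append]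
      have : ∑ v : Fin n, (n - lab (it.1, it.2.1, it.2.2 - a) v) = ∑ v : Fin n, (n - lab it v) := rfl
      omega

end SFMOkAux

end Crest.Agent.R302
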