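import Crest.Agent.R302.SFM
import Crest.Agent.R302.SFMOkAux2

/-!
# Row 302: correctness of the minimisation algorithm
-/

set_option autoImplicit false

namespace Crest.Agent.R302

open Finset

namespace SFMOkAux

open SFM

variable {n M : ℕ} {f : Finset (Fin n) → ℤ} {S : List Item}

/-- the largest live coordinate -/
def et (f : Finset (Fin n) → ℤ) (S : List Item) : ℤ :=
  eta n S (xv n (fun l => f (setOf n l)) S)

theorem et_nonneg (f : Finset (Fin n) → ℤ) (S : List Item) : 0 ≤ et f S := le_foldr_max _ _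

theorem le_et (hS : Inv M f S) {v : Fin n} (hv : dmin n S v < n) : X f S v ≤ et f S := by
  rw [← xv_getD hS.perm]
  exact le_foldr_max_of_mem _ (List.mem_map.2 ⟨v, List.mem_filter.2
    ⟨List.mem_range.2 v.2, by simpa using hv⟩, rfl⟩)

theorem et_cases (hS : Inv M f S) : et f S = 0 ∨ ∃ v : Fin n, dmin n S v < n ∧ X f S v = et f S := by
  refine (foldr_max_mem (0 : ℤ) _).imp id fun h => ?_
  obtain ⟨v, hv, e⟩ := List.mem_map.1 h
  obtain ⟨h1, h2⟩ := List.mem_filter.1 hv
  refine ⟨⟨v, List.mem_range.1 h1⟩, by simpa using h2, ?_⟩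
  rw [← xv_getD hS.perm]
  exact e

theorem Phi_le (hS : Inv M f S) : Phi f S ≤ n * et f S ^ 2 := by
  have h0 := et_nonneg f S
  calc Phi f S ≤ ∑ _v ∈ univ.filter (fun v : Fin n => dmin n S v < n), et f S ^ 2 :=
        sum_le_sum fun v hv => pow_le_pow_left₀ (le_max_right _ _)
          (max_le (le_et hS (mem_filter.1 hv).2) h0) 2
    _ ≤ ∑ _v : Fin n, et f S ^ 2 :=
        sum_le_sum_of_subset_of_nonneg (filter_subset _ _) fun _ _ _ => by positivity
    _ = n * et f S ^ 2 := by simp

theorem le_Phi (hS : Inv M f S) : et f S ^ 2 ≤ Phi f S := by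
  rcases et_cases hS with h | ⟨v, hv, e⟩
  · rw [h]
    exact le_trans (by norm_num) (sum_nonneg fun _ _ => sq_nonneg _)
  · have := single_le_sum (f := fun v => max (X f S v) 0 ^ 2) (fun _ _ => sq_nonneg _)
      (mem_filter.2 ⟨mem_univ v, hv⟩ : v ∈ univ.filter fun v : Fin n => dmin n S v < n)
    simp only [e, max_eq_left (et_nonneg f S)] at this
    exact this

theorem exists_gap (x : Fin n → ℤ) (hn : 0 < n) {η : ℤ} (hη : 0 < η) :
    ∃ j < 2 * n, ∀ v, 4 * n * x v ≤ 2 * (j : ℤ) * η ∨ (2 * (j : ℤ) + 2) * η ≤ 4 * n * x v := by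
  by_contra h
  push Not at h
  choose g hg using fun j : Fin (2 * n) => h j j.2
  have hinj : Function.Injective g := by
    intro i j e
    have h1 := hg i
    have h2 := hg j
    rw [e] at h1
    have a1 : 2 * ((i : ℕ) : ℤ) < 2 * ((j : ℕ) : ℤ) + 2 :=
      lt_of_mul_lt_mul_right (h1.1.trans h2.2) hη.le
    have a2 : 2 * ((j : ℕ) : ℤ) < 2 * ((i : ℕ) : ℤ) + 2 :=
      lt_of_mul_lt_mul_right (h2.1.trans h1.2) hη.le
    exact Fin.ext (by omega)
  have := Fintype.card_le_of_injective g hinj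
  simp only [Fintype.card_fin] at this
  omega

theorem step_inactive (h : n * et f S < Q n M) : step n M (fun l => f (setOf n l)) S = S :=
  if_pos h

theorem step_active (hf : Sub f) (hM : ∀ A, |f A| ≤ M) (hS : Inv M f S)
    (hact : ¬ (n * et f S < Q n M)) :
    Inv M f (step n M (fun l => f (setOf n l)) S) ∧
    ((Phi f (step n M (fun l => f (setOf n l)) S) ≤ Phi f S ∧
        Gam n (step n M (fun l => f (setOf n l)) S) + 1 ≤ Gam n S) ∨
      (16 * n ^ 3 * Phi f (step n M (fun l => f (setOf n l)) S) + Phi f S ≤ 16 * n ^ 3 * Phi f S ∧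
        Gam n (step n M (fun l => f (setOf n l)) S) ≤ Gam n S + n ^ 2)) := by
  have hQ : (16 * n ^ 2 * M + 1 : ℤ) ≤ n * et f S := by
    have := not_lt.1 hact
    simpa [Q] using this
  have hQ0 : (0 : ℤ) ≤ 16 * n ^ 2 * M := by positivity
  have hn : 0 < n := by
    rcases Nat.eq_zero_or_pos n with h | h
    · subst h; simp at hQ
    · exact h
  have hnZ : (0 : ℤ) < n := by exact_mod_cast hn
  have hη : 0 < et f S := (mul_pos_iff_of_pos_left hnZ).1 (by linarith)
  have hηM : 16 * n * M < et f S := lt_of_mul_lt_mul_left (a := (n : ℤ)) (by nlinarith) hnZ.le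
  have hPhi := Phi_le hS
  obtain ⟨vs, hvs, evs⟩ := (et_cases hS).resolve_left hη.ne'
  have hstep : step n M (fun l => f (setOf n l)) S = _ := if_neg hact
  set F : List Bool → ℤ := fun l => f (setOf n l) with hF
  change step n M F S = push S (pos n S (big n (xv n F S) (et f S))
    (lev n S (big n (xv n F S) (et f S)))) _ _ at hstep
  have hxv : ∀ v : Fin n, (xv n F S).getD v 0 = X f S v := xv_getD hS.perm f
  have heta : eta n S (xv n F S) = et f S := rfl
  simp only [heta] at hstep
  set η := et f S with hηdef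
  have hall : ∀ j : ℕ, ((xv n F S).all fun a =>
      decide (4 * n * a ≤ 2 * (j : ℤ) * η ∨ (2 * (j : ℤ) + 2) * η ≤ 4 * n * a)) = true ↔
      ∀ v : Fin n, 4 * n * X f S v ≤ 2 * (j : ℤ) * η ∨ (2 * (j : ℤ) + 2) * η ≤ 4 * n * X f S v := by
    intro j
    rw [List.all_eq_true]
    simp only [decide_eq_true_eq]
    constructor
    · intro h v
      rw [← hxv, xv, getD_map_range _ _ v.2]
      exact h _ (List.mem_map.2 ⟨v, List.mem_range.2 v.2, rfl⟩)
    · intro h a ha
      obtain ⟨v, hv, rfl⟩ := List.mem_map.1 ha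
      have := h ⟨v, List.mem_range.1 hv⟩
      rwa [← hxv, xv, getD_map_range _ _ (List.mem_range.1 hv)] at this
  obtain ⟨hj, hgap⟩ : gap n (xv n F S) η < 2 * n ∧ _ := find_range (by
    obtain ⟨j, hj, h⟩ := exists_gap (X f S) hn hη
    exact ⟨j, hj, (hall j).2 h⟩)
  replace hgap := (hall (gap n (xv n F S) η)).1 hgap
  have hb : ∀ v : Fin n, big n (xv n F S) η v = true ↔
      (2 * (gap n (xv n F S) η : ℤ) + 1) * η < 4 * n * X f S v := fun v => by
    rw [big, hxv, decide_eq_true_eq]
  generalize gap n (xv n F S) η = j at hj hgap hb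
  generalize big n (xv n F S) η = b at hb hstep
  have hlev : ∀ v : Fin n, b v = true → lev n S b ≤ dmin n S v := fun v hv =>
    foldr_min_le_of_mem _ (List.mem_map.2 ⟨v, List.mem_filter.2 ⟨List.mem_range.2 v.2, hv⟩, rfl⟩)
  have hbs : b vs = true := by
    rw [hb, evs]
    have : (2 * (j : ℤ) + 1) < 4 * n := by omega
    exact mul_lt_mul_of_pos_right this hη
  have hl : lev n S b < n := (hlev vs hbs).trans_lt hvs
  have hex : ∃ it ∈ S, ((List.range n).any fun v => b v &&
      decide (it.2.1.getD v 0 = lev n S b)) = true := by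
    obtain ⟨u, hu, e⟩ := List.mem_map.1 ((foldr_min_mem n _).resolve_left hl.ne)
    obtain ⟨h1, h2⟩ := List.mem_filter.1 hu
    change dmin n S u = lev n S b at e
    obtain ⟨it, hit, e'⟩ := (dmin_cases n S u).resolve_left (by omega)
    exact ⟨it, hit, List.any_eq_true.2 ⟨u, h1, by
      rw [Bool.and_eq_true, decide_eq_true_eq]; exact ⟨h2, e'.trans e⟩⟩⟩
  obtain ⟨l1, it, l2, hSeq, hpos, hit⟩ := findIdx_split _ hex
  change pos n S b (lev n S b) = _ at hpos
  generalize lev n S b = l at hlev hl hpos hit hstep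
  rw [hpos] at hstep
  subst hSeq
  have hget : (l1 ++ it :: l2).getD l1.length ([], [], 0) = it := by simp
  rw [hget] at hstep
  have hitm : it ∈ l1 ++ it :: l2 := by simp
  have np := (newL_spec (hS.perm it hitm) (hS.mono it hitm) b l 0).1
  have hgr : ∀ v : Fin n, ((gr n F (newL n it b l).1 v - gr n F it.1 v).natAbs : ℤ) =
      |yy f (posn (newL n it b l).1) v - yy f (posn it.1) v| := fun v => by
    rw [Int.natCast_natAbs, hF, gr_eq f np, gr_eq f (hS.perm it hitm)]
  have hβ1 := fun v : Fin n => le_foldr_max_of_mem 0 (List.mem_map.2 ⟨v, List.mem_range.2 v.2, rfl⟩ :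
    (gr n F (newL n it b l).1 v - gr n F it.1 v).natAbs ∈
      (List.range n).map fun v => (gr n F (newL n it b l).1 v - gr n F it.1 v).natAbs)
  have hβ2 := foldr_max_mem 0
    ((List.range n).map fun v => (gr n F (newL n it b l).1 v - gr n F it.1 v).natAbs)
  generalize ((List.range n).map fun v =>
    (gr n F (newL n it b l).1 v - gr n F it.1 v).natAbs).foldr max 0 = β at hβ1 hβ2 hstep
  have hβ1' : ∀ v : Fin n, |yy f (posn (newL n it b l).1) v - yy f (posn it.1) v| ≤ β := fun v => by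
    rw [← hgr]; exact_mod_cast hβ1 v
  have hηN : (η.toNat : ℤ) = η := Int.toNat_of_nonneg hη.le
  set a := if β = 0 then it.2.2 else min it.2.2 (η.toNat / (4 * n * β)) with ha
  have ha1 : a ≤ it.2.2 := by
    rw [ha]; split_ifs
    · exact le_rfl
    · exact min_le_left _ _
  have ha2 : (4 * n * (a * β) : ℤ) ≤ η := by
    rw [← hηN]
    have : 4 * n * (a * β) ≤ η.toNat := by
      rw [ha]; split_ifs with h
      · simp [h]
      · calc 4 * n * (min it.2.2 (η.toNat / (4 * n * β)) * β)
            ≤ 4 * n * (η.toNat / (4 * n * β) * β) := by gcongr; exact min_le_right _ _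
          _ = η.toNat / (4 * n * β) * (4 * n * β) := by ring
          _ ≤ η.toNat := Nat.div_mul_le_self _ _
    exact_mod_cast this
  obtain ⟨r1, r2, r3, r4⟩ := push_step hf hS (b := b) (l := l) (j := j) (a := a) hl hη
    (fun v hv => ⟨(hgap v).resolve_left fun h => by
      have := (hb v).1 hv
      linarith, hlev v hv⟩)
    (fun v hv => (hgap v).resolve_right fun h => hv ((hb v).2 (by linarith))) ha1
    (fun v => le_trans (by gcongr; exact hβ1' v) ha2)
    (by
      obtain ⟨v, h1, h2⟩ := List.any_eq_true.1 hit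
      rw [Bool.and_eq_true, decide_eq_true_eq] at h2
      exact ⟨⟨v, List.mem_range.1 h1⟩, h2.2, h2.1⟩)
  rw [hstep]
  refine ⟨r1, ?_⟩
  by_cases hsat : a = it.2.2
  · refine Or.inl ⟨?_, r3 hsat⟩
    have h1 := r2 vs
    have h2 : (0 : ℤ) ≤ 2 * η * (a * |yy f (posn (newL n it b l).1) vs - yy f (posn it.1) vs|) := by
      positivity
    exact le_of_mul_le_mul_left (a := 4 * (n : ℤ)) (by linarith) (by positivity)
  · refine Or.inr ⟨?_, r4⟩
    have hβ0 : β ≠ 0 := fun h => hsat (by rw [ha, if_pos h])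
    have haeq : a = η.toNat / (4 * n * β) := by
      rw [ha, if_neg hβ0] at hsat ⊢
      exact (min_choice _ _).resolve_left hsat
    obtain ⟨v, hv, e⟩ := List.mem_map.1 (hβ2.resolve_left hβ0)
    have e' := hgr ⟨v, List.mem_range.1 hv⟩
    rw [e] at e'
    have h1 := r2 ⟨v, List.mem_range.1 hv⟩
    have hβM : (β : ℤ) ≤ 4 * M := by
      rw [e']
      refine (abs_sub _ _).trans ?_
      linarith [abs_yy_le (π := posn (newL n it b l).1) hM ⟨v, List.mem_range.1 hv⟩,
        abs_yy_le (π := posn it.1) hM ⟨v, List.mem_range.1 hv⟩]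
    rw [← e'] at h1
    have hpos' : 0 < 4 * n * β := by positivity
    have b1 : η < (a + 1) * (4 * n * β) := by
      rw [← hηN, haeq]
      exact_mod_cast (by
        rw [mul_comm]
        exact Nat.lt_mul_div_succ _ hpos' : η.toNat < (η.toNat / (4 * n * β) + 1) * (4 * n * β))
    have b2 : (4 * n * β : ℤ) ≤ η := by nlinarith
    have b3 : (1 : ℤ) ≤ a := by
      have : 1 ≤ a := by
        rw [haeq]
        refine (Nat.le_div_iff_mul_le hpos').2 ?_
        have : ((1 * (4 * n * β) : ℕ) : ℤ) ≤ η.toNat := by rw [hηN]; push_cast; linarith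
        exact_mod_cast this
      exact_mod_cast this
    have b4 : η ≤ 8 * n * (a * β) := by
      have : (0 : ℤ) ≤ (a - 1) * (4 * n * β) := mul_nonneg (by linarith) (by positivity)
      nlinarith
    have b5 := mul_le_mul_of_nonneg_left h1 (show (0 : ℤ) ≤ 4 * n ^ 2 by positivity)
    have b6 := mul_le_mul_of_nonneg_left b4 (show (0 : ℤ) ≤ n * η by positivity)
    nlinarith

/-- the initial state -/
def S0 (n M : ℕ) : List Item := [(List.range n, List.replicate n 0, Q n M)]

theorem lab_S0 {it : Item} (h : it ∈ S0 n M) (v : ℕ) : lab it v = 0 := by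
  rw [S0, List.mem_singleton] at h
  subst h
  simp [lab, List.getD_eq_getElem?_getD, List.getElem?_replicate]
  split_ifs <;> simp

theorem inv_S0 (f : Finset (Fin n) → ℤ) : Inv M f (S0 n M) :=
  ⟨fun it h => by rw [S0, List.mem_singleton] at h; subst h; exact List.Perm.refl _,
    fun it h v => by simp [lab_S0 h], fun it h u v _ => by simp [lab_S0 h],
    fun it h v => by simp [lab_S0 h], fun v _ it h => lab_S0 h v, by simp [S0]⟩

theorem Gam_S0 : Gam n (S0 n M) ≤ n ^ 2 := by
  simp only [Gam, S0, List.map_cons, List.map_nil, List.sum_cons, List.sum_nil, add_zero]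
  refine (sum_le_sum fun u _ => Nat.sub_le n _).trans ?_
  simp [pow_two]

theorem Phi_S0 (hM : ∀ A, |f A| ≤ M) : Phi f (S0 n M) ≤ n * (2 * M * Q n M) ^ 2 := by
  calc Phi f (S0 n M) ≤ ∑ _v ∈ univ.filter (fun v : Fin n => dmin n (S0 n M) v < n),
        (2 * M * Q n M : ℤ) ^ 2 := by
        refine sum_le_sum fun v _ => pow_le_pow_left₀ (le_max_right _ _)
          (max_le ?_ (by positivity)) 2
        simp only [X, S0, List.map_cons, List.map_nil, List.sum_cons, List.sum_nil, add_zero]
        rw [mul_comm]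
        exact mul_le_mul_of_nonneg_right ((le_abs_self _).trans (abs_yy_le hM v)) (by positivity)
    _ ≤ ∑ _v : Fin n, (2 * M * Q n M : ℤ) ^ 2 :=
        sum_le_sum_of_subset_of_nonneg (filter_subset _ _) fun _ _ _ => by positivity
    _ = _ := by simp

theorem iter_spec (hf : Sub f) (hM : ∀ A, |f A| ≤ M) (t : ℕ) :
    Inv M f ((step n M fun l => f (setOf n l))^[t] (S0 n M)) ∧
    (n * et f ((step n M fun l => f (setOf n l))^[t] (S0 n M)) < Q n M ∨
      ∃ k : ℕ, t + Gam n ((step n M fun l => f (setOf n l))^[t] (S0 n M)) ≤ n ^ 2 + k * (n ^ 2 + 1) ∧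
        (Phi f ((step n M fun l => f (setOf n l))^[t] (S0 n M)) : ℝ) ≤
          (1 - 1 / (16 * n ^ 3)) ^ k * (n * (2 * M * Q n M) ^ 2)) := by
  induction t with
  | zero =>
    refine ⟨inv_S0 f, Or.inr ⟨0, by simpa using Gam_S0, ?_⟩⟩
    have := Phi_S0 hM
    simp only [Function.iterate_zero, id, pow_zero, one_mul]
    exact_mod_cast this
  | succ t ih =>
    rw [Function.iterate_succ_apply']
    generalize (step n M fun l => f (setOf n l))^[t] (S0 n M) = S at ih
    obtain ⟨hS, h⟩ := ih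
    by_cases hact : n * et f S < Q n M
    · rw [step_inactive hact]
      exact ⟨hS, Or.inl hact⟩
    obtain ⟨k, h1, h2⟩ := h.resolve_left hact
    obtain ⟨r1, r2⟩ := step_active hf hM hS hact
    refine ⟨r1, Or.inr ?_⟩
    rcases r2 with ⟨r2, r3⟩ | ⟨r2, r3⟩
    · refine ⟨k, by omega, le_trans ?_ h2⟩
      exact_mod_cast r2
    · refine ⟨k + 1, by rw [add_mul]; omega, ?_⟩
      have hn : 0 < n := by
        rcases Nat.eq_zero_or_pos n with h | h
        · subst h; simp [Q] at hact
        · exact h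
      have hn' : (1 : ℝ) ≤ n := by exact_mod_cast hn
      have ha : (1 : ℝ) ≤ 16 * n ^ 3 := by
        have := one_le_pow₀ (n := 3) hn'
        linarith
      have r2' : (16 * n ^ 3 * Phi f (step n M (fun l => f (setOf n l)) S) + Phi f S : ℝ) ≤
          16 * n ^ 3 * Phi f S := by exact_mod_cast r2
      have hρ : (0 : ℝ) ≤ 1 - 1 / (16 * n ^ 3) := by
        rw [sub_nonneg, div_le_one (by linarith)]; exact ha
      have h3 : (Phi f (step n M (fun l => f (setOf n l)) S) : ℝ) ≤
          (1 - 1 / (16 * n ^ 3)) * Phi f S := by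
        refine le_of_mul_le_mul_left (a := (16 * n ^ 3 : ℝ)) ?_ (by linarith)
        have : (16 * n ^ 3 : ℝ) * ((1 - 1 / (16 * n ^ 3)) * Phi f S) =
            16 * n ^ 3 * Phi f S - Phi f S := by field_simp
        linarith
      rw [pow_succ', mul_assoc]
      exact h3.trans (mul_le_mul_of_nonneg_left h2 hρ)

theorem decay {a : ℕ} (ha : 1 ≤ a) : (1 - 1 / (a : ℝ)) ^ a ≤ 1 / 2 := by
  have ha' : (1 : ℝ) ≤ a := by exact_mod_cast ha
  have h0 : (0 : ℝ) ≤ 1 - 1 / a := by
    rw [sub_nonneg, div_le_one (by linarith)]; exact ha'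
  have h1 : 1 - 1 / (a : ℝ) ≤ Real.exp (-(1 / a)) := by
    linarith [Real.add_one_le_exp (-(1 / (a : ℝ)))]
  refine (pow_le_pow_left₀ h0 h1 a).trans ?_
  rw [← Real.exp_nat_mul, show (a : ℝ) * -(1 / a) = -1 by field_simp]
  linarith [Real.exp_neg_one_lt_d9]

theorem fin_spec (hf : Sub f) (hM : ∀ A, |f A| ≤ M) :
    Inv M f (fin n M fun l => f (setOf n l)) ∧ n * et f (fin n M fun l => f (setOf n l)) < Q n M := by
  obtain ⟨hS, h⟩ := iter_spec hf hM (T n M)
  change Inv M f (fin n M fun l => f (setOf n l)) at hS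
  change n * et f (fin n M fun l => f (setOf n l)) < Q n M ∨ ∃ k : ℕ,
    T n M + Gam n (fin n M fun l => f (setOf n l)) ≤ _ ∧
      (Phi f (fin n M fun l => f (setOf n l)) : ℝ) ≤ _ at h
  generalize (fin n M fun l => f (setOf n l)) = S at hS h
  refine ⟨hS, ?_⟩
  by_contra hact
  obtain ⟨k, h1, h2⟩ := h.resolve_left hact
  have hn : 0 < n := by
    rcases Nat.eq_zero_or_pos n with h | h
    · subst h; simp [Q] at hact
    · exact h
  set K := 3 * n.size + 2 * M.size + 2 with hK
  have hk : 16 * n ^ 3 * K ≤ k := by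
    have h3 : (n ^ 2 + 1) * (16 * n ^ 3 * K + 2) ≤ n ^ 2 + k * (n ^ 2 + 1) :=
      le_trans (Nat.le_add_right _ _) h1
    have h4 : (n ^ 2 + 1) * (16 * n ^ 3 * K) ≤ (n ^ 2 + 1) * k := by nlinarith
    exact Nat.le_of_mul_le_mul_left h4 (by positivity)
  have ha : 1 ≤ 16 * n ^ 3 := Nat.one_le_iff_ne_zero.2 (by positivity)
  have hd := decay ha
  push_cast at hd
  have ha' : (1 : ℝ) ≤ 16 * n ^ 3 := by exact_mod_cast ha
  have hρ : (0 : ℝ) ≤ 1 - 1 / (16 * n ^ 3) := by
    rw [sub_nonneg, div_le_one (by linarith)]; exact ha'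
  have hρ1 : (1 : ℝ) - 1 / (16 * n ^ 3) ≤ 1 := sub_le_self _ (by positivity)
  have h5 : ((1 : ℝ) - 1 / (16 * n ^ 3)) ^ k ≤ (1 / 2) ^ K := by
    refine (pow_le_pow_of_le_one hρ hρ1 hk).trans ?_
    rw [pow_mul]
    exact pow_le_pow_left₀ (by positivity) hd K
  have h6 : n ^ 3 * M ^ 2 * 4 < 2 ^ K := by
    have a1 : n ^ 3 < (2 ^ n.size) ^ 3 := Nat.pow_lt_pow_left (Nat.lt_size_self n) (by norm_num)
    have a2 : M ^ 2 < (2 ^ M.size) ^ 2 := Nat.pow_lt_pow_left (Nat.lt_size_self M) (by norm_num)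
    have a3 := Nat.mul_lt_mul'' a1 a2
    have : 2 ^ K = (2 ^ n.size) ^ 3 * (2 ^ M.size) ^ 2 * 4 := by rw [hK]; ring
    omega
  have h6' : (n : ℝ) ^ 3 * M ^ 2 * 4 < 2 ^ K := by exact_mod_cast h6
  have hQ : (0 : ℝ) < Q n M := by unfold Q; positivity
  have h7 : ((Q n M : ℤ)) ^ 2 ≤ n ^ 2 * Phi f S := by
    have a1 := pow_le_pow_left₀ (by positivity) (not_lt.1 hact) 2
    have a2 := mul_le_mul_of_nonneg_left (le_Phi hS) (show (0 : ℤ) ≤ n ^ 2 by positivity)
    rw [mul_pow] at a1
    exact a1.trans a2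
  have h7' : (Q n M : ℝ) ^ 2 ≤ n ^ 2 * Phi f S := by exact_mod_cast h7
  have h8 : (Phi f S : ℝ) ≤ (1 / 2) ^ K * (n * (2 * M * Q n M) ^ 2) :=
    h2.trans (mul_le_mul_of_nonneg_right h5 (by positivity))
  have h9 := h7'.trans (mul_le_mul_of_nonneg_left h8 (by positivity))
  have e : (n : ℝ) ^ 2 * ((1 / 2) ^ K * (n * (2 * M * Q n M) ^ 2)) =
      (n ^ 3 * M ^ 2 * 4) / 2 ^ K * Q n M ^ 2 := by
    rw [one_div, inv_pow]; field_simp; ring
  rw [e] at h9
  have h10 : ((n : ℝ) ^ 3 * M ^ 2 * 4) / 2 ^ K < 1 := (div_lt_one (by positivity)).2 h6'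
  nlinarith [sq_pos_of_pos hQ]

theorem sum_X_le {g : Finset (Fin n) → ℤ} (hg : Sub g) (hp : ∀ it ∈ S, it.1.Perm (List.range n))
    (A : Finset (Fin n)) :
    ∑ v ∈ A, X g S v ≤ ((S.map fun it : Item => it.2.2).sum : ℕ) * g A := by
  induction S with
  | nil => simp [X]
  | cons it S ih =>
    have h1 := ih fun it' h => hp it' (List.mem_cons_of_mem _ h)
    have h2 := mul_le_mul_of_nonneg_left (sum_yy_le hg (posn_inj (hp it List.mem_cons_self)) A)
      (Int.natCast_nonneg it.2.2)
    simp only [X, List.map_cons, List.sum_cons, sum_add_distrib, ← mul_sum, Nat.cast_add] at h1 ⊢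
    linarith

theorem sum_X_eq {g : Finset (Fin n) → ℤ} (hg : g ∅ = 0) (hp : ∀ it ∈ S, it.1.Perm (List.range n))
    {A : Finset (Fin n)} (hA : ∀ it ∈ S, ∀ v ∈ A, ∀ u, posn it.1 u < posn it.1 v → u ∈ A) :
    ∑ v ∈ A, X g S v = ((S.map fun it : Item => it.2.2).sum : ℕ) * g A := by
  induction S with
  | nil => simp [X]
  | cons it S ih =>
    have h1 := ih (fun it' h => hp it' (List.mem_cons_of_mem _ h))
      fun it' h => hA it' (List.mem_cons_of_mem _ h)
    have h2 := sum_yy_eq hg (posn_inj (hp it List.mem_cons_self)) (hA it List.mem_cons_self)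
    simp only [X, List.map_cons, List.sum_cons, sum_add_distrib, ← mul_sum, Nat.cast_add] at h1 ⊢
    rw [h1, h2]
    ring

theorem final (hf : Sub f) (hS : Inv M f S) (hin : n * et f S < Q n M) :
    (Q n M : ℤ) * (f (setOf n (argm n S)) - 1) < ∑ v, min (X f S v) 0 := by
  obtain ⟨hk, hk'⟩ := find_range (m := n + 1)
    (p := fun l => (List.range n).all fun u => decide (dmin n S u ≠ l)) (by
      by_contra h
      push Not at h
      have h' : ∀ j : Fin (n + 1), ∃ u : Fin n, dmin n S u = j := fun j => by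
        have := h j j.2
        rw [Ne, List.all_eq_true] at this
        push Not at this
        obtain ⟨u, hu, e⟩ := this
        exact ⟨⟨u, List.mem_range.1 hu⟩, by simpa using e⟩
      choose g hg using h'
      have hinj : Function.Injective g := fun i j e => Fin.ext (by rw [← hg i, ← hg j, e])
      have := Fintype.card_le_of_injective g hinj
      simp at this)
  have hW : ∀ v : Fin n, v ∈ setOf n (argm n S) ↔ dmin n S v <
      ((List.range (n + 1)).find? fun l =>
        (List.range n).all fun u => decide (dmin n S u ≠ l)).getD 0 := fun v => by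
    simp only [setOf, argm, mem_filter, mem_univ, true_and, getD_map_range _ _ v.2,
      decide_eq_true_eq]
  generalize ((List.range (n + 1)).find? fun l =>
    (List.range n).all fun u => decide (dmin n S u ≠ l)).getD 0 = k at hk hk' hW
  generalize setOf n (argm n S) = W at hW
  have hne : ∀ v : Fin n, dmin n S v ≠ k := fun v => by
    simpa using List.all_eq_true.1 hk' v (List.mem_range.2 v.2)
  have h1 := sum_X_eq hf.1 hS.perm (A := W) fun it hit v hv u huv => by
    rw [hW] at hv ⊢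
    have a1 := dmin_le_lab n hit u
    have a2 := hS.mono it hit u v huv
    have a3 := hS.near it hit v
    have a4 := hne u
    omega
  rw [hS.wt] at h1
  obtain ⟨it0, hit0⟩ : ∃ it, it ∈ S := by
    cases S with
    | nil => have := hS.wt; simp [Q] at this
    | cons it S => exact ⟨it, List.mem_cons_self⟩
  have h2 : ∑ v ∈ W, min (X f S v) 0 = ∑ v, min (X f S v) 0 := by
    refine sum_subset (subset_univ W) fun v _ hv => min_eq_right ?_
    by_contra hc
    have a1 := hS.zero v (not_le.1 hc).le it0 hit0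
    have a2 := dmin_le_lab n hit0 v
    have a3 := hne v
    exact hv ((hW v).2 (by omega))
  have h0 := et_nonneg f S
  have h3 : ∑ v ∈ W, (X f S v - et f S) ≤ ∑ v ∈ W, min (X f S v) 0 :=
    sum_le_sum fun v hv => le_min (by linarith) (by
      have := le_et hS (v := v) (by have := (hW v).1 hv; omega)
      linarith)
  rw [sum_sub_distrib, h1, sum_const, nsmul_eq_mul] at h3
  have h4 : (W.card : ℤ) * et f S ≤ n * et f S := by
    refine mul_le_mul_of_nonneg_right ?_ h0
    have := card_le_univ W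
    rw [Fintype.card_fin] at this
    exact_mod_cast this
  linarith

end SFMOkAux

open SFMOkAux

theorem sfm_spec {n M : ℕ} {f : Finset (Fin n) → ℤ} (hf : Sub f) (hM : ∀ A, |f A| ≤ M) :
    (∃ A, sfm n M (fun l => f (setOf n l)) = f A) ∧
      ∀ A, sfm n M (fun l => f (setOf n l)) ≤ f A := by
  refine ⟨⟨_, rfl⟩, fun A => ?_⟩
  obtain ⟨hS, hin⟩ := fin_spec hf hM
  have h1 := final hf hS hin
  have h2 := sum_X_le hf hS.perm A
  rw [hS.wt] at h2
  have h3 : ∑ v, min (X f (SFM.fin n M fun l => f (setOf n l)) v) 0 ≤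
      ∑ v ∈ A, X f (SFM.fin n M fun l => f (setOf n l)) v := by
    rw [← sum_add_sum_compl A]
    have a1 := sum_le_sum (s := A) fun v _ =>
      min_le_left (X f (SFM.fin n M fun l => f (setOf n l)) v) 0
    have a2 := sum_nonpos (s := Aᶜ) fun v _ =>
      min_le_right (X f (SFM.fin n M fun l => f (setOf n l)) v) 0
    linarith
  have h4 := lt_of_mul_lt_mul_left (h1.trans_le (h3.trans h2)) (Int.natCast_nonneg _)
  simp only [sfm]
  omega

/-- The certificate: a base whose negative part is within one of the minimum. -/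
theorem sfmBase_self {n M : ℕ} {f : Finset (Fin n) → ℤ} (hf : Sub f) (hM : ∀ A, |f A| ≤ M) :
    (SFM.Q n M : ℤ) * (sfm n M (fun l => f (setOf n l)) - 1) ≤
      ∑ i : Fin n, min ((sfmBase n M (fun l => f (setOf n l)) fun l => f (setOf n l)).getD i 0) 0 := by
  obtain ⟨hS, hin⟩ := fin_spec hf hM
  simp only [sfmBase, xv_getD hS.perm]
  exact (final hf hS hin).le

theorem sfmBase_inB {n M : ℕ} {f g : Finset (Fin n) → ℤ} (hf : Sub f) (hM : ∀ A, |f A| ≤ M)
    (hg : Sub g) : InB (fun A => (SFM.Q n M : ℤ) * g A)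
      fun i : Fin n => (sfmBase n M (fun l => f (setOf n l)) fun l => g (setOf n l)).getD i 0 := by
  obtain ⟨hS, -⟩ := fin_spec hf hM
  simp only [sfmBase, xv_getD hS.perm]
  refine ⟨fun A => ?_, ?_⟩
  · have := sum_X_le hg hS.perm A
    rwa [hS.wt] at this
  · have := sum_X_eq hg.1 hS.perm (A := univ) (by simp)
    rwa [hS.wt] at this

theorem sfmBase_add (n M : ℕ) (f g g' : List Bool → ℤ) (i : Fin n) :
    (sfmBase n M f fun l => g l + g' l).getD i 0 =
      (sfmBase n M f g).getD i 0 + (sfmBase n M f g').getD i 0 := by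
  simp only [sfmBase, SFM.xv, getD_map_range _ _ i.2]
  rw [← List.sum_map_add]
  congr 1
  refine List.map_congr_left fun it _ => ?_
  simp only [SFM.gr]
  ring

theorem length_sfmBase (n M : ℕ) (f g : List Bool → ℤ) : (sfmBase n M f g).length = n := by
  simp [sfmBase, SFM.xv]

end Crest.Agent.R302
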