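import Crest.Agent.R302.SFM

/-!
# Row 302: greedy bases and list lemmas for the minimisation algorithm
-/

set_option autoImplicit false

namespace Crest.Agent.R302

open Finset

namespace SFMOkAux

/-! ### greedy bases -/

section Greedy

variable {ι : Type} [Fintype ι] [DecidableEq ι] {f : Finset ι → ℤ} {π π' : ι → ℕ}

/-- elements of position less than `k` -/
def Pk (π : ι → ℕ) (k : ℕ) : Finset ι := univ.filter fun u => π u < k

omit [DecidableEq ι] in
@[simp] theorem mem_Pk {k : ℕ} {u : ι} : u ∈ Pk π k ↔ π u < k := by simp [Pk]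

/-- the greedy base -/
def yy (f : Finset ι → ℤ) (π : ι → ℕ) (v : ι) : ℤ := f (insert v (Pk π (π v))) - f (Pk π (π v))

theorem Pk_succ (hπ : Function.Injective π) (v : ι) : Pk π (π v + 1) = insert v (Pk π (π v)) := by
  ext u
  simp only [mem_Pk, mem_insert]
  constructor
  · intro h
    rcases Nat.lt_succ_iff_lt_or_eq.1 h with h | h
    · exact Or.inr h
    · exact Or.inl (hπ h)
  · rintro (rfl | h) <;> omega

omit [Fintype ι] in
theorem marg (hf : Sub f) {A B : Finset ι} {v : ι} (hAB : A ⊆ B) (hv : v ∉ B) :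
    f (insert v B) - f B ≤ f (insert v A) - f A := by
  have := hf.2 (insert v A) B
  have e1 : insert v A ∪ B = insert v B := by
    rw [insert_union, union_eq_right.2 hAB]
  have e2 : insert v A ∩ B = A := by
    rw [insert_inter_of_notMem hv, inter_eq_left.2 hAB]
  rw [e1, e2] at this
  linarith

theorem yy_anti (hf : Sub f) {v : ι} (h : ∀ u, π' u < π' v → π u < π v) :
    yy f π v ≤ yy f π' v :=
  marg hf (fun u hu => mem_Pk.2 (h u (mem_Pk.1 hu))) (by simp)

theorem abs_yy_le {M : ℕ} (hM : ∀ A, |f A| ≤ M) (v : ι) : |yy f π v| ≤ 2 * M := by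
  have h1 := abs_le.1 (hM (insert v (Pk π (π v))))
  have h2 := abs_le.1 (hM (Pk π (π v)))
  unfold yy
  rw [abs_le]
  constructor <;> linarith

theorem inter_Pk_succ (hπ : Function.Injective π) (A : Finset ι) (k : ℕ) :
    A ∩ Pk π (k + 1) = A ∩ Pk π k ∨
      ∃ v ∈ A, π v = k ∧ A ∩ Pk π (k + 1) = insert v (A ∩ Pk π k) := by
  by_cases h : ∃ v ∈ A, π v = k
  · obtain ⟨v, hv, rfl⟩ := h
    refine Or.inr ⟨v, hv, rfl, ?_⟩
    rw [Pk_succ hπ, inter_insert_of_mem hv]
  · refine Or.inl ?_
    ext u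
    simp only [mem_inter, mem_Pk]
    refine and_congr_right fun hu => ?_
    have : π u ≠ k := fun h' => h ⟨u, hu, h'⟩
    omega

theorem inter_Pk_top (A : Finset ι) : A ∩ Pk π (univ.sup π + 1) = A :=
  inter_eq_left.2 fun u _ => mem_Pk.2 (Nat.lt_succ_of_le (le_sup (f := π) (mem_univ u)))

theorem sum_yy_le (hf : Sub f) (hπ : Function.Injective π) (A : Finset ι) :
    ∑ v ∈ A, yy f π v ≤ f A := by
  have key : ∀ k, ∑ v ∈ A ∩ Pk π k, yy f π v ≤ f (A ∩ Pk π k) := by
    intro k
    induction k with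
    | zero =>
      have : A ∩ Pk π 0 = ∅ := by ext u; simp
      rw [this, sum_empty, hf.1]
    | succ k ih =>
      rcases inter_Pk_succ hπ A k with h | ⟨v, -, rfl, h⟩
      · rwa [h]
      · rw [h, sum_insert (by simp)]
        have := marg hf (inter_subset_right (s₁ := A) (s₂ := Pk π (π v))) (v := v) (by simp)
        unfold yy at ih ⊢
        linarith
  have := key (univ.sup π + 1)
  rwa [inter_Pk_top] at this

theorem sum_yy_eq (h0 : f ∅ = 0) (hπ : Function.Injective π) {A : Finset ι}
    (hA : ∀ v ∈ A, ∀ u, π u < π v → u ∈ A) : ∑ v ∈ A, yy f π v = f A := by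
  have key : ∀ k, ∑ v ∈ A ∩ Pk π k, yy f π v = f (A ∩ Pk π k) := by
    intro k
    induction k with
    | zero =>
      have : A ∩ Pk π 0 = ∅ := by ext u; simp
      rw [this, sum_empty, h0]
    | succ k ih =>
      rcases inter_Pk_succ hπ A k with h | ⟨v, hv, rfl, h⟩
      · rwa [h]
      · rw [h, sum_insert (by simp), ih,
          inter_eq_right.2 fun u hu => hA v hv u (mem_Pk.1 hu)]
        unfold yy
        ring
  have := key (univ.sup π + 1)
  rwa [inter_Pk_top] at this

end Greedy

/-! ### lists -/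

section Lists

variable {α : Type} [LinearOrder α]

theorem foldr_min_le (c : α) (l : List α) : l.foldr min c ≤ c := by
  induction l with
  | nil => exact le_rfl
  | cons a l ih => exact (min_le_right _ _).trans ih

theorem foldr_min_le_of_mem (c : α) {l : List α} {a : α} (h : a ∈ l) : l.foldr min c ≤ a := by
  induction l with
  | nil => simp at h
  | cons b l ih =>
    rcases List.mem_cons.1 h with rfl | h
    · exact min_le_left _ _
    · exact (min_le_right _ _).trans (ih h)

theorem foldr_min_mem (c : α) (l : List α) : l.foldr min c = c ∨ l.foldr min c ∈ l := by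
  induction l with
  | nil => exact Or.inl rfl
  | cons b l ih =>
    rw [List.foldr_cons]
    rcases min_choice b (l.foldr min c) with h | h <;> rw [h]
    · exact Or.inr List.mem_cons_self
    · exact ih.imp id (List.mem_cons_of_mem _)

theorem le_foldr_max (c : α) (l : List α) : c ≤ l.foldr max c :=
  foldr_min_le (α := αᵒᵈ) c l

theorem le_foldr_max_of_mem (c : α) {l : List α} {a : α} (h : a ∈ l) : a ≤ l.foldr max c :=
  foldr_min_le_of_mem (α := αᵒᵈ) c h

theorem foldr_max_mem (c : α) (l : List α) : l.foldr max c = c ∨ l.foldr max c ∈ l :=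
  foldr_min_mem (α := αᵒᵈ) c l

end Lists

theorem findIdx_split {β : Type} (p : β → Bool) {S : List β} (h : ∃ x ∈ S, p x = true) :
    ∃ l1 x l2, S = l1 ++ x :: l2 ∧ S.findIdx p = l1.length ∧ p x = true := by
  induction S with
  | nil => simp at h
  | cons a S ih =>
    by_cases ha : p a = true
    · exact ⟨[], a, S, rfl, by simp [List.findIdx_cons, ha], ha⟩
    · obtain ⟨x, hx, hp⟩ := h
      rcases List.mem_cons.1 hx with rfl | hx
      · exact absurd hp ha
      · obtain ⟨l1, x, l2, rfl, e, hp⟩ := ih ⟨x, hx, hp⟩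
        exact ⟨a :: l1, x, l2, rfl, by simp only [List.findIdx_cons, ha, e]; rfl, hp⟩

theorem find_range {p : ℕ → Bool} {m : ℕ} (h : ∃ j < m, p j = true) :
    ((List.range m).find? p).getD 0 < m ∧ p (((List.range m).find? p).getD 0) = true := by
  cases e : (List.range m).find? p with
  | none =>
    obtain ⟨j, hj, hp⟩ := h
    exact absurd hp (List.find?_eq_none.1 e j (List.mem_range.2 hj))
  | some j => exact ⟨List.mem_range.1 (List.mem_of_find?_eq_some e), List.find?_some e⟩

theorem idxOf_filter_lt (p : ℕ → Bool) (L : List ℕ) {u v : ℕ} (hu : p u = true) (hv : p v = true) :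
    (L.filter p).idxOf u < (L.filter p).idxOf v ↔ L.idxOf u < L.idxOf v := by
  induction L with
  | nil => simp
  | cons a L ih =>
    by_cases ha : p a = true
    · rw [List.filter_cons_of_pos ha]
      by_cases h1 : a = u <;> by_cases h2 : a = v <;> simp_all
    · have h1 : a ≠ u := by rintro rfl; exact ha hu
      have h2 : a ≠ v := by rintro rfl; exact ha hv
      rw [List.filter_cons_of_neg ha, List.idxOf_cons_ne _ h1, List.idxOf_cons_ne _ h2, ih]
      simp

/-- the order after sorting by a class function with values `0, 1, 2` -/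
theorem idxOf_three (L : List ℕ) (c : ℕ → ℕ) (p0 p1 p2 : ℕ → Bool) (h0 : ∀ v, p0 v = true ↔ c v = 0)
    (h1 : ∀ v, p1 v = true ↔ c v = 1) (h2 : ∀ v, p2 v = true ↔ c v = 2) (hc : ∀ v, c v ≤ 2)
    {u v : ℕ} (hu : u ∈ L) (hv : v ∈ L) :
    (L.filter p0 ++ L.filter p1 ++ L.filter p2).idxOf u <
        (L.filter p0 ++ L.filter p1 ++ L.filter p2).idxOf v ↔
      c u < c v ∨ (c u = c v ∧ L.idxOf u < L.idxOf v) := by
  have e : ∀ w ∈ L, (c w = 0 ∧ (L.filter p0).idxOf w < (L.filter p0).length ∧
        (L.filter p0 ++ L.filter p1 ++ L.filter p2).idxOf w = (L.filter p0).idxOf w) ∨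
      (c w = 1 ∧ (L.filter p1).idxOf w < (L.filter p1).length ∧
        (L.filter p0 ++ L.filter p1 ++ L.filter p2).idxOf w =
          (L.filter p0).length + (L.filter p1).idxOf w) ∨
      (c w = 2 ∧ (L.filter p0 ++ L.filter p1 ++ L.filter p2).idxOf w =
          (L.filter p0).length + (L.filter p1).length + (L.filter p2).idxOf w) := by
    intro w hw
    have m0 : w ∈ L.filter p0 ↔ c w = 0 := by rw [List.mem_filter, h0]; tauto
    have m1 : w ∈ L.filter p1 ↔ c w = 1 := by rw [List.mem_filter, h1]; tauto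
    have := hc w
    rcases (by omega : c w = 0 ∨ c w = 1 ∨ c w = 2) with h | h | h
    · refine Or.inl ⟨h, List.idxOf_lt_length_iff.2 (m0.2 h), ?_⟩
      rw [List.append_assoc, List.idxOf_append_of_mem (m0.2 h)]
    · refine Or.inr (Or.inl ⟨h, List.idxOf_lt_length_iff.2 (m1.2 h), ?_⟩)
      rw [List.append_assoc, List.idxOf_append_of_notMem (by rw [m0]; omega),
        List.idxOf_append_of_mem (m1.2 h)]
    · refine Or.inr (Or.inr ⟨h, ?_⟩)
      rw [List.idxOf_append_of_notMem (by rw [List.mem_append, m0, m1]; omega), List.length_append]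
  rcases e u hu with ⟨a1, a2, a3⟩ | ⟨a1, a2, a3⟩ | ⟨a1, a3⟩ <;>
    rcases e v hv with ⟨b1, b2, b3⟩ | ⟨b1, b2, b3⟩ | ⟨b1, b3⟩ <;> rw [a3, b3]
  · have := idxOf_filter_lt p0 L ((h0 u).2 a1) ((h0 v).2 b1); omega
  · omega
  · omega
  · omega
  · have := idxOf_filter_lt p1 L ((h1 u).2 a1) ((h1 v).2 b1); omega
  · omega
  · omega
  · omega
  · have := idxOf_filter_lt p2 L ((h2 u).2 a1) ((h2 v).2 b1); omega

theorem perm_three (L : List ℕ) (c : ℕ → ℕ) (p0 p1 p2 : ℕ → Bool) (h0 : ∀ v, p0 v = true ↔ c v = 0)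
    (h1 : ∀ v, p1 v = true ↔ c v = 1) (h2 : ∀ v, p2 v = true ↔ c v = 2) (hc : ∀ v, c v ≤ 2) :
    (L.filter p0 ++ L.filter p1 ++ L.filter p2).Perm L := by
  rw [List.perm_iff_count]
  intro w
  have e : ∀ p : ℕ → Bool, (L.filter p).count w = if p w = true then L.count w else 0 := by
    intro p
    split_ifs with h
    · exact List.count_filter h
    · exact List.count_eq_zero_of_not_mem fun h' => h (List.mem_filter.1 h').2
  simp only [List.count_append, e, h0, h1, h2]
  have := hc w
  split_ifs <;> omega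

theorem push_eq (l1 l2 : List SFM.Item) (it : SFM.Item) (nw : List ℕ × List ℕ) (a : ℕ) :
    SFM.push (l1 ++ it :: l2) l1.length nw a = (nw.1, nw.2, a) ::
      (if a = it.2.2 then l1 ++ l2 else l1 ++ (it.1, it.2.1, it.2.2 - a) :: l2) := by
  have e : (l1 ++ it :: l2).getD l1.length ([], [], 0) = it := by simp
  unfold SFM.push
  rw [e]
  congr 1
  split_ifs
  · rw [List.eraseIdx_append_of_length_le le_rfl]; simp
  · simp

theorem getD_map_range {β : Type} (g : ℕ → β) (d : β) {n v : ℕ} (h : v < n) :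
    ((List.range n).map g).getD v d = g v := by
  simp [List.getD_eq_getElem?_getD, h]

/-- position of an element in an order -/
def posn {n : ℕ} (L : List ℕ) (v : Fin n) : ℕ := L.idxOf (v : ℕ)

theorem posn_inj {n : ℕ} {L : List ℕ} (h : L.Perm (List.range n)) :
    Function.Injective (posn L : Fin n → ℕ) := fun u _ e =>
  Fin.ext ((List.idxOf_inj (h.mem_iff.2 (List.mem_range.2 u.2))).1 e)

theorem setOf_pre {n : ℕ} (L : List ℕ) (k : ℕ) : setOf n (SFM.pre n L k) = Pk (posn L) k := by
  ext j
  simp only [setOf, SFM.pre, mem_filter, mem_univ, true_and, mem_Pk, getD_map_range _ _ j.2, posn,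
    decide_eq_true_eq]

theorem gr_eq {n : ℕ} (f : Finset (Fin n) → ℤ) {L : List ℕ} (h : L.Perm (List.range n)) (v : Fin n) :
    SFM.gr n (fun l => f (setOf n l)) L v = yy f (posn L) v := by
  unfold SFM.gr yy
  rw [← Pk_succ (posn_inj h)]
  simp only [setOf_pre]
  rfl

theorem pos_sq_up {N η x t : ℤ} {j : ℕ} (hN : 0 < N) (hη : 0 < η) (ht : 0 ≤ t) (hx : N * x ≤ 2 * j * η)
    (htη : N * t ≤ η) :
    N * (max (x + t) 0 ^ 2 - max x 0 ^ 2) ≤ 2 * (2 * j + 1) * η * t - η * t := by
  have hj : (0 : ℤ) ≤ j * η := by positivity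
  have hjt : 0 ≤ j * η * t := by positivity
  rcases le_total 0 x with h | h
  · rw [max_eq_left h, max_eq_left (by linarith)]
    nlinarith
  · rw [max_eq_right h]
    rcases le_total 0 (x + t) with h' | h'
    · rw [max_eq_left h']
      have a1 : (x + t) * (N * (x + t)) ≤ t * ((2 * j + 1) * η) :=
        mul_le_mul (by linarith) (by linarith) (by positivity) ht
      nlinarith
    · rw [max_eq_right h']
      have : 0 ≤ η * t := by positivity
      nlinarith

theorem pos_sq_down {N η x t : ℤ} {j : ℕ} (hN : 0 < N) (hη : 0 < η) (ht : 0 ≤ t)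
    (hx : (2 * j + 2) * η ≤ N * x) (htη : N * t ≤ η) :
    0 < x - t ∧ N * (max (x - t) 0 ^ 2 - max x 0 ^ 2) ≤ -(2 * (2 * j + 1) * η * t) - η * t := by
  have hj : (0 : ℤ) ≤ j * η := by positivity
  have h1 : 0 < x - t := by
    have : 0 < N * (x - t) := by nlinarith
    exact (mul_pos_iff_of_pos_left hN).1 this
  refine ⟨h1, ?_⟩
  rw [max_eq_left h1.le, max_eq_left (by linarith)]
  nlinarith

end SFMOkAux

end Crest.Agent.R302
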