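import Crest.Agent.R302.Defs

/-!
# Row 302: elementary facts used for the ideal weight
-/

set_option autoImplicit false

namespace Crest.Agent.R302.SoftAux

open Finset

theorem cosh_add_le (x y : ℝ) : Real.cosh (x + y) ≤ Real.exp |y| * Real.cosh x := by
  rw [Real.cosh_eq, Real.cosh_eq, neg_add, Real.exp_add, Real.exp_add]
  have h1 : Real.exp y ≤ Real.exp |y| := Real.exp_le_exp.2 (le_abs_self y)
  have h2 : Real.exp (-y) ≤ Real.exp |y| := Real.exp_le_exp.2 (neg_le_abs y)
  have h3 := mul_le_mul_of_nonneg_left h1 (Real.exp_pos x).le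
  have h4 := mul_le_mul_of_nonneg_left h2 (Real.exp_pos (-x)).le
  linarith

theorem exp_le_two_mul {h : ℝ} (h0 : 0 ≤ h) (h1 : h ≤ 1) : Real.exp h ≤ 1 + 2 * h := by
  have := Real.abs_exp_sub_one_le (x := h) (by rwa [abs_of_nonneg h0])
  rw [abs_of_nonneg h0] at this
  linarith [(abs_le.1 this).2]

/-- first differences of `sech` -/
theorem sech_step (x y : ℝ) (h1 : |y| ≤ 1) :
    |(Real.cosh (x + y))⁻¹ - (Real.cosh x)⁻¹| ≤ 2 * |y| * (Real.cosh x)⁻¹ := by
  have h0 := abs_nonneg y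
  have hx := Real.cosh_pos x
  have hxy := Real.cosh_pos (x + y)
  have ha := cosh_add_le x y
  have hb := cosh_add_le (x + y) (-y)
  rw [add_neg_cancel_right, abs_neg] at hb
  have he := exp_le_two_mul h0 h1
  have he' : (1 - |y|) * Real.exp |y| ≤ 1 := by
    have h2 := Real.add_one_le_exp (-|y|)
    have h3 := mul_le_mul_of_nonneg_right h2 (Real.exp_pos |y|).le
    rw [← Real.exp_add, neg_add_cancel, Real.exp_zero] at h3
    linarith
  have k1 : (Real.cosh (x + y))⁻¹ ≤ (1 + 2 * |y|) * (Real.cosh x)⁻¹ := by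
    rw [← div_eq_mul_inv, le_div_iff₀ hx, inv_mul_eq_div, div_le_iff₀ hxy]
    exact hb.trans (mul_le_mul_of_nonneg_right he hxy.le)
  have k2 : (1 - |y|) * (Real.cosh x)⁻¹ ≤ (Real.cosh (x + y))⁻¹ := by
    rw [← div_eq_mul_inv, div_le_iff₀ hx, inv_mul_eq_div, le_div_iff₀ hxy]
    calc (1 - |y|) * Real.cosh (x + y) ≤ (1 - |y|) * (Real.exp |y| * Real.cosh x) :=
          mul_le_mul_of_nonneg_left ha (by linarith)
      _ = ((1 - |y|) * Real.exp |y|) * Real.cosh x := by ring
      _ ≤ 1 * Real.cosh x := mul_le_mul_of_nonneg_right he' hx.le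
      _ = _ := one_mul _
  have k3 : 0 ≤ |y| * (Real.cosh x)⁻¹ := by positivity
  rw [abs_le]
  constructor <;> linarith

theorem cosh_mul_cosh (x y : ℝ) :
    Real.cosh (x - y) * Real.cosh (x + y) = Real.cosh x ^ 2 + Real.sinh y ^ 2 := by
  rw [Real.cosh_sub, Real.cosh_add]
  have h1 := Real.cosh_sq x
  have h2 := Real.cosh_sq y
  linear_combination (Real.cosh x ^ 2) * h2 + (Real.sinh y ^ 2) * h1

/-- `sech` is log-concave -/
theorem sech_lc (x y : ℝ) :
    (Real.cosh (x - y))⁻¹ * (Real.cosh (x + y))⁻¹ ≤ (Real.cosh x)⁻¹ ^ 2 := by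
  rw [← mul_inv, cosh_mul_cosh, inv_pow]
  exact inv_anti₀ (pow_pos (Real.cosh_pos x) 2) (by linarith [sq_nonneg (Real.sinh y)])

/-- second differences of `sech` -/
theorem sech_step₂ (x y : ℝ) :
    (2 - 4 * y ^ 2) * (Real.cosh x)⁻¹ ≤ (Real.cosh (x + y))⁻¹ + (Real.cosh (x - y))⁻¹ := by
  have hx := Real.cosh_pos x
  have hx1 := Real.one_le_cosh x
  have hy := Real.cosh_pos y
  have h1 := Real.cosh_pos (x + y)
  have h2 := Real.cosh_pos (x - y)
  have h3 : (1 - 2 * y ^ 2) * Real.cosh y ≤ 1 := by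
    have a1 := Real.add_one_le_exp (-(2 * y ^ 2))
    have a2 := Real.cosh_le_exp_half_sq y
    calc (1 - 2 * y ^ 2) * Real.cosh y ≤ Real.exp (-(2 * y ^ 2)) * Real.cosh y :=
          mul_le_mul_of_nonneg_right (by linarith) hy.le
      _ ≤ Real.exp (-(2 * y ^ 2)) * Real.exp (y ^ 2 / 2) :=
          mul_le_mul_of_nonneg_left a2 (Real.exp_pos _).le
      _ ≤ 1 := by
          rw [← Real.exp_add]
          exact Real.exp_le_one_iff.2 (by nlinarith [sq_nonneg y])
  have h4 : Real.cosh (x + y) + Real.cosh (x - y) = 2 * Real.cosh x * Real.cosh y := by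
    rw [Real.cosh_sub, Real.cosh_add]; ring
  have h5 := cosh_mul_cosh x y
  have h6 : Real.cosh (x - y) * Real.cosh (x + y) ≤ Real.cosh x ^ 2 * Real.cosh y ^ 2 := by
    rw [h5, Real.cosh_sq y]
    have : 1 ≤ Real.cosh x ^ 2 := one_le_pow₀ hx1
    nlinarith [sq_nonneg (Real.sinh y)]
  rw [inv_add_inv h1.ne' h2.ne', h4, ← div_eq_mul_inv, div_le_div_iff₀ hx (mul_pos h1 h2)]
  rcases le_or_gt (1 - 2 * y ^ 2) 0 with h7 | h7
  · have : 0 ≤ 2 * Real.cosh x * Real.cosh y * Real.cosh x := by positivity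
    nlinarith [mul_pos h1 h2]
  · calc (2 - 4 * y ^ 2) * (Real.cosh (x + y) * Real.cosh (x - y))
        = 2 * ((1 - 2 * y ^ 2) * (Real.cosh (x - y) * Real.cosh (x + y))) := by ring
      _ ≤ 2 * ((1 - 2 * y ^ 2) * (Real.cosh x ^ 2 * Real.cosh y ^ 2)) := by gcongr
      _ = 2 * (((1 - 2 * y ^ 2) * Real.cosh y) * (Real.cosh x ^ 2 * Real.cosh y)) := by ring
      _ ≤ 2 * (1 * (Real.cosh x ^ 2 * Real.cosh y)) := by gcongr
      _ = _ := by ring

theorem sum_Icc_shift_pred {lo hi : ℤ} (h : lo ≤ hi) (ψ E : ℤ → ℝ) :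
    ∑ k ∈ Icc lo hi, ψ k * E (k - 1) =
      ∑ k ∈ Icc lo hi, ψ (k + 1) * E k + ψ lo * E (lo - 1) - ψ (hi + 1) * E hi := by
  induction hi, h using Int.leInduction with
  | base => simp
  | succ hi h ih =>
    have e : Icc lo (hi + 1) = insert (hi + 1) (Icc lo hi) := by
      ext k; simp only [mem_Icc, mem_insert]; omega
    rw [e, sum_insert (by simp), sum_insert (by simp), ih, add_sub_cancel_right]
    ring

theorem sum_Icc_shift_succ {lo hi : ℤ} (h : lo ≤ hi) (ψ E : ℤ → ℝ) :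
    ∑ k ∈ Icc lo hi, ψ k * E (k + 1) =
      ∑ k ∈ Icc lo hi, ψ (k - 1) * E k + ψ hi * E (hi + 1) - ψ (lo - 1) * E lo := by
  induction hi, h using Int.leInduction with
  | base => simp
  | succ hi h ih =>
    have e : Icc lo (hi + 1) = insert (hi + 1) (Icc lo hi) := by
      ext k; simp only [mem_Icc, mem_insert]; omega
    rw [e, sum_insert (by simp), sum_insert (by simp), ih, add_sub_cancel_right]
    ring

theorem abs_sum_diff_le {s : Finset ℤ} {ψ ψ' E : ℤ → ℝ} {c : ℝ} (hE : ∀ k, 0 ≤ E k)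
    (h : ∀ k, |ψ' k - ψ k| ≤ c * ψ k) :
    |∑ k ∈ s, ψ' k * E k - ∑ k ∈ s, ψ k * E k| ≤ c * ∑ k ∈ s, ψ k * E k := by
  rw [← sum_sub_distrib, mul_sum]
  refine (abs_sum_le_sum_abs _ _).trans (sum_le_sum fun k _ => ?_)
  rw [← sub_mul, abs_mul, abs_of_nonneg (hE k), ← mul_assoc]
  exact mul_le_mul_of_nonneg_right (h k) (hE k)

variable {V : Type} [Fintype V] [DecidableEq V]

/-- singling out one coordinate of a box -/
theorem sum_piFinset_split (T : V → Finset ℤ) (a : V) (F : (V → ℤ) → ℝ) :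
    ∑ ξ ∈ Fintype.piFinset T, F ξ =
      ∑ k ∈ T a, ∑ ξ ∈ Fintype.piFinset (Function.update T a {0}), F (Function.update ξ a k) := by
  rw [← sum_product']
  symm
  refine sum_nbij' (fun x => Function.update x.2 a x.1)
    (fun ξ => (ξ a, Function.update ξ a 0)) ?_ ?_ ?_ ?_ ?_
  · rintro ⟨k, ξ⟩ hx
    simp only [mem_product, Fintype.mem_piFinset] at hx ⊢
    intro b
    by_cases hb : b = a
    · subst hb
      simpa using hx.1
    · have := hx.2 b
      simpa [hb] using this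
  · intro ξ hξ
    simp only [mem_product, Fintype.mem_piFinset] at hξ ⊢
    refine ⟨hξ a, fun b => ?_⟩
    by_cases hb : b = a
    · subst hb
      simp
    · have := hξ b
      simpa [hb] using this
  · rintro ⟨k, ξ⟩ hx
    simp only [mem_product, Fintype.mem_piFinset] at hx
    have h0 : ξ a = 0 := by simpa using hx.2 a
    simp only [Function.update_self, Function.update_idem]
    rw [← h0, Function.update_eq_self]
  · intro ξ _
    simp
  · rintro ⟨k, ξ⟩ _
    rfl

theorem shf_add (par : V → V) (ξ ξ' : V → ℤ) : shf par (ξ + ξ') = shf par ξ + shf par ξ' := by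
  simp only [shf, Pi.add_apply, add_smul, sum_add_distrib]

theorem shf_single (par : V → V) (a : V) (k : ℤ) :
    shf par (Pi.single a k) = k • (ev a - ev (par a)) := by
  unfold shf
  rw [sum_eq_single a]
  · rw [Pi.single_eq_same]
  · intro b _ hb
    rw [Pi.single_eq_of_ne hb, zero_smul]
  · simp

theorem shf_zero (par : V → V) : shf par 0 = 0 := by simp [shf]

theorem shf_update (par : V → V) {ξ : V → ℤ} {a : V} (h0 : ξ a = 0) (k : ℤ) :
    shf par (Function.update ξ a k) = k • (ev a - ev (par a)) + shf par ξ := by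
  have : Function.update ξ a k = Pi.single a k + ξ := by
    funext b
    by_cases hb : b = a
    · subst hb
      simp [h0]
    · simp [hb]
  rw [this, shf_add, shf_single]

theorem sum_abs_ev (a : V) : ∑ b, |((ev a b : ℤ) : ℝ)| = 1 := by
  rw [sum_eq_single a]
  · simp [ev]
  · intro b _ hb
    simp [ev, hb]
  · simp

end Crest.Agent.R302.SoftAux
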