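import Crest.Agent.R302.Num
import Crest.Agent.R302.LC
import Crest.Agent.R302.SoftAux

/-!
# Row 302: the ideal weight
-/

set_option autoImplicit false

namespace Crest.Agent.R302.Raw

open Finset SoftAux

variable {R : Raw} {r : Bool → Finset R.E → ℤ} {x : Bool → R.E → ℝ} {Rm κ : ℕ}

theorem Valid.sm_big (h : R.Valid r x Rm κ) : 10000 ≤ R.m ∧ 2 * R.n ≤ R.m ∧ R.L0.n ≤ R.m := by
  have h1 := h.m_ge
  have h2 := h.m_ge'
  have h3 : R.n + 2 ≤ (R.n + 2) ^ 10 := Nat.le_self_pow (by norm_num) _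
  omega

theorem Valid.smR (h : R.Valid r x Rm κ) : (10000 : ℝ) ≤ R.m := by exact_mod_cast h.sm_big.1

theorem Valid.slog_pos (h : R.Valid r x Rm κ) : 0 < Real.log R.ϱ := by
  have := h.smR
  exact lt_of_lt_of_le (by positivity) h.log_ϱ.1

theorem s_one_le_ℓ (R : Raw) (a : R.V) : (1 : ℝ) ≤ R.ℓ a := by exact_mod_cast R.ℓ_pos a

theorem Valid.hh_pos (h : R.Valid r x Rm κ) (a : R.V) : 0 < R.hh a :=
  div_pos h.slog_pos (by linarith [R.s_one_le_ℓ a])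

theorem Valid.hh_le (h : R.Valid r x Rm κ) (a : R.V) : R.hh a ≤ 1 / (R.m : ℝ) / R.ℓ a :=
  div_le_div_of_nonneg_right h.log_ϱ.2 (by linarith [R.s_one_le_ℓ a])

theorem Valid.hh_le_half (h : R.Valid r x Rm κ) (a : R.V) : R.hh a ≤ 1 / 2 := by
  have h1 := h.smR
  have h2 : 1 / (R.m : ℝ) ≤ 1 / 2 := one_div_le_one_div_of_le (by norm_num) (by linarith)
  exact (h.hh_le a).trans ((div_le_self (by positivity) (R.s_one_le_ℓ a)).trans h2)

theorem Valid.one_le_Z (h : R.Valid r x Rm κ) (a : R.V) :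
    1 ≤ ∑ j ∈ Icc (R.klo a) (R.khi a), (Real.cosh (j * R.hh a))⁻¹ := by
  have := single_le_sum (f := fun j : ℤ => (Real.cosh (j * R.hh a))⁻¹)
    (fun j _ => (inv_pos.2 (Real.cosh_pos _)).le) (mem_Icc.2 (h.klo_le a))
  simpa using this

theorem Valid.ψ_pos (h : R.Valid r x Rm κ) (a : R.V) (k : ℤ) : 0 < R.ψ a k :=
  div_pos (inv_pos.2 (Real.cosh_pos _)) (by linarith [h.one_le_Z a])

theorem Valid.sum_ψ_one (h : R.Valid r x Rm κ) (a : R.V) :
    ∑ k ∈ Icc (R.klo a) (R.khi a), R.ψ a k = 1 := by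
  unfold ψ
  rw [← sum_div, div_self (by linarith [h.one_le_Z a])]

theorem Valid.sum_ψ (h : R.Valid r x Rm κ) : ∑ ξ ∈ R.kbox, ∏ a, R.ψ a (ξ a) = 1 := by
  unfold kbox
  rw [← prod_univ_sum]
  exact prod_eq_one fun a _ => h.sum_ψ_one a

theorem Valid.prod_pos (h : R.Valid r x Rm κ) (ξ : R.V → ℤ) : 0 < ∏ a, R.ψ a (ξ a) :=
  Finset.prod_pos fun a _ => h.ψ_pos a _

theorem Valid.φ_lc (h : R.Valid r x Rm κ) (j : ℕ) : LC (R.φ r j) := by
  refine (lc_DD h.sub (h.tt_nonneg j)).convAll R.pa (lo := R.klo) (hi := R.khi) (ψ := R.ψ)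
    (fun a => (h.klo_le a).1.trans (h.klo_le a).2) (fun a k _ _ => h.ψ_pos a k) fun a k _ _ => ?_
  unfold ψ
  rw [div_mul_div_comm, div_pow, ← sq]
  refine div_le_div_of_nonneg_right ?_ (sq_nonneg _)
  push_cast
  rw [sub_mul, add_mul, one_mul]
  exact sech_lc _ _

theorem Valid.exp_le_one (h : R.Valid r x Rm κ) (j : ℕ) (z : R.V → ℤ) :
    Real.exp (-R.tt j * (DD r z : ℝ)) ≤ 1 := by
  have h1 : (0 : ℝ) ≤ DD r z := by exact_mod_cast DD_nonneg h.sub z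
  exact Real.exp_le_one_iff.2 (by nlinarith [h.tt_nonneg j])

theorem Valid.φ_le_one (h : R.Valid r x Rm κ) (j : ℕ) (z : R.V → ℤ) : R.φ r j z ≤ 1 := by
  rw [← h.sum_ψ]
  exact sum_le_sum fun ξ _ => mul_le_of_le_one_right (h.prod_pos ξ).le (h.exp_le_one j _)

theorem Valid.φ_l1 (h : R.Valid r x Rm κ) (j : ℕ) (z v : R.V → ℤ) :
    R.φ r j z ≤ Real.exp (R.tt j * ∑ a, |(v a : ℝ)|) * R.φ r j (z + v) := by
  unfold φ
  rw [mul_sum]
  refine sum_le_sum fun ξ _ => ?_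
  rw [mul_left_comm, ← Real.exp_add]
  refine mul_le_mul_of_nonneg_left (Real.exp_le_exp.2 ?_) (h.prod_pos ξ).le
  have h1 := (abs_le.1 (DD_lip r (z - R.sh ξ) v)).2
  have h2 : ((DD r (z + v - R.sh ξ) : ℤ) : ℝ) - DD r (z - R.sh ξ) ≤ ∑ a, |(v a : ℝ)| := by
    rw [add_sub_right_comm]
    exact_mod_cast h1
  nlinarith [h.tt_nonneg j]

theorem Valid.φ_lam (h : R.Valid r x Rm κ) (j : ℕ) (z : R.V → ℤ) (a : R.V) :
    R.φ r j (z + ev a) ≤ R.Λ j * R.φ r j z ∧ R.φ r j z ≤ R.Λ j * R.φ r j (z + ev a) := by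
  have h1 := h.φ_l1 j z (ev a)
  have h2 := h.φ_l1 j (z + ev a) (-ev a)
  simp only [Pi.neg_apply, Int.cast_neg, abs_neg, add_neg_cancel_right] at h2
  rw [sum_abs_ev, mul_one] at h1 h2
  exact ⟨h2, h1⟩

theorem s_cap_pos (R : Raw) : 0 < R.cap := by unfold cap; positivity

/-- the weight as an average along one arc -/
theorem Valid.φ_split (h : R.Valid r x Rm κ) (j : ℕ) (a : R.V) :
    ∃ E : (R.V → ℤ) → ℝ, (∀ w, 0 ≤ E w) ∧ (∀ w, E w ≤ 1) ∧ ∀ z, R.φ r j z =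
      ∑ k ∈ Icc (R.klo a) (R.khi a), R.ψ a k * E (z - k • (ev a - ev (R.pa a))) := by
  set T : R.V → Finset ℤ := fun b => Icc (R.klo b) (R.khi b)
  have hp : ∀ (ξ : R.V → ℤ) (k : ℤ), ∏ b, R.ψ b (Function.update ξ a k b) =
      R.ψ a k * ∏ b ∈ univ.erase a, R.ψ b (ξ b) := by
    intro ξ k
    rw [← mul_prod_erase _ _ (mem_univ a), Function.update_self]
    congr 1
    exact prod_congr rfl fun b hb => by rw [Function.update_of_ne (ne_of_mem_erase hb)]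
  have hnn : ∀ ξ : R.V → ℤ, 0 ≤ ∏ b ∈ univ.erase a, R.ψ b (ξ b) := fun ξ =>
    prod_nonneg fun b _ => (h.ψ_pos b _).le
  have h1 : ∑ ξ ∈ Fintype.piFinset (Function.update T a {0}),
      ∏ b ∈ univ.erase a, R.ψ b (ξ b) = 1 := by
    have h2 := h.sum_ψ
    unfold kbox at h2
    rw [sum_piFinset_split T a] at h2
    simp only [hp, ← mul_sum] at h2
    rwa [← sum_mul, h.sum_ψ_one a, one_mul] at h2
  refine ⟨fun w => ∑ ξ ∈ Fintype.piFinset (Function.update T a {0}),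
    (∏ b ∈ univ.erase a, R.ψ b (ξ b)) * Real.exp (-R.tt j * (DD r (w - R.sh ξ) : ℝ)),
    fun w => sum_nonneg fun ξ _ => mul_nonneg (hnn ξ) (Real.exp_pos _).le, fun w => ?_,
    fun z => ?_⟩
  · rw [← h1]
    exact sum_le_sum fun ξ _ => mul_le_of_le_one_right (hnn ξ) (h.exp_le_one j _)
  · unfold φ kbox
    rw [sum_piFinset_split T a]
    refine sum_congr rfl fun k _ => ?_
    rw [mul_sum]
    refine sum_congr rfl fun ξ hξ => ?_
    have h0 : ξ a = 0 := by simpa using Fintype.mem_piFinset.1 hξ a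
    rw [hp, mul_assoc, sh, shf_update _ h0, sub_sub]
    rfl

theorem Valid.ψ_step (h : R.Valid r x Rm κ) (a : R.V) (k : ℤ) :
    |R.ψ a (k + 1) - R.ψ a k| ≤ 2 * R.hh a * R.ψ a k ∧
      |R.ψ a (k - 1) - R.ψ a k| ≤ 2 * R.hh a * R.ψ a k := by
  have h0 := h.hh_pos a
  have h1 := h.hh_le_half a
  have hZ := h.one_le_Z a
  have k1 := sech_step (k * R.hh a) (R.hh a) (by rw [abs_of_pos h0]; linarith)
  have k2 := sech_step (k * R.hh a) (-R.hh a) (by rw [abs_neg, abs_of_pos h0]; linarith)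
  rw [abs_neg] at k2
  rw [abs_of_pos h0] at k1 k2
  unfold ψ
  rw [← sub_div, ← sub_div, abs_div, abs_div, abs_of_pos (by linarith : (0 : ℝ) < ∑ j ∈ _, _),
    ← mul_div_assoc]
  push_cast
  rw [add_mul, sub_mul, one_mul, sub_eq_add_neg (k * R.hh a)]
  exact ⟨div_le_div_of_nonneg_right k1 (by linarith), div_le_div_of_nonneg_right k2 (by linarith)⟩

theorem Valid.ψ_step₂ (h : R.Valid r x Rm κ) (a : R.V) (k : ℤ) :
    (2 - 4 * R.hh a ^ 2) * R.ψ a k ≤ R.ψ a (k + 1) + R.ψ a (k - 1) := by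
  have hZ := h.one_le_Z a
  unfold ψ
  rw [← add_div, ← mul_div_assoc]
  push_cast
  rw [add_mul, sub_mul (k : ℝ), one_mul]
  exact div_le_div_of_nonneg_right (sech_step₂ _ _) (by linarith)

theorem Valid.ψ_bdry (h : R.Valid r x Rm κ) {a : R.V} (ha : R.ker a) :
    R.ψ a (R.klo a) ≤ 2 * R.cap ∧ R.ψ a (R.khi a + 1) ≤ 2 * R.cap ∧
      R.ψ a (R.klo a - 1) ≤ 4 * R.cap ∧ R.ψ a (R.khi a) ≤ 4 * R.cap := by
  have hZ := h.one_le_Z a
  have hl := R.s_one_le_ℓ a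
  have hm := h.smR
  have hϱ : (0 : ℝ) < R.ϱ := by
    have : (0 : ℚ) < R.ϱ := by unfold ϱ; positivity
    exact_mod_cast this
  have e1 : ((R.Jw a : ℤ) : ℝ) * R.hh a = (R.m ^ 7 : ℕ) * Real.log R.ϱ := by
    simp only [Jw, if_pos ha, hh, G]
    push_cast
    field_simp
  have e2 : (2 : ℝ) ^ R.m ^ 6 ≤ Real.exp ((R.m ^ 7 : ℕ) * Real.log R.ϱ) := by
    rw [Real.exp_nat_mul, Real.exp_log hϱ, pow_succ' R.m 6, pow_mul]
    refine pow_le_pow_left₀ (by norm_num) ?_ _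
    exact_mod_cast h.two_le_ϱ_pow
  have e3 : (Real.cosh (((R.Jw a : ℤ) : ℝ) * R.hh a))⁻¹ ≤ 2 * R.cap := by
    rw [e1, cap, mul_one_div, ← inv_div]
    refine inv_anti₀ (by positivity) ?_
    rw [Real.cosh_eq]
    linarith [Real.exp_pos (-((R.m ^ 7 : ℕ) * Real.log R.ϱ))]
  have e4 : ∀ k : ℤ, R.ψ a k ≤ (Real.cosh (k * R.hh a))⁻¹ := fun k =>
    div_le_self (inv_pos.2 (Real.cosh_pos _)).le hZ
  have b1 : R.ψ a (R.klo a) ≤ 2 * R.cap := by
    refine (e4 _).trans ?_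
    rw [klo, Int.cast_neg, neg_mul, Real.cosh_neg]
    exact e3
  have b2 : R.ψ a (R.khi a + 1) ≤ 2 * R.cap := by
    refine (e4 _).trans ?_
    rw [khi, if_pos ha, sub_add_cancel]
    exact e3
  have hh1 := h.hh_le_half a
  have hh0 := h.hh_pos a
  have c1 := (abs_le.1 (h.ψ_step a (R.klo a)).2).2
  have c2 := (abs_le.1 (h.ψ_step a (R.khi a + 1)).2).2
  rw [add_sub_cancel_right] at c2
  have p1 := h.ψ_pos a (R.klo a)
  have p2 := h.ψ_pos a (R.khi a + 1)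
  refine ⟨b1, b2, by nlinarith, by nlinarith⟩

/-- the three weights along an arc -/
theorem Valid.φ_three (h : R.Valid r x Rm κ) (j : ℕ) (a : R.V) (z : R.V → ℤ) :
    ∃ E : ℤ → ℝ, (∀ k, 0 ≤ E k) ∧ (∀ k, E k ≤ 1) ∧
      R.φ r j z = ∑ k ∈ Icc (R.klo a) (R.khi a), R.ψ a k * E k ∧
      R.φ r j (z + (ev a - ev (R.pa a))) = ∑ k ∈ Icc (R.klo a) (R.khi a), R.ψ a (k + 1) * E k
        + R.ψ a (R.klo a) * E (R.klo a - 1) - R.ψ a (R.khi a + 1) * E (R.khi a) ∧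
      R.φ r j (z - (ev a - ev (R.pa a))) = ∑ k ∈ Icc (R.klo a) (R.khi a), R.ψ a (k - 1) * E k
        + R.ψ a (R.khi a) * E (R.khi a + 1) - R.ψ a (R.klo a - 1) * E (R.klo a) := by
  obtain ⟨E, h0, h1, hE⟩ := h.φ_split j a
  have hle := (h.klo_le a).1.trans (h.klo_le a).2
  refine ⟨fun k => E (z - k • (ev a - ev (R.pa a))), fun k => h0 _, fun k => h1 _, hE z, ?_, ?_⟩
  · rw [← sum_Icc_shift_pred hle (R.ψ a) fun k => E (z - k • (ev a - ev (R.pa a))), hE]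
    refine sum_congr rfl fun k _ => ?_
    congr 2
    rw [sub_smul, one_smul]
    abel
  · rw [← sum_Icc_shift_succ hle (R.ψ a) fun k => E (z - k • (ev a - ev (R.pa a))), hE]
    refine sum_congr rfl fun k _ => ?_
    congr 2
    rw [add_smul, one_smul]
    abel

/-- First differences along an arc with a kernel. -/
theorem Valid.φ_step (h : R.Valid r x Rm κ) (j : ℕ) {a : R.V} (ha : R.ker a) (z : R.V → ℤ) :
    |R.φ r j (z + (ev a - ev (R.pa a))) - R.φ r j z| ≤ 2 * R.hh a * R.φ r j z + 4 * R.cap ∧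
      |R.φ r j (z - (ev a - ev (R.pa a))) - R.φ r j z| ≤ 2 * R.hh a * R.φ r j z + 4 * R.cap := by
  obtain ⟨E, h0, h1, e0, e1, e2⟩ := h.φ_three j a z
  obtain ⟨b1, b2, b3, b4⟩ := h.ψ_bdry ha
  have hc := R.s_cap_pos
  have t : ∀ k l, 0 ≤ R.ψ a k * E l ∧ R.ψ a k * E l ≤ R.ψ a k := fun k l =>
    ⟨mul_nonneg (h.ψ_pos a k).le (h0 l), mul_le_of_le_one_right (h.ψ_pos a k).le (h1 l)⟩
  have d1 := abs_le.1 (abs_sum_diff_le (s := Icc (R.klo a) (R.khi a))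
    (ψ' := fun k => R.ψ a (k + 1)) h0 fun k => (h.ψ_step a k).1)
  have d2 := abs_le.1 (abs_sum_diff_le (s := Icc (R.klo a) (R.khi a))
    (ψ' := fun k => R.ψ a (k - 1)) h0 fun k => (h.ψ_step a k).2)
  rw [e1, e2, abs_le, abs_le]
  rw [← e0] at d1 d2
  have t1 := t (R.klo a) (R.klo a - 1)
  have t2 := t (R.khi a + 1) (R.khi a)
  have t3 := t (R.khi a) (R.khi a + 1)
  have t4 := t (R.klo a - 1) (R.klo a)
  refine ⟨⟨?_, ?_⟩, ?_, ?_⟩ <;> linarith [d1.1, d1.2, d2.1, d2.2, t1.1, t1.2, t2.1, t2.2, t3.1,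
    t3.2, t4.1, t4.2]

/-- Second differences along an arc with a kernel. -/
theorem Valid.φ_step₂ (h : R.Valid r x Rm κ) (j : ℕ) {a : R.V} (ha : R.ker a) (z : R.V → ℤ) :
    -(4 * R.hh a ^ 2 * R.φ r j z + 16 * R.cap) ≤
      R.φ r j (z + (ev a - ev (R.pa a))) + R.φ r j (z - (ev a - ev (R.pa a))) - 2 * R.φ r j z := by
  obtain ⟨E, h0, h1, e0, e1, e2⟩ := h.φ_three j a z
  obtain ⟨b1, b2, b3, b4⟩ := h.ψ_bdry ha
  have hc := R.s_cap_pos
  have t : ∀ k l, 0 ≤ R.ψ a k * E l ∧ R.ψ a k * E l ≤ R.ψ a k := fun k l =>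
    ⟨mul_nonneg (h.ψ_pos a k).le (h0 l), mul_le_of_le_one_right (h.ψ_pos a k).le (h1 l)⟩
  have d : (2 - 4 * R.hh a ^ 2) * R.φ r j z ≤
      ∑ k ∈ Icc (R.klo a) (R.khi a), R.ψ a (k + 1) * E k
        + ∑ k ∈ Icc (R.klo a) (R.khi a), R.ψ a (k - 1) * E k := by
    rw [e0, mul_sum, ← sum_add_distrib]
    refine sum_le_sum fun k _ => ?_
    rw [← mul_assoc, ← add_mul]
    exact mul_le_mul_of_nonneg_right (h.ψ_step₂ a k) (h0 k)
  rw [e1, e2]
  have t1 := t (R.klo a) (R.klo a - 1)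
  have t2 := t (R.khi a + 1) (R.khi a)
  have t3 := t (R.khi a) (R.khi a + 1)
  have t4 := t (R.klo a - 1) (R.klo a)
  linarith [t1.1, t1.2, t2.1, t2.2, t3.1, t3.2, t4.1, t4.2]

theorem Valid.cap_le' (h : R.Valid r x Rm κ) : R.cap * 2 ^ R.m ^ 5 ≤ R.thr' := by
  have hm := h.sm_big.1
  have h1 : R.m ^ 5 + (R.m ^ 5 + R.m ^ 4) ≤ R.m ^ 6 := by
    have a1 : R.m ^ 4 ≤ R.m ^ 5 := Nat.pow_le_pow_right (by omega) (by norm_num)
    have a2 : 3 * R.m ^ 5 ≤ R.m * R.m ^ 5 := Nat.mul_le_mul_right _ (by omega)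
    rw [pow_succ' R.m 5]
    omega
  have h2 : (2 : ℝ) ^ (R.m ^ 5 + (R.m ^ 5 + R.m ^ 4)) ≤ 2 ^ R.m ^ 6 :=
    pow_le_pow_right₀ (by norm_num) h1
  rw [pow_add, pow_add] at h2
  rw [cap, thr', thr, div_div, div_mul_eq_mul_div, one_mul,
    div_le_div_iff₀ (by positivity) (by positivity), one_mul]
  exact h2

theorem Valid.φ_walk (h : R.Valid r x Rm κ) (j : ℕ) (z : R.V → ℤ) (N : ℕ) :
    ∀ k : R.V → ℤ, ∑ a, (k a).natAbs = N → (∀ a, k a ≠ 0 → R.ker a) →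
      ∑ a, |(k a : ℝ)| * (2 * R.hh a + 4 * R.cap / R.φ r j z) ≤ 1 / 2 →
      |R.φ r j (z + R.sh k) - R.φ r j z| ≤
        2 * (∑ a, |(k a : ℝ)| * (2 * R.hh a + 4 * R.cap / R.φ r j z)) * R.φ r j z := by
  have hφ := (h.φ_lc j).1 z
  have hc := R.s_cap_pos
  set c : R.V → ℝ := fun a => 2 * R.hh a + 4 * R.cap / R.φ r j z with hcdef
  have hc0 : ∀ a, 0 ≤ c a := fun a => by have := h.hh_pos a; positivity
  induction N with
  | zero =>
    intro k hN _ _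
    have : k = 0 := by
      funext a
      exact Int.natAbs_eq_zero.1 (sum_eq_zero_iff.1 hN a (mem_univ a))
    subst this
    simp [sh, shf_zero]
  | succ N ih =>
    intro k hN hk hS
    obtain ⟨a, -, ha⟩ := exists_ne_zero_of_sum_ne_zero (by rw [hN]; exact Nat.succ_ne_zero N)
    have ha' : k a ≠ 0 := Int.natAbs_ne_zero.1 ha
    obtain ⟨σ, hσ, hσ'⟩ : ∃ σ : ℤ, (σ = 1 ∨ σ = -1) ∧ (k a - σ).natAbs + 1 = (k a).natAbs := by
      rcases lt_or_gt_of_ne ha' with h1 | h1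
      · exact ⟨-1, Or.inr rfl, by omega⟩
      · exact ⟨1, Or.inl rfl, by omega⟩
    set k' : R.V → ℤ := Function.update k a (k a - σ) with hk'
    have hsum : ∀ {A : Type} [AddCommMonoid A] (f : R.V → ℤ → A) (u : R.V → ℤ),
        ∑ b, f b (u b) = f a (u a) + ∑ b ∈ univ.erase a, f b (u b) := fun f u =>
      (add_sum_erase _ (fun b => f b (u b)) (mem_univ a)).symm
    have hrest : ∀ {A : Type} [AddCommMonoid A] (f : R.V → ℤ → A),
        ∑ b ∈ univ.erase a, f b (k' b) = ∑ b ∈ univ.erase a, f b (k b) := fun f =>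
      sum_congr rfl fun b hb => by rw [hk', Function.update_of_ne (ne_of_mem_erase hb)]
    have hka : k' a = k a - σ := by rw [hk', Function.update_self]
    have hN' : ∑ b, (k' b).natAbs = N := by
      rw [hsum (fun _ u => u.natAbs)] at hN ⊢
      rw [hrest (fun _ u => u.natAbs), hka]
      omega
    have habs : |((k a - σ : ℤ) : ℝ)| + 1 = |(k a : ℝ)| := by
      have : |k a - σ| + 1 = |k a| := by
        rw [← Int.natCast_natAbs, ← Int.natCast_natAbs]; exact_mod_cast hσ'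
      exact_mod_cast this
    have hS' : ∑ b, |(k b : ℝ)| * c b = ∑ b, |(k' b : ℝ)| * c b + c a := by
      rw [hsum (fun b u => |(u : ℝ)| * c b) k, hsum (fun b u => |(u : ℝ)| * c b) k',
        hrest (fun b u => |(u : ℝ)| * c b), hka, ← habs]
      ring
    have hker : ∀ b, k' b ≠ 0 → R.ker b := by
      intro b hb
      by_cases hba : b = a
      · exact hba ▸ hk a ha'
      · exact hk b (by rwa [hk', Function.update_of_ne hba] at hb)
    have hS0 : 0 ≤ ∑ b, |(k' b : ℝ)| * c b := sum_nonneg fun b _ => mul_nonneg (abs_nonneg _) (hc0 b)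
    change ∑ b, |(k b : ℝ)| * c b ≤ 1 / 2 at hS
    change _ ≤ 2 * (∑ b, |(k b : ℝ)| * c b) * _
    have i1 := ih k' hN' hker (by
      change ∑ b, |(k' b : ℝ)| * c b ≤ 1 / 2
      linarith [hc0 a])
    change _ ≤ 2 * (∑ b, |(k' b : ℝ)| * c b) * _ at i1
    have hkk : k = k' + Pi.single a σ := by
      funext b
      by_cases hba : b = a
      · subst hba
        simp [hka]
      · simp [hk', hba]
    have hsh : z + R.sh k = z + R.sh k' + σ • (ev a - ev (R.pa a)) := by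
      conv_lhs => rw [hkk]
      rw [sh, shf_add, shf_single, add_assoc]
      rfl
    have i2 : |R.φ r j (z + R.sh k) - R.φ r j (z + R.sh k')| ≤
        2 * R.hh a * R.φ r j (z + R.sh k') + 4 * R.cap := by
      rw [hsh]
      rcases hσ with rfl | rfl
      · rw [one_smul]; exact (h.φ_step j (hk a ha') _).1
      · rw [neg_smul, one_smul, ← sub_eq_add_neg]; exact (h.φ_step j (hk a ha') _).2
    have i3 : R.φ r j (z + R.sh k') ≤ 2 * R.φ r j z := by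
      have := (abs_le.1 i1).2
      have h2 : 2 * (∑ b, |(k' b : ℝ)| * c b) * R.φ r j z ≤ 1 * R.φ r j z :=
        mul_le_mul_of_nonneg_right (by linarith [hc0 a]) hφ.le
      linarith
    have i4 : c a * R.φ r j z = 2 * R.hh a * R.φ r j z + 4 * R.cap := by
      simp only [hcdef]; field_simp
    have i5 := mul_le_mul_of_nonneg_left i3 (h.hh_pos a).le
    have i6 := abs_sub_le (R.φ r j (z + R.sh k)) (R.φ r j (z + R.sh k')) (R.φ r j z)
    rw [hS']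
    nlinarith

theorem s_exp_eighth : Real.exp (1 / 8) ≤ 8 / 7 := by
  have h2 := Real.add_one_le_exp (-(1 / 8) : ℝ)
  have h3 := mul_le_mul_of_nonneg_right h2 (Real.exp_pos (1 / 8)).le
  rw [← Real.exp_add, neg_add_cancel, Real.exp_zero] at h3
  linarith

/-- Moderate displacements of non-negligible states change the weight by a factor at most two. -/
theorem Valid.φ_shift (h : R.Valid r x Rm κ) (j : ℕ) {z : R.V → ℤ} (hz : R.thr' ≤ R.φ r j z)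
    {k v : R.V → ℤ} (hk : ∀ a, k a ≠ 0 → R.ker a)
    (hk' : ∑ a, |(k a : ℝ)| / R.ℓ a ≤ (R.m : ℝ) / 16) (hv : R.tt j * ∑ a, |(v a : ℝ)| ≤ 1 / 8) :
    R.φ r j z ≤ 2 * R.φ r j (z + R.sh k + v) ∧ R.φ r j (z + R.sh k + v) ≤ 2 * R.φ r j z := by
  have hφ := (h.φ_lc j).1 z
  have hc := R.s_cap_pos
  have hm := h.smR
  have hS : ∑ a, |(k a : ℝ)| * (2 * R.hh a + 4 * R.cap / R.φ r j z) ≤ 1 / 6 := by
    have a1 : R.cap / R.φ r j z ≤ 1 / 2 ^ R.m ^ 5 := by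
      rw [div_le_div_iff₀ hφ (by positivity), one_mul]
      exact h.cap_le'.trans hz
    have a2 : 6 * (R.m : ℝ) * 2 ^ R.m ≤ 2 ^ R.m ^ 5 := by
      have b1 : R.m < 2 ^ R.m := Nat.lt_two_pow_self
      have b2 : R.m + (R.m + R.m) ≤ R.m ^ 5 := by
        have c1 : R.m ^ 2 ≤ R.m ^ 5 := Nat.pow_le_pow_right (by have := h.sm_big.1; omega) (by norm_num)
        have c2 : 3 * R.m ≤ R.m * R.m := Nat.mul_le_mul_right _ (by have := h.sm_big.1; omega)
        rw [sq] at c1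
        omega
      have b3 : 6 * R.m * 2 ^ R.m ≤ 2 ^ R.m ^ 5 := by
        calc 6 * R.m * 2 ^ R.m ≤ 2 ^ R.m * 2 ^ R.m * 2 ^ R.m :=
              Nat.mul_le_mul_right _ (Nat.mul_le_mul (by have := h.sm_big.1; omega) b1.le)
          _ = 2 ^ (R.m + (R.m + R.m)) := by rw [pow_add, pow_add, mul_assoc]
          _ ≤ _ := Nat.pow_le_pow_right (by norm_num) b2
      exact_mod_cast b3
    have a3 : ∀ a, |(k a : ℝ)| * (2 * R.hh a + 4 * R.cap / R.φ r j z) ≤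
        |(k a : ℝ)| / R.ℓ a * (8 / (3 * (R.m : ℝ))) := by
      intro a
      have hl := R.s_one_le_ℓ a
      have b1 : (R.ℓ a : ℝ) ≤ 2 ^ R.m := by
        have : R.ℓ a ≤ 2 ^ R.m := Nat.pow_le_pow_right (by norm_num) (h.lg_le a)
        exact_mod_cast this
      have b2 : 1 / (2 : ℝ) ^ R.m ^ 5 ≤ 1 / (6 * R.m * R.ℓ a) :=
        one_div_le_one_div_of_le (by positivity)
          ((mul_le_mul_of_nonneg_left b1 (by positivity)).trans a2)
      have b3 := h.hh_le a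
      rw [div_mul_eq_mul_div, mul_div_assoc |(k a : ℝ)|]
      refine mul_le_mul_of_nonneg_left ?_ (abs_nonneg (k a : ℝ))
      have b4 : 8 / (3 * (R.m : ℝ)) / R.ℓ a = 2 * (1 / R.m / R.ℓ a) + 4 * (1 / (6 * R.m * R.ℓ a)) := by
        field_simp; norm_num
      rw [b4, mul_div_assoc]
      linarith
    refine (sum_le_sum (s := univ) fun a _ => a3 a).trans ?_
    rw [← sum_mul]
    refine (mul_le_mul_of_nonneg_right hk' (by positivity)).trans (le_of_eq ?_)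
    field_simp; norm_num
  have w := abs_le.1 (h.φ_walk j z _ k rfl hk (by linarith))
  have w1 : 2 * (∑ a, |(k a : ℝ)| * (2 * R.hh a + 4 * R.cap / R.φ r j z)) * R.φ r j z
      ≤ 1 / 3 * R.φ r j z := mul_le_mul_of_nonneg_right (by linarith) hφ.le
  have he : Real.exp (R.tt j * ∑ a, |(v a : ℝ)|) ≤ 8 / 7 := (Real.exp_le_exp.2 hv).trans s_exp_eighth
  have l1 := h.φ_l1 j (z + R.sh k) v
  have l2 := h.φ_l1 j (z + R.sh k + v) (-v)
  simp only [Pi.neg_apply, Int.cast_neg, abs_neg, add_neg_cancel_right] at l2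
  have p1 := (h.φ_lc j).1 (z + R.sh k)
  have p2 := (h.φ_lc j).1 (z + R.sh k + v)
  have q1 := mul_le_mul_of_nonneg_right he p1.le
  have q2 := mul_le_mul_of_nonneg_right he p2.le
  constructor <;> linarith [w.1, w.2]

theorem Valid.good_near (h : R.Valid r x Rm κ) (j : ℕ) {z : R.V → ℤ} (hz : R.thr' ≤ R.φ r j z) :
    ∃ ξ ∈ R.kbox, (R.τ j : ℝ) * (DD r (z - R.sh ξ) : ℝ) ≤ 2 * (R.m : ℝ) ^ 6 := by
  have hne : R.kbox.Nonempty := ⟨0, Fintype.mem_piFinset.2 fun a => mem_Icc.2 (h.klo_le a)⟩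
  have h1 : ∑ ξ ∈ R.kbox, (∏ a, R.ψ a (ξ a)) * R.thr' ≤ ∑ ξ ∈ R.kbox,
      (∏ a, R.ψ a (ξ a)) * Real.exp (-R.tt j * (DD r (z - R.sh ξ) : ℝ)) := by
    rw [← sum_mul, h.sum_ψ, one_mul]; exact hz
  obtain ⟨ξ, hξ, h2⟩ := exists_le_of_sum_le hne h1
  refine ⟨ξ, hξ, ?_⟩
  have h3 := le_of_mul_le_mul_left h2 (h.prod_pos ξ)
  have hm := h.smR
  have h4 : R.thr' = Real.exp (-((R.m ^ 5 + R.m ^ 4 : ℕ) * Real.log 2)) := by
    rw [Real.exp_neg, Real.exp_nat_mul, Real.exp_log two_pos, thr', thr, div_div, one_div, pow_add]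
  rw [h4, Real.exp_le_exp, tt] at h3
  push_cast at h3
  have h5 := Real.log_two_lt_d9
  have h6 : (0 : ℝ) ≤ DD r (z - R.sh ξ) := by exact_mod_cast DD_nonneg h.sub _
  have h7 : (0 : ℝ) ≤ R.τ j := by exact_mod_cast (h.τ_pos j).le
  have h8 := mul_le_mul_of_nonneg_left h.log_ϱ.1 (mul_nonneg h7 h6)
  have h9 : ((R.m : ℝ) ^ 5 + R.m ^ 4) * Real.log 2 ≤ R.m ^ 5 := by
    have a1 : (0 : ℝ) ≤ R.m ^ 4 := by positivity
    have a2 : 10000 * (R.m : ℝ) ^ 4 ≤ R.m ^ 5 := by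
      rw [pow_succ' _ 4]; exact mul_le_mul_of_nonneg_right hm a1
    have a3 := mul_le_mul_of_nonneg_left h5.le (by positivity : (0 : ℝ) ≤ R.m ^ 5 + R.m ^ 4)
    linarith
  have h10 : (R.τ j : ℝ) * DD r (z - R.sh ξ) * (1 / (2 * R.m)) ≤ R.m ^ 5 := by linarith
  rw [mul_one_div, div_le_iff₀ (by positivity)] at h10
  calc _ ≤ _ := h10
    _ = _ := by ring

theorem Valid.good_box (h : R.Valid r x Rm κ) (j : ℕ) {z : R.V → ℤ} (hz : R.thr' ≤ R.φ r j z)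
    (a : R.V) : |z a| ≤ 5 * (R.ℓ0 : ℤ) * R.m ^ 6 := by
  obtain ⟨ξ, hξ, h1⟩ := h.good_near j hz
  have hl : (0 : ℝ) < R.ℓ0 := by unfold ℓ0; positivity
  have h2 : 1 / (2 * (R.ℓ0 : ℝ)) ≤ R.τ j := by
    have := (Rat.cast_le (K := ℝ)).2 (h.τ_ge j)
    push_cast at this
    exact this
  have h3 : (0 : ℝ) ≤ DD r (z - R.sh ξ) := by exact_mod_cast DD_nonneg h.sub _
  have h4 := (mul_le_mul_of_nonneg_right h2 h3).trans h1
  rw [one_div_mul_eq_div, div_le_iff₀ (by positivity)] at h4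
  have h5 : DD r (z - R.sh ξ) ≤ 4 * (R.ℓ0 : ℤ) * R.m ^ 6 := by
    have : ((DD r (z - R.sh ξ) : ℤ) : ℝ) ≤ 4 * (R.ℓ0 : ℝ) * R.m ^ 6 := by linarith
    exact_mod_cast this
  obtain ⟨s, i⟩ := a
  have h6 : dist (r s) (side (z - R.sh ξ) s) ≤ DD r (z - R.sh ξ) := by
    have a1 := dist_nonneg (h.sub false) (side (z - R.sh ξ) false)
    have a2 := dist_nonneg (h.sub true) (side (z - R.sh ξ) true)
    unfold DD
    cases s <;> linarith
  obtain ⟨y, hy, h7⟩ := exists_near (h.sub s) (side (z - R.sh ξ) s)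
  have h8 := single_le_sum (f := fun i => |side (z - R.sh ξ) s i - y i|)
    (fun _ _ => abs_nonneg _) (mem_univ i)
  have h9 := (single_le_sum (f := fun i => |y i|) (fun _ _ => abs_nonneg _) (mem_univ i)).trans
    (h.l1 s y hy)
  have h10 := (single_le_sum (f := fun b => |R.sh ξ b|) (fun _ _ => abs_nonneg _)
    (mem_univ (s, i))).trans (R.sum_abs_sh ξ)
  have h11 : ∑ b, |ξ b| ≤ ∑ b, (R.Jw b : ℤ) := sum_le_sum fun b _ => mem_kbox hξ b
  have h12 : 4 * ∑ b, (R.Jw b : ℤ) ≤ Rm := by exact_mod_cast h.sum_Jw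
  have h13 : 2 * ((Rm : ℤ) + 2) ≤ R.ℓ0 := by exact_mod_cast h.Rm_le
  have h14 : (R.ℓ0 : ℤ) * 1 ≤ R.ℓ0 * R.m ^ 6 := by
    refine mul_le_mul_of_nonneg_left (one_le_pow₀ ?_) (by positivity)
    have := h.sm_big.1
    omega
  simp only [side, Pi.sub_apply] at h8
  have h15 : |z (s, i)| ≤ |z (s, i) - R.sh ξ (s, i) - y i| + |y i| + |R.sh ξ (s, i)| := by
    have e : z (s, i) = (z (s, i) - R.sh ξ (s, i) - y i) + y i + R.sh ξ (s, i) := by ring
    conv_lhs => rw [e]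
    exact abs_add_three _ _ _
  simp only [side, Pi.sub_apply] at h7
  have h16 : (0 : ℤ) ≤ Rm := Int.natCast_nonneg _
  linarith

theorem Valid.N_zero (h : R.Valid r x Rm κ) (j : ℕ) : 1 / 2 ^ R.m ^ 2 ≤ R.N r j 0 := by
  obtain ⟨y, hy0, hy1⟩ := h.ex
  have hm := h.sm_big
  have hyb : y ∈ box R.E R.lo R.hi := by
    refine Fintype.mem_piFinset.2 fun i => mem_Icc.2 ?_
    have h9 := abs_le.1 ((single_le_sum (f := fun i => |y i|) (fun _ _ => abs_nonneg _)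
      (mem_univ i)).trans (h.l1 false y hy0))
    have h13 : 2 * ((Rm : ℤ) + 2) ≤ R.ℓ0 := by exact_mod_cast h.Rm_le
    have h14 : (R.ℓ0 : ℤ) * 1 ≤ R.ℓ0 * R.G := by
      refine mul_le_mul_of_nonneg_left ?_ (by positivity)
      have : 1 ≤ R.G := Nat.one_le_pow _ _ (by omega)
      exact_mod_cast this
    have h16 : (0 : ℤ) ≤ Rm := Int.natCast_nonneg _
    unfold lo hi
    constructor <;> linarith [h9.1, h9.2]
  have h1 : R.φ r j (lf 0 y) ≤ R.N r j 0 :=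
    single_le_sum (f := fun y => R.φ r j (lf 0 y)) (fun _ _ => ((h.φ_lc j).1 _).le) hyb
  have h0 : (0 : R.V → ℤ) ∈ R.kbox := Fintype.mem_piFinset.2 fun a => mem_Icc.2 (h.klo_le a)
  have h2 := single_le_sum (f := fun ξ : R.V → ℤ =>
      (∏ a, R.ψ a (ξ a)) * Real.exp (-R.tt j * (DD r (lf 0 y - R.sh ξ) : ℝ)))
    (fun ξ _ => mul_nonneg (h.prod_pos ξ).le (Real.exp_pos _).le) h0
  have h3 : DD r (lf 0 y - R.sh 0) = 0 := by
    rw [sh, shf_zero, sub_zero, DD_eq_zero h.sub, Bool.forall_bool, side_lf_false, side_lf_true,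
      zero_sub]
    exact ⟨hy0, hy1⟩
  simp only [h3, Int.cast_zero, mul_zero, Real.exp_zero, mul_one, Pi.zero_apply] at h2
  have h4 : ∀ a, 1 / (2 : ℝ) ^ R.L0.n ≤ R.ψ a 0 := by
    intro a
    have hZ := h.one_le_Z a
    simp only [ψ, Int.cast_zero, zero_mul, Real.cosh_zero, inv_one]
    refine one_div_le_one_div_of_le (by linarith) ?_
    have a1 := sum_le_card_nsmul (Icc (R.klo a) (R.khi a))
      (fun j : ℤ => (Real.cosh (j * R.hh a))⁻¹) 1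
      fun j _ => inv_le_one_of_one_le₀ (Real.one_le_cosh _)
    rw [nsmul_eq_mul, mul_one] at a1
    refine a1.trans ?_
    have a2 : R.Jw a ≤ ∑ b, R.Jw b := single_le_sum (fun _ _ => Nat.zero_le _) (mem_univ a)
    have a3 := h.sum_Jw
    have a4 := h.hR
    have a5 : (Icc (R.klo a) (R.khi a)).card ≤ 2 ^ R.L0.n := by
      rw [Int.card_Icc, klo, khi]
      split_ifs <;> omega
    exact_mod_cast a5
  have h5 : (1 / (2 : ℝ) ^ R.L0.n) ^ (2 * R.n) ≤ ∏ a, R.ψ a 0 := by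
    have := Finset.prod_le_prod (s := (univ : Finset R.V)) (f := fun _ => 1 / (2 : ℝ) ^ R.L0.n)
      (fun _ _ => by positivity) fun a _ => h4 a
    rwa [prod_const, card_univ, Fintype.card_prod, Fintype.card_bool, Fintype.card_fin] at this
  refine le_trans ?_ (h5.trans (h2.trans h1))
  rw [one_div_pow, ← pow_mul]
  refine one_div_le_one_div_of_le (by positivity) (pow_le_pow_right₀ (by norm_num) ?_)
  rw [sq]
  exact Nat.mul_le_mul hm.2.2 hm.2.1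

theorem Valid.N_hole (h : R.Valid r x Rm κ) (j : ℕ) (e d : R.E) :
    R.N r j 0 ≤ R.Λ j ^ 2 * R.N r j (ev d - ev e) ∧
      R.N r j (ev d - ev e) ≤ R.Λ j ^ 2 * R.N r j 0 := by
  have hΛ : 0 ≤ R.Λ j := (Real.exp_pos _).le
  have key : ∀ y : R.E → ℤ, lf (ev d - ev e) y + ev (true, e) = lf 0 y + ev (true, d) := by
    intro y
    rw [lf_add_true, lf_add_true, sub_add_cancel, zero_add]
  unfold N NN
  rw [mul_sum, mul_sum]
  refine ⟨sum_le_sum fun y _ => ?_, sum_le_sum fun y _ => ?_⟩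
  · have h1 := (h.φ_lam j (lf 0 y) (true, d)).2
    have h2 := (h.φ_lam j (lf (ev d - ev e) y) (true, e)).1
    rw [key] at h2
    rw [sq, mul_assoc]
    exact h1.trans (mul_le_mul_of_nonneg_left h2 hΛ)
  · have h1 := (h.φ_lam j (lf 0 y) (true, d)).1
    have h2 := (h.φ_lam j (lf (ev d - ev e) y) (true, e)).2
    rw [key] at h2
    rw [sq, mul_assoc]
    exact h2.trans (mul_le_mul_of_nonneg_left h1 hΛ)

/-- The negligible masses are small compared with every class. -/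
theorem Valid.negl (h : R.Valid r x Rm κ) (j : ℕ) (e d : R.E) :
    (box R.E R.lo R.hi).card * R.thr * 2 ^ R.m ^ 4 ≤ R.N r j (ev d - ev e) := by
  have hm := h.sm_big
  have h1 := h.card_box
  have h2 := (h.N_zero j).trans (h.N_hole j e d).1
  obtain ⟨h3, h4⟩ := h.Λ_le j
  have hN : 0 ≤ R.N r j (ev d - ev e) := sum_nonneg fun y _ => ((h.φ_lc j).1 _).le
  have h5 : R.Λ j ^ 2 ≤ (2 ^ (2 * R.m ^ 3)) ^ 2 := pow_le_pow_left₀ (by linarith) h4 2
  have h6 := h2.trans (mul_le_mul_of_nonneg_right h5 hN)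
  have h7 : R.m * R.n + R.m ^ 4 + (R.m ^ 2 + 2 * R.m ^ 3 * 2) ≤ R.m ^ 5 := by
    have a0 : R.m * R.n ≤ R.m ^ 2 := by rw [sq]; exact Nat.mul_le_mul_left _ (by omega)
    have a1 : R.m ^ 2 ≤ R.m ^ 4 := Nat.pow_le_pow_right (by omega) (by norm_num)
    have a2 : R.m ^ 3 ≤ R.m ^ 4 := Nat.pow_le_pow_right (by omega) (by norm_num)
    have a3 : 7 * R.m ^ 4 ≤ R.m * R.m ^ 4 := Nat.mul_le_mul_right _ (by omega)
    rw [pow_succ' R.m 4]
    omega
  have h8 : (2 : ℝ) ^ (R.m * R.n + R.m ^ 4 + (R.m ^ 2 + 2 * R.m ^ 3 * 2)) ≤ 2 ^ R.m ^ 5 :=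
    pow_le_pow_right₀ (by norm_num) h7
  rw [pow_add, pow_add, pow_add, pow_mul _ _ 2] at h8
  rw [div_le_iff₀ (by positivity)] at h6
  refine le_of_mul_le_mul_right ?_
    (by positivity : (0 : ℝ) < 2 ^ R.m ^ 2 * (2 ^ (2 * R.m ^ 3)) ^ 2)
  calc (box R.E R.lo R.hi).card * R.thr * 2 ^ R.m ^ 4 * (2 ^ R.m ^ 2 * (2 ^ (2 * R.m ^ 3)) ^ 2)
      ≤ 2 ^ (R.m * R.n) * R.thr * 2 ^ R.m ^ 4 * (2 ^ R.m ^ 2 * (2 ^ (2 * R.m ^ 3)) ^ 2) := by
        have : 0 < R.thr := by unfold thr; positivity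
        gcongr
    _ = 2 ^ (R.m * R.n) * 2 ^ R.m ^ 4 * (2 ^ R.m ^ 2 * (2 ^ (2 * R.m ^ 3)) ^ 2) / 2 ^ R.m ^ 5 := by
        rw [thr]; ring
    _ ≤ 1 := (div_le_one (by positivity)).2 h8
    _ ≤ _ := h6
    _ = _ := by ring

theorem Valid.cap_le (h : R.Valid r x Rm κ) : 0 < R.cap ∧ R.cap * 2 ^ R.m ^ 5 ≤ R.thr' :=
  ⟨R.s_cap_pos, h.cap_le'⟩

end Crest.Agent.R302.Raw
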