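import Crest.Agent.R302.Energy
import Crest.Agent.R302.Moves
import Crest.Agent.R302.Bad
import Crest.Agent.R302.EnvOk

/-!
# Row 302: the weak Poincaré inequality for the chain
-/

set_option autoImplicit false

namespace Crest.Agent.R302.Raw

open Finset Crest.Agent.R309

variable {R : Raw} {r : Bool → Finset R.E → ℤ} {x : Bool → R.E → ℝ} {Rm κ : ℕ}

theorem wp_arith {m n X Y u T1 T2 T3 : ℝ} (hm : 100 ≤ m) (hn : 10000 * n ^ 2 ≤ m) (hX : 0 ≤ X)
    (hY : 0 ≤ Y) (hu : 0 ≤ u) (h1 : T1 ≤ m ^ 152 * X + 2 * (m ^ 1 * u))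
    (h2 : T2 ≤ m ^ 2 * Y + m ^ 92 * u) (h3 : T3 ≤ n ^ 2 * (280 * (m ^ 102 * u) + 80 * (m ^ 100 * Y)))
    (h4 : Y ≤ m ^ 152 * X + m ^ 3 * u) :
    3 * (T1 + T2 + T3) ≤ m ^ 253 * X + m ^ 105 * u / 2 := by
  have hm0 : 0 ≤ m := by linarith
  have hp : ∀ (a b : ℕ) (w : ℝ), a < b → 0 ≤ w → 100 * (m ^ a * w) ≤ m ^ b * w := by
    intro a b w hab hw
    rw [← mul_assoc]
    refine mul_le_mul_of_nonneg_right ?_ hw
    calc 100 * m ^ a ≤ m * m ^ a := mul_le_mul_of_nonneg_right hm (by positivity)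
      _ = m ^ (a + 1) := by ring
      _ ≤ m ^ b := pow_le_pow_right₀ (by linarith) hab
  have e1 : 10000 * (n ^ 2 * (280 * (m ^ 102 * u) + 80 * (m ^ 100 * Y))) ≤
      280 * (m ^ 103 * u) + 80 * (m ^ 101 * Y) := by
    rw [← mul_assoc]
    refine (mul_le_mul_of_nonneg_right hn (by positivity)).trans (le_of_eq (by ring))
  have e2 : m ^ 101 * Y ≤ m ^ 253 * X + m ^ 104 * u :=
    (mul_le_mul_of_nonneg_left h4 (by positivity)).trans (le_of_eq (by ring))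
  have e3 := hp 152 253 X (by norm_num) hX
  have e4 := hp 1 105 u (by norm_num) hu
  have e5 := hp 2 101 Y (by norm_num) hY
  have e6 := hp 92 105 u (by norm_num) hu
  have e7 := hp 103 105 u (by norm_num) hu
  have e8 := hp 104 105 u (by norm_num) hu
  have e9 : 0 ≤ m ^ 253 * X := mul_nonneg (pow_nonneg hm0 _) hX
  have e10 : 0 ≤ m ^ 105 * u := mul_nonneg (pow_nonneg hm0 _) hu
  linarith

theorem wp_sqrt {a b s : ℝ} (ha : 0 ≤ a) (hb : 0 ≤ b) (hs : 0 < s) :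
    Real.sqrt (a * b) ≤ (a / s + s * b) / 2 := by
  refine Real.sqrt_le_iff.2 ⟨by positivity, ?_⟩
  have h : a * b = a / s * (s * b) := by field_simp
  rw [h]
  nlinarith [sq_nonneg (a / s - s * b)]

theorem wp_shift {Z : Type} [AddCommGroup Z] [DecidableEq Z] {Ω : Finset Z} {b : Z → ℝ}
    (h0 : ∀ z, 0 ≤ b z) (h1 : ∀ z ∉ Ω, b z = 0) (v : Z) : ∑ z ∈ Ω, b (z + v) ≤ ∑ z ∈ Ω, b z := by
  rw [← sum_image (f := b) (g := fun z => z + v) fun a _ c _ hac => add_right_cancel hac,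
    ← sum_filter_of_ne (p := fun z => z ∈ Ω) fun z _ hz => by_contra fun hn => hz (h1 z hn)]
  exact sum_le_sum_of_subset_of_nonneg (fun z hz => (mem_filter.1 hz).2) fun z _ _ => h0 z

theorem wp_av_three {U : Type} [Fintype U] {W F : U → ℝ} (hW : ∀ u, 0 ≤ W u) (p q c : ℝ) :
    av (fun u => W u * (F u - c) ^ 2) ≤
      3 * (av (fun u => W u * (F u - p) ^ 2) + av W * (p - q) ^ 2 + av W * (q - c) ^ 2) := by
  unfold av
  rw [div_mul_eq_mul_div, div_mul_eq_mul_div, ← add_div, ← add_div, ← mul_div_assoc, sum_mul,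
    sum_mul, ← sum_add_distrib, ← sum_add_distrib, mul_sum]
  refine div_le_div_of_nonneg_right (sum_le_sum fun u _ => ?_) (Nat.cast_nonneg _)
  have : (F u - c) ^ 2 ≤ 3 * ((F u - p) ^ 2 + (p - q) ^ 2 + (q - c) ^ 2) := by
    nlinarith [sq_nonneg (F u - p - (p - q)), sq_nonneg (F u - p - (q - c)),
      sq_nonneg (p - q - (q - c))]
  exact (mul_le_mul_of_nonneg_left this (hW u)).trans (le_of_eq (by ring))

theorem tot_nonneg' {E : (R.V → ℤ) → ℝ} (hE : ∀ v, 0 ≤ E v) : 0 ≤ R.tot E :=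
  sum_nonneg fun _ _ => sum_nonneg fun _ _ => sum_nonneg fun _ _ =>
    add_nonneg (hE _) (div_nonneg (sum_nonneg fun _ _ => hE _) (by positivity))

theorem zero_le_tot' {E : (R.V → ℤ) → ℝ} (hE : ∀ v, 0 ≤ E v) (a : R.V) : E 0 ≤ R.tot E := by
  have h0 : ∀ (h h' : R.V) (i : ℕ), 0 ≤ E (2 ^ i • (R.γ h - R.γ h')) +
      (∑ k ∈ range (2 ^ i), E (k • (R.γ h - R.γ h'))) / 2 ^ i := fun h h' i =>
    add_nonneg (hE _) (div_nonneg (sum_nonneg fun _ _ => hE _) (by positivity))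
  refine le_trans ?_ (single_le_sum
    (fun h _ => sum_nonneg fun h' _ => sum_nonneg fun i _ => h0 h h' i) (mem_univ a))
  refine le_trans ?_ (single_le_sum (fun h' _ => sum_nonneg fun i _ => h0 a h' i) (mem_univ a))
  refine le_trans ?_ (single_le_sum (fun i _ => h0 a a i) (mem_range.2 (Nat.succ_pos _)))
  rw [sub_self, smul_zero]
  exact le_add_of_nonneg_right (div_nonneg (sum_nonneg fun _ _ => hE _) (by positivity))

theorem tot_le_affine {E E' : (R.V → ℤ) → ℝ} {a c : ℝ} (hE : ∀ v, E v ≤ a * E' v + c) :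
    R.tot E ≤ a * R.tot E' + 8 * (R.n : ℝ) ^ 2 * (R.m + 1) * c := by
  have h1 : ∑ _h : R.V, ∑ _h' : R.V, ∑ _i ∈ range (R.m + 1), 2 * c =
      8 * (R.n : ℝ) ^ 2 * (R.m + 1) * c := by
    simp
    ring
  unfold tot
  rw [← h1, mul_sum, ← sum_add_distrib]
  refine sum_le_sum fun h _ => ?_
  rw [mul_sum, ← sum_add_distrib]
  refine sum_le_sum fun h' _ => ?_
  rw [mul_sum, ← sum_add_distrib]
  refine sum_le_sum fun i _ => ?_
  have h2 : (∑ k ∈ range (2 ^ i), E (k • (R.γ h - R.γ h'))) / 2 ^ i ≤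
      a * ((∑ k ∈ range (2 ^ i), E' (k • (R.γ h - R.γ h'))) / 2 ^ i) + c := by
    rw [div_le_iff₀ (by positivity), add_mul, mul_assoc, div_mul_cancel₀ _ (by positivity), mul_sum]
    refine (sum_le_sum fun k _ => hE _).trans (le_of_eq ?_)
    rw [sum_add_distrib, sum_const, card_range, nsmul_eq_mul, mul_comm c]
    push_cast
    rfl
  have h3 := hE (2 ^ i • (R.γ h - R.γ h'))
  linarith

theorem sum_Ω_eq (g : R.X → ℝ) :
    ∑ y ∈ R.Ω, g y = 2 ^ Bξ R.n R.m * ∑ z ∈ R.Ωz, av fun u => g (z, u) := by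
  rw [Ω, sum_product, mul_sum]
  refine sum_congr rfl fun z _ => ?_
  unfold av
  rw [Fintype.card_fun, Fintype.card_bool, Fintype.card_fin]
  push_cast
  rw [mul_div_cancel₀ _ (by positivity)]

theorem Valid.N_pos' (h : R.Valid r x Rm κ) (j : ℕ) (e d : R.E) : 0 < R.N r j (ev d - ev e) := by
  have h0 : 0 < R.N r j 0 := lt_of_lt_of_le (by positivity) (h.N_zero j)
  exact pos_of_mul_pos_right (h0.trans_le (h.N_hole j e d).1) (sq_nonneg _)

/-- The contribution of one class. -/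
theorem Valid.wp_class (h : R.Valid r x Rm κ) {j : ℕ} {t : List ℚ} (ht : R.Good r j t)
    {G : (R.V → ℤ) → ℝ} {c A : ℝ} (hG : ∀ z, (G z - c) ^ 2 ≤ 1) (hA : 0 ≤ A) {e d : R.E}
    (he : R.rt e = e) (hd : R.rt d = d)
    (hc : ∑ y ∈ box R.E R.lo R.hi, R.φ r j (lf (ev d - ev e) y) * (G (lf (ev d - ev e) y) - c) ^ 2 ≤
      R.N r j (ev d - ev e) / R.N r j 0 * A) :
    ∑ y ∈ box R.E R.lo R.hi, R.Pz r j t (lf (ev d - ev e) y) * (G (lf (ev d - ev e) y) - c) ^ 2 ≤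
      160 * A + 40 * (R.N r j 0 / (R.m : ℝ) ^ 58) := by
  have h0 : 0 < R.N r j 0 := lt_of_lt_of_le (by positivity) (h.N_zero j)
  have hN := h.N_pos' j e d
  obtain ⟨h1, h2⟩ := h.tab_bounds ht he hd
  set τ : ℝ := (t.getD (R.cn e d) 0 : ℝ) with hτ
  have hτ0 : 0 ≤ τ := (pos_of_mul_pos_left (show 0 < τ * R.N r j (ev d - ev e) by linarith)
    hN.le).le
  obtain ⟨hc0, hc1⟩ := h.cap_le
  have hm0 : (0 : ℝ) < R.m := by linarith [h.mR]
  have h3 : (box R.E R.lo R.hi).card * R.cap * (R.m : ℝ) ^ 58 ≤ R.N r j (ev d - ev e) := by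
    refine le_trans ?_ (h.negl j e d)
    have h4 : R.cap ≤ R.thr := by
      have h5 : R.thr' ≤ R.thr :=
        div_le_self (by unfold thr; positivity) (one_le_pow₀ (by norm_num))
      exact ((le_mul_of_one_le_right hc0.le (one_le_pow₀ (by norm_num))).trans hc1).trans h5
    have h6 : R.m ^ 58 ≤ 2 ^ R.m ^ 4 := by
      calc R.m ^ 58 ≤ (2 ^ R.m) ^ 58 := Nat.pow_le_pow_left Nat.lt_two_pow_self.le _
        _ = 2 ^ (R.m * 58) := by rw [← pow_mul]
        _ ≤ 2 ^ R.m ^ 4 := by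
          refine Nat.pow_le_pow_right (by norm_num) ?_
          rw [pow_succ' R.m 3]
          refine Nat.mul_le_mul_left _ (le_trans ?_ (Nat.le_self_pow (by norm_num) _))
          have := h.m_big.1
          omega
    have h7 : (R.m : ℝ) ^ 58 ≤ 2 ^ R.m ^ 4 := by exact_mod_cast h6
    exact mul_le_mul (mul_le_mul_of_nonneg_left h4 (Nat.cast_nonneg _)) h7 (by positivity)
      (mul_nonneg (Nat.cast_nonneg _) (hc0.le.trans h4))
  calc _ ≤ ∑ y ∈ box R.E R.lo R.hi, τ *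
        (4 * (R.φ r j (lf (ev d - ev e) y) * (G (lf (ev d - ev e) y) - c) ^ 2) + R.cap) := by
        refine sum_le_sum fun y hy => ?_
        rw [Pz_eq, if_pos (valid_lf he hd hy), cls_eq he hd (ps_lf _ _), mul_assoc]
        refine mul_le_mul_of_nonneg_left ?_ hτ0
        refine (mul_le_mul_of_nonneg_right (h.ph_le j _) (sq_nonneg _)).trans ?_
        have := mul_le_of_le_one_right hc0.le (hG (lf (ev d - ev e) y))
        linarith
    _ ≤ τ * (4 * (R.N r j (ev d - ev e) / R.N r j 0 * A) +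
          R.N r j (ev d - ev e) / (R.m : ℝ) ^ 58) := by
        rw [← mul_sum, sum_add_distrib, ← mul_sum, sum_const, nsmul_eq_mul]
        refine mul_le_mul_of_nonneg_left (add_le_add (by linarith) ?_) hτ0
        rwa [le_div_iff₀ (by positivity)]
    _ = 4 * (τ * R.N r j (ev d - ev e) / R.N r j 0 * A) +
          τ * R.N r j (ev d - ev e) / (R.m : ℝ) ^ 58 := by ring
    _ ≤ 160 * A + 40 * (R.N r j 0 / (R.m : ℝ) ^ 58) := by
        have h8 : τ * R.N r j (ev d - ev e) / R.N r j 0 ≤ 40 := (div_le_iff₀ h0).2 h2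
        have h9 := mul_le_mul_of_nonneg_right h8 hA
        have h10 := div_le_div_of_nonneg_right h2 (show (0 : ℝ) ≤ (R.m : ℝ) ^ 58 by positivity)
        rw [mul_div_assoc 40] at h10
        linarith

theorem Valid.wp_mass (h : R.Valid r x Rm κ) {j : ℕ} {t : List ℚ} (ht : R.Good r j t) :
    R.N r j 0 / 2 ≤ ∑ z ∈ R.Ωz, R.Pz r j t z := by
  have he := h.rt_rt ⟨0, h.n_pos⟩
  set e := R.rt ⟨0, h.n_pos⟩
  refine le_trans ?_ (sum_le_sum_of_subset_of_nonneg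
    (filter_subset (fun z => R.cls z = R.cn e e) R.Ωz) fun z _ _ => h.Pz_nonneg ht z)
  rw [sum_class he he]
  have h1 := (h.Zz_bounds j e e).1
  have h2 : ∑ y ∈ box R.E R.lo R.hi, R.Pz r j t (lf (ev e - ev e) y) = R.Zz r j (ev e - ev e) := by
    refine sum_congr rfl fun y hy => ?_
    have h3 : R.cn e e = 0 := if_pos rfl
    rw [Pz_eq, if_pos (valid_lf he he hy), cls_eq he he (ps_lf _ _), h3, ht.1, Rat.cast_one, one_mul]
  rw [h2]
  rw [sub_self] at h1 ⊢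
  linarith

theorem Valid.weakP (h : R.Valid r x Rm κ) {j : ℕ} {t : List ℚ} (ht : R.Good r j t) :
    WeakP ((R.ann (DD r)).W j t) R.Ω R.prop (Bprop R.n R.m) ((R.m : ℝ) ^ 255)
      (1 / (R.m : ℝ) ^ 47) := by
  intro F hF
  have hm : (100 : ℝ) ≤ R.m := by exact_mod_cast h.m_big.1
  have hm0 : (0 : ℝ) < R.m := by linarith
  have hn : 10000 * (R.n : ℝ) ^ 2 ≤ R.m := by
    have h1 : 10000 * R.n ^ 2 ≤ R.m := le_trans (Nat.mul_le_mul_left _
      ((Nat.pow_le_pow_left (Nat.le_add_right _ 2) 2).trans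
        (Nat.pow_le_pow_right (Nat.succ_pos _) (by norm_num)))) h.m_ge
    exact_mod_cast h1
  have hN0 : 0 < R.N r j 0 := lt_of_lt_of_le (by positivity) (h.N_zero j)
  have hW := h.Wx_nonneg ht
  obtain ⟨b, hb1, hb0, hb2, hb3⟩ := h.exists_bad ht
  obtain ⟨T, hT⟩ := h.exists_tree j
  obtain ⟨c, hc0, hc1, hc⟩ := h.wpi hT ht (h.Gt_mem ht hF) (h.enLe (F := F) ht hT)
  refine ⟨c, ?_⟩
  have hEx : ∀ v, 0 ≤ R.Ex2 r j t F v := fun v => sum_nonneg fun z _ =>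
    div_nonneg (sum_nonneg fun _ _ => sum_nonneg fun _ _ =>
      mul_nonneg (le_min (hW _ _) (hW _ _)) (sq_nonneg _)) (sq_nonneg _)
  have hX := tot_nonneg' hEx
  have hY := tot_nonneg' (h.Ez_nonneg (F := F) ht)
  have hD := tot_le_MDir (F := F) h hW
  have hX0 := zero_le_tot' hEx (false, ⟨0, h.n_pos⟩)
  have hM : (0 : ℝ) < (R.m : ℝ) ^ 152 := pow_pos hm0 _
  set u := R.N r j 0 / (R.m : ℝ) ^ 152 with hu
  have hu0 : 0 ≤ u := div_nonneg hN0.le hM.le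
  have hb4 : (∑ z ∈ R.Ωz, b z) / (R.m : ℝ) ^ 152 ≤ (R.m : ℝ) ^ 1 * u := by
    rw [hu, pow_one, ← mul_div_assoc]
    exact div_le_div_of_nonneg_right hb3 hM.le
  have hEz : ∀ v, R.Ez r j t F v ≤
      (R.m : ℝ) ^ 152 * R.Ex2 r j t F v + 2 * ((R.m : ℝ) ^ 1 * u) := by
    intro v
    refine le_trans (sum_le_sum fun z _ => pm_move (hW z) (hW (z + v)) (fun w => hF (z, w))
      (fun w => hF (z + v, w)) hM (hb1 z) (hb1 (z + v))) ?_
    rw [sum_add_distrib, ← mul_sum, ← sum_div, sum_add_distrib, add_div]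
    have := div_le_div_of_nonneg_right (wp_shift hb0 hb2 v) hM.le
    refine add_le_add le_rfl ?_
    linarith
  have h4 : R.tot (R.Ez r j t F) ≤
      (R.m : ℝ) ^ 152 * R.tot (R.Ex2 r j t F) + (R.m : ℝ) ^ 3 * u := by
    refine (tot_le_affine hEz).trans (add_le_add le_rfl ?_)
    have h5 : 16 * (R.n : ℝ) ^ 2 * (R.m + 1) ≤ (R.m : ℝ) ^ 2 := by nlinarith [sq_nonneg (R.n : ℝ)]
    exact (le_of_eq (by ring)).trans ((mul_le_mul_of_nonneg_right h5
      (mul_nonneg hm0.le hu0)).trans (le_of_eq (by ring)))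
  have h1 : ∑ z ∈ R.Ωz, av (fun w => R.Wx r j t z w * (F (z, w) - R.Fb r j t F z) ^ 2) ≤
      (R.m : ℝ) ^ 152 * R.tot (R.Ex2 r j t F) + 2 * ((R.m : ℝ) ^ 1 * u) := by
    refine le_trans (sum_le_sum fun z _ => pm_stay (hW z) (fun w => hF (z, w)) hM (hb1 z)) ?_
    rw [sum_add_distrib, ← mul_sum, ← sum_div, ← mul_sum, mul_div_assoc]
    refine add_le_add (mul_le_mul_of_nonneg_left (le_trans (le_of_eq ?_) hX0) hM.le) (by linarith)
    simp only [Ex2, add_zero]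
  have h2 : ∑ z ∈ R.Ωz, R.Pz r j t z * (R.Fb r j t F z - R.Gt r j t F z) ^ 2 ≤
      (R.m : ℝ) ^ 2 * R.tot (R.Ez r j t F) + (R.m : ℝ) ^ 92 * u := by
    refine (h.sub_Gt ht hF).trans (le_of_eq ?_)
    rw [hu]
    field_simp
  have h3 : ∑ z ∈ R.Ωz, R.Pz r j t z * (R.Gt r j t F z - c) ^ 2 ≤ (R.n : ℝ) ^ 2 *
      (280 * ((R.m : ℝ) ^ 102 * u) + 80 * ((R.m : ℝ) ^ 100 * R.tot (R.Ez r j t F))) := by
    refine sum_Ωz_le (fun z => mul_nonneg (h.Pz_nonneg ht z) (sq_nonneg _))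
      (add_nonneg (mul_nonneg (by norm_num) (mul_nonneg (pow_nonneg hm0.le _) hu0))
        (mul_nonneg (by norm_num) (mul_nonneg (pow_nonneg hm0.le _) hY))) fun e d he hd => ?_
    refine (h.wp_class ht (fun z => ?_) (add_nonneg (mul_nonneg (pow_nonneg hm0.le _)
      (Real.sqrt_nonneg _)) (div_nonneg hN0.le (pow_nonneg hm0.le _))) he hd (hc e d)).trans ?_
    · obtain ⟨h5, h6⟩ := h.Gt_mem ht hF z
      exact (sq_le_one_iff_abs_le_one _).2 (abs_le.2 ⟨by linarith, by linarith⟩)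
    · have h5 := mul_le_mul_of_nonneg_left (wp_sqrt hN0.le
        (mul_nonneg (pow_nonneg hm0.le 24) hY) (pow_pos hm0 63)) (pow_nonneg hm0.le 13)
      have h6 : (R.m : ℝ) ^ 13 * ((R.N r j 0 / (R.m : ℝ) ^ 63 +
          (R.m : ℝ) ^ 63 * ((R.m : ℝ) ^ 24 * R.tot (R.Ez r j t F))) / 2) =
          ((R.m : ℝ) ^ 102 * u + (R.m : ℝ) ^ 100 * R.tot (R.Ez r j t F)) / 2 := by
        rw [hu]
        field_simp
      have h7 : R.N r j 0 / (R.m : ℝ) ^ 58 = (R.m : ℝ) ^ 94 * u := by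
        rw [hu]
        field_simp
      have h8 : (R.m : ℝ) ^ 94 * u ≤ (R.m : ℝ) ^ 102 * u :=
        mul_le_mul_of_nonneg_right (pow_le_pow_right₀ h.mR (by norm_num)) hu0
      rw [h6] at h5
      rw [h7]
      linarith
  have h5 := wp_arith hm hn hX hY hu0 h1 h2 h3 h4
  have h6 : ∑ z ∈ R.Ωz, av (fun w => R.Wx r j t z w * (F (z, w) - c) ^ 2) ≤
      (R.m : ℝ) ^ 253 * R.tot (R.Ex2 r j t F) + (R.m : ℝ) ^ 105 * u / 2 := by
    refine le_trans ?_ h5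
    rw [← sum_add_distrib, ← sum_add_distrib, mul_sum]
    exact sum_le_sum fun z _ => wp_av_three (hW z) _ _ _
  have h7 : (R.m : ℝ) ^ 105 * u / 2 ≤ 1 / (R.m : ℝ) ^ 47 * ∑ z ∈ R.Ωz, R.Pz r j t z := by
    refine le_trans (le_of_eq ?_) (mul_le_mul_of_nonneg_left (h.wp_mass ht) (by positivity))
    rw [hu]
    field_simp
  rw [sum_Ω_eq, sum_Ω_eq]
  have hB : (0 : ℝ) ≤ 2 ^ Bξ R.n R.m := by positivity
  calc _ ≤ 2 ^ Bξ R.n R.m * ((R.m : ℝ) ^ 253 * R.tot (R.Ex2 r j t F) +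
        1 / (R.m : ℝ) ^ 47 * ∑ z ∈ R.Ωz, R.Pz r j t z) :=
        mul_le_mul_of_nonneg_left (h6.trans (add_le_add le_rfl h7)) hB
    _ = (R.m : ℝ) ^ 253 * (2 ^ Bξ R.n R.m * R.tot (R.Ex2 r j t F)) +
        1 / (R.m : ℝ) ^ 47 * (2 ^ Bξ R.n R.m * ∑ z ∈ R.Ωz, R.Pz r j t z) := by ring
    _ ≤ _ := by
        refine add_le_add ((mul_le_mul_of_nonneg_left hD (by positivity)).trans (le_of_eq ?_)) le_rfl
        ring

end Crest.Agent.R302.Raw
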